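import Crest.Agent.R307.AADefs

/-! Row 307 engine: soundness of the multiplications.
With `X = c + A + η`, `Y = c' + A' + η'`:
`X Y / S = (c c' + c A' + c' A + c η' + c' η + (A + η)(A' + η')) / S`; the packed number `T` has
digits `c a'ᵢ + c' aᵢ + O S ∈ [0, 2^160)` and `shV` divides every digit by `S` (floor). -/

set_option autoImplicit false
set_option exponentiation.threshold 500

namespace Crest.Agent.R307.AA

variable {ε : Fin 4 → ℝ} {x y : AF} {r s : ℝ} {k : AF → Bool} {K : ℝ → Prop}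

theorem mu_and (x m : ℕ) : x &&& ((2 ^ 112 - 1) + m * 2 ^ 160) =
    x % 2 ^ 112 + ((x / 2 ^ 160) &&& m) * 2 ^ 160 := by
  have h1 : ((2 ^ 112 - 1) + m * 2 ^ 160) % 2 ^ 160 = 2 ^ 112 - 1 := by omega
  have h2 : ((2 ^ 112 - 1) + m * 2 ^ 160) / 2 ^ 160 = m := by omega
  have h3 : x % 2 ^ 160 % 2 ^ 112 = x % 2 ^ 112 := by omega
  rw [← Nat.mod_add_div' (x &&& _) (2 ^ 160), Nat.and_mod_two_pow, Nat.and_div_two_pow, h1, h2,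
    Nat.and_two_pow_sub_one_eq_mod, h3]

/-- digitwise floor division -/
theorem shV_eq {T : ℕ} {d0 d1 d2 d3 : ℕ} (hT : T = d0 + d1 * 2 ^ 160 + d2 * 2 ^ 320 + d3 * 2 ^ 480)
    (h0 : d0 < 2 ^ 160) (h1 : d1 < 2 ^ 160) (h2 : d2 < 2 ^ 160) (h3 : d3 < 2 ^ 160) :
    shV T = d0 / 2 ^ 48 + d1 / 2 ^ 48 * 2 ^ 160 + d2 / 2 ^ 48 * 2 ^ 320 + d3 / 2 ^ 48 * 2 ^ 480 := by
  have e : shV T = (T / 2 ^ 48) &&& ((2 ^ 112 - 1) + ((2 ^ 112 - 1) + ((2 ^ 112 - 1) +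
      (2 ^ 112 - 1) * 2 ^ 160) * 2 ^ 160) * 2 ^ 160) := by
    rw [← Nat.shiftRight_eq_div_pow]
    rfl
  have e0 : T / 2 ^ 48 % 2 ^ 112 = d0 / 2 ^ 48 := by omega
  have e1 : T / 2 ^ 48 / 2 ^ 160 % 2 ^ 112 = d1 / 2 ^ 48 := by omega
  have e2 : T / 2 ^ 48 / 2 ^ 160 / 2 ^ 160 % 2 ^ 112 = d2 / 2 ^ 48 := by omega
  have e3 : T / 2 ^ 48 / 2 ^ 160 / 2 ^ 160 / 2 ^ 160 % 2 ^ 112 = d3 / 2 ^ 48 := by omega
  rw [e, mu_and, mu_and, mu_and, Nat.and_two_pow_sub_one_eq_mod, e0, e1, e2, e3]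
  ring

theorem mu_mul3 {c2 v2 R E rr : ℕ} (h : mul3 c2 v2 (R + 6) (E + 1) rr k = true) :
    rr + (R + 6) ≤ 2 ^ 72 ∧ 0 < c2 ∧ k ⟨c2, v2, R + 5, E⟩ = true := by
  unfold mul3 grd at h
  cases hb : Nat.ble (Nat.add rr (R + 6)) (nat_lit 4722366482869645213696) with
  | false =>
    rw [hb] at h
    exact absurd h Bool.false_ne_true
  | true =>
    rw [hb] at h
    refine ⟨Nat.le_of_ble_eq_true hb, ?_⟩
    cases c2 with
    | zero => exact absurd h Bool.false_ne_true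
    | succ c2 =>
      cases v2 with
      | zero => exact absurd h Bool.false_ne_true
      | succ v2 => exact ⟨Nat.succ_pos _, h⟩

theorem mu_frc {a : ℕ} {k : ℕ → Bool} (h : frc a k = true) : 0 < a ∧ k a = true := by
  cases a with
  | zero => exact absurd h Bool.false_ne_true
  | succ a => exact ⟨Nat.succ_pos _, h⟩

theorem mu_floor (M n : ℕ) : M < (M >>> n + 1) * 2 ^ n := by
  rw [Nat.shiftRight_eq_div_pow, mul_comm]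
  exact Nat.lt_mul_div_succ _ (by positivity)

theorem mu_abs (c : ℕ) : (absO c : ℤ) = |(c : ℤ) - 2 ^ 72| := by
  have : absO c = (c - 2 ^ 72) + (2 ^ 72 - c) := rfl
  rw [this]
  rcases abs_cases ((c : ℤ) - 2 ^ 72) with h | h <;> omega

theorem mu_absR (c : ℕ) : (absO c : ℝ) = |(c : ℝ) - 2 ^ 72| := by
  exact_mod_cast mu_abs c

theorem mu_div {p s n : ℕ} {X : ℤ} (e : n = (p + (2 ^ 144 + 2 ^ 120) - s * 2 ^ 72) / 2 ^ 48)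
    (e2 : X = p - s * 2 ^ 72 + 2 ^ 144) (h1 : 0 < n ∨ 0 ≤ X) :
    2 ^ 48 * ((n : ℤ) - 2 ^ 72) ≤ X ∧ X ≤ 2 ^ 48 * ((n : ℤ) - 2 ^ 72 + 1) := by
  omega

theorem mu_mulC_eq (c c' : ℕ) :
    mulC c c' = (c * c' + (2 ^ 144 + 2 ^ 120) - (c + c') * 2 ^ 72) / 2 ^ 48 := by
  have e : mulC c c' = (c * c' + (2 ^ 144 + 2 ^ 120) - (c + c') <<< 72) >>> 48 := rfl
  rw [e, Nat.shiftRight_eq_div_pow, Nat.shiftLeft_eq]

theorem mu_mulC {c c' : ℕ} (h : 0 < mulC c c' ∨ c = c') :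
    2 ^ 48 * ((mulC c c' : ℝ) - 2 ^ 72) ≤ (c - 2 ^ 72) * (c' - 2 ^ 72) ∧
      ((c : ℝ) - 2 ^ 72) * (c' - 2 ^ 72) ≤ 2 ^ 48 * ((mulC c c' : ℝ) - 2 ^ 72 + 1) := by
  have e := mu_mulC_eq c c'
  generalize mulC c c' = n at e h ⊢
  have h1 : 0 < n ∨ 0 ≤ ((c : ℤ) - 2 ^ 72) * (c' - 2 ^ 72) := by
    rcases h with h | rfl
    · exact Or.inl h
    · exact Or.inr (mul_self_nonneg _)
  have e2 : ((c : ℤ) - 2 ^ 72) * (c' - 2 ^ 72) =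
      ((c * c' : ℕ) : ℤ) - ((c + c' : ℕ) : ℤ) * 2 ^ 72 + 2 ^ 144 := by
    rw [Nat.cast_mul, Nat.cast_add]
    ring
  obtain ⟨h2, h3⟩ := mu_div e e2 h1
  have h4 := (Int.cast_le (R := ℝ)).2 h2
  have h5 := (Int.cast_le (R := ℝ)).2 h3
  simp only [Int.cast_mul, Int.cast_sub, Int.cast_add, Int.cast_pow, Int.cast_ofNat,
    Int.cast_natCast, Int.cast_one] at h4 h5
  exact ⟨h4, h5⟩

theorem mu_lin (C : ℤ) {a0 a1 a2 a3 ρ : ℤ} (h : |a0| + |a1| + |a2| + |a3| ≤ ρ) :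
    |C * a0| + |C * a1| + |C * a2| + |C * a3| ≤ |C| * ρ := by
  simp only [abs_mul, ← mul_add]
  exact mul_le_mul_of_nonneg_left h (abs_nonneg _)

theorem mu_A (hε : ∀ i, |ε i| ≤ 1) {a0 a1 a2 a3 : ℤ} {ρ : ℕ}
    (h : |a0| + |a1| + |a2| + |a3| ≤ (ρ : ℤ)) :
    |a0 * ε 0 + a1 * ε 1 + a2 * ε 2 + a3 * ε 3| ≤ (ρ : ℝ) := by
  have h1 : ∀ (a : ℝ) (i : Fin 4), |a * ε i| ≤ |a| := fun a i => by
    rw [abs_mul]
    exact mul_le_of_le_one_right (abs_nonneg _) (hε i)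
  have h2 : |(a0 : ℝ)| + |(a1 : ℝ)| + |(a2 : ℝ)| + |(a3 : ℝ)| ≤ (ρ : ℝ) := by exact_mod_cast h
  have g0 := abs_le.1 (h1 a0 0)
  have g1 := abs_le.1 (h1 a1 1)
  have g2 := abs_le.1 (h1 a2 2)
  have g3 := abs_le.1 (h1 a3 3)
  rw [abs_le]
  constructor <;> linarith [g0.1, g0.2, g1.1, g1.2, g2.1, g2.2, g3.1, g3.2]

theorem mu_real {X Y C C' p0 p1 p2 p3 q0 q1 q2 q3 e e' ρ ρ' : ℝ}
    (hX : |X - (C + p0 + p1 + p2 + p3)| ≤ e) (hY : |Y - (C' + q0 + q1 + q2 + q3)| ≤ e')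
    (hA : |p0 + p1 + p2 + p3| ≤ ρ) (hA' : |q0 + q1 + q2 + q3| ≤ ρ') :
    |X * Y - (C * C' + C * (q0 + q1 + q2 + q3) + C' * (p0 + p1 + p2 + p3))| ≤
      |C| * e' + |C'| * e + (ρ + e) * (ρ' + e') := by
  have e1 : X * Y - (C * C' + C * (q0 + q1 + q2 + q3) + C' * (p0 + p1 + p2 + p3)) =
      C * (Y - (C' + q0 + q1 + q2 + q3)) + C' * (X - (C + p0 + p1 + p2 + p3)) +
        (p0 + p1 + p2 + p3 + (X - (C + p0 + p1 + p2 + p3))) *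
          (q0 + q1 + q2 + q3 + (Y - (C' + q0 + q1 + q2 + q3))) := by ring
  rw [e1]
  refine (abs_add_three _ _ _).trans ?_
  simp only [abs_mul]
  have h1 := (abs_add_le _ _).trans (add_le_add hA hX)
  have h2 := (abs_add_le _ _).trans (add_le_add hA' hY)
  gcongr
  exact (abs_nonneg _).trans h1

theorem mu_digit {D : ℤ} (h : |D| < 2 ^ 120) : ∃ (d : ℕ) (a : ℤ), (d : ℤ) = D + 2 ^ 120 ∧
    d < 2 ^ 160 ∧ ((d / 2 ^ 48 : ℕ) : ℤ) = a + 2 ^ 72 ∧ 2 ^ 48 * |a| ≤ |D| + 2 ^ 48 ∧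
      ∀ δ : ℝ, |δ| ≤ 1 → |D * δ - 2 ^ 48 * (a * δ)| ≤ 2 ^ 48 := by
  have h' := abs_lt.1 h
  refine ⟨(D + 2 ^ 120).toNat, D / 2 ^ 48, by omega, by omega, by omega, ?_, fun δ hδ => ?_⟩
  · rcases abs_cases D with h1 | h1 <;> rcases abs_cases (D / 2 ^ 48) with h2 | h2 <;> omega
  · have h1 : |D - 2 ^ 48 * (D / 2 ^ 48)| ≤ 2 ^ 48 := abs_le.2 ⟨by omega, by omega⟩
    have h2 : |(D : ℝ) - 2 ^ 48 * (D / 2 ^ 48 : ℤ)| ≤ 2 ^ 48 := by exact_mod_cast h1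
    rw [← mul_assoc, ← sub_mul, abs_mul]
    exact (mul_le_of_le_one_right (abs_nonneg _) hδ).trans h2

theorem mu_core (hε : ∀ i, |ε i| ≤ 1) {P N c2 R E : ℕ} {D0 D1 D2 D3 : ℤ} {u : ℝ}
    (hP : (P : ℤ) - N = (D0 + 2 ^ 120) + (D1 + 2 ^ 120) * 2 ^ 160 + (D2 + 2 ^ 120) * 2 ^ 320 +
      (D3 + 2 ^ 120) * 2 ^ 480)
    (hD : |D0| + |D1| + |D2| + |D3| < ((R : ℤ) + 1) * 2 ^ 48) (hR : R + 6 ≤ 2 ^ 72)
    (hu : -(2 ^ 48 * ((E : ℝ) - 4)) ≤ 2 ^ 48 * (2 ^ 48 * u - (c2 - 2 ^ 72)) -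
        (D0 * ε 0 + D1 * ε 1 + D2 * ε 2 + D3 * ε 3) ∧
      2 ^ 48 * (2 ^ 48 * u - (c2 - 2 ^ 72)) - (D0 * ε 0 + D1 * ε 1 + D2 * ε 2 + D3 * ε 3) ≤
        2 ^ 48 * ((E : ℝ) - 4)) :
    Rel ε ⟨c2, shV (P - N), R + 5, E⟩ u := by
  have n0 := abs_nonneg D0
  have n1 := abs_nonneg D1
  have n2 := abs_nonneg D2
  have n3 := abs_nonneg D3
  obtain ⟨d0, a0, p0, q0, r0, s0, t0⟩ := mu_digit (D := D0) (by omega)
  obtain ⟨d1, a1, p1, q1, r1, s1, t1⟩ := mu_digit (D := D1) (by omega)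
  obtain ⟨d2, a2, p2, q2, r2, s2, t2⟩ := mu_digit (D := D2) (by omega)
  obtain ⟨d3, a3, p3, q3, r3, s3, t3⟩ := mu_digit (D := D3) (by omega)
  refine fun _ => ⟨a0, a1, a2, a3, ?_, ?_, ?_⟩
  · show ((shV (P - N) : ℕ) : ℤ) = _
    rw [shV_eq (d0 := d0) (d1 := d1) (d2 := d2) (d3 := d3) (by omega) q0 q1 q2 q3, ← r0, ← r1,
      ← r2, ← r3]
    simp only [Nat.cast_add, Nat.cast_mul, Nat.cast_pow, Nat.cast_ofNat]
  · show _ ≤ ((R + 5 : ℕ) : ℤ)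
    omega
  · have g0 := abs_le.1 (t0 _ (hε 0))
    have g1 := abs_le.1 (t1 _ (hε 1))
    have g2 := abs_le.1 (t2 _ (hε 2))
    have g3 := abs_le.1 (t3 _ (hε 3))
    rw [abs_le]
    constructor <;> linarith [g0.1, g0.2, g1.1, g1.2, g2.1, g2.2, g3.1, g3.2, hu.1, hu.2]

theorem mulS (hε : ∀ i, |ε i| ≤ 1) (hx : Rel ε x r) (hy : Rel ε y s)
    (h : ∀ z t, Rel ε z t → k z = true → K t) : mulK x y k = true → letR (r * s) K := by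
  obtain ⟨c, v, ρ, e⟩ := x
  obtain ⟨c', v', ρ', e'⟩ := y
  intro H
  obtain ⟨h1, h2, h3⟩ := mu_mul3 (c2 := mulC c c') (rr := ρ + ρ')
    (v2 := shV (c * v' + c' * v + (2 * 2 ^ 144 + 2 ^ 120) * (1 + 2 ^ 160 + 2 ^ 320 + 2 ^ 480) -
      ((v + v') <<< 72 + (c + c') * (2 ^ 72 * (1 + 2 ^ 160 + 2 ^ 320 + 2 ^ 480)))))
    (R := (absO c * ρ' + absO c' * ρ) >>> 48)
    (E := (absO c * e' + absO c' * e + (ρ + e) * (ρ' + e')) >>> 48 + 6) H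
  obtain ⟨a0, a1, a2, a3, hv, ha, ht⟩ := hx (show ρ ≤ 2 ^ 72 by omega)
  obtain ⟨b0, b1, b2, b3, hv', hb, hs⟩ := hy (show ρ' ≤ 2 ^ 72 by omega)
  simp only at hv ha ht hv' hb hs
  refine h _ _ (mu_core hε (D0 := (c - 2 ^ 72) * b0 + (c' - 2 ^ 72) * a0)
    (D1 := (c - 2 ^ 72) * b1 + (c' - 2 ^ 72) * a1) (D2 := (c - 2 ^ 72) * b2 + (c' - 2 ^ 72) * a2)
    (D3 := (c - 2 ^ 72) * b3 + (c' - 2 ^ 72) * a3) ?_ ?_ (by omega) ?_) h3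
  · rw [Nat.shiftLeft_eq]
    push_cast
    rw [hv, hv']
    ring
  · have h4 := mu_lin (c - 2 ^ 72) hb
    have h5 := mu_lin (c' - 2 ^ 72) ha
    have h6 : absO c * ρ' + absO c' * ρ < ((absO c * ρ' + absO c' * ρ) >>> 48 + 1) * 2 ^ 48 :=
      mu_floor _ _
    generalize (absO c * ρ' + absO c' * ρ) >>> 48 = R at h6 ⊢
    zify at h6
    rw [mu_abs, mu_abs] at h6
    linarith [abs_add_le ((c - 2 ^ 72) * b0) ((c' - 2 ^ 72) * a0),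
      abs_add_le ((c - 2 ^ 72) * b1) ((c' - 2 ^ 72) * a1),
      abs_add_le ((c - 2 ^ 72) * b2) ((c' - 2 ^ 72) * a2),
      abs_add_le ((c - 2 ^ 72) * b3) ((c' - 2 ^ 72) * a3)]
  · have h4 := abs_le.1 (mu_real ht hs (mu_A hε ha) (mu_A hε hb))
    have h5 := mu_mulC (c := c) (c' := c') (Or.inl h2)
    have h6 := (Nat.cast_lt (α := ℝ)).2
      (mu_floor (absO c * e' + absO c' * e + (ρ + e) * (ρ' + e')) 48)
    rw [← mu_absR, ← mu_absR] at h4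
    push_cast at h6 ⊢
    constructor <;> linarith [h4.1, h4.2, h5.1, h5.2]

theorem sqrS (hε : ∀ i, |ε i| ≤ 1) (hx : Rel ε x r)
    (h : ∀ z t, Rel ε z t → k z = true → K t) : sqrK x k = true → letR (r ^ 2) K := by
  obtain ⟨c, v, ρ, e⟩ := x
  intro H
  obtain ⟨h1, -, h3⟩ := mu_mul3 (c2 := mulC c c + ((ρ + e) * (ρ + e)) >>> 49) (rr := ρ)
    (v2 := shV ((c * v) <<< 1 + (2 * 2 ^ 144 + 2 ^ 120) * (1 + 2 ^ 160 + 2 ^ 320 + 2 ^ 480) -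
      (v <<< 72 + c * (2 ^ 72 * (1 + 2 ^ 160 + 2 ^ 320 + 2 ^ 480))) <<< 1))
    (R := (absO c * ρ) >>> 47)
    (E := (absO c * e) >>> 47 + ((ρ + e) * (ρ + e)) >>> 49 + 8) H
  obtain ⟨a0, a1, a2, a3, hv, ha, ht⟩ := hx (show ρ ≤ 2 ^ 72 by omega)
  simp only at hv ha ht
  refine h _ _ (mu_core hε (D0 := 2 * ((c - 2 ^ 72) * a0)) (D1 := 2 * ((c - 2 ^ 72) * a1))
    (D2 := 2 * ((c - 2 ^ 72) * a2)) (D3 := 2 * ((c - 2 ^ 72) * a3)) ?_ ?_ (by omega) ?_) h3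
  · simp only [Nat.shiftLeft_eq]
    push_cast
    rw [hv]
    ring
  · have h5 := mu_lin (c - 2 ^ 72) ha
    have h6 := mu_floor (absO c * ρ) 47
    generalize (absO c * ρ) >>> 47 = R at h6 ⊢
    zify at h6
    rw [mu_abs] at h6
    simp only [abs_mul (2 : ℤ), abs_two]
    linarith
  · have h4 := mu_A hε ha
    have h5 := mu_mulC (c := c) (c' := c) (Or.inr rfl)
    have h6 := (Nat.cast_lt (α := ℝ)).2 (mu_floor (absO c * e) 47)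
    have h7 := (Nat.cast_lt (α := ℝ)).2 (mu_floor ((ρ + e) * (ρ + e)) 49)
    have h8 : |2 ^ 48 * r - ((c : ℝ) - 2 ^ 72)| ≤ (ρ : ℝ) + e := by
      refine le_trans (le_of_eq ?_) ((abs_add_le _ _).trans (add_le_add h4 ht))
      congr 1
      ring
    have h9 := mul_self_le_mul_self (abs_nonneg _) h8
    rw [abs_mul_abs_self] at h9
    have h10 := mul_le_mul_of_nonneg_left ht (abs_nonneg ((c : ℝ) - 2 ^ 72))
    rw [← abs_mul, ← mu_absR, abs_le] at h10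
    push_cast at h6 h7 ⊢
    constructor <;>
      linarith [h5.1, h5.2, h10.1, h10.2, mul_self_nonneg ((2 : ℝ) ^ 48 * r - ((c : ℝ) - 2 ^ 72))]

/-- the generic linearisation step used by `smulK`, `invK`, `sqrtK`, `logK` -/
theorem lin2S {c v r' e q m b E : ℕ} {u : ℝ} (hε : ∀ i, |ε i| ≤ 1) (hx : Rel ε ⟨c, v, r', e⟩ r)
    (hm : (m : ℤ) = |(q : ℤ) - 2 ^ 72|)
    (hu : |2 ^ 48 * u - (((q : ℝ) - 2 ^ 72) * r + ((b : ℝ) - 2 ^ 72))| ≤ (E : ℝ))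
    (h : ∀ z t, Rel ε z t → k z = true → K t) : lin2 c v r' e q m b E k = true → K u := by
  intro H
  have H2 : 0 < mulC c q ∧ mul3 (mulC c q + b - 2 ^ 72)
      (shV (q * v + (2 ^ 144 + 2 ^ 120) * (1 + 2 ^ 160 + 2 ^ 320 + 2 ^ 480) -
        (v <<< 72 + q * (2 ^ 72 * (1 + 2 ^ 160 + 2 ^ 320 + 2 ^ 480)))))
      ((m * r') >>> 48 + 6) ((m * e) >>> 48 + E + 6 + 1) r' k = true := by
    exact mu_frc (k := fun c2 => mul3 (c2 + b - 2 ^ 72) _ _ _ r' k) H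
  obtain ⟨h1, h2, h3⟩ := mu_mul3 H2.2
  obtain ⟨a0, a1, a2, a3, hv, ha, ht⟩ := hx (show r' ≤ 2 ^ 72 by omega)
  simp only at hv ha ht
  refine h _ _ (mu_core hε (D0 := (q - 2 ^ 72) * a0) (D1 := (q - 2 ^ 72) * a1)
    (D2 := (q - 2 ^ 72) * a2) (D3 := (q - 2 ^ 72) * a3) ?_ ?_ (by omega) ?_) h3
  · simp only [Nat.shiftLeft_eq]
    push_cast
    rw [hv]
    ring
  · have h5 := mu_lin (q - 2 ^ 72) ha
    have h6 := mu_floor (m * r') 48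
    generalize (m * r') >>> 48 = R at h6 ⊢
    zify at h6
    rw [← hm] at h5
    linarith
  · have h5 := mu_mulC (Or.inl H2.1)
    have h6 := (Nat.cast_lt (α := ℝ)).2 (mu_floor (m * e) 48)
    have h7 : (m : ℝ) = |(q : ℝ) - 2 ^ 72| := by exact_mod_cast hm
    have h8 := mul_le_mul_of_nonneg_left ht (abs_nonneg ((q : ℝ) - 2 ^ 72))
    rw [← abs_mul, ← h7, abs_le] at h8
    rw [abs_le] at hu
    rw [Nat.cast_sub (by omega)]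
    push_cast at h6 ⊢
    constructor <;> linarith [h5.1, h5.2, h8.1, h8.2, hu.1, hu.2]

theorem smulS {q : ℕ} (hε : ∀ i, |ε i| ≤ 1) (hx : Rel ε x r) (hq : s = val q)
    (h : ∀ z t, Rel ε z t → k z = true → K t) : smulK x q k = true → letR (s * r) K := by
  obtain ⟨c, v, ρ, e⟩ := x
  refine lin2S (b := 4722366482869645213696) (E := 0) hε hx (mu_abs q) (le_of_eq ?_) h
  rw [hq, val]
  push_cast
  rw [abs_eq_zero]
  field_simp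
  ring

end Crest.Agent.R307.AA
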