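import Crest.Agent.R307.AALin
import Crest.Agent.R307.AAMul

/-! Row 307 engine: soundness of the logarithm (use `radV_eq`, `lin2S`).
`log (T/z) ∈ (T - z)/z - [0, R²/(2 z lo)]`; `log (z / 2^j) = ± 2 artanh w`, series with remainder
`≤ 2 w^21/(21 (1 - w²))` (e.g. `Real.abs_log_sub_add_sum_range_le` or `Real.hasSum_log_sub_log_of_abs_lt_one`). -/

set_option autoImplicit false

namespace Crest.Agent.R307.AA

variable {ε : Fin 4 → ℝ} {x y : AF} {r s : ℝ} {k : AF → Bool} {K : ℝ → Prop}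

theorem log_grd {b x : Bool} : grd b x = true ↔ b = true ∧ x = true := by
  cases b <;> simp [grd]

theorem log_frc {a : ℕ} {f : ℕ → Bool} : frc a f = true ↔ 0 < a ∧ f a = true := by
  cases a <;> simp [frc]

theorem log_frz {a : ℕ} {f : ℕ → Bool} : frz a f = f a := by
  cases a <;> rfl

theorem log_floor (n : ℕ) {d : ℕ} (hd : 0 < d) :
    ((n / d : ℕ) : ℝ) ≤ n / d ∧ (n : ℝ) / d < (n / d : ℕ) + 1 := by
  refine ⟨Nat.cast_div_le, ?_⟩
  rw [div_lt_iff₀ (by exact_mod_cast hd)]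
  have := Nat.lt_div_mul_add (a := n) hd
  have h2 : n < (n / d + 1) * d := by rw [add_mul, one_mul]; exact this
  exact_mod_cast h2

theorem log_shr (n s : ℕ) :
    ((Nat.shiftRight n s : ℕ) : ℝ) ≤ n / 2 ^ s ∧ (n : ℝ) / 2 ^ s < (Nat.shiftRight n s : ℕ) + 1 := by
  have := log_floor n (d := 2 ^ s) (by positivity)
  rw [← Nat.shiftRight_eq_div_pow] at this
  exact_mod_cast this

theorem log_hrn {y a acc : ℕ} {η c P : ℝ} (hy : |(y : ℝ) - 2 ^ 48 * η| ≤ 2)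
    (hy' : (y : ℝ) ≤ 2 ^ 48 / 20) (h0 : 0 ≤ η) (h1 : η ≤ 1 / 20)
    (ha : |(a : ℝ) - 2 ^ 48 * c| ≤ 1 ∧ |c| ≤ 1) (h : |(acc : ℝ) - 2 ^ 48 * P| ≤ 7 ∧ |P| ≤ 2) :
    |(hrn y a acc : ℝ) - 2 ^ 48 * (c + η * P)| ≤ 7 ∧ |c + η * P| ≤ 2 := by
  obtain ⟨f1, f2⟩ := log_shr (y * acc) 48
  have e : (hrn y a acc : ℝ) = a + (Nat.shiftRight (y * acc) 48 : ℕ) := Nat.cast_add _ _
  have b1 : |(y : ℝ) / 2 ^ 48 * (acc - 2 ^ 48 * P)| ≤ 1 / 20 * 7 := by
    rw [abs_mul, abs_of_nonneg (by positivity)]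
    refine mul_le_mul ?_ h.1 (abs_nonneg _) (by norm_num)
    rw [div_le_iff₀ (by positivity)]
    linarith
  have b2 : |((y : ℝ) - 2 ^ 48 * η) * P| ≤ 2 * 2 := by
    rw [abs_mul]
    exact mul_le_mul hy h.2 (abs_nonneg _) (by norm_num)
  have b3 : |η * P| ≤ 1 / 20 * 2 := by
    rw [abs_mul, abs_of_nonneg h0]
    exact mul_le_mul h1 h.2 (abs_nonneg _) (by norm_num)
  have e2 : ((y * acc : ℕ) : ℝ) / 2 ^ 48 = (y : ℝ) / 2 ^ 48 * (acc - 2 ^ 48 * P) +
      ((y : ℝ) - 2 ^ 48 * η) * P + 2 ^ 48 * (η * P) := by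
    push_cast
    ring
  rw [e2] at f1 f2
  rw [e]
  obtain ⟨ha1, ha2⟩ := ha
  rw [abs_le] at b1 b2 b3 ha1 ha2
  constructor <;> rw [abs_le] <;> constructor <;> linarith

theorem log_series {ω : ℝ} (h0 : 0 ≤ ω) (h1 : ω ≤ 21 / 100) :
    |Real.log (1 + ω) - Real.log (1 - ω) - 2 * ω * (1 + ω ^ 2 * (1 / 3 + ω ^ 2 * (1 / 5 + ω ^ 2 *
      (1 / 7 + ω ^ 2 * (1 / 9 + ω ^ 2 * (1 / 11 + ω ^ 2 * (1 / 13 + ω ^ 2 * (1 / 15 + ω ^ 2 *
      (1 / 17 + ω ^ 2 * (1 / 19))))))))))| ≤ 5 / 2 ^ 48 := by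
  have a1 := Real.abs_log_sub_add_sum_range_le (x := ω) (by rw [abs_of_nonneg h0]; linarith) 20
  have a2 := Real.abs_log_sub_add_sum_range_le (x := -ω)
    (by rw [abs_neg, abs_of_nonneg h0]; linarith) 20
  rw [abs_neg, sub_neg_eq_add] at a2
  rw [abs_of_nonneg h0] at a1 a2
  have b : ω ^ (20 + 1) / (1 - ω) ≤ 5 / 2 ^ 49 := by
    calc _ ≤ (21 / 100 : ℝ) ^ (20 + 1) / (1 - 21 / 100) := by gcongr
      _ ≤ _ := by norm_num
  simp only [Finset.sum_range_succ, Finset.sum_range_zero] at a1 a2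
  rw [abs_le] at a1 a2 ⊢
  push_cast at a1 a2
  constructor <;> linarith

theorem log_ath {w : ℕ} {ω : ℝ} (hw : w ≤ 56294995342131) (h1 : (w : ℝ) ≤ 2 ^ 48 * ω)
    (h2 : 2 ^ 48 * ω < w + 1) :
    |2 ^ 48 * (Real.log (1 + ω) - Real.log (1 - ω)) - ath w (Nat.shiftRight (w * w) 48)| ≤ 20 ∧
      (ath w (Nat.shiftRight (w * w) 48) : ℝ) ≤ 2 ^ 49 := by
  have hw' : (w : ℝ) ≤ 56294995342131 := by exact_mod_cast hw
  have hw0 : (0 : ℝ) ≤ w := Nat.cast_nonneg _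
  have h0 : 0 ≤ ω := by linarith
  have h3 : ω ≤ 21 / 100 := by linarith
  obtain ⟨f1, f2⟩ := log_shr (w * w) 48
  set y := Nat.shiftRight (w * w) 48
  push_cast at f1 f2
  have hww : (w : ℝ) * w / 2 ^ 48 ≤ 2 ^ 48 * ω ^ 2 := by
    rw [div_le_iff₀ (by positivity)]
    nlinarith
  have hww' : 2 ^ 48 * ω ^ 2 ≤ (w : ℝ) * w / 2 ^ 48 + 1 := by
    have := mul_self_le_mul_self (by positivity) h2.le
    rw [div_add_one (by positivity), le_div_iff₀ (by positivity)]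
    linarith
  have hy : |(y : ℝ) - 2 ^ 48 * ω ^ 2| ≤ 2 := by
    rw [abs_le]
    constructor <;> linarith
  have hη : ω ^ 2 ≤ 1 / 20 := by nlinarith
  have hy' : (y : ℝ) ≤ 2 ^ 48 / 20 := by linarith
  have st := fun (a acc : ℕ) (c P : ℝ) => @log_hrn y a acc (ω ^ 2) c P hy hy' (sq_nonneg _) hη
  obtain ⟨g1, g2⟩ := st 281474976710656 _ 1 _ (by norm_num) (st 93824992236885 _ (1 / 3) _
    (by norm_num [abs_le]) (st 56294995342131 _ (1 / 5) _ (by norm_num [abs_le])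
    (st 40210710958665 _ (1 / 7) _ (by norm_num [abs_le]) (st 31274997412295 _ (1 / 9) _
    (by norm_num [abs_le]) (st 25588634246423 _ (1 / 11) _ (by norm_num [abs_le])
    (st 21651921285435 _ (1 / 13) _ (by norm_num [abs_le]) (st 18764998447377 _ (1 / 15) _
    (by norm_num [abs_le]) (st 16557351571215 14814472458455 (1 / 17) (1 / 19)
    (by norm_num [abs_le]) (by norm_num [abs_le])))))))))
  have g3 := log_series h0 h3
  generalize hH : hrn y 281474976710656 _ = H at g1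
  generalize (1 + ω ^ 2 * _ : ℝ) = P at g1 g2 g3
  have e : ath w y = Nat.shiftRight (w * H) 47 := by rw [← hH]; rfl
  obtain ⟨f3, f4⟩ := log_shr (w * H) 47
  rw [← e] at f3 f4
  have b1 : |(w : ℝ) / 2 ^ 47 * (H - 2 ^ 48 * P)| ≤ 1 / 2 * 7 := by
    rw [abs_mul, abs_of_nonneg (by positivity)]
    refine mul_le_mul ?_ g1 (abs_nonneg _) (by norm_num)
    rw [div_le_iff₀ (by positivity)]
    linarith
  have b2 : |((w : ℝ) - 2 ^ 48 * ω) * P| ≤ 1 * 2 := by
    rw [abs_mul]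
    refine mul_le_mul ?_ g2 (abs_nonneg _) (by norm_num)
    rw [abs_le]
    constructor <;> linarith
  have b3 : |ω * P| ≤ 21 / 100 * 2 := by
    rw [abs_mul, abs_of_nonneg h0]
    exact mul_le_mul h3 g2 (abs_nonneg _) (by norm_num)
  have e2 : ((w * H : ℕ) : ℝ) / 2 ^ 47 = (w : ℝ) / 2 ^ 47 * (H - 2 ^ 48 * P) +
      2 * (((w : ℝ) - 2 ^ 48 * ω) * P) + 2 ^ 49 * (ω * P) := by
    push_cast
    ring
  rw [e2] at f3 f4
  rw [abs_le] at b1 b2 b3 g3 ⊢
  refine ⟨⟨?_, ?_⟩, ?_⟩ <;> linarith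

/-- second-order enclosure of the logarithm around `z` -/
theorem log_lin {T z lo R : ℝ} (hlo : 0 < lo) (hz : z = lo + R) (hT : |T - z| ≤ R) :
    Real.log (T / z) ≤ (T - z) / z ∧ (T - z) / z - R ^ 2 / (2 * (z * lo)) ≤ Real.log (T / z) := by
  have hR : 0 ≤ R := (abs_nonneg _).trans hT
  have hT' := abs_le.1 hT
  have hz0 : 0 < z := by linarith
  have hT0 : 0 < T := by linarith
  have hsq : (T - z) ^ 2 ≤ R ^ 2 := sq_le_sq' hT'.1 hT'.2
  have e : (T - z) / z = T / z - 1 := by field_simp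
  refine ⟨e ▸ Real.log_le_sub_one_of_pos (by positivity), ?_⟩
  rcases le_total z T with h | h
  · have hx : 0 ≤ (T - z) / z := div_nonneg (by linarith) hz0.le
    have h1 := Real.le_log_one_add_of_nonneg hx
    rw [show 1 + (T - z) / z = T / z by field_simp; ring] at h1
    have h2 : ((T - z) / z) ^ 2 / 2 ≤ R ^ 2 / (2 * (z * lo)) := by
      calc _ = (T - z) ^ 2 / (2 * (z * z)) := by field_simp
        _ ≤ _ := by gcongr; linarith
    have h3 : (T - z) / z - ((T - z) / z) ^ 2 / 2 ≤ 2 * ((T - z) / z) / ((T - z) / z + 2) := by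
      generalize (T - z) / z = u at hx
      rw [le_div_iff₀ (by positivity)]
      nlinarith [pow_nonneg hx 3]
    linarith
  · have h1 : Real.log (z / T) ≤ Real.sinh (Real.log (z / T)) :=
      Real.self_le_sinh_iff.2 (Real.log_nonneg ((one_le_div hT0).2 h))
    rw [Real.sinh_log (by positivity), ← inv_div, Real.log_inv] at h1
    have h2 : (T - z) ^ 2 / (2 * (z * T)) ≤ R ^ 2 / (2 * (z * lo)) := by gcongr; linarith
    have h3 : ((T / z)⁻¹ - (T / z)⁻¹⁻¹) / 2 = (T - z) ^ 2 / (2 * (z * T)) - (T - z) / z := by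
      field_simp
      ring
    linarith

/-- the centre value `log (z / S)` -/
theorem log_ctr {z j w : ℕ} (hz : 0 < z) (hw : w = ((z - 2 ^ j + (2 ^ j - z)) * 2 ^ 48) / (z + 2 ^ j))
    (hw' : w ≤ 56294995342131) {L : ℕ}
    (hL : L = Bool.rec (motive := fun _ => ℕ)
      (j * ln2N + 4722357117897493775584 - ath w (Nat.shiftRight (w * w) 48))
      (j * ln2N + 4722357117897493775584 + ath w (Nat.shiftRight (w * w) 48)) (Nat.ble (2 ^ j) z)) :
    |2 ^ 48 * Real.log (z / 2 ^ 48) - (L - 2 ^ 72)| ≤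
      ((84500 * (j - 48 + (48 - j)) : ℕ) : ℝ) + 20 ∧
      2 ^ 71 ≤ L := by
  have hz' : (0 : ℝ) < z := by exact_mod_cast hz
  have hp : (0 : ℝ) < 2 ^ j := by positivity
  obtain ⟨f1, f2⟩ := log_floor ((z - 2 ^ j + (2 ^ j - z)) * 2 ^ 48) (d := z + 2 ^ j) (by positivity)
  rw [← hw] at f1 f2
  have e1 : Real.log (z / 2 ^ 48) = Real.log (z / 2 ^ j) + ((j : ℝ) - 48) * Real.log 2 := by
    rw [Real.log_div hz'.ne' (by positivity), Real.log_div hz'.ne' hp.ne', Real.log_pow,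
      Real.log_pow]
    push_cast
    ring
  have b1 : |((j : ℝ) - 48) * (2 ^ 48 * Real.log 2 - 195103586488294)| ≤
      ((84500 * (j - 48 + (48 - j)) : ℕ) : ℝ) := by
    have h1 : |(j : ℝ) - 48| = (j - 48 + (48 - j) : ℕ) := by
      rcases le_total j 48 with h | h
      · have h' : (j : ℝ) ≤ 48 := by exact_mod_cast h
        rw [Nat.sub_eq_zero_of_le h, zero_add, Nat.cast_sub h, abs_of_nonpos (by linarith)]
        push_cast
        ring
      · have h' : (48 : ℝ) ≤ j := by exact_mod_cast h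
        rw [Nat.sub_eq_zero_of_le h, add_zero, Nat.cast_sub h, abs_of_nonneg (by linarith)]
        push_cast
        ring
    rw [abs_mul, h1, mul_comm, Nat.cast_mul]
    refine mul_le_mul_of_nonneg_right ?_ (Nat.cast_nonneg _)
    have := Real.log_two_gt_d9
    have := Real.log_two_lt_d9
    rw [abs_le]
    constructor <;> push_cast <;> linarith
  have hj : (0 : ℝ) ≤ j := Nat.cast_nonneg _
  rw [e1]
  rcases hb : Nat.ble (2 ^ j) z
  · have h : z ≤ 2 ^ j := (Nat.lt_of_not_le fun h => by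
      rw [Nat.ble_eq.mpr h] at hb; exact absurd hb (by simp)).le
    rw [Nat.sub_eq_zero_of_le h, zero_add] at f1 f2
    push_cast [h] at f1 f2
    obtain ⟨g1, g2⟩ := log_ath (ω := (2 ^ j - z) / (z + 2 ^ j)) hw'
      (by rw [← mul_div_assoc, mul_comm]; exact_mod_cast f1)
      (by rw [← mul_div_assoc, mul_comm]; exact_mod_cast f2)
    have e2 : Real.log (1 + (2 ^ j - z) / (z + 2 ^ j)) - Real.log (1 - (2 ^ j - z) / (z + 2 ^ j)) =
        -Real.log (z / 2 ^ j) := by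
      rw [show (1 : ℝ) + (2 ^ j - z) / (z + 2 ^ j) = 2 ^ j * (2 / (z + 2 ^ j)) by field_simp; ring,
        show (1 : ℝ) - (2 ^ j - z) / (z + 2 ^ j) = z * (2 / (z + 2 ^ j)) by field_simp; ring,
        Real.log_mul hp.ne' (by positivity), Real.log_mul hz'.ne' (by positivity),
        Real.log_div hz'.ne' hp.ne']
      ring
    rw [e2] at g1
    rw [hb] at hL
    generalize ath w _ = A at g1 g2 hL
    have g3 : A ≤ 2 ^ 49 := by exact_mod_cast g2
    have hL' : L + A = j * 195103586488294 + 4722357117897493775584 := by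
      have : L = j * 195103586488294 + 4722357117897493775584 - A := hL
      omega
    have hL2 : (L : ℝ) + A = j * 195103586488294 + 4722357117897493775584 := by exact_mod_cast hL'
    refine ⟨?_, by omega⟩
    rw [abs_le] at b1 g1 ⊢
    constructor <;> linarith
  · have h : 2 ^ j ≤ z := Nat.le_of_ble_eq_true hb
    rw [Nat.sub_eq_zero_of_le h, add_zero] at f1 f2
    push_cast [h] at f1 f2
    obtain ⟨g1, g2⟩ := log_ath (ω := (z - 2 ^ j) / (z + 2 ^ j)) hw'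
      (by rw [← mul_div_assoc, mul_comm]; exact_mod_cast f1)
      (by rw [← mul_div_assoc, mul_comm]; exact_mod_cast f2)
    have e2 : Real.log (1 + (z - 2 ^ j) / (z + 2 ^ j)) - Real.log (1 - (z - 2 ^ j) / (z + 2 ^ j)) =
        Real.log (z / 2 ^ j) := by
      rw [show (1 : ℝ) - (z - 2 ^ j) / (z + 2 ^ j) = 2 ^ j * (2 / (z + 2 ^ j)) by field_simp; ring,
        show (1 : ℝ) + (z - 2 ^ j) / (z + 2 ^ j) = z * (2 / (z + 2 ^ j)) by field_simp; ring,
        Real.log_mul hp.ne' (by positivity), Real.log_mul hz'.ne' (by positivity),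
        Real.log_div hz'.ne' hp.ne']
      ring
    rw [e2] at g1
    rw [hb] at hL
    generalize ath w _ = A at g1 g2 hL
    have hL' : L = j * 195103586488294 + 4722357117897493775584 + A := hL
    have hL2 : (L : ℝ) = j * 195103586488294 + 4722357117897493775584 + A := by exact_mod_cast hL'
    refine ⟨?_, by omega⟩
    rw [abs_le] at b1 g1 ⊢
    constructor <;> linarith

/-- the linearisation estimate fed to `lin2S` -/
theorem log_est {z lo R L E q hh : ℕ} {t : ℝ} (hlo : 0 < lo) (hz : z = lo + R)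
    (hT : |2 ^ 48 * t - z| ≤ (R : ℝ))
    (hL : |2 ^ 48 * Real.log (z / 2 ^ 48) - (L - 2 ^ 72)| ≤ (E : ℝ) + 20)
    (hL' : 2 ^ 71 ≤ L) (hq : q = 2 ^ 96 / z) (hh1 : hh = R * R * 2 ^ 46 / (z * lo) + 1)
    (hh2 : hh ≤ 2 ^ 70) :
    |2 ^ 48 * Real.log t - ((((q + 2 ^ 72 : ℕ) : ℝ) - 2 ^ 72) * t +
      (((L - (Nat.shiftRight (q * z) 48 + hh) : ℕ) : ℝ) - 2 ^ 72))| ≤
      ((hh + Nat.shiftRight R 48 + (E + 200) : ℕ) : ℝ) := by
  have hlo' : (0 : ℝ) < lo := by exact_mod_cast hlo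
  have hz' : (z : ℝ) = lo + R := by exact_mod_cast hz
  have hz0 : 0 < z := by omega
  have hz1 : (0 : ℝ) < z := by exact_mod_cast hz0
  obtain ⟨g1, g2⟩ := log_lin hlo' hz' hT
  have hT' := abs_le.1 hT
  have ht : 0 < t := by linarith
  obtain ⟨f1, f2⟩ := log_floor (2 ^ 96) hz0
  rw [← hq] at f1 f2
  obtain ⟨f3, f4⟩ := log_shr (q * z) 48
  obtain ⟨-, f6⟩ := log_shr R 48
  obtain ⟨-, f8⟩ := log_floor (R * R * 2 ^ 46) (d := z * lo) (by positivity)
  rw [← Nat.cast_succ, Nat.succ_eq_add_one, ← hh1] at f8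
  generalize Nat.shiftRight (q * z) 48 = n at f3 f4 ⊢
  generalize Nat.shiftRight R 48 = m at f6 ⊢
  rw [Nat.cast_pow, Nat.cast_ofNat] at f1 f2
  rw [Nat.cast_mul] at f3 f4
  have hqz : (q : ℝ) * z ≤ 2 ^ 96 := (le_div_iff₀ hz1).1 f1
  have hn : n ≤ 2 ^ 48 := by
    have : (n : ℝ) ≤ 2 ^ 48 := by linarith
    exact_mod_cast this
  rw [Nat.cast_sub (by omega)]
  have e1 : Real.log t = Real.log (2 ^ 48 * t / z) + Real.log (z / 2 ^ 48) := by
    rw [← Real.log_mul (by positivity) (by positivity)]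
    congr 1
    field_simp
  have b1 : |(2 ^ 96 / z - q) * ((2 ^ 48 * t - z) / 2 ^ 48)| ≤ 1 * ((R : ℝ) / 2 ^ 48) := by
    rw [abs_mul, abs_div, abs_of_pos (by positivity : (0 : ℝ) < 2 ^ 48)]
    refine mul_le_mul ?_ (by gcongr) (div_nonneg (abs_nonneg _) (by norm_num)) (by norm_num)
    rw [abs_le]
    constructor <;> linarith
  have e2 : 2 ^ 48 * ((2 ^ 48 * t - z) / z) = (2 ^ 96 / z - q) * ((2 ^ 48 * t - z) / 2 ^ 48) +
      q * t - q * z / 2 ^ 48 := by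
    field_simp
    ring
  have e3 : 2 ^ 48 * ((R : ℝ) ^ 2 / (2 * (z * lo))) =
      2 * (((R * R * 2 ^ 46 : ℕ) : ℝ) / ((z * lo : ℕ) : ℝ)) := by
    push_cast
    field_simp
    ring
  rw [e1, Nat.cast_add q, Nat.cast_pow, Nat.cast_ofNat]
  simp only [Nat.cast_add, Nat.cast_ofNat]
  rw [abs_le] at b1 hL ⊢
  constructor <;> linarith

theorem log_lg4 {c v r2 e z L hh E : ℕ} : lg4 c v r2 e z L hh E k =
    lin2 c v r2 e (2 ^ 96 / z + 2 ^ 72) (2 ^ 96 / z)
      (L - (Nat.shiftRight (2 ^ 96 / z * z) 48 + hh)) (hh + Nat.shiftRight (r2 + e) 48 + E) k := by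
  rw [lg4, log_frz, show (2 : ℕ) ^ 96 = nat_lit 79228162514264337593543950336 by norm_num,
    show (2 : ℕ) ^ 72 = nat_lit 4722366482869645213696 by norm_num]
  rfl

theorem log_lg3 {c v r2 e z j p A hh : ℕ} (H : lg3 c v r2 e z j p A hh k = true) : hh ≤ 2 ^ 70 ∧
    lg4 c v r2 e z (Bool.rec (motive := fun _ => ℕ) (j * ln2N + 4722357117897493775584 - A)
      (j * ln2N + 4722357117897493775584 + A) (Nat.ble p z)) hh
      (84500 * (j - 48 + (48 - j)) + 200) k = true := by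
  rw [lg3, log_grd, log_frz] at H
  exact ⟨(Nat.le_of_ble_eq_true H.1).trans (by norm_num), H.2⟩

theorem log_lg2 {c v r2 e z j p lo R : ℕ} (H : lg2 c v r2 e z j p lo R k = true) :
    ∃ w, w = (z - p + (p - z)) * 2 ^ 48 / (z + p) ∧ w ≤ 56294995342131 ∧
      lg3 c v r2 e z j p (ath w (Nat.shiftRight (w * w) 48)) (R * R * 2 ^ 46 / (z * lo) + 1) k =
        true := by
  rw [lg2, log_frz, log_grd] at H
  rw [← Nat.shiftLeft_eq, ← Nat.shiftLeft_eq]
  exact ⟨_, rfl, Nat.le_of_ble_eq_true H.1, H.2⟩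

theorem log_lg1 {c v r2 e R : ℕ} (H : lg1 c v r2 e R k = true) :
    ∃ lo z j, 0 < lo ∧ z = lo + R ∧ c = z + 2 ^ 72 ∧ lg2 c v r2 e z j (2 ^ j) lo R k = true := by
  rw [lg1, log_frc, log_frz, log_frz, log_grd] at H
  obtain ⟨h1, -, h2⟩ := H
  generalize Nat.log2 _ = j at h2
  generalize hl : Nat.sub c _ = lo at h1 h2
  have hl' : c - (R + 4722366482869645213696) = lo := hl
  refine ⟨lo, lo + R, j, h1, rfl, by omega, ?_⟩
  rw [← Nat.one_shiftLeft]
  exact h2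

theorem log_logK {c v r' e : ℕ} (H : logK ⟨c, v, r', e⟩ k = true) :
    r' ≤ 2 ^ 72 ∧ lg1 c v (radV v) e (radV v + e) k = true := by
  rw [logK] at H
  simp only [log_grd, log_frz] at H
  exact ⟨(Nat.le_of_ble_eq_true H.1).trans (by norm_num), H.2⟩

theorem logS (hε : ∀ i, |ε i| ≤ 1) (hx : Rel ε x r)
    (h : ∀ z t, Rel ε z t → k z = true → K t) : logK x k = true → logR r K := by
  obtain ⟨c, v, r', e⟩ := x
  intro H
  obtain ⟨hr', H⟩ := log_logK H
  obtain ⟨lo, z, j, hlo, hz, hc, H⟩ := log_lg1 H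
  obtain ⟨w, hw, hw', H⟩ := log_lg2 H
  obtain ⟨hh, H⟩ := log_lg3 H
  rw [log_lg4] at H
  obtain ⟨a0, a1, a2, a3, hv, ha, hT⟩ := hx hr'
  simp only at hv ha hT
  have hrad := radV_eq hv (ha.trans (by exact_mod_cast hr'))
  have hx' : Rel ε ⟨c, v, radV v, e⟩ r := fun _ => ⟨a0, a1, a2, a3, hv, hrad.ge, hT⟩
  have hT' : |2 ^ 48 * r - z| ≤ ((radV v + e : ℕ) : ℝ) := by
    have h1 : ∀ (a : ℤ) (i : Fin 4), |(a : ℝ) * ε i| ≤ |(a : ℝ)| := fun a i => by
      rw [abs_mul]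
      exact mul_le_of_le_one_right (abs_nonneg _) (hε i)
    have h2 : (radV v : ℝ) = |(a0 : ℝ)| + |(a1 : ℝ)| + |(a2 : ℝ)| + |(a3 : ℝ)| := by
      exact_mod_cast hrad
    have h3 : (c : ℝ) = z + 2 ^ 72 := by exact_mod_cast hc
    have b0 := abs_le.1 (h1 a0 0)
    have b1 := abs_le.1 (h1 a1 1)
    have b2 := abs_le.1 (h1 a2 2)
    have b3 := abs_le.1 (h1 a3 3)
    rw [Nat.cast_add]
    rw [abs_le] at hT ⊢
    constructor <;> linarith
  obtain ⟨g1, g2⟩ := log_ctr (hz ▸ Nat.add_pos_left hlo _) hw hw' rfl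
  refine ⟨?_, lin2S hε hx' ?_ (log_est hlo hz hT' g1 g2 rfl rfl hh) h H⟩
  · have h1 : (1 : ℝ) ≤ lo := by exact_mod_cast hlo
    have h2 : (z : ℝ) = lo + (radV v + e : ℕ) := by exact_mod_cast hz
    have := (abs_le.1 hT').1
    linarith
  · rw [Nat.cast_add, Nat.cast_pow, Nat.cast_ofNat, add_sub_cancel_right, Nat.abs_cast]

end Crest.Agent.R307.AA
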