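import Crest.Agent.R307.AAInv
import Crest.Agent.R307.AALog

/-! Row 307: the affine-arithmetic engine (all soundness lemmas), elimination rules for real programs. -/

set_option autoImplicit false

namespace Crest.Agent.R307.AA

variable {t : ℝ} {K : ℝ → Prop} {C Q : Prop}

theorem letR_ex (h : letR t K) (f : ∀ z, z = t → K z → C) : C := f t rfl h
theorem letR_in (h : letR t K) (f : K t → C) : C := f h
theorem posR_ex (h : posR t Q) (f : 0 ≤ t → Q → C) : C := f h.1 h.2
theorem invR_ex (h : invR t K) (f : 0 < t → letR t⁻¹ K → C) : C := f h.1 h.2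
theorem logR_ex (h : logR t K) (f : 0 < t → letR (Real.log t) K → C) : C := f h.1 h.2

theorem ln2_rel : |2 ^ 48 * Real.log 2 - (((4722366677973231701990 : ℕ) : ℝ) - 2 ^ 72)| ≤ ((84500 : ℕ) : ℝ) := by
  have h1 := Real.log_two_gt_d9
  have h2 := Real.log_two_lt_d9
  rw [abs_le]; constructor <;> norm_num at * <;> linarith

end Crest.Agent.R307.AA
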