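import Mathlib

/-! Row 307: kernel affine-arithmetic engine — definitions.

Fixed point: scale `S = 2^48`; a signed integer `a` is stored as the natural number `a + O`,
`O = 2^72`.  An affine form `⟨c, v, r, e⟩` stands for `((c - O) + Σ aᵢ εᵢ ± e) / S`, where the four
linear coefficients are packed in `v = Σ (aᵢ + O) 2^(160 i)` and `r ≥ Σ |aᵢ|`.
All operations are in continuation-passing style and return `false` on failure. -/

set_option autoImplicit false

namespace Crest.Agent.R307.AA

/-- packed affine form -/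
structure AF where
  c : ℕ
  v : ℕ
  r : ℕ
  e : ℕ

/-- `x` encloses the real `t` at the noise point `ε` -/
def Rel (ε : Fin 4 → ℝ) (x : AF) (t : ℝ) : Prop :=
  x.r ≤ 2 ^ 72 → ∃ a0 a1 a2 a3 : ℤ,
    (x.v : ℤ) = (a0 + 2 ^ 72) + (a1 + 2 ^ 72) * 2 ^ 160 + (a2 + 2 ^ 72) * 2 ^ 320 +
      (a3 + 2 ^ 72) * 2 ^ 480 ∧
    |a0| + |a1| + |a2| + |a3| ≤ (x.r : ℤ) ∧
    |2 ^ 48 * t - (((x.c : ℝ) - 2 ^ 72) + a0 * ε 0 + a1 * ε 1 + a2 * ε 2 + a3 * ε 3)| ≤ (x.e : ℝ)

noncomputable section

/-- `if b then x else false` -/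
def grd (b x : Bool) : Bool := Bool.rec (motive := fun _ => Bool) false x b

/-- force a positive number (fails on `0`) -/
def frc (a : ℕ) (k : ℕ → Bool) : Bool :=
  Nat.rec (motive := fun _ => Bool) false (fun a1 _ => k (Nat.succ a1)) a

/-- force any number -/
def frz (a : ℕ) (k : ℕ → Bool) : Bool :=
  Nat.rec (motive := fun _ => Bool) (k (nat_lit 0)) (fun a1 _ => k (Nat.succ a1)) a

/-- force the four fields; `a`, `b` must be positive, `c`, `d` are passed shifted by one -/
def frc4 (a b c d : ℕ) (k : AF → Bool) : Bool :=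
  Nat.rec (motive := fun _ => Bool) false (fun a1 _ =>
    Nat.rec (motive := fun _ => Bool) false (fun b1 _ =>
      Nat.rec (motive := fun _ => Bool) false (fun c1 _ =>
        Nat.rec (motive := fun _ => Bool) false (fun d1 _ =>
          k (AF.mk (Nat.succ a1) (Nat.succ b1) c1 d1)) d) c) b) a

/-- `|c - O|` -/
def absO (c : ℕ) : ℕ := Nat.add (Nat.sub c (nat_lit 4722366482869645213696)) (Nat.sub (nat_lit 4722366482869645213696) c)

/-- the constant `(c - O ± e) / S` -/
def cst (c e : ℕ) : AF := AF.mk c (nat_lit 14742040721959145907193572581985425355144223517261807336930832847012812818609968218595532933478475616802202393639195608669094409152618224491165816057627111079893008384) (nat_lit 0) e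

/-- parameter number `j` of the packed list `ps` (80-bit slots) -/
def parN (ps j : ℕ) : ℕ := Nat.land (Nat.shiftRight ps (Nat.mul (nat_lit 80) j)) (nat_lit 1208925819614629174706175)

def parK (ps j : ℕ) (k : AF → Bool) : Bool := frz (parN ps j) fun c => k (cst c (nat_lit 0))

def addK (x y : AF) (k : AF → Bool) : Bool :=
  AF.rec (fun c v r e => AF.rec (fun c' v' r' e' =>
    frc4 (Nat.sub (Nat.add c c') (nat_lit 4722366482869645213696)) (Nat.sub (Nat.add v v') (nat_lit 14742040721959145907193572581985425355144223517261807336930832847012812818609968218595532933478475616802202393639195608669094409152618224491165816057627111079893008384))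
      (Nat.succ (Nat.add r r')) (Nat.succ (Nat.add e e')) k) y) x

def subK (x y : AF) (k : AF → Bool) : Bool :=
  AF.rec (fun c v r e => AF.rec (fun c' v' r' e' =>
    frc4 (Nat.sub (Nat.add c (nat_lit 4722366482869645213696)) c') (Nat.sub (Nat.add v (nat_lit 14742040721959145907193572581985425355144223517261807336930832847012812818609968218595532933478475616802202393639195608669094409152618224491165816057627111079893008384)) v')
      (Nat.succ (Nat.add r r')) (Nat.succ (Nat.add e e')) k) y) x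

/-- add the constant `(c' - O ± e') / S` -/
def addcK (x : AF) (c' e' : ℕ) (k : AF → Bool) : Bool :=
  AF.rec (fun c v r e => frc (Nat.sub (Nat.add c c') (nat_lit 4722366482869645213696)) fun c2 =>
    frz (Nat.add e e') fun e2 => k (AF.mk c2 v r e2)) x

/-- the constant `(c' - O ± e') / S` minus `x` -/
def rsubK (x : AF) (c' e' : ℕ) (k : AF → Bool) : Bool :=
  AF.rec (fun c v r e =>
    frc4 (Nat.sub (Nat.add c' (nat_lit 4722366482869645213696)) c) (Nat.sub (nat_lit 29484081443918291814387145163970850710288447034523614673861665694025625637219936437191065866956951233604404787278391217338188818305236448982331632115254222159786016768) v) (Nat.succ r)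
      (Nat.succ (Nat.add e e')) k) x

/-- centre of a product -/
def mulC (c c' : ℕ) : ℕ :=
  Nat.shiftRight (Nat.sub (Nat.add (Nat.mul c c') (nat_lit 22300746527758618926451591176455421786324992))
    (Nat.shiftLeft (Nat.add c c') (nat_lit 72))) (nat_lit 48)

/-- digitwise division by `S` -/
def shV (T : ℕ) : ℕ := Nat.land (Nat.shiftRight T (nat_lit 48)) (nat_lit 16209045190941378744189093217543595124393817778715878437787289910376120452720102114580463513173265343522554643716863237214219504901130785411261083598402677862149014501310129504255)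

def mul3 (c2 v2 r2 e2 rr : ℕ) (k : AF → Bool) : Bool :=
  grd (Nat.ble (Nat.add rr r2) (nat_lit 4722366482869645213696)) (frc4 c2 v2 r2 e2 k)

def mul2 (c2 v2 m m' r e r' e' : ℕ) (k : AF → Bool) : Bool :=
  mul3 c2 v2
    (Nat.add (Nat.shiftRight (Nat.add (Nat.mul m r') (Nat.mul m' r)) (nat_lit 48)) (nat_lit 6))
    (Nat.add (Nat.shiftRight (Nat.add (Nat.add (Nat.mul m e') (Nat.mul m' e))
      (Nat.mul (Nat.add r e) (Nat.add r' e'))) (nat_lit 48)) (nat_lit 7))
    (Nat.add r r') k

def mulK (x y : AF) (k : AF → Bool) : Bool :=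
  AF.rec (fun c v r e => AF.rec (fun c' v' r' e' =>
    mul2 (mulC c c')
      (shV (Nat.sub (Nat.add (Nat.add (Nat.mul c v') (Nat.mul c' v)) (nat_lit 139234642138474163199876369330898199533850009265976556925742071713201715873171854388412479586270299712624355705849051536121722950091930679266872484517046524410505732820277408432484549394432))
        (Nat.add (Nat.shiftLeft (Nat.add v v') (nat_lit 72))
          (Nat.mul (Nat.add c c') (nat_lit 14742040721959145907193572581985425355144223517261807336930832847012812818609968218595532933478475616802202393639195608669094409152618224491165816057627111079893008384)))))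
      (absO c) (absO c') r e r' e' k) y) x

def sqr2 (c v2 m r e h : ℕ) (k : AF → Bool) : Bool :=
  mul3 (Nat.add (mulC c c) h) v2
    (Nat.add (Nat.shiftRight (Nat.mul m r) (nat_lit 47)) (nat_lit 6))
    (Nat.add (Nat.add (Nat.shiftRight (Nat.mul m e) (nat_lit 47)) h) (nat_lit 9)) r k

/-- square (the quadratic deviation is known to be nonnegative); fails if `mulC c c = 0` is
impossible, since `mulC c c ≥ O` -/
def sqrK (x : AF) (k : AF → Bool) : Bool :=
  AF.rec (fun c v r e =>
    sqr2 c (shV (Nat.sub (Nat.add (Nat.shiftLeft (Nat.mul c v) (nat_lit 1)) (nat_lit 139234642138474163199876369330898199533850009265976556925742071713201715873171854388412479586270299712624355705849051536121722950091930679266872484517046524410505732820277408432484549394432))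
        (Nat.shiftLeft (Nat.add (Nat.shiftLeft v (nat_lit 72)) (Nat.mul c (nat_lit 14742040721959145907193572581985425355144223517261807336930832847012812818609968218595532933478475616802202393639195608669094409152618224491165816057627111079893008384))) (nat_lit 1))))
      (absO c) r e (Nat.shiftRight (Nat.mul (Nat.add r e) (Nat.add r e)) (nat_lit 49)) k) x

/-- `x * (q - O) / S + (b - O ± E) / S`, with `m = |q - O|` -/
def lin2 (c v r e q m b E : ℕ) (k : AF → Bool) : Bool :=
  frc (mulC c q) fun c2 =>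
  mul3 (Nat.sub (Nat.add c2 b) (nat_lit 4722366482869645213696))
    (shV (Nat.sub (Nat.add (Nat.mul q v) (nat_lit 69617323143994866040434663921653031612505580139211394585509092737819379990016480962941571849148130112457464417956867483521401906793432955789111995546806877622722808615774138739564549767168))
      (Nat.add (Nat.shiftLeft v (nat_lit 72)) (Nat.mul q (nat_lit 14742040721959145907193572581985425355144223517261807336930832847012812818609968218595532933478475616802202393639195608669094409152618224491165816057627111079893008384)))))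
    (Nat.add (Nat.shiftRight (Nat.mul m r) (nat_lit 48)) (nat_lit 6))
    (Nat.add (Nat.add (Nat.shiftRight (Nat.mul m e) (nat_lit 48)) E) (nat_lit 7)) r k

/-- multiplication by the exact dyadic constant `(q - O) / S` -/
def smulK (x : AF) (q : ℕ) (k : AF → Bool) : Bool :=
  AF.rec (fun c v r e => lin2 c v r e q (absO q) (nat_lit 4722366482869645213696) (nat_lit 0) k) x

/-- exact sum of the absolute values of the digits -/
def radV (v : ℕ) : ℕ :=
  Nat.add (Nat.add (absO (Nat.land v (nat_lit 1461501637330902918203684832716283019655932542975)))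
      (absO (Nat.land (Nat.shiftRight v (nat_lit 160)) (nat_lit 1461501637330902918203684832716283019655932542975))))
    (Nat.add (absO (Nat.land (Nat.shiftRight v (nat_lit 320)) (nat_lit 1461501637330902918203684832716283019655932542975)))
      (absO (Nat.shiftRight v (nat_lit 480))))

/-- recompute the radius -/
def normK (x : AF) (k : AF → Bool) : Bool :=
  AF.rec (fun c v r e => grd (Nat.ble r (nat_lit 4722366482869645213696)) (frz (radV v) fun r2 => k (AF.mk c v r2 e))) x

/-- check `0 ≤ x`, then continue -/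
def posK (x : AF) (k : Bool) : Bool :=
  AF.rec (fun c v r e => grd (Nat.ble r (nat_lit 4722366482869645213696))
    (grd (Nat.ble (Nat.add (Nat.add (radV v) e) (nat_lit 4722366482869645213696)) c) k)) x

/-! ### inverse: `z = c - O > R`; `u ≈ S²/z`, `q = ⌈u²/S⌉`; `1/t + q t ∈ [2u, max (g lo) (g hi)]` -/

def invG (q t : ℕ) : ℕ :=
  Nat.add (Nat.add (Nat.div (nat_lit 79228162514264337593543950336) t) (Nat.shiftRight (Nat.mul q t) (nat_lit 48))) (nat_lit 2)

def inv4 (c v r e q u g : ℕ) (k : AF → Bool) : Bool :=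
  grd (Nat.ble q (nat_lit 4722366482869645213696)) (lin2 c v r e (Nat.sub (nat_lit 4722366482869645213696) q) q
    (Nat.add (Nat.add u (Nat.shiftRight g (nat_lit 1))) (nat_lit 4722366482869645213696))
    (Nat.succ (Nat.sub (Nat.shiftRight g (nat_lit 1)) u)) k)

def inv3 (c v r e q u g1 g2 : ℕ) (k : AF → Bool) : Bool :=
  frz (Nat.add g1 (Nat.sub g2 g1)) fun g => inv4 c v r e q u g k

def inv2 (c v r e lo hi u : ℕ) (k : AF → Bool) : Bool :=
  frc (Nat.succ (Nat.shiftRight (Nat.mul u u) (nat_lit 48))) fun q =>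
    inv3 c v r e q u (invG q lo) (invG q hi) k

def inv1 (c v r e R : ℕ) (k : AF → Bool) : Bool :=
  frc (Nat.sub c (Nat.add R (nat_lit 4722366482869645213696))) fun lo =>
    frz (Nat.div (nat_lit 79228162514264337593543950336) (Nat.add lo R)) fun u =>
      inv2 c v r e lo (Nat.add lo (Nat.add R R)) u k

def invK (x : AF) (k : AF → Bool) : Bool :=
  AF.rec (fun c v r e => grd (Nat.ble r (nat_lit 4722366482869645213696)) (frz (radV v) fun r2 =>
    inv1 c v r2 e (Nat.add r2 e) k)) x

/-! ### square root: `s > 0` arbitrary (a Newton approximation of `√z`), `n = s²/S` up to `1`,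
`D ≥ |t - s²/S|`, `√t ∈ s + (t - s²)/(2s) - [0, D²/(2 s (s + s₁)²)]`, `s₁ = max 0 (s - D/s)` -/

def nwt (n x : ℕ) : ℕ := Nat.shiftRight (Nat.add x (Nat.div n x)) (nat_lit 1)

def isq (n : ℕ) : ℕ :=
  nwt n (nwt n (nwt n (nwt n (nwt n
    (Nat.shiftLeft (nat_lit 1) (Nat.shiftRight (Nat.succ (Nat.log2 n)) (nat_lit 1)))))))

def sq4 (c v r e s D q h : ℕ) (k : AF → Bool) : Bool :=
  lin2 c v r e (Nat.add q (nat_lit 4722366482869645213696)) q
    (Nat.sub (Nat.add (Nat.add s (nat_lit 4722366482869645213696)) (nat_lit 0))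
      (Nat.add (Nat.shiftRight (Nat.mul q (Nat.mul s s)) (nat_lit 96)) h))
    (Nat.add (Nat.add h (Nat.shiftRight D (nat_lit 48))) (nat_lit 3)) k

def sq3 (c v r e s D w : ℕ) (k : AF → Bool) : Bool :=
  frz (Nat.succ (Nat.div (Nat.shiftLeft (Nat.mul D D) (nat_lit 94)) (Nat.mul s (Nat.mul w w)))) fun h =>
    grd (Nat.ble h (nat_lit 1180591620717411303424)) (frz (Nat.div (nat_lit 39614081257132168796771975168) s) fun q => sq4 c v r e s D q h k)

def sq2 (c v r e s n lo D : ℕ) (k : AF → Bool) : Bool :=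
  grd (Nat.ble (nat_lit 4722366482869645213696) (Nat.add lo n))
    (sq3 c v r e s D
      (Nat.add s (Nat.sub s (Nat.succ (Nat.div (Nat.shiftLeft D (nat_lit 48)) s)))) k)

def sq1 (c v r e R s : ℕ) (k : AF → Bool) : Bool :=
  frz (Nat.shiftRight (Nat.mul s s) (nat_lit 48)) fun n =>
    frz (Nat.succ (Nat.add (absO (Nat.sub c n)) R)) fun D =>
      grd (Nat.ble (Nat.add n R) c) (sq2 c v r e s n (Nat.sub c R) D k)

def sqrtK (x : AF) (k : AF → Bool) : Bool :=
  AF.rec (fun c v r e => grd (Nat.ble r (nat_lit 4722366482869645213696)) (frz (radV v) fun r2 =>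
    frc (isq (Nat.shiftLeft (Nat.succ (Nat.sub c (nat_lit 4722366482869645213696))) (nat_lit 48))) fun s =>
      grd (Nat.ble s (nat_lit 1180591620717411303424)) (sq1 c v r2 e (Nat.add r2 e) s k))) x

/-! ### logarithm: `z = c - O`, `j = log2 (4 z / 3)`, `w = (z - 2^j)/(z + 2^j)`, `|w| ≤ 1/5`,
`log (z/S) = (j - 48) log 2 + 2 artanh w`; `log t ∈ log z + (t - z)/z - [0, R²/(2 z lo)]` -/

def hrn (y a acc : ℕ) : ℕ := Nat.add a (Nat.shiftRight (Nat.mul y acc) (nat_lit 48))

/-- `2 S artanh (w / S)` up to `40` units for `w ≤ S / 5` -/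
def ath (w y : ℕ) : ℕ :=
  Nat.shiftRight (Nat.mul w (hrn y (nat_lit 281474976710656) (hrn y (nat_lit 93824992236885) (hrn y (nat_lit 56294995342131) (hrn y (nat_lit 40210710958665)
    (hrn y (nat_lit 31274997412295) (hrn y (nat_lit 25588634246423) (hrn y (nat_lit 21651921285435) (hrn y (nat_lit 18764998447377) (hrn y (nat_lit 16557351571215) (nat_lit 14814472458455)))))))))))
    (nat_lit 47)

/-- `⌊S · 0.6931471805⌋`, within `84500` of `S log 2` (use `Real.log_two_gt_d9`, `Real.log_two_lt_d9`) -/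
def ln2N : ℕ := (nat_lit 195103586488294)

def lg4 (c v r e z L h E : ℕ) (k : AF → Bool) : Bool :=
  frz (Nat.div (nat_lit 79228162514264337593543950336) z) fun q =>
    lin2 c v r e (Nat.add q (nat_lit 4722366482869645213696)) q
      (Nat.sub L (Nat.add (Nat.shiftRight (Nat.mul q z) (nat_lit 48)) h))
      (Nat.add (Nat.add h (Nat.shiftRight (Nat.add r e) (nat_lit 48))) E) k

def lg3 (c v r e z j p A h : ℕ) (k : AF → Bool) : Bool :=
  grd (Nat.ble h (nat_lit 1180591620717411303424)) (frz (Bool.rec (motive := fun _ => ℕ)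
      (Nat.sub (Nat.add (Nat.mul j ln2N) (nat_lit 4722357117897493775584)) A)
      (Nat.add (Nat.add (Nat.mul j ln2N) (nat_lit 4722357117897493775584)) A) (Nat.ble p z)) fun L =>
    lg4 c v r e z L h (Nat.add (Nat.mul (nat_lit 84500)
      (Nat.add (Nat.sub j (nat_lit 48)) (Nat.sub (nat_lit 48) j))) (nat_lit 200)) k)

def lg2 (c v r e z j p lo R : ℕ) (k : AF → Bool) : Bool :=
  frz (Nat.div (Nat.shiftLeft (Nat.add (Nat.sub z p) (Nat.sub p z)) (nat_lit 48)) (Nat.add z p)) fun w =>
    grd (Nat.ble w (nat_lit 56294995342131)) (lg3 c v r e z j p (ath w (Nat.shiftRight (Nat.mul w w) (nat_lit 48)))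
      (Nat.succ (Nat.div (Nat.shiftLeft (Nat.mul R R) (nat_lit 46)) (Nat.mul z lo))) k)

def lg1 (c v r e R : ℕ) (k : AF → Bool) : Bool :=
  frc (Nat.sub c (Nat.add R (nat_lit 4722366482869645213696))) fun lo =>
    frz (Nat.add lo R) fun z =>
      frz (Nat.log2 (Nat.div (Nat.shiftLeft z (nat_lit 2)) (nat_lit 3))) fun j =>
        grd (Nat.ble j (nat_lit 72)) (lg2 c v r e z j (Nat.shiftLeft (nat_lit 1) j) lo R k)

def logK (x : AF) (k : AF → Bool) : Bool :=
  AF.rec (fun c v r e => grd (Nat.ble r (nat_lit 4722366482869645213696)) (frz (radV v) fun r2 =>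
    lg1 c v r2 e (Nat.add r2 e) k)) x

/-! ### boxes and trees -/

/-- the variable number `i` on `[l, h]` (offset fixed point); `sh = 160 i` -/
def varA (l h sh : ℕ) (k : AF → Bool) : Bool :=
  frz (Nat.succ (Nat.shiftRight (Nat.sub h l) (nat_lit 1))) fun a =>
    frc4 (Nat.shiftRight (Nat.add l h) (nat_lit 1)) (Nat.add (nat_lit 14742040721959145907193572581985425355144223517261807336930832847012812818609968218595532933478475616802202393639195608669094409152618224491165816057627111079893008384) (Nat.shiftLeft a sh))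
      (Nat.succ a) (nat_lit 1) k

/-- branch-and-bound certificate -/
inductive Tree : Type
  | leaf (j : ℕ) : Tree
  | par (ps : ℕ) (t : Tree) : Tree
  | s0 (l r : Tree) : Tree
  | s1 (l r : Tree) : Tree
  | s2 (l r : Tree) : Tree
  | s3 (l r : Tree) : Tree

abbrev Prog : Type := ℕ → ℕ → AF → AF → AF → AF → Bool

def leafB (P : Prog) (j ps l0 h0 l1 h1 l2 h2 l3 h3 : ℕ) : Bool :=
  varA l0 h0 (nat_lit 0) fun x0 => varA l1 h1 (nat_lit 160) fun x1 =>
    varA l2 h2 (nat_lit 320) fun x2 => varA l3 h3 (nat_lit 480) fun x3 => P j ps x0 x1 x2 x3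

def mid (l h : ℕ) : ℕ := Nat.shiftRight (Nat.add l h) (nat_lit 1)

def run (P : Prog) (t : Tree) : ℕ → ℕ → ℕ → ℕ → ℕ → ℕ → ℕ → ℕ → ℕ → Bool :=
  Tree.rec (motive := fun _ => ℕ → ℕ → ℕ → ℕ → ℕ → ℕ → ℕ → ℕ → ℕ → Bool)
    (fun j ps l0 h0 l1 h1 l2 h2 l3 h3 => leafB P j ps l0 h0 l1 h1 l2 h2 l3 h3)
    (fun ps' _ ih _ l0 h0 l1 h1 l2 h2 l3 h3 => ih ps' l0 h0 l1 h1 l2 h2 l3 h3)
    (fun _ _ a b ps l0 h0 l1 h1 l2 h2 l3 h3 => frz (mid l0 h0) fun m =>
      grd (a ps l0 m l1 h1 l2 h2 l3 h3) (b ps m h0 l1 h1 l2 h2 l3 h3))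
    (fun _ _ a b ps l0 h0 l1 h1 l2 h2 l3 h3 => frz (mid l1 h1) fun m =>
      grd (a ps l0 h0 l1 m l2 h2 l3 h3) (b ps l0 h0 m h1 l2 h2 l3 h3))
    (fun _ _ a b ps l0 h0 l1 h1 l2 h2 l3 h3 => frz (mid l2 h2) fun m =>
      grd (a ps l0 h0 l1 h1 l2 m l3 h3) (b ps l0 h0 l1 h1 m h2 l3 h3))
    (fun _ _ a b ps l0 h0 l1 h1 l2 h2 l3 h3 => frz (mid l3 h3) fun m =>
      grd (a ps l0 h0 l1 h1 l2 h2 l3 m) (b ps l0 h0 l1 h1 l2 h2 m h3)) t

/-! ### real side -/

/-- value of an offset fixed-point number -/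
def val (n : ℕ) : ℝ := ((n : ℝ) - 2 ^ 72) / 2 ^ 48

/-- real parameter list of a packed list -/
def parV (ps : ℕ) (j : ℕ) : ℝ := val (parN ps j)

def letR (t : ℝ) (K : ℝ → Prop) : Prop := K t
def invR (t : ℝ) (K : ℝ → Prop) : Prop := 0 < t ∧ K t⁻¹
def logR (t : ℝ) (K : ℝ → Prop) : Prop := 0 < t ∧ K (Real.log t)
def posR (t : ℝ) (K : Prop) : Prop := 0 ≤ t ∧ K

/-- the point lies in the box -/
def InBox (l0 h0 l1 h1 l2 h2 l3 h3 : ℕ) (x0 x1 x2 x3 : ℝ) : Prop :=
  (val l0 ≤ x0 ∧ x0 ≤ val h0) ∧ (val l1 ≤ x1 ∧ x1 ≤ val h1) ∧ (val l2 ≤ x2 ∧ x2 ≤ val h2) ∧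
    (val l3 ≤ x3 ∧ x3 ≤ val h3)

/-- every point of the box satisfies one of the real properties -/
def Good (Q : ℕ → ℕ → ℝ → ℝ → ℝ → ℝ → Prop) (l0 h0 l1 h1 l2 h2 l3 h3 : ℕ) : Prop :=
  ∀ x0 x1 x2 x3 : ℝ, InBox l0 h0 l1 h1 l2 h2 l3 h3 x0 x1 x2 x3 → ∃ j ps, Q j ps x0 x1 x2 x3

/-- soundness of a family of programs -/
def Sound (P : Prog) (Q : ℕ → ℕ → ℝ → ℝ → ℝ → ℝ → Prop) : Prop :=
  ∀ (ε : Fin 4 → ℝ), (∀ i, |ε i| ≤ 1) → ∀ (j ps : ℕ) (x0 x1 x2 x3 : AF) (t0 t1 t2 t3 : ℝ),
    Rel ε x0 t0 → Rel ε x1 t1 → Rel ε x2 t2 → Rel ε x3 t3 → P j ps x0 x1 x2 x3 = true →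
      Q j ps t0 t1 t2 t3

end

end Crest.Agent.R307.AA
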