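import Crest.Agent.R307.AALin
import Crest.Agent.R307.AAMul

/-! Row 307 engine: soundness of inverse and square root (use `radV_eq`, `lin2S`).
Inverse: with `T = S t ∈ [lo, hi]`, `S²/T + q T/S ≥ 2 √(q S) ≥ 2u` (AM-GM) and `≤ max (g lo) (g hi)` (convexity).
Square root: `√(S T) = s + (S T - s²)/(2s) - (√(S T) - s)²/(2s)`, `|√(S T) - s| ≤ S D/(s + s₁)`;
for `T < 0` (then `√ = 0`) use `T ≥ -n` and `S D ≥ s²`, so `s₁ = 0`. -/

set_option autoImplicit false

namespace Crest.Agent.R307.AA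

variable {ε : Fin 4 → ℝ} {x y : AF} {r s : ℝ} {k : AF → Bool} {K : ℝ → Prop}

namespace InvAux

theorem grd_true {b c : Bool} (h : grd b c = true) : b = true ∧ c = true := by
  cases b
  · exact absurd h (by simp [grd])
  · exact ⟨rfl, h⟩

theorem frc_true {a : ℕ} {f : ℕ → Bool} (h : frc a f = true) : 0 < a ∧ f a = true := by
  cases a with
  | zero => exact absurd h (by simp [frc])
  | succ a => exact ⟨Nat.succ_pos _, h⟩

theorem frz_true {a : ℕ} {f : ℕ → Bool} (h : frz a f = true) : f a = true := by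
  cases a with
  | zero => exact h
  | succ a => exact h

theorem norm_rel {c v r' e : ℕ} (hε : ∀ i, |ε i| ≤ 1) (hx : Rel ε ⟨c, v, r', e⟩ r)
    (hr : r' ≤ 2 ^ 72) :
    Rel ε ⟨c, v, radV v, e⟩ r ∧ |2 ^ 48 * r - ((c : ℝ) - 2 ^ 72)| ≤ (radV v : ℝ) + e := by
  obtain ⟨a0, a1, a2, a3, hv, ha, hb⟩ := hx hr
  have hr' : (r' : ℤ) ≤ 2 ^ 72 := by exact_mod_cast hr
  have hrad := radV_eq hv (ha.trans hr')
  refine ⟨fun _ => ⟨a0, a1, a2, a3, hv, hrad.ge, hb⟩, ?_⟩
  have hradR : (radV v : ℝ) = |(a0 : ℝ)| + |(a1 : ℝ)| + |(a2 : ℝ)| + |(a3 : ℝ)| := by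
    exact_mod_cast hrad
  have hm : ∀ (a : ℝ) (i : Fin 4), |a * ε i| ≤ |a| := fun a i => by
    rw [abs_mul]; exact mul_le_of_le_one_right (abs_nonneg _) (hε i)
  have h0 := abs_le.1 (hm a0 0)
  have h1 := abs_le.1 (hm a1 1)
  have h2 := abs_le.1 (hm a2 2)
  have h3 := abs_le.1 (hm a3 3)
  have hb' := abs_le.1 hb
  simp only at hb'
  rw [hradR, abs_le]
  constructor <;> linarith [hb'.1, hb'.2, h0.1, h0.2, h1.1, h1.2, h2.1, h2.2, h3.1, h3.2]

theorem div_lt (a b : ℕ) (hb : 0 < b) : (a : ℝ) < ((a / b : ℕ) + 1) * (b : ℝ) := by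
  have : a < (a / b + 1) * b := by
    have h1 := Nat.div_add_mod a b
    have h2 := Nat.mod_lt a hb
    nlinarith
  exact_mod_cast this

theorem div_le (a b : ℕ) : ((a / b : ℕ) : ℝ) * (b : ℝ) ≤ a := by
  exact_mod_cast Nat.div_mul_le_self a b

theorem inv_core {S T lo hi q u g : ℝ} (hS : 0 < S) (hlo : 0 < lo) (h1 : lo ≤ T) (h2 : T ≤ hi)
    (hq0 : 0 ≤ q) (hq : u ^ 2 ≤ q * S) (hg1 : S ^ 2 / lo + q * lo / S ≤ g)
    (hg2 : S ^ 2 / hi + q * hi / S ≤ g) :
    2 * u ≤ S ^ 2 / T + q * T / S ∧ S ^ 2 / T + q * T / S ≤ g := by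
  have hT : 0 < T := hlo.trans_le h1
  have hhi : 0 < hi := hT.trans_le h2
  have key : ∀ z : ℝ, 0 < z → ∀ w : ℝ, (S ^ 2 / z + q * z / S - w) * (z * S) =
      S ^ 3 + q * z ^ 2 - w * z * S := fun z hz w => by
    field_simp
  constructor
  · have h3 : 0 ≤ (S ^ 2 / T + q * T / S - 2 * u) * (T * S) := by
      rw [key T hT]
      have h4 : 0 ≤ S * (S ^ 3 + q * T ^ 2 - 2 * u * T * S) := by
        have h5 : u ^ 2 * T ^ 2 ≤ q * S * T ^ 2 := mul_le_mul_of_nonneg_right hq (sq_nonneg _)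
        nlinarith [sq_nonneg (S ^ 2 - u * T)]
      exact nonneg_of_mul_nonneg_right h4 hS |> fun h => h
    have := nonneg_of_mul_nonneg_left h3 (mul_pos hT hS)
    linarith
  · have p1 : S ^ 3 + q * lo ^ 2 - g * lo * S ≤ 0 := by
      rw [← key lo hlo]
      exact mul_nonpos_of_nonpos_of_nonneg (by linarith) (by positivity)
    have p2 : S ^ 3 + q * hi ^ 2 - g * hi * S ≤ 0 := by
      rw [← key hi hhi]
      exact mul_nonpos_of_nonpos_of_nonneg (by linarith) (by positivity)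
    have p3 : S ^ 3 + q * T ^ 2 - g * T * S ≤ 0 := by
      rcases eq_or_lt_of_le (h1.trans h2) with he | hlt
      · have : T = lo := le_antisymm (he ▸ h2) h1
        rw [this]; exact p1
      · have e1 : (hi - lo) * (S ^ 3 + q * T ^ 2 - g * T * S) =
            (hi - T) * (S ^ 3 + q * lo ^ 2 - g * lo * S) +
              (T - lo) * (S ^ 3 + q * hi ^ 2 - g * hi * S) -
              q * ((T - lo) * (hi - T) * (hi - lo)) := by ring
        have e2 : (hi - T) * (S ^ 3 + q * lo ^ 2 - g * lo * S) ≤ 0 :=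
          mul_nonpos_of_nonneg_of_nonpos (by linarith) p1
        have e3 : (T - lo) * (S ^ 3 + q * hi ^ 2 - g * hi * S) ≤ 0 :=
          mul_nonpos_of_nonneg_of_nonpos (by linarith) p2
        have e4 : 0 ≤ q * ((T - lo) * (hi - T) * (hi - lo)) :=
          mul_nonneg hq0 (mul_nonneg (mul_nonneg (by linarith) (by linarith)) (by linarith))
        have e5 : (hi - lo) * (S ^ 3 + q * T ^ 2 - g * T * S) ≤ 0 := by linarith
        by_contra hc
        have := mul_pos (sub_pos.2 hlt) (not_le.1 hc)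
        linarith
    rw [← key T hT] at p3
    by_contra hc
    have := mul_pos (sub_pos.2 (not_le.1 hc)) (mul_pos hT hS)
    linarith

theorem sqrt_core {P M s w h : ℝ} (hs : 0 < s) (hw : s ≤ w) (hw1 : w ≤ s + max 0 (s - M / s))
    (hD : |P - s ^ 2| ≤ M) (hP : -s ^ 2 ≤ P) (hh : M ^ 2 ≤ 4 * h * (s * w ^ 2)) :
    0 ≤ s + (P - s ^ 2) / (2 * s) - Real.sqrt P ∧
      s + (P - s ^ 2) / (2 * s) - Real.sqrt P ≤ 2 * h := by
  have hw0 : 0 < w := hs.trans_le hw
  have hM : 0 ≤ M := (abs_nonneg _).trans hD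
  obtain ⟨hD1, hD2⟩ := abs_le.1 hD
  rcases le_total 0 P with h0 | h0
  · obtain ⟨y, hy0, hy⟩ : ∃ y : ℝ, 0 ≤ y ∧ P = y ^ 2 := ⟨√P, Real.sqrt_nonneg _, (Real.sq_sqrt h0).symm⟩
    subst hy
    rw [Real.sqrt_sq hy0]
    have e1 : s + (y ^ 2 - s ^ 2) / (2 * s) - y = (y - s) ^ 2 / (2 * s) := by
      field_simp; ring
    rw [e1]
    refine ⟨by positivity, ?_⟩
    have hy1 : s - M / s ≤ y := by
      rcases le_total s y with h1 | h1
      · have : 0 ≤ M / s := by positivity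
        linarith
      · have h2 : (s - y) * s ≤ M := by nlinarith
        have h3 : s - y ≤ M / s := by rw [le_div_iff₀ hs]; exact h2
        linarith
    have hwy : w ≤ s + y := hw1.trans (by gcongr; exact max_le hy0 hy1)
    have h4 : (y - s) ^ 2 * w ^ 2 ≤ M ^ 2 := by
      calc (y - s) ^ 2 * w ^ 2 ≤ (y - s) ^ 2 * (s + y) ^ 2 := by gcongr
        _ = (y ^ 2 - s ^ 2) ^ 2 := by ring
        _ ≤ M ^ 2 := sq_le_sq' hD1 hD2
    rw [div_le_iff₀ (by positivity)]
    have h5 : (y - s) ^ 2 * w ^ 2 ≤ (2 * h * (2 * s)) * w ^ 2 := by nlinarith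
    exact le_of_mul_le_mul_right h5 (by positivity)
  · rw [Real.sqrt_eq_zero'.2 h0]
    have e1 : s + (P - s ^ 2) / (2 * s) - 0 = (P + s ^ 2) / (2 * s) := by
      field_simp; ring
    rw [e1]
    refine ⟨div_nonneg (by linarith) (by positivity), ?_⟩
    have hMs : s ^ 2 ≤ M := by linarith
    have h1 : s - M / s ≤ 0 := by
      have : s ≤ M / s := by rw [le_div_iff₀ hs]; nlinarith
      linarith
    rw [max_eq_left h1, add_zero] at hw1
    have hws : w = s := le_antisymm hw1 hw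
    subst hws
    rw [div_le_iff₀ (by positivity)]
    have h2 : (w ^ 2) ^ 2 ≤ M ^ 2 := by gcongr
    have h3 : w ^ 2 * w ^ 2 ≤ (2 * h * (2 * w)) * w ^ 2 := by nlinarith
    have h4 : w ^ 2 ≤ 2 * h * (2 * w) := le_of_mul_le_mul_right h3 (by positivity)
    linarith

theorem invG_ge (q t : ℕ) (ht : 0 < t) :
    ((2 : ℝ) ^ 48) ^ 2 / t + q * t / 2 ^ 48 ≤ (invG q t : ℝ) := by
  have e : invG q t = 79228162514264337593543950336 / t + q * t / 2 ^ 48 + 2 := by
    rw [← Nat.shiftRight_eq_div_pow]; rfl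
  have ht' : (0 : ℝ) < t := by exact_mod_cast ht
  have h1 := div_lt 79228162514264337593543950336 t ht
  have h2 := div_lt (q * t) (2 ^ 48) (by positivity)
  rw [e]
  push_cast at h1 h2 ⊢
  have h3 : ((2 : ℝ) ^ 48) ^ 2 / t ≤ ((79228162514264337593543950336 / t : ℕ) : ℝ) + 1 := by
    rw [div_le_iff₀ ht']; norm_num at h1 ⊢; exact h1.le
  have h4 : (q : ℝ) * t / 2 ^ 48 ≤ ((q * t / 2 ^ 48 : ℕ) : ℝ) + 1 := by
    rw [div_le_iff₀ (by positivity)]; norm_num at h2 ⊢; exact h2.le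
  norm_num at h3 h4 ⊢
  linarith

end InvAux

open InvAux

theorem invS (hε : ∀ i, |ε i| ≤ 1) (hx : Rel ε x r)
    (h : ∀ z t, Rel ε z t → k z = true → K t) : invK x k = true → invR r K := by
  obtain ⟨c, v, r', e⟩ := x
  intro H
  obtain ⟨H1, H⟩ := grd_true H
  have H := frz_true H
  have hr' : r' ≤ 2 ^ 72 := by have := Nat.le_of_ble_eq_true H1; omega
  obtain ⟨hx2, hb⟩ := norm_rel hε hx hr'
  generalize radV v = r2 at H hx2 hb
  obtain ⟨hlo, H⟩ := frc_true H
  generalize hlo' : Nat.sub c _ = lo at H hlo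
  have hc : c = lo + (r2 + e) + 2 ^ 72 := by
    simp only [Nat.add_eq, Nat.sub_eq] at hlo'; omega
  have H := frz_true H
  generalize Nat.div _ _ = u at H
  obtain ⟨-, H⟩ := frc_true H
  generalize hq : Nat.succ (Nat.shiftRight (Nat.mul u u) _) = q at H
  have H := frz_true H
  generalize hhi : Nat.add lo _ = hi at H
  generalize hg : Nat.add (invG q lo) _ = g at H
  obtain ⟨H2, H⟩ := grd_true H
  have hqO : q ≤ 2 ^ 72 := by have := Nat.le_of_ble_eq_true H2; omega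
  have hhi' : hi = lo + (r2 + e) + (r2 + e) := by
    simp only [Nat.add_eq] at hhi; omega
  have hg1 : invG q lo ≤ g := by simp only [Nat.add_eq, Nat.sub_eq] at hg; omega
  have hg2 : invG q hi ≤ g := by simp only [Nat.add_eq, Nat.sub_eq] at hg; omega
  have hq' : q = u * u / 2 ^ 48 + 1 := by
    rw [← hq]; simp only [Nat.mul_eq, Nat.shiftRight_eq, Nat.shiftRight_eq_div_pow]
  have hloR : (0 : ℝ) < lo := by exact_mod_cast hlo
  have hcR : (c : ℝ) = lo + (r2 + e) + 2 ^ 72 := by rw [hc]; push_cast; ring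
  have hhiR : (hi : ℝ) = lo + (r2 + e) + (r2 + e) := by rw [hhi']; push_cast; ring
  obtain ⟨hb1, hb2⟩ := abs_le.1 hb
  have hT1 : (lo : ℝ) ≤ 2 ^ 48 * r := by linarith
  have hT2 : 2 ^ 48 * r ≤ (hi : ℝ) := by linarith
  have hr0 : 0 < r := by
    have : (0 : ℝ) < 2 ^ 48 * r := hloR.trans_le hT1
    by_contra hn
    have h3 : (2 : ℝ) ^ 48 * r ≤ 0 := mul_nonpos_of_nonneg_of_nonpos (by positivity) (not_lt.1 hn)
    linarith
  have hu : (u : ℝ) ^ 2 ≤ q * 2 ^ 48 := by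
    have := div_lt (u * u) (2 ^ 48) (by positivity)
    rw [hq', sq]
    generalize u * u / 2 ^ 48 = d at this ⊢
    push_cast at this ⊢
    linarith
  obtain ⟨k1, k2⟩ := inv_core (S := 2 ^ 48) (g := g) (by positivity) hloR hT1 hT2 (Nat.cast_nonneg q) hu
    ((invG_ge q lo hlo).trans (by exact_mod_cast hg1))
    ((invG_ge q hi (by omega)).trans (by exact_mod_cast hg2))
  have e1 : ((2 : ℝ) ^ 48) ^ 2 / (2 ^ 48 * r) + q * (2 ^ 48 * r) / 2 ^ 48 = 2 ^ 48 * r⁻¹ + q * r := by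
    field_simp
  rw [e1] at k1 k2
  refine ⟨hr0, lin2S hε hx2 ?_ ?_ h H⟩
  · simp only [Nat.sub_eq]
    rw [abs_of_nonpos] <;> omega
  · simp only [Nat.sub_eq, Nat.add_eq, Nat.shiftRight_eq, Nat.shiftRight_eq_div_pow, pow_one]
    have f1 : ((4722366482869645213696 - q : ℕ) : ℝ) = 2 ^ 72 - q := by
      rw [Nat.cast_sub (by omega)]; norm_num
    have f2 : (g : ℝ) ≤ 2 * ((g / 2 : ℕ) : ℝ) + 1 := by
      have : g ≤ 2 * (g / 2) + 1 := by omega
      exact_mod_cast this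
    have f3 : ((g / 2 : ℕ) : ℝ) ≤ ((g / 2 - u : ℕ) : ℝ) + u := by
      have : g / 2 ≤ (g / 2 - u) + u := by omega
      exact_mod_cast this
    rw [f1]
    generalize g / 2 - u = d at f3 ⊢
    generalize g / 2 = g' at f2 f3 ⊢
    push_cast
    rw [abs_le]
    constructor <;> linarith

theorem sqrtS (hε : ∀ i, |ε i| ≤ 1) (hx : Rel ε x r)
    (h : ∀ z t, Rel ε z t → k z = true → K t) : sqrtK x k = true → letR (Real.sqrt r) K := by
  obtain ⟨c, v, r', e⟩ := x
  intro H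
  obtain ⟨H1, H⟩ := grd_true H
  have H := frz_true H
  have hr' : r' ≤ 2 ^ 72 := by have := Nat.le_of_ble_eq_true H1; omega
  obtain ⟨hx2, hb⟩ := norm_rel hε hx hr'
  generalize radV v = r2 at H hx2 hb
  obtain ⟨hs, H⟩ := frc_true H
  generalize isq _ = s at H hs
  obtain ⟨-, H⟩ := grd_true H
  have H := frz_true H
  generalize hn : Nat.shiftRight (Nat.mul s s) _ = n at H
  have H := frz_true H
  generalize hD : Nat.succ (Nat.add (absO _) _) = D at H
  obtain ⟨H2, H⟩ := grd_true H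
  obtain ⟨H3, H⟩ := grd_true H
  generalize hw : Nat.add s (Nat.sub s _) = w at H
  have H := frz_true H
  generalize hh : Nat.succ (Nat.div _ _) = g at H
  obtain ⟨H4, H⟩ := grd_true H
  have H := frz_true H
  generalize hq : Nat.div _ s = q at H
  have H2 := Nat.le_of_ble_eq_true H2
  have H3 := Nat.le_of_ble_eq_true H3
  have H4 := Nat.le_of_ble_eq_true H4
  have hn' : n = s * s / 2 ^ 48 := by rw [← hn, ← Nat.shiftRight_eq_div_pow]; rfl
  have hD' : D = (c - n - 2 ^ 72) + (2 ^ 72 - (c - n)) + (r2 + e) + 1 := by rw [← hD]; rfl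
  have hw' : w = s + (s - (D * 2 ^ 48 / s + 1)) := by rw [← hw, ← Nat.shiftLeft_eq]; rfl
  have hh' : g = D * D * 2 ^ 94 / (s * (w * w)) + 1 := by rw [← hh, ← Nat.shiftLeft_eq]; rfl
  have hq' : q = 2 ^ 95 / s := by rw [← hq]; rfl
  clear hn hD hw hh hq
  simp only [Nat.add_eq, Nat.sub_eq] at H2 H3
  have hsR : (0 : ℝ) < s := by exact_mod_cast hs
  obtain ⟨hb1, hb2⟩ := abs_le.1 hb
  have n1 : (n : ℝ) * 2 ^ 48 ≤ (s : ℝ) ^ 2 := by
    have := div_le (s * s) (2 ^ 48)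
    rw [← hn'] at this; push_cast at this; rw [sq]; linarith
  have n2 : (s : ℝ) ^ 2 ≤ ((n : ℝ) + 1) * 2 ^ 48 := by
    have := div_lt (s * s) (2 ^ 48) (by positivity)
    rw [← hn'] at this; push_cast at this; rw [sq]; linarith
  have d1 : (c : ℝ) + (r2 + e) + 1 ≤ D + n + 2 ^ 72 := by
    have : c + (r2 + e) + 1 ≤ D + n + 2 ^ 72 := by omega
    exact_mod_cast this
  have d2 : (n : ℝ) + 2 ^ 72 + (r2 + e) + 1 ≤ D + c := by
    have : n + 2 ^ 72 + (r2 + e) + 1 ≤ D + c := by omega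
    exact_mod_cast this
  have d3 : (2 : ℝ) ^ 72 + (r2 + e) ≤ c + n := by
    have : 2 ^ 72 + (r2 + e) ≤ c + n := by omega
    exact_mod_cast this
  have hPD : |2 ^ 48 * (2 ^ 48 * r) - (s : ℝ) ^ 2| ≤ (D : ℝ) * 2 ^ 48 := by
    rw [abs_le]; constructor <;> linarith
  have hP : -(s : ℝ) ^ 2 ≤ 2 ^ 48 * (2 ^ 48 * r) := by linarith
  have w1 : (s : ℝ) ≤ w := by
    have : s ≤ w := by omega
    exact_mod_cast this
  have w2 : (w : ℝ) ≤ s + max 0 (s - D * 2 ^ 48 / s : ℝ) := by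
    have h1 := div_lt (D * 2 ^ 48) s hs
    generalize D * 2 ^ 48 / s = j at hw' h1
    push_cast at h1
    have h2 : (D : ℝ) * 2 ^ 48 / s ≤ j + 1 := by
      rw [div_le_iff₀ hsR]; norm_num at h1 ⊢; exact h1.le
    rcases le_total s (j + 1) with h3 | h3
    · have : w = s := by omega
      rw [this]; exact le_add_of_nonneg_right (le_max_left _ _)
    · have h4 : w + (j + 1) = s + s := by omega
      have h5 : (w : ℝ) + (j + 1) = s + s := by exact_mod_cast h4
      have := le_max_right (0 : ℝ) (s - D * 2 ^ 48 / s : ℝ)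
      linarith
  have hw0 : 0 < s * (w * w) := by
    have : 0 < w := by omega
    positivity
  have g1 : ((D : ℝ) * 2 ^ 48) ^ 2 ≤ 4 * g * (s * (w : ℝ) ^ 2) := by
    have h1 := div_lt (D * D * 2 ^ 94) (s * (w * w)) hw0
    generalize D * D * 2 ^ 94 / (s * (w * w)) = j at hh' h1
    rw [hh']
    push_cast at h1 ⊢
    calc ((D : ℝ) * 2 ^ 48) ^ 2 = 4 * (D * D * 2 ^ 94) := by ring
      _ ≤ 4 * (((j : ℝ) + 1) * (s * (w * w))) := by norm_num at h1 ⊢; exact h1.le
      _ = _ := by ring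
  obtain ⟨k1, k2⟩ := sqrt_core hsR w1 w2 hPD hP g1
  have e1 : Real.sqrt (2 ^ 48 * (2 ^ 48 * r)) = 2 ^ 48 * Real.sqrt r := by
    rw [← mul_assoc, ← sq, Real.sqrt_mul (by positivity), Real.sqrt_sq (by positivity)]
  rw [e1] at k1 k2
  have q1 : (q : ℝ) * s ≤ 2 ^ 95 := by
    have := div_le (2 ^ 95) s
    rw [← hq'] at this; push_cast at this; norm_num at this ⊢; exact this
  have q2 : (2 : ℝ) ^ 95 ≤ ((q : ℝ) + 1) * s := by
    have := div_lt (2 ^ 95) s hs
    rw [← hq'] at this; push_cast at this; norm_num at this ⊢; exact this.le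
  have q3 : q * s ≤ 2 ^ 95 := by rw [hq']; exact Nat.div_mul_le_self _ _
  refine lin2S hε hx2 ?_ ?_ h H
  · simp only [Nat.add_eq]
    rw [abs_of_nonneg] <;> omega
  · simp only [Nat.sub_eq, Nat.add_eq, Nat.mul_eq, Nat.shiftRight_eq, Nat.shiftRight_eq_div_pow]
    have f1 := div_le (q * (s * s)) (2 ^ 96)
    have f2 := div_lt (q * (s * s)) (2 ^ 96) (by positivity)
    have f3 := div_lt D (2 ^ 48) (by positivity)
    have f4 : q * (s * s) / 2 ^ 96 ≤ s := by
      apply Nat.div_le_of_le_mul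
      calc q * (s * s) = q * s * s := by ring
        _ ≤ 2 ^ 95 * s := Nat.mul_le_mul_right _ q3
        _ ≤ 2 ^ 96 * s := Nat.mul_le_mul_right _ (by norm_num)
    generalize q * (s * s) / 2 ^ 96 = a at f1 f2 f4 ⊢
    generalize D / 2 ^ 48 = b at f3 ⊢
    have f5 : a + g ≤ s + 4722366482869645213696 + 0 := by
      have H5 : g ≤ 1180591620717411303424 := H4
      clear * - f4 H5
      omega
    rw [Nat.cast_sub f5, Nat.add_zero]
    push_cast at f1 f2 f3 ⊢
    generalize hP' : 2 ^ 48 * (2 ^ 48 * r) - (s : ℝ) ^ 2 = X at hPD k1 k2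
    have e2 : (q : ℝ) * r = q * X / 2 ^ 96 + q * (s * s) / 2 ^ 96 := by
      rw [← hP']; ring
    have e3 : |X / (2 * s) - q * X / 2 ^ 96| ≤ (b : ℝ) + 1 := by
      have e4 : X / (2 * s) - q * X / 2 ^ 96 = ((2 ^ 95 - q * s) / s) * X / 2 ^ 96 := by
        field_simp
      have e5 : |((2 : ℝ) ^ 95 - q * s) / s| ≤ 1 := by
        rw [abs_of_nonneg (div_nonneg (by linarith) hsR.le), div_le_one hsR]
        linarith
      rw [e4, abs_div, abs_mul, abs_of_pos (by positivity : (0 : ℝ) < 2 ^ 96),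
        div_le_iff₀ (by positivity)]
      have e6 := mul_le_mul e5 hPD (abs_nonneg _) zero_le_one
      linarith
    obtain ⟨e4, e5⟩ := abs_le.1 e3
    have e6 : (a : ℝ) ≤ q * (s * s) / 2 ^ 96 := by
      rw [le_div_iff₀ (by positivity)]; norm_num at f1 ⊢; exact f1
    have e7 : (q : ℝ) * (s * s) / 2 ^ 96 ≤ a + 1 := by
      rw [div_le_iff₀ (by positivity)]; norm_num at f2 ⊢; exact f2.le
    have e8 : ((q : ℝ) + 4722366482869645213696 - 2 ^ 72) * r = q * r := by norm_num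
    rw [e8, e2, abs_le]
    constructor <;> linarith

end Crest.Agent.R307.AA
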