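import Crest.Agent.R307.AADefs

/-! Row 307 engine: soundness of the linear operations, boxes and trees. -/

set_option autoImplicit false
set_option exponentiation.threshold 1000

namespace Crest.Agent.R307.AA

variable {ε : Fin 4 → ℝ} {x y : AF} {r s : ℝ} {k : AF → Bool} {K : ℝ → Prop}

theorem aal_grd {b c : Bool} (h : grd b c = true) : b = true ∧ c = true := by
  cases b
  · exact absurd h Bool.false_ne_true
  · exact ⟨rfl, h⟩

theorem aal_frc {a : ℕ} {f : ℕ → Bool} (h : frc a f = true) : 0 < a ∧ f a = true := by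
  cases a
  · exact absurd h Bool.false_ne_true
  · exact ⟨Nat.succ_pos _, h⟩

theorem aal_frz {a : ℕ} {f : ℕ → Bool} (h : frz a f = true) : f a = true := by
  cases a
  · exact h
  · exact h

theorem aal_frc4 {a b c d : ℕ} (h : frc4 a b (Nat.succ c) (Nat.succ d) k = true) :
    0 < a ∧ 0 < b ∧ k ⟨a, b, c, d⟩ = true := by
  cases a
  · exact absurd h Bool.false_ne_true
  · cases b
    · exact absurd h Bool.false_ne_true
    · exact ⟨Nat.succ_pos _, Nat.succ_pos _, h⟩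

theorem aal_absO (c : ℕ) : (absO c : ℤ) = |(c : ℤ) - 2 ^ 72| := by
  change ((c - 4722366482869645213696 + (4722366482869645213696 - c) : ℕ) : ℤ) = _
  rcases abs_cases ((c : ℤ) - 2 ^ 72) with h | h <;> omega

theorem aal_subO (a : ℕ) : Nat.sub a (nat_lit 4722366482869645213696) = a - 4722366482869645213696 :=
  Nat.sub_eq

theorem aal_subOV (a : ℕ) : Nat.sub a (nat_lit 14742040721959145907193572581985425355144223517261807336930832847012812818609968218595532933478475616802202393639195608669094409152618224491165816057627111079893008384) =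
    a - 14742040721959145907193572581985425355144223517261807336930832847012812818609968218595532933478475616802202393639195608669094409152618224491165816057627111079893008384 :=
  Nat.sub_eq

theorem aal_cast_sub {a b : ℕ} (h : 0 < a - b) : ((a - b : ℕ) : ℝ) = (a : ℝ) - b :=
  Nat.cast_sub (by omega)

theorem cst_rel {c e : ℕ} {t : ℝ} (h : |2 ^ 48 * t - ((c : ℝ) - 2 ^ 72)| ≤ (e : ℝ)) : Rel ε (cst c e) t := by
  intro _
  refine ⟨0, 0, 0, 0, ?_, by simp, ?_⟩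
  · change ((14742040721959145907193572581985425355144223517261807336930832847012812818609968218595532933478475616802202393639195608669094409152618224491165816057627111079893008384 : ℕ) : ℤ) = _
    norm_num
  · change |2 ^ 48 * t - ((c : ℝ) - 2 ^ 72 + _ + _ + _ + _)| ≤ (e : ℝ)
    simpa using h

theorem parS {ps j : ℕ} (h : ∀ z t, Rel ε z t → k z = true → K t) :
    parK ps j k = true → letR (parV ps j) K := by
  intro hk
  refine h _ _ (cst_rel ?_) (aal_frz hk)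
  have : (2 : ℝ) ^ 48 * parV ps j - ((parN ps j : ℝ) - 2 ^ 72) = 0 := by
    unfold parV val
    field_simp
    ring
  rw [this]
  simp

theorem addS (hx : Rel ε x r) (hy : Rel ε y s) (h : ∀ z t, Rel ε z t → k z = true → K t) :
    addK x y k = true → letR (r + s) K := by
  obtain ⟨c, v, ρ, e⟩ := x
  obtain ⟨c', v', ρ', e'⟩ := y
  intro hk
  have hk' : frc4 (Nat.sub (c + c') (nat_lit 4722366482869645213696)) (Nat.sub (v + v') (nat_lit 14742040721959145907193572581985425355144223517261807336930832847012812818609968218595532933478475616802202393639195608669094409152618224491165816057627111079893008384))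
      (Nat.succ (ρ + ρ')) (Nat.succ (e + e')) k = true := hk
  rw [aal_subO, aal_subOV] at hk'
  obtain ⟨h1, h2, h3⟩ := aal_frc4 hk'
  refine h _ _ ?_ h3
  intro hr
  change ρ + ρ' ≤ 2 ^ 72 at hr
  obtain ⟨a0, a1, a2, a3, hv, ha, he⟩ := hx (by change ρ ≤ _; omega)
  obtain ⟨b0, b1, b2, b3, hv', hb, he'⟩ := hy (by change ρ' ≤ _; omega)
  dsimp only at hv ha he hv' hb he' ⊢
  refine ⟨a0 + b0, a1 + b1, a2 + b2, a3 + b3, by omega, ?_, ?_⟩
  · have := abs_add_le a0 b0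
    have := abs_add_le a1 b1
    have := abs_add_le a2 b2
    have := abs_add_le a3 b3
    push_cast
    linarith
  · rw [aal_cast_sub h1]
    push_cast
    rw [abs_le] at he he' ⊢
    constructor <;> linarith [he.1, he.2, he'.1, he'.2]

theorem subS (hx : Rel ε x r) (hy : Rel ε y s) (h : ∀ z t, Rel ε z t → k z = true → K t) :
    subK x y k = true → letR (r - s) K := by
  obtain ⟨c, v, ρ, e⟩ := x
  obtain ⟨c', v', ρ', e'⟩ := y
  intro hk
  obtain ⟨h1, h2, h3⟩ := aal_frc4 (a := c + 4722366482869645213696 - c') (b := v + 14742040721959145907193572581985425355144223517261807336930832847012812818609968218595532933478475616802202393639195608669094409152618224491165816057627111079893008384 - v')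
    (c := ρ + ρ') (d := e + e') hk
  refine h _ _ ?_ h3
  intro hr
  change ρ + ρ' ≤ 2 ^ 72 at hr
  obtain ⟨a0, a1, a2, a3, hv, ha, he⟩ := hx (by change ρ ≤ _; omega)
  obtain ⟨b0, b1, b2, b3, hv', hb, he'⟩ := hy (by change ρ' ≤ _; omega)
  dsimp only at hv ha he hv' hb he' ⊢
  refine ⟨a0 - b0, a1 - b1, a2 - b2, a3 - b3, by omega, ?_, ?_⟩
  · have := abs_sub a0 b0
    have := abs_sub a1 b1
    have := abs_sub a2 b2
    have := abs_sub a3 b3
    push_cast
    linarith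
  · rw [aal_cast_sub h1]
    push_cast
    rw [abs_le] at he he' ⊢
    constructor <;> linarith [he.1, he.2, he'.1, he'.2]

theorem addcS {c e : ℕ} (hx : Rel ε x r) (hc : |2 ^ 48 * s - ((c : ℝ) - 2 ^ 72)| ≤ (e : ℝ))
    (h : ∀ z t, Rel ε z t → k z = true → K t) : addcK x c e k = true → letR (r + s) K := by
  obtain ⟨c0, v, ρ, e0⟩ := x
  intro hk
  have hk' : frc (Nat.sub (c0 + c) (nat_lit 4722366482869645213696))
      (fun c2 => frz (e0 + e) fun e2 => k ⟨c2, v, ρ, e2⟩) = true := hk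
  rw [aal_subO] at hk'
  obtain ⟨h1, h2⟩ := aal_frc hk'
  have h3 := aal_frz h2
  refine h _ _ ?_ h3
  intro hr
  obtain ⟨a0, a1, a2, a3, hv, ha, he⟩ := hx hr
  dsimp only at hv ha he ⊢
  refine ⟨a0, a1, a2, a3, hv, ha, ?_⟩
  rw [aal_cast_sub h1]
  push_cast
  rw [abs_le] at he hc ⊢
  constructor <;> linarith [he.1, he.2, hc.1, hc.2]

theorem rsubS {c e : ℕ} (hx : Rel ε x r) (hc : |2 ^ 48 * s - ((c : ℝ) - 2 ^ 72)| ≤ (e : ℝ))
    (h : ∀ z t, Rel ε z t → k z = true → K t) : rsubK x c e k = true → letR (s - r) K := by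
  obtain ⟨c0, v, ρ, e0⟩ := x
  intro hk
  obtain ⟨h1, h2, h3⟩ := aal_frc4 (a := c + 4722366482869645213696 - c0) (b := 29484081443918291814387145163970850710288447034523614673861665694025625637219936437191065866956951233604404787278391217338188818305236448982331632115254222159786016768 - v)
    (c := ρ) (d := e0 + e) hk
  refine h _ _ ?_ h3
  intro hr
  obtain ⟨a0, a1, a2, a3, hv, ha, he⟩ := hx hr
  dsimp only at hv ha he ⊢
  refine ⟨-a0, -a1, -a2, -a3, by omega, by simpa only [abs_neg] using ha, ?_⟩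
  rw [aal_cast_sub h1]
  push_cast
  rw [abs_le] at he hc ⊢
  constructor <;> linarith [he.1, he.2, hc.1, hc.2]

/-- digit extraction: `radV` is the exact sum of absolute values -/
theorem radV_eq {v : ℕ} {a0 a1 a2 a3 : ℤ}
    (hv : (v : ℤ) = (a0 + 2 ^ 72) + (a1 + 2 ^ 72) * 2 ^ 160 + (a2 + 2 ^ 72) * 2 ^ 320 +
      (a3 + 2 ^ 72) * 2 ^ 480) (h : |a0| + |a1| + |a2| + |a3| ≤ 2 ^ 72) :
    (radV v : ℤ) = |a0| + |a1| + |a2| + |a3| := by
  have m : ∀ n : ℕ, Nat.land n (nat_lit 1461501637330902918203684832716283019655932542975) =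
      n % 2 ^ 160 := fun n => Nat.and_two_pow_sub_one_eq_mod n 160
  have sh : ∀ n j : ℕ, Nat.shiftRight n j = n / 2 ^ j := Nat.shiftRight_eq_div_pow
  have e : radV v = absO (v % 2 ^ 160) + absO (v / 2 ^ 160 % 2 ^ 160) +
      (absO (v / 2 ^ 320 % 2 ^ 160) + absO (v / 2 ^ 480)) := by
    unfold radV
    rw [m, m, m, sh, sh, sh]
    rfl
  have b0 := abs_le.1 (show |a0| ≤ 2 ^ 72 by
    linarith [abs_nonneg a1, abs_nonneg a2, abs_nonneg a3])
  have b1 := abs_le.1 (show |a1| ≤ 2 ^ 72 by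
    linarith [abs_nonneg a0, abs_nonneg a2, abs_nonneg a3])
  have b2 := abs_le.1 (show |a2| ≤ 2 ^ 72 by
    linarith [abs_nonneg a0, abs_nonneg a1, abs_nonneg a3])
  have b3 := abs_le.1 (show |a3| ≤ 2 ^ 72 by
    linarith [abs_nonneg a0, abs_nonneg a1, abs_nonneg a2])
  have e0 : ((v % 2 ^ 160 : ℕ) : ℤ) - 2 ^ 72 = a0 := by omega
  have e1 : ((v / 2 ^ 160 % 2 ^ 160 : ℕ) : ℤ) - 2 ^ 72 = a1 := by omega
  have e2 : ((v / 2 ^ 320 % 2 ^ 160 : ℕ) : ℤ) - 2 ^ 72 = a2 := by omega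
  have e3 : ((v / 2 ^ 480 : ℕ) : ℤ) - 2 ^ 72 = a3 := by omega
  rw [e, Nat.cast_add, Nat.cast_add, Nat.cast_add, aal_absO, aal_absO, aal_absO, aal_absO,
    e0, e1, e2, e3]
  ring

theorem normS (hx : Rel ε x r) (h : ∀ z t, Rel ε z t → k z = true → K t) :
    normK x k = true → letR r K := by
  obtain ⟨c, v, ρ, e⟩ := x
  intro hk
  obtain ⟨h1, h2⟩ := aal_grd (b := Nat.ble ρ 4722366482869645213696) hk
  have h3 : k ⟨c, v, radV v, e⟩ = true := aal_frz h2
  have hρ : ρ ≤ 2 ^ 72 := le_trans (Nat.le_of_ble_eq_true h1) (by norm_num)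
  refine h _ _ ?_ h3
  intro _
  obtain ⟨a0, a1, a2, a3, hv, ha, he⟩ := hx hρ
  dsimp only at hv ha he ⊢
  refine ⟨a0, a1, a2, a3, hv, ?_, he⟩
  rw [radV_eq hv (ha.trans (by exact_mod_cast hρ))]

theorem posS {b : Bool} {Q : Prop} (hε : ∀ i, |ε i| ≤ 1) (hx : Rel ε x r) (h : b = true → Q) :
    posK x b = true → posR r Q := by
  obtain ⟨c, v, ρ, e⟩ := x
  intro hk
  obtain ⟨h1, h2⟩ := aal_grd (b := Nat.ble ρ 4722366482869645213696) hk
  obtain ⟨h3, h4⟩ := aal_grd (b := Nat.ble (radV v + e + 4722366482869645213696) c) h2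
  have hρ : ρ ≤ 2 ^ 72 := le_trans (Nat.le_of_ble_eq_true h1) (by norm_num)
  refine ⟨?_, h h4⟩
  obtain ⟨a0, a1, a2, a3, hv, ha, he⟩ := hx hρ
  dsimp only at hv ha he
  have h5 := radV_eq hv (ha.trans (by exact_mod_cast hρ))
  have h6 : (radV v : ℝ) = |(a0 : ℝ)| + |(a1 : ℝ)| + |(a2 : ℝ)| + |(a3 : ℝ)| := by exact_mod_cast h5
  have h7 : (radV v : ℝ) + e + 4722366482869645213696 ≤ c := by
    exact_mod_cast Nat.le_of_ble_eq_true h3
  have key : ∀ (a : ℝ) (i : Fin 4), -|a| ≤ a * ε i := fun a i => by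
    have : |a * ε i| ≤ |a| := by
      rw [abs_mul]
      exact mul_le_of_le_one_right (abs_nonneg a) (hε i)
    exact (abs_le.1 this).1
  have := (abs_le.1 he).1
  have := key a0 0
  have := key a1 1
  have := key a2 2
  have := key a3 3
  have h8 : 0 ≤ (2 : ℝ) ^ 48 * r := by linarith
  exact nonneg_of_mul_nonneg_right h8 (by positivity)

/-- the noise value of a point of an interval -/
noncomputable def aalEps (l h : ℕ) (x : ℝ) : ℝ :=
  (2 ^ 48 * x - ((((l + h) / 2 : ℕ) : ℝ) - 2 ^ 72)) / (((h - l) / 2 + 1 : ℕ) : ℝ)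

theorem aalEps_le {l h : ℕ} {x : ℝ} (hx : val l ≤ x ∧ x ≤ val h) : |aalEps l h x| ≤ 1 := by
  unfold val at hx
  obtain ⟨h1, h2⟩ := hx
  rw [div_le_iff₀ (by positivity)] at h1
  rw [le_div_iff₀ (by positivity)] at h2
  have hlh : l ≤ h := by
    have : (l : ℝ) ≤ h := by linarith
    exact_mod_cast this
  have e1 : (h : ℝ) ≤ ((l + h) / 2 : ℕ) + ((h - l) / 2 + 1 : ℕ) := by
    have : h ≤ (l + h) / 2 + ((h - l) / 2 + 1) := by omega
    exact_mod_cast this
  have e2 : (((l + h) / 2 : ℕ) : ℝ) ≤ l + ((h - l) / 2 + 1 : ℕ) := by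
    have : (l + h) / 2 ≤ l + ((h - l) / 2 + 1) := by omega
    exact_mod_cast this
  have hpos : (0 : ℝ) < ((h - l) / 2 + 1 : ℕ) := by exact_mod_cast Nat.succ_pos _
  unfold aalEps
  rw [abs_div, abs_of_pos hpos, div_le_one hpos, abs_le]
  constructor <;> linarith

theorem aalEps_mul (l h : ℕ) (x : ℝ) : (((h - l) / 2 + 1 : ℕ) : ℝ) * aalEps l h x =
    2 ^ 48 * x - ((((l + h) / 2 : ℕ) : ℝ) - 2 ^ 72) := by
  have hpos : (0 : ℝ) < ((h - l) / 2 + 1 : ℕ) := by exact_mod_cast Nat.succ_pos _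
  unfold aalEps
  rw [mul_div_cancel₀ _ hpos.ne']

theorem aal_varA {l h sh : ℕ} (hk : varA l h sh k = true) :
    k ⟨(l + h) / 2, 14742040721959145907193572581985425355144223517261807336930832847012812818609968218595532933478475616802202393639195608669094409152618224491165816057627111079893008384 + ((h - l) / 2 + 1) * 2 ^ sh,
      (h - l) / 2 + 1, 0⟩ = true := by
  have h1 := (aal_frc4 (d := 0) (aal_frz hk)).2.2
  have e1 : Nat.shiftRight (Nat.add l h) (nat_lit 1) = (l + h) / 2 := Nat.shiftRight_eq_div_pow _ 1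
  have e2 : Nat.shiftRight (Nat.sub h l) (nat_lit 1) = (h - l) / 2 := Nat.shiftRight_eq_div_pow _ 1
  have e3 : ∀ a : ℕ, Nat.shiftLeft a sh = a * 2 ^ sh := fun a => Nat.shiftLeft_eq a sh
  rw [e1, e2, e3] at h1
  exact h1

theorem aal_leaf {P : Prog} {Q : ℕ → ℕ → ℝ → ℝ → ℝ → ℝ → Prop} (hP : Sound P Q)
    {j ps l0 h0 l1 h1 l2 h2 l3 h3 : ℕ} (h : leafB P j ps l0 h0 l1 h1 l2 h2 l3 h3 = true) :
    Good Q l0 h0 l1 h1 l2 h2 l3 h3 := by
  intro x0 x1 x2 x3 hx
  have hk := aal_varA (aal_varA (aal_varA (aal_varA h)))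
  refine ⟨j, ps, hP ![aalEps l0 h0 x0, aalEps l1 h1 x1, aalEps l2 h2 x2, aalEps l3 h3 x3] ?_ j ps
    _ _ _ _ _ _ _ _ ?_ ?_ ?_ ?_ hk⟩
  · intro i
    fin_cases i
    · exact aalEps_le hx.1
    · exact aalEps_le hx.2.1
    · exact aalEps_le hx.2.2.1
    · exact aalEps_le hx.2.2.2
  · intro _
    refine ⟨((h0 - l0) / 2 + 1 : ℕ), 0, 0, 0, ?_, ?_, ?_⟩
    · change ((14742040721959145907193572581985425355144223517261807336930832847012812818609968218595532933478475616802202393639195608669094409152618224491165816057627111079893008384 + ((h0 - l0) / 2 + 1) * 2 ^ 0 : ℕ) : ℤ) = _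
      omega
    · simp only [abs_zero, add_zero, Nat.abs_cast, le_refl]
    · have := aalEps_mul l0 h0 x0
      change |2 ^ 48 * x0 - (_ + _ * aalEps l0 h0 x0 + _ + _ + _)| ≤ _
      rw [Int.cast_natCast, this]
      simp
  · intro _
    refine ⟨0, ((h1 - l1) / 2 + 1 : ℕ), 0, 0, ?_, ?_, ?_⟩
    · change ((14742040721959145907193572581985425355144223517261807336930832847012812818609968218595532933478475616802202393639195608669094409152618224491165816057627111079893008384 + ((h1 - l1) / 2 + 1) * 2 ^ 160 : ℕ) : ℤ) = _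
      omega
    · simp only [abs_zero, add_zero, zero_add, Nat.abs_cast, le_refl]
    · have := aalEps_mul l1 h1 x1
      change |2 ^ 48 * x1 - (_ + _ + _ * aalEps l1 h1 x1 + _ + _)| ≤ _
      rw [Int.cast_natCast, this]
      simp
  · intro _
    refine ⟨0, 0, ((h2 - l2) / 2 + 1 : ℕ), 0, ?_, ?_, ?_⟩
    · change ((14742040721959145907193572581985425355144223517261807336930832847012812818609968218595532933478475616802202393639195608669094409152618224491165816057627111079893008384 + ((h2 - l2) / 2 + 1) * 2 ^ 320 : ℕ) : ℤ) = _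
      omega
    · simp only [abs_zero, add_zero, zero_add, Nat.abs_cast, le_refl]
    · have := aalEps_mul l2 h2 x2
      change |2 ^ 48 * x2 - (_ + _ + _ + _ * aalEps l2 h2 x2 + _)| ≤ _
      rw [Int.cast_natCast, this]
      simp
  · intro _
    refine ⟨0, 0, 0, ((h3 - l3) / 2 + 1 : ℕ), ?_, ?_, ?_⟩
    · change ((14742040721959145907193572581985425355144223517261807336930832847012812818609968218595532933478475616802202393639195608669094409152618224491165816057627111079893008384 + ((h3 - l3) / 2 + 1) * 2 ^ 480 : ℕ) : ℤ) = _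
      omega
    · simp only [abs_zero, zero_add, Nat.abs_cast, le_refl]
    · have := aalEps_mul l3 h3 x3
      change |2 ^ 48 * x3 - (_ + _ + _ + _ + _ * aalEps l3 h3 x3)| ≤ _
      rw [Int.cast_natCast, this]
      simp

theorem run_sound {P : Prog} {Q : ℕ → ℕ → ℝ → ℝ → ℝ → ℝ → Prop} (hP : Sound P Q) (t : Tree)
    (ps l0 h0 l1 h1 l2 h2 l3 h3 : ℕ) (h : run P t ps l0 h0 l1 h1 l2 h2 l3 h3 = true) :
    Good Q l0 h0 l1 h1 l2 h2 l3 h3 := by
  induction t generalizing ps l0 h0 l1 h1 l2 h2 l3 h3 with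
  | leaf j => exact aal_leaf hP h
  | par ps' t ih => exact ih ps' l0 h0 l1 h1 l2 h2 l3 h3 h
  | s0 a b iha ihb =>
    obtain ⟨ha, hb⟩ := aal_grd (aal_frz (a := mid l0 h0) (f := fun m =>
      grd (run P a ps l0 m l1 h1 l2 h2 l3 h3) (run P b ps m h0 l1 h1 l2 h2 l3 h3)) h)
    intro x0 x1 x2 x3 hx
    rcases le_total x0 (val (mid l0 h0)) with hm | hm
    · exact iha _ _ _ _ _ _ _ _ _ ha x0 x1 x2 x3 ⟨⟨hx.1.1, hm⟩, hx.2⟩
    · exact ihb _ _ _ _ _ _ _ _ _ hb x0 x1 x2 x3 ⟨⟨hm, hx.1.2⟩, hx.2⟩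
  | s1 a b iha ihb =>
    obtain ⟨ha, hb⟩ := aal_grd (aal_frz (a := mid l1 h1) (f := fun m =>
      grd (run P a ps l0 h0 l1 m l2 h2 l3 h3) (run P b ps l0 h0 m h1 l2 h2 l3 h3)) h)
    intro x0 x1 x2 x3 hx
    rcases le_total x1 (val (mid l1 h1)) with hm | hm
    · exact iha _ _ _ _ _ _ _ _ _ ha x0 x1 x2 x3 ⟨hx.1, ⟨hx.2.1.1, hm⟩, hx.2.2⟩
    · exact ihb _ _ _ _ _ _ _ _ _ hb x0 x1 x2 x3 ⟨hx.1, ⟨hm, hx.2.1.2⟩, hx.2.2⟩
  | s2 a b iha ihb =>
    obtain ⟨ha, hb⟩ := aal_grd (aal_frz (a := mid l2 h2) (f := fun m =>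
      grd (run P a ps l0 h0 l1 h1 l2 m l3 h3) (run P b ps l0 h0 l1 h1 m h2 l3 h3)) h)
    intro x0 x1 x2 x3 hx
    rcases le_total x2 (val (mid l2 h2)) with hm | hm
    · exact iha _ _ _ _ _ _ _ _ _ ha x0 x1 x2 x3 ⟨hx.1, hx.2.1, ⟨hx.2.2.1.1, hm⟩, hx.2.2.2⟩
    · exact ihb _ _ _ _ _ _ _ _ _ hb x0 x1 x2 x3 ⟨hx.1, hx.2.1, ⟨hm, hx.2.2.1.2⟩, hx.2.2.2⟩
  | s3 a b iha ihb =>
    obtain ⟨ha, hb⟩ := aal_grd (aal_frz (a := mid l3 h3) (f := fun m =>
      grd (run P a ps l0 h0 l1 h1 l2 h2 l3 m) (run P b ps l0 h0 l1 h1 l2 h2 m h3)) h)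
    intro x0 x1 x2 x3 hx
    rcases le_total x3 (val (mid l3 h3)) with hm | hm
    · exact iha _ _ _ _ _ _ _ _ _ ha x0 x1 x2 x3 ⟨hx.1, hx.2.1, hx.2.2.1, hx.2.2.2.1, hm⟩
    · exact ihb _ _ _ _ _ _ _ _ _ hb x0 x1 x2 x3 ⟨hx.1, hx.2.1, hx.2.2.1, hm, hx.2.2.2.2⟩

variable {Q : ℕ → ℕ → ℝ → ℝ → ℝ → ℝ → Prop} {l0 h0 l1 h1 l2 h2 l3 h3 m : ℕ}

theorem Good.s0 (a : Good Q l0 m l1 h1 l2 h2 l3 h3) (b : Good Q m h0 l1 h1 l2 h2 l3 h3) :
    Good Q l0 h0 l1 h1 l2 h2 l3 h3 := by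
  intro x0 x1 x2 x3 hx
  rcases le_total x0 (val m) with hm | hm
  · exact a x0 x1 x2 x3 ⟨⟨hx.1.1, hm⟩, hx.2⟩
  · exact b x0 x1 x2 x3 ⟨⟨hm, hx.1.2⟩, hx.2⟩

theorem Good.s1 (a : Good Q l0 h0 l1 m l2 h2 l3 h3) (b : Good Q l0 h0 m h1 l2 h2 l3 h3) :
    Good Q l0 h0 l1 h1 l2 h2 l3 h3 := by
  intro x0 x1 x2 x3 hx
  rcases le_total x1 (val m) with hm | hm
  · exact a x0 x1 x2 x3 ⟨hx.1, ⟨hx.2.1.1, hm⟩, hx.2.2⟩
  · exact b x0 x1 x2 x3 ⟨hx.1, ⟨hm, hx.2.1.2⟩, hx.2.2⟩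

theorem Good.s2 (a : Good Q l0 h0 l1 h1 l2 m l3 h3) (b : Good Q l0 h0 l1 h1 m h2 l3 h3) :
    Good Q l0 h0 l1 h1 l2 h2 l3 h3 := by
  intro x0 x1 x2 x3 hx
  rcases le_total x2 (val m) with hm | hm
  · exact a x0 x1 x2 x3 ⟨hx.1, hx.2.1, ⟨hx.2.2.1.1, hm⟩, hx.2.2.2⟩
  · exact b x0 x1 x2 x3 ⟨hx.1, hx.2.1, ⟨hm, hx.2.2.1.2⟩, hx.2.2.2⟩

theorem Good.s3 (a : Good Q l0 h0 l1 h1 l2 h2 l3 m) (b : Good Q l0 h0 l1 h1 l2 h2 m h3) :
    Good Q l0 h0 l1 h1 l2 h2 l3 h3 := by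
  intro x0 x1 x2 x3 hx
  rcases le_total x3 (val m) with hm | hm
  · exact a x0 x1 x2 x3 ⟨hx.1, hx.2.1, hx.2.2.1, hx.2.2.2.1, hm⟩
  · exact b x0 x1 x2 x3 ⟨hx.1, hx.2.1, hx.2.2.1, hm, hx.2.2.2.2⟩

end Crest.Agent.R307.AA
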