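import Crest.Agent.R307.HBase

/-! Row 307: strong convexity of the defect `FB` in the direction `a0 - a1`. -/

set_option autoImplicit false

namespace Crest.Agent.R307

theorem HBb_d1 {p q g : ℝ} (h : 0 < p + q * g) :
    HasDerivAt (fun g => √(p + q * g)) (q / (2 * √(p + q * g))) g := by
  have h1 : HasDerivAt (fun g => p + q * g) q g := by
    simpa using ((hasDerivAt_id g).const_mul q).const_add p
  exact h1.sqrt h.ne'

theorem HBb_d2 {p q g : ℝ} (h : 0 < p + q * g) :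
    HasDerivAt (fun g => q / (2 * √(p + q * g)))
      (-(q ^ 2 / 4 * (1 / ((p + q * g) * √(p + q * g))))) g := by
  have hs : 0 < √(p + q * g) := Real.sqrt_pos.2 h
  have h1 := ((HBb_d1 h).const_mul 2).inv (by positivity)
  have h2 := h1.const_mul q
  simp only [div_eq_mul_inv q]
  refine HasDerivAt.congr_deriv h2 ?_
  have h3 := Real.sq_sqrt h.le
  generalize √(p + q * g) = s at *
  rw [← h3]
  field_simp
  ring

/-- half of the non-affine part -/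
noncomputable def HBbH (ρ x A0 A1 u g : ℝ) : ℝ :=
  -A0 * √(x + 1 * g) - A1 * √(x + -1 * g) + u * (√(x + ρ * g) + √(x + -ρ * g))

theorem HBb_scale {x t : ℝ} (hx : 0 < x) (ht : 0 < t) :
    t / x * √(t / x) = t * √t / (x * √x) := by
  rw [Real.sqrt_div ht.le]
  field_simp

theorem HBb_convex {ρ x A0 A1 u k : ℝ} (h0 : 0 ≤ ρ) (h1 : ρ < 1) (hu : 0 < u) (hx : 0 < x)
    (hk : Kap ρ (A0 / u) (A1 / u) k) :
    ConvexOn ℝ (Set.Icc (-x) x) fun g => HBbH ρ x A0 A1 u g - u * k / (x * √x) / 8 * g ^ 2 := by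
  have hpos : ∀ g ∈ interior (Set.Icc (-x) x),
      0 < x + 1 * g ∧ 0 < x + -1 * g ∧ 0 < x + ρ * g ∧ 0 < x + -ρ * g := by
    intro g hg
    rw [interior_Icc] at hg
    obtain ⟨h2, h3⟩ := hg
    refine ⟨by linarith, by linarith, by nlinarith, by nlinarith⟩
  refine convexOn_of_hasDerivWithinAt2_nonneg (convex_Icc _ _)
    (f' := fun g => -A0 * (1 / (2 * √(x + 1 * g))) - A1 * (-1 / (2 * √(x + -1 * g))) +
      u * (ρ / (2 * √(x + ρ * g)) + -ρ / (2 * √(x + -ρ * g))) - u * k / (x * √x) / 8 * (2 * g))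
    (f'' := fun g => -A0 * (-(1 ^ 2 / 4 * (1 / ((x + 1 * g) * √(x + 1 * g))))) -
      A1 * (-((-1) ^ 2 / 4 * (1 / ((x + -1 * g) * √(x + -1 * g))))) +
      u * (-(ρ ^ 2 / 4 * (1 / ((x + ρ * g) * √(x + ρ * g)))) +
        -((-ρ) ^ 2 / 4 * (1 / ((x + -ρ * g) * √(x + -ρ * g))))) - u * k / (x * √x) / 8 * 2)
    (by unfold HBbH; fun_prop) (fun g hg => ?_) (fun g hg => ?_) fun g hg => ?_
  · obtain ⟨p1, p2, p3, p4⟩ := hpos g hg
    refine HasDerivAt.hasDerivWithinAt ?_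
    exact ((((HBb_d1 p1).const_mul _).sub ((HBb_d1 p2).const_mul _)).add
      (((HBb_d1 p3).add (HBb_d1 p4)).const_mul _)).sub
      (HasDerivAt.const_mul _ (by simpa using hasDerivAt_pow 2 g))
  · obtain ⟨p1, p2, p3, p4⟩ := hpos g hg
    refine HasDerivAt.hasDerivWithinAt ?_
    exact ((((HBb_d2 p1).const_mul _).sub ((HBb_d2 p2).const_mul _)).add
      (((HBb_d2 p3).add (HBb_d2 p4)).const_mul _)).sub
      (HasDerivAt.const_mul _ (by simpa using (hasDerivAt_id g).const_mul 2))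
  · obtain ⟨p1, p2, p3, p4⟩ := hpos g hg
    have h := hk (g / x) (by rw [lt_div_iff₀ hx]; linarith) (by rw [div_lt_iff₀ hx]; linarith)
    rw [show 1 + g / x = (x + 1 * g) / x by field_simp,
      show 1 - g / x = (x + -1 * g) / x by field_simp; ring,
      show 1 + ρ * (g / x) = (x + ρ * g) / x by field_simp,
      show 1 - ρ * (g / x) = (x + -ρ * g) / x by field_simp; ring,
      HBb_scale hx p1, HBb_scale hx p2, HBb_scale hx p3, HBb_scale hx p4] at h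
    have hX : 0 < x * √x := mul_pos hx (Real.sqrt_pos.2 hx)
    have h2 := mul_le_mul_of_nonneg_left h (div_pos hu hX).le
    generalize (x + 1 * g) * √(x + 1 * g) = t1 at *
    generalize (x + -1 * g) * √(x + -1 * g) = t2 at *
    generalize (x + ρ * g) * √(x + ρ * g) = t3 at *
    generalize (x + -ρ * g) * √(x + -ρ * g) = t4 at *
    generalize x * √x = X at *
    have h3 : u / X * (A0 / u / (t1 / X) + A1 / u / (t2 / X) - ρ ^ 2 * (1 / (t3 / X) + 1 / (t4 / X))) =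
        A0 * (1 / t1) + A1 * (1 / t2) - u * (ρ ^ 2 * (1 / t3 + 1 / t4)) := by
      simp only [div_div_eq_mul_div, div_eq_mul_inv _ t1, div_eq_mul_inv _ t2, div_eq_mul_inv _ t3,
        div_eq_mul_inv _ t4]
      field_simp
    have h4 : u / X * k = u * k / X := by ring
    rw [h3, h4] at h2
    linarith

theorem HBb_support {s : Set ℝ} {f : ℝ → ℝ} (hf : ConvexOn ℝ s f) {a g d : ℝ} (ha : a ∈ s)
    (hg : g ∈ s) (hd : HasDerivAt f d a) : f a + d * (g - a) ≤ f g := by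
  rcases lt_trichotomy a g with h | h | h
  · have h1 := hf.le_slope_of_hasDerivAt ha hg h hd
    rw [slope_def_field, le_div_iff₀ (by linarith)] at h1
    linarith
  · simp [h]
  · have h1 := hf.slope_le_of_hasDerivAt hg ha h hd
    rw [slope_def_field, div_le_iff₀ (by linarith)] at h1
    linarith

theorem HBb_supp2 {ρ x A0 A1 u e g₀ : ℝ} (p1 : 0 < x + 1 * g₀) (p3 : 0 < x + ρ * g₀)
    (p4 : 0 < x + -ρ * g₀) (he : HasDerivAt (fun g => A1 * √(x + -1 * g)) (-e) g₀) (K : ℝ) :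
    HasDerivAt (fun g => HBbH ρ x A0 A1 u g - K / 8 * g ^ 2)
      (-A0 * (1 / (2 * √(x + 1 * g₀))) + e + ρ * u * (1 / (2 * √(x + ρ * g₀)) -
        1 / (2 * √(x + -ρ * g₀))) - K / 4 * g₀) g₀ := by
  have hsq' : HasDerivAt (fun g : ℝ => K / 8 * g ^ 2) (K / 8 * (2 * g₀)) g₀ :=
    HasDerivAt.const_mul _ (by simpa using hasDerivAt_pow 2 g₀)
  refine HasDerivAt.congr_deriv (((((HBb_d1 p1).const_mul (-A0)).sub he).add
      (((HBb_d1 p3).add (HBb_d1 p4)).const_mul u)).sub hsq') ?_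
  ring

theorem HBb_Bg {a c : ℝ} (ha : 0 ≤ a) (hc : 0 < c) : Bg a c = a / (2 * √c) - √a + √c / 2 := by
  have hs : 0 < √c := Real.sqrt_pos.2 hc
  have h := Real.sq_sqrt ha
  unfold Bg
  generalize √a = s at *
  rw [← h]
  field_simp
  ring

theorem HBb_expand {ρ u w U0 Λ W0 W1 c0 r1 x : ℝ} (h0 : 0 ≤ ρ) (h1 : ρ < 1)
    (hc0 : 0 < c0) (hc1 : c0 < 1) (hr0 : 0 ≤ r1) (hr1 : r1 < 1) : ∃ M : ℝ, ∀ g : ℝ,
    -x ≤ g → g ≤ x → -(1 - x) ≤ g → g ≤ 1 - x →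
    FB ρ u w U0 Λ W0 W1 c0 r1 (x + g) (x - g) =
      M + (U0 * (1 / (2 * √c0)) - Λ -
        ρ * u * (1 / (2 * √((1 + ρ) / 2 * c0 + (1 - ρ) / 2 * r1 ^ 2)) -
          1 / (2 * √((1 - ρ) / 2 * c0 + (1 + ρ) / 2 * r1 ^ 2))) -
        W0 * (1 / (2 * √(1 - c0))) + W1 * (1 / (2 * √(1 - r1 ^ 2))) +
        ρ * w * (1 / (2 * √(1 - ((1 + ρ) / 2 * c0 + (1 - ρ) / 2 * r1 ^ 2))) -
          1 / (2 * √(1 - ((1 - ρ) / 2 * c0 + (1 + ρ) / 2 * r1 ^ 2))))) * g +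
      HBbH ρ x U0 (2 * r1 * Λ) u g + HBbH ρ (1 - x) W1 W0 w g := by
  have hr2 : r1 ^ 2 < 1 := by nlinarith
  have hr3 : 0 ≤ r1 ^ 2 := sq_nonneg _
  have e1 : 0 < (1 + ρ) / 2 * c0 + (1 - ρ) / 2 * r1 ^ 2 := by nlinarith
  have e2 : 0 < (1 - ρ) / 2 * c0 + (1 + ρ) / 2 * r1 ^ 2 := by nlinarith
  have e3 : 0 < 1 - ((1 + ρ) / 2 * c0 + (1 - ρ) / 2 * r1 ^ 2) := by nlinarith
  have e4 : 0 < 1 - ((1 - ρ) / 2 * c0 + (1 + ρ) / 2 * r1 ^ 2) := by nlinarith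
  refine ⟨U0 * (x / (2 * √c0) + √c0 / 2) + Λ * (x + r1 ^ 2) -
    u * (x / (2 * √((1 + ρ) / 2 * c0 + (1 - ρ) / 2 * r1 ^ 2)) +
      √((1 + ρ) / 2 * c0 + (1 - ρ) / 2 * r1 ^ 2) / 2 +
      (x / (2 * √((1 - ρ) / 2 * c0 + (1 + ρ) / 2 * r1 ^ 2)) +
      √((1 - ρ) / 2 * c0 + (1 + ρ) / 2 * r1 ^ 2) / 2)) +
    W0 * ((1 - x) / (2 * √(1 - c0)) + √(1 - c0) / 2) +
    W1 * ((1 - x) / (2 * √(1 - r1 ^ 2)) + √(1 - r1 ^ 2) / 2) -
    w * ((1 - x) / (2 * √(1 - ((1 + ρ) / 2 * c0 + (1 - ρ) / 2 * r1 ^ 2))) +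
      √(1 - ((1 + ρ) / 2 * c0 + (1 - ρ) / 2 * r1 ^ 2)) / 2 +
      ((1 - x) / (2 * √(1 - ((1 - ρ) / 2 * c0 + (1 + ρ) / 2 * r1 ^ 2))) +
      √(1 - ((1 - ρ) / 2 * c0 + (1 + ρ) / 2 * r1 ^ 2)) / 2)), fun g g1 g2 g3 g4 => ?_⟩
  unfold FB HBbH
  rw [show (1 + ρ) / 2 * (x + g) + (1 - ρ) / 2 * (x - g) = x + ρ * g by ring,
    show (1 - ρ) / 2 * (x + g) + (1 + ρ) / 2 * (x - g) = x + -ρ * g by ring,
    show 1 - (x + ρ * g) = 1 - x + -ρ * g by ring, show 1 - (x + -ρ * g) = 1 - x + ρ * g by ring,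
    show 1 - (x + g) = 1 - x + -1 * g by ring, show 1 - (x - g) = 1 - x + 1 * g by ring,
    show x + g = x + 1 * g by ring, show x - g = x + -1 * g by ring,
    HBb_Bg (by linarith) hc0, HBb_Bg (by nlinarith) e1, HBb_Bg (by nlinarith) e2,
    HBb_Bg (by linarith) (by linarith : 0 < 1 - c0),
    HBb_Bg (by linarith) (by linarith : 0 < 1 - r1 ^ 2),
    HBb_Bg (by nlinarith) e3, HBb_Bg (by nlinarith) e4, sub_sq (√(x + -1 * g)),
    Real.sq_sqrt (by linarith)]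
  ring

/-- Put `P g = FB … (x + g) (x - g)` on `[-D, D]`, `D = min x (1 - x)`.  There `P` is an affine function of `g` plus
`-U0 √(x+g) - U1 √(x-g) + u (√(x+ρg) + √(x-ρg)) - W0 √(b-g) - W1 √(b+g) + w (√(b-ρg) + √(b+ρg))`, `b = 1 - x`, `U1 = 2 r1 Λ`
(`Bg a c = a / (2 √c) - √a + √c / 2`).  On the open interval `4 P'' = U0 (x+g)^(-3/2) + … ≥ u ku x^(-3/2) + w kw b^(-3/2)`
(`Kap` at `y = g / x` and at `y = g / b`), so `P g - κ g² / 2` is convex on `[-D, D]` (`convexOn_of_deriv2_nonneg` or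
`MonotoneOn.convexOn_of_deriv`).  At the reference `g₀ = (a0 - a1)/2 ∈ [-D, D]` the function `P` (in the expanded form) has
derivative `FB'` when `r1 > 0` (the derivative of `Λ (√(x-g) - r1)²` is `-Λ (1 - r1/√a1) = -Λ (1 - 1/φ)`).  The supporting line of a convex function gives
`P g ≥ P g₀ + P' (g - g₀) + κ (g - g₀)² / 2 ≥ P g₀ - P'² / (2κ) ≥ 0`.
For `r1 = 0`: `g₀ = x` is the right end point, all `g ≤ g₀`, `U1 = 0`, the true derivative is `d := FB' - Λ/φ ≤ FB'`, so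
`d (g - g₀) ≥ FB' (g - g₀)` and the same bound follows. -/
theorem FB_nonneg_of_ref {ρ u w U0 Λ W0 W1 c0 r1 ku kw x a0 φ : ℝ} (h0 : 0 ≤ ρ) (h1 : ρ < 1)
    (hu : 0 < u) (hw : 0 < w) (hU0 : 0 ≤ U0) (hΛ : 0 ≤ Λ) (hW0 : 0 ≤ W0) (hW1 : 0 ≤ W1)
    (hc0 : 0 < c0) (hc1 : c0 < 1) (hr0 : 0 ≤ r1) (hr1 : r1 < 1)
    (hku : Kap ρ (U0 / u) (2 * r1 * Λ / u) ku) (hkw : Kap ρ (W1 / w) (W0 / w) kw)
    (hx0 : 0 < x) (hx1 : x < 1) (hφ : 0 < φ) (ha : a0 + (r1 * φ) ^ 2 = 2 * x) (ha0 : 0 < a0) (ha1 : a0 < 1)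
    (hb1 : (r1 * φ) ^ 2 < 1)
    (hκ : 0 < u * ku / (x * √x) + w * kw / ((1 - x) * √(1 - x)))
    (hP : 2 * FB' ρ u w U0 Λ W0 W1 c0 r1 a0 ((r1 * φ) ^ 2) φ ^ 2 ≤
      (u * ku / (x * √x) + w * kw / ((1 - x) * √(1 - x))) * FB ρ u w U0 Λ W0 W1 c0 r1 a0 ((r1 * φ) ^ 2))
    {b0 b1 : ℝ} (hb00 : 0 ≤ b0) (hb01 : b0 ≤ 1) (hb10 : 0 ≤ b1) (hb11 : b1 ≤ 1) (hb : b0 + b1 = 2 * x) :
    0 ≤ FB ρ u w U0 Λ W0 W1 c0 r1 b0 b1 := by
  obtain ⟨M, hM⟩ := HBb_expand (u := u) (w := w) (U0 := U0) (Λ := Λ) (W0 := W0) (W1 := W1) (x := x)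
    h0 h1 hc0 hc1 hr0 hr1
  have hsq : 0 ≤ (r1 * φ) ^ 2 := sq_nonneg _
  obtain ⟨g₀, hg₀⟩ : ∃ g₀, g₀ = a0 - x := ⟨_, rfl⟩
  obtain ⟨g, hg⟩ : ∃ g, g = b0 - x := ⟨_, rfl⟩
  have e0 : a0 = x + g₀ := by linarith
  have e1 : (r1 * φ) ^ 2 = x - g₀ := by linarith
  have e2 : b0 = x + g := by linarith
  have e3 : b1 = x - g := by linarith
  have hcv := ((HBb_convex h0 h1 hu hx0 hku).subset Set.inter_subset_left
    ((convex_Icc (-x) x).inter (convex_Icc (-(1 - x)) (1 - x)))).add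
    ((HBb_convex h0 h1 hw (by linarith : 0 < 1 - x) hkw).subset Set.inter_subset_right
    ((convex_Icc (-x) x).inter (convex_Icc (-(1 - x)) (1 - x))))
  have p1 : 0 < x + 1 * g₀ := by linarith
  have p3 : 0 < x + ρ * g₀ := by nlinarith
  have p4 : 0 < x + -ρ * g₀ := by nlinarith
  have q1 : 0 < 1 - x + 1 * g₀ := by linarith
  have q2 : 0 < 1 - x + -1 * g₀ := by linarith
  have q3 : 0 < 1 - x + ρ * g₀ := by nlinarith
  have q4 : 0 < 1 - x + -ρ * g₀ := by nlinarith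
  obtain ⟨e, he, he'⟩ : ∃ e : ℝ, HasDerivAt (fun g => 2 * r1 * Λ * √(x + -1 * g)) (-e) g₀ ∧
      0 ≤ (e - Λ / φ) * (g - g₀) := by
    rcases hr0.eq_or_lt with h | h
    · refine ⟨0, ?_, ?_⟩
      · simp only [← h, mul_zero, zero_mul, neg_zero]
        exact hasDerivAt_const _ _
      · have h2 : g₀ = x := by rw [← h] at e1; linarith
        have h3 : 0 ≤ Λ / φ := by positivity
        nlinarith
    · have h2 : 0 < r1 * φ := by positivity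
      have h3 : x + -1 * g₀ = (r1 * φ) ^ 2 := by linarith
      refine ⟨Λ / φ, ?_, by simp⟩
      refine HasDerivAt.congr_deriv ((HBb_d1 (p := x) (q := -1) (g := g₀)
        (by rw [h3]; positivity)).const_mul (2 * r1 * Λ)) ?_
      rw [h3, Real.sqrt_sq h2.le]
      field_simp
  have hd := (HBb_supp2 (A0 := U0) (u := u) p1 p3 p4 he (u * ku / (x * √x))).add
    (HBb_supp2 (A0 := W1) (u := w) (A1 := W0) (e := W0 * (1 / (2 * √(1 - x + -1 * g₀)))) q1 q3 q4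
      (HasDerivAt.congr_deriv ((HBb_d1 q2).const_mul W0) (by ring))
      (w * kw / ((1 - x) * √(1 - x))))
  have hs := HBb_support hcv (a := g₀) (g := g)
    ⟨⟨by linarith, by linarith⟩, by linarith, by linarith⟩
    ⟨⟨by linarith, by linarith⟩, by linarith, by linarith⟩ hd
  have hA := hM g₀ (by linarith) (by linarith) (by linarith) (by linarith)
  have hB := hM g (by linarith) (by linarith) (by linarith) (by linarith)
  rw [← e0, ← e1] at hA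
  rw [← e2, ← e3] at hB
  have key : FB ρ u w U0 Λ W0 W1 c0 r1 a0 ((r1 * φ) ^ 2) +
      FB' ρ u w U0 Λ W0 W1 c0 r1 a0 ((r1 * φ) ^ 2) φ * (g - g₀) +
      (u * ku / (x * √x) + w * kw / ((1 - x) * √(1 - x))) / 8 * (g - g₀) ^ 2 ≤
      FB ρ u w U0 Λ W0 W1 c0 r1 b0 b1 := by
    rw [hA, hB, e1, e0]
    unfold FB' Bg'
    rw [show (1 + ρ) / 2 * (x + g₀) + (1 - ρ) / 2 * (x - g₀) = x + ρ * g₀ by ring,
      show (1 - ρ) / 2 * (x + g₀) + (1 + ρ) / 2 * (x - g₀) = x + -ρ * g₀ by ring,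
      show 1 - (x + ρ * g₀) = 1 - x + -ρ * g₀ by ring,
      show 1 - (x + -ρ * g₀) = 1 - x + ρ * g₀ by ring,
      show 1 - (x + g₀) = 1 - x + -1 * g₀ by ring, show 1 - (x - g₀) = 1 - x + 1 * g₀ by ring,
      show x + g₀ = x + 1 * g₀ by ring]
    simp only [Pi.add_apply] at hs
    generalize u * ku / (x * √x) = K1 at hs ⊢
    generalize w * kw / ((1 - x) * √(1 - x)) = K2 at hs ⊢
    generalize 1 / (2 * √c0) = z1
    generalize 1 / (2 * √(1 - c0)) = z2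
    generalize 1 / (2 * √(1 - r1 ^ 2)) = z3
    generalize 1 / (2 * √((1 + ρ) / 2 * c0 + (1 - ρ) / 2 * r1 ^ 2)) = z4
    generalize 1 / (2 * √((1 - ρ) / 2 * c0 + (1 + ρ) / 2 * r1 ^ 2)) = z5
    generalize 1 / (2 * √(1 - ((1 + ρ) / 2 * c0 + (1 - ρ) / 2 * r1 ^ 2))) = z6
    generalize 1 / (2 * √(1 - ((1 - ρ) / 2 * c0 + (1 + ρ) / 2 * r1 ^ 2))) = z7
    generalize 1 / (2 * √(x + 1 * g₀)) = y1 at hs ⊢
    generalize 1 / (2 * √(x + ρ * g₀)) = y2 at hs ⊢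
    generalize 1 / (2 * √(x + -ρ * g₀)) = y3 at hs ⊢
    generalize 1 / (2 * √(1 - x + 1 * g₀)) = y4 at hs ⊢
    generalize 1 / (2 * √(1 - x + -1 * g₀)) = y5 at hs ⊢
    generalize 1 / (2 * √(1 - x + ρ * g₀)) = y6 at hs ⊢
    generalize 1 / (2 * √(1 - x + -ρ * g₀)) = y7 at hs ⊢
    rw [← mul_one_div Λ φ] at he'
    generalize 1 / φ = y8 at he' ⊢
    clear * - hs he'
    linarith
  generalize FB ρ u w U0 Λ W0 W1 c0 r1 a0 ((r1 * φ) ^ 2) = P at *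
  generalize FB' ρ u w U0 Λ W0 W1 c0 r1 a0 ((r1 * φ) ^ 2) φ = d at *
  generalize u * ku / (x * √x) + w * kw / ((1 - x) * √(1 - x)) = K at *
  refine le_trans ?_ key
  clear * - hκ hP
  refine nonneg_of_mul_nonneg_right (a := K) ?_ hκ
  nlinarith [sq_nonneg (K * (g - g₀) + 4 * d)]

end Crest.Agent.R307
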