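import Crest.Agent.R307.HBase

/-! Row 307: the vertex certificates of the regime `δ ≤ 5/8 α` (definitions).
`α = σ²`, `δ = α ω`, `W = ω²`; base point `α (1 ± z)`, `z = ω / √ik2`. -/

set_option autoImplicit false

namespace Crest.Agent.R307

noncomputable section

/-- affine function of `(σ, W)` -/
def af3 (a b c σ W : ℝ) : ℝ := (a + b * σ) + c * W

/-- quadratic function of `(σ, W)` -/
def gam6 (g0 g1 g2 g3 g4 g5 σ W : ℝ) : ℝ := (g0 + σ * ((g1 + g3 * σ) + g4 * W)) + W * (g2 + g5 * W)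

/-- the multipliers are `muv m n ω` and `muv m n (-ω)` -/
def muv (m n ω : ℝ) : ℝ := 1 + ω ^ 2 * n + ω * m

/-- the defect of the vertex certificate -/
def FBv (ρ m n ik2 σ ω a0 a1 : ℝ) : ℝ :=
  FB ρ (uf (σ ^ 2)) (uf (1 - σ ^ 2)) (muv m n ω * uf (σ ^ 2 + σ ^ 2 * ω))
    (muv m n (-ω) * uf (σ ^ 2 - σ ^ 2 * ω) / (2 * (σ * √(1 - ω / √ik2))))
    (muv m n ω * uf (1 - (σ ^ 2 + σ ^ 2 * ω))) (muv m n (-ω) * uf (1 - (σ ^ 2 - σ ^ 2 * ω)))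
    (σ ^ 2 * (1 + ω / √ik2)) (σ * √(1 - ω / √ik2)) a0 a1

/-- the two moduli of convexity -/
def Kv (ρ m n σ ω ku kw : ℝ) : Prop :=
  Kap ρ (muv m n ω * uf (σ ^ 2 + σ ^ 2 * ω) / uf (σ ^ 2)) (muv m n (-ω) * uf (σ ^ 2 - σ ^ 2 * ω) / uf (σ ^ 2)) ku ∧
  Kap ρ (muv m n (-ω) * uf (1 - (σ ^ 2 - σ ^ 2 * ω)) / uf (1 - σ ^ 2))
    (muv m n ω * uf (1 - (σ ^ 2 + σ ^ 2 * ω)) / uf (1 - σ ^ 2)) kw

/-- value of the affine part of a vertex certificate -/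
def Tv (m n σ ω Γ : ℝ) : ℝ :=
  2 * psiH (σ ^ 2) (σ ^ 2) - muv m n ω * psiH (σ ^ 2 + σ ^ 2 * ω) (σ ^ 2 + σ ^ 2 * ω)
    - muv m n (-ω) * psiH (σ ^ 2 - σ ^ 2 * ω) (σ ^ 2 - σ ^ 2 * ω) - uf (σ ^ 2) * σ * ω ^ 2 * Γ

/-- the scalar half of the certificate (`η = 0`) -/
def Sv (β m n σ ω Γ : ℝ) : Prop :=
  2 * RH β (σ ^ 2) ≤ muv m n ω * RH β (σ ^ 2 + σ ^ 2 * ω) + muv m n (-ω) * RH β (σ ^ 2 - σ ^ 2 * ω) + Tv m n σ ω Γ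

/-- even and odd parts (in `ζ`, `ζ² = Z`) of the Bregman divergence between `c τ² (1 + ζ q)` and `c (1 + ζ)` -/
def PairF (Z q AE Ao be bo ge go ie io he ho : ℝ) : Prop :=
  ∀ ζ : ℝ, ζ ^ 2 = Z → 0 < 1 + ζ ∧ 0 < 1 + ζ * q ∧
    (∀ s τ : ℝ, 0 < s → 0 ≤ τ → Bg (s ^ 2 * τ ^ 2 * (1 + ζ * q)) (s ^ 2 * (1 + ζ)) =
      s / 2 * ((τ - 1) ^ 2 * (1 + Z * AE + ζ * Ao) + 2 * ζ * (τ - 1) * (q - 1) * (be + ζ * bo)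
        + Z * (q - 1) ^ 2 * (ge + ζ * go))) ∧
    (∀ s τ : ℝ, 0 < s → 0 < τ → Bg' (s ^ 2 * τ ^ 2 * (1 + ζ * q)) (s ^ 2 * (1 + ζ)) =
      ((τ - 1) * (ie + ζ * io) + ζ * (q - 1) * (he + ζ * ho)) / (2 * s * τ))

end

end Crest.Agent.R307
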