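import Crest.Agent.R307.CK1bT0

set_option autoImplicit false
set_option maxRecDepth 100000
set_option linter.unusedVariables false

namespace Crest.Agent.R307.CK1b
open Crest.Agent.R307.AA

theorem good : Good PR 4722366482869645213696 4722366764344621924352 4722366482869645213696 4722366586773494038528 4722366482869645213696 4722367233469583108779 4722366764344621924352 4722366764344621924352 :=
  c0

theorem main (k s a b : ℝ) (a0 : (0 : ℝ) ≤ k) (b0 : k ≤ (1 : ℝ)) (a1 : (0 : ℝ) ≤ s) (b1 : s ≤ (189 / 512 : ℝ)) (a2 : (0 : ℝ) ≤ a) (b2 : a ≤ (8 / 3 : ℝ)) (a3 : (1 : ℝ) ≤ b) (b3 : b ≤ (1 : ℝ)) :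
    pa_Spec k s a b ∨ pb_Spec k s a b := by
  obtain ⟨j, ps, h⟩ := good k s a b ⟨⟨le_trans (by norm_num [val]) a0, le_trans b0 (by norm_num [val])⟩, ⟨le_trans (by norm_num [val]) a1, le_trans b1 (by norm_num [val])⟩, ⟨le_trans (by norm_num [val]) a2, le_trans b2 (by norm_num [val])⟩, ⟨le_trans (by norm_num [val]) a3, le_trans b3 (by norm_num [val])⟩⟩
  exact PE h

end Crest.Agent.R307.CK1b
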