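import Crest.Agent.R307.CK1cT0

set_option autoImplicit false
set_option maxRecDepth 100000
set_option linter.unusedVariables false

namespace Crest.Agent.R307.CK1c
open Crest.Agent.R307.AA

theorem good : Good PR 4722366482869645213696 4722366663013630308516 4722366482869645213696 4722366482869645213696 4722366482869645213696 4722366482869645213696 4722366482869645213696 4722366482869645213696 :=
  c0

theorem main (z : ℝ) (a0 : (0 : ℝ) ≤ z) (b0 : z ≤ (16 / 25 : ℝ)) :
    pc_Spec z := by
  obtain ⟨j, ps, h⟩ := good z 0 0 0 ⟨⟨le_trans (by norm_num [val]) a0, le_trans b0 (by norm_num [val])⟩, ⟨by norm_num [val], by norm_num [val]⟩, ⟨by norm_num [val], by norm_num [val]⟩, ⟨by norm_num [val], by norm_num [val]⟩⟩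
  exact PE h

end Crest.Agent.R307.CK1c
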