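import Crest.Agent.R307.CKPt

/-! Row 307: power series of `artanh`, `psi`, `St` and finite bounds. -/

set_option autoImplicit false
open Crest.CubeNoise Finset

namespace Crest.Agent.R307

theorem ser_congr {f g : ℕ → ℝ} {a b : ℝ} (h : HasSum f a) (e : ∀ k, g k = f k) (e' : b = a) :
    HasSum g b := by
  rw [funext e, e']; exact h

theorem ser_artanh {r : ℝ} (h : |r| < 1) :
    HasSum (fun k : ℕ => r ^ (2 * k + 1) / (2 * k + 1)) (Real.artanh r) := by
  rw [artanh_eq h]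
  refine ser_congr ((Real.hasSum_log_sub_log_of_abs_lt_one h).div_const 2) (fun k => ?_) rfl
  have : (2 * (k : ℝ) + 1) ≠ 0 := by positivity
  field_simp

theorem ser_psi_eq {r : ℝ} (h : |r| < 1) :
    psi r = r * Real.artanh r + Real.log (1 - r ^ 2) / 2 := by
  obtain ⟨h1, h2⟩ := abs_lt.1 h
  rw [psi_eq h.le, artanh_eq h, show 1 - r ^ 2 = (1 + r) * (1 - r) by ring,
    Real.log_mul (by linarith) (by linarith)]
  ring

theorem ser_psi {r : ℝ} (h : |r| < 1) :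
    HasSum (fun k : ℕ => (r ^ 2) ^ (k + 1) / ((2 * k + 1) * (2 * k + 2))) (psi r) := by
  have h2 : |r ^ 2| < 1 := by
    rw [abs_pow]; exact pow_lt_one₀ (abs_nonneg _) h two_ne_zero
  have := ((ser_artanh h).mul_left r).sub ((Real.hasSum_pow_div_log_of_abs_lt_one h2).div_const 2)
  rw [ser_psi_eq h]
  refine ser_congr this (fun k => ?_) ?_
  · have h3 : (2 * (k : ℝ) + 1) ≠ 0 := by positivity
    have h4 : ((k : ℝ) + 1) ≠ 0 := by positivity
    have h5 : (2 * (k : ℝ) + 2) ≠ 0 := by positivity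
    field_simp
    ring
  · ring

theorem ser_St {r : ℝ} (h : |r| < 1) :
    HasSum (fun k : ℕ => k * (r ^ 2) ^ (k + 1) / ((k + 1) * (2 * k + 1))) (St r) := by
  have := ((ser_artanh h).mul_left r).sub ((ser_psi h).mul_left 2)
  refine ser_congr this (fun k => ?_) rfl
  have h3 : (2 * (k : ℝ) + 1) ≠ 0 := by positivity
  have h4 : ((k : ℝ) + 1) ≠ 0 := by positivity
  have h5 : (2 * (k : ℝ) + 2) ≠ 0 := by positivity
  field_simp
  ring

/-- partial sums are below `artanh` -/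
theorem ser_artanh_ge {r : ℝ} (h0 : 0 ≤ r) (h1 : r < 1) (n : ℕ) :
    ∑ k ∈ range n, r ^ (2 * k + 1) / (2 * k + 1) ≤ Real.artanh r :=
  sum_le_hasSum _ (fun k _ => by positivity) (ser_artanh (by rwa [abs_of_nonneg h0]))

theorem ser_psi_ge {r : ℝ} (h : |r| < 1) (n : ℕ) :
    ∑ k ∈ range n, (r ^ 2) ^ (k + 1) / ((2 * k + 1) * (2 * k + 2)) ≤ psi r :=
  sum_le_hasSum _ (fun k _ => by positivity) (ser_psi h)

theorem ser_St_ge {r : ℝ} (h : |r| < 1) (n : ℕ) :
    ∑ k ∈ range n, k * (r ^ 2) ^ (k + 1) / ((k + 1) * (2 * k + 1)) ≤ St r :=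
  sum_le_hasSum _ (fun k _ => by positivity) (ser_St h)

/-- a series is bounded by a partial sum plus a telescoping majorant of the tail -/
theorem ser_tail {f g : ℕ → ℝ} {a : ℝ} (hf : HasSum f a) (n : ℕ) (hg : ∀ k, 0 ≤ g k)
    (h : ∀ k, n ≤ k → f k ≤ g k - g (k + 1)) : a ≤ ∑ k ∈ range n, f k + g n := by
  have key : ∀ j, ∑ k ∈ range (n + j), f k ≤ ∑ k ∈ range n, f k + g n - g (n + j) := by
    intro j
    induction j with
    | zero => simp
    | succ j ih =>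
      rw [← add_assoc, sum_range_succ]
      have := h (n + j) (by omega)
      linarith
  refine le_of_tendsto hf.tendsto_sum_nat ?_
  filter_upwards [Filter.eventually_ge_atTop n] with j hj
  obtain ⟨j, rfl⟩ := Nat.exists_eq_add_of_le hj
  have := key j
  have := hg (n + j)
  linarith

theorem ser_psi_le {r : ℝ} (h : |r| < 1) (n : ℕ) :
    psi r ≤ ∑ k ∈ range n, (r ^ 2) ^ (k + 1) / ((2 * k + 1) * (2 * k + 2)) +
      (r ^ 2) ^ (n + 1) / (4 * n + 1) := by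
  have hz0 : 0 ≤ r ^ 2 := sq_nonneg r
  have hz1 : r ^ 2 ≤ 1 := by
    rw [← sq_abs]; exact pow_le_one₀ (abs_nonneg _) h.le
  refine ser_tail (g := fun k => (r ^ 2) ^ (n + 1) / (4 * k + 1)) (ser_psi h) n
    (fun k => by positivity) fun k hk => ?_
  have e : (r ^ 2) ^ (n + 1) / (4 * (k : ℝ) + 1) - (r ^ 2) ^ (n + 1) / (4 * ((k + 1 : ℕ) : ℝ) + 1) =
      (r ^ 2) ^ (n + 1) / ((4 * k + 1) * (4 * k + 5) / 4) := by
    have h3 : (4 * (k : ℝ) + 1) ≠ 0 := by positivity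
    have h4 : (4 * (k : ℝ) + 5) ≠ 0 := by positivity
    have h5 : (4 * ((k : ℝ) + 1) + 1) ≠ 0 := by positivity
    push_cast
    field_simp
    ring
  rw [e]
  refine div_le_div₀ (by positivity) (pow_le_pow_of_le_one hz0 hz1 (by omega)) (by positivity) ?_
  nlinarith [(Nat.cast_nonneg k : (0 : ℝ) ≤ k)]

/-- geometric tail bound for `artanh` -/
theorem ser_artanh_le {r : ℝ} (h0 : 0 ≤ r) (h1 : r < 1) (n : ℕ) :
    Real.artanh r ≤ ∑ k ∈ range n, r ^ (2 * k + 1) / (2 * k + 1) +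
      r ^ (2 * n + 1) / ((2 * n + 1) * (1 - r ^ 2)) := by
  have hz : 0 < 1 - r ^ 2 := by nlinarith
  refine ser_tail (g := fun k => r ^ (2 * k + 1) / ((2 * n + 1) * (1 - r ^ 2)))
    (ser_artanh (by rwa [abs_of_nonneg h0])) n (fun k => by positivity) fun k hk => ?_
  have e : r ^ (2 * k + 1) / ((2 * (n : ℝ) + 1) * (1 - r ^ 2)) -
      r ^ (2 * (k + 1) + 1) / ((2 * n + 1) * (1 - r ^ 2)) = r ^ (2 * k + 1) / (2 * n + 1) := by
    have h3 : (2 * (n : ℝ) + 1) ≠ 0 := by positivity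
    field_simp
    ring
  rw [e]
  have : (n : ℝ) ≤ k := by exact_mod_cast hk
  gcongr

/-- geometric tail bound for `psi` -/
theorem ser_psi_le' {r : ℝ} (h : |r| < 1) (n : ℕ) :
    psi r ≤ ∑ k ∈ range n, (r ^ 2) ^ (k + 1) / ((2 * k + 1) * (2 * k + 2)) +
      (r ^ 2) ^ (n + 1) / ((2 * n + 1) * (2 * n + 2) * (1 - r ^ 2)) := by
  have hz : 0 < 1 - r ^ 2 := by
    have := abs_lt.1 h
    nlinarith
  refine ser_tail (g := fun k => (r ^ 2) ^ (k + 1) / ((2 * n + 1) * (2 * n + 2) * (1 - r ^ 2)))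
    (ser_psi h) n (fun k => by positivity) fun k hk => ?_
  have e : (r ^ 2) ^ (k + 1) / ((2 * (n : ℝ) + 1) * (2 * n + 2) * (1 - r ^ 2)) -
      (r ^ 2) ^ (k + 1 + 1) / ((2 * n + 1) * (2 * n + 2) * (1 - r ^ 2)) =
      (r ^ 2) ^ (k + 1) / ((2 * n + 1) * (2 * n + 2)) := by
    have h3 : (2 * (n : ℝ) + 1) ≠ 0 := by positivity
    have h4 : (2 * (n : ℝ) + 2) ≠ 0 := by positivity
    field_simp
    ring
  rw [e]
  have : (n : ℝ) ≤ k := by exact_mod_cast hk
  gcongr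

/-- geometric tail bound for `St` (the coefficients `k / ((k+1)(2k+1))` are at most `1/(2n+3)` for
`k ≥ n`) -/
theorem ser_St_le {r : ℝ} (h : |r| < 1) (n : ℕ) :
    St r ≤ ∑ k ∈ range n, k * (r ^ 2) ^ (k + 1) / ((k + 1) * (2 * k + 1)) +
      (r ^ 2) ^ (n + 1) / ((2 * n + 3) * (1 - r ^ 2)) := by
  have hz : 0 < 1 - r ^ 2 := by
    have := abs_lt.1 h
    nlinarith
  refine ser_tail (g := fun k => (r ^ 2) ^ (k + 1) / ((2 * n + 3) * (1 - r ^ 2)))
    (ser_St h) n (fun k => by positivity) fun k hk => ?_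
  have e : (r ^ 2) ^ (k + 1) / ((2 * (n : ℝ) + 3) * (1 - r ^ 2)) -
      (r ^ 2) ^ (k + 1 + 1) / ((2 * n + 3) * (1 - r ^ 2)) =
      (r ^ 2) ^ (k + 1) / (2 * n + 3) := by
    have h3 : (2 * (n : ℝ) + 3) ≠ 0 := by positivity
    field_simp
    ring
  rw [e, div_le_div_iff₀ (by positivity) (by positivity)]
  have hk' : (n : ℝ) ≤ k := by exact_mod_cast hk
  have hp : 0 ≤ (r ^ 2) ^ (k + 1) := by positivity
  have hk0 : (0 : ℝ) ≤ k := Nat.cast_nonneg k
  have : (k : ℝ) * (2 * n + 3) ≤ (k + 1) * (2 * k + 1) := by nlinarith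
  nlinarith

end Crest.Agent.R307
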