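import Crest.Agent.R307.CKPt
import Crest.Agent.R307.Ser
import Crest.Agent.R307.CK1a
import Crest.Agent.R307.CK1b
import Crest.Agent.R307.CK1c

/-! Row 307, soft Courtade–Kumar: numerical core of the induction step of the rate bound.

With `k = (1-m)/(1+m)`, `z = (d/(1-m))²`, `t = 1 - m²`: `d²/t = k z`, `Dl = k z A`, `E0 = k z B`,
`ρ̃ t = log (1+k)/k`.  The surplus is compared with a polynomial `G` in `ψ`, the remaining
inequality in `(k, z, I)` is checked by affine arithmetic in two charts. -/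

set_option autoImplicit false
open Crest.CubeNoise Finset

namespace Crest.Agent.R307

noncomputable section

def c1phi (z : ℝ) : ℝ := (1 / 30 * z + 1 / 12) * z + 1 / 2
def c1st (z : ℝ) : ℝ := (3 / 28 * z + 2 / 15) * z + 1 / 6
def c1Alo (k z : ℝ) : ℝ := (k + 1)⁻¹ * (k * c1phi (k ^ 2 * z) + c1phi z)
def c1Ahi (k z : ℝ) : ℝ := c1Alo k z + 1 / 13 * ((k + 1)⁻¹ * (k * (k ^ 2 * z) ^ 3 + z ^ 3))
def c1B (k z : ℝ) : ℝ := z * (k + 1)⁻¹ * (k ^ 3 * c1st (k ^ 2 * z) + c1st z)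
def c1G (x : ℝ) : ℝ := 43 / 64 * x ^ 2 + 11 / 16 * x ^ 3 + 11 / 4 * x ^ 5
def c1L (x : ℝ) : ℝ := 43 / 32 * x + 33 / 16 * x ^ 2 + 55 / 4 * x ^ 4
def c1P (I J : ℝ) : ℝ := 43 / 64 * (I + J) + 11 / 16 * (I ^ 2 + I * J + J ^ 2) +
  11 / 4 * (I ^ 4 + I ^ 3 * J + I ^ 2 * J ^ 2 + I * J ^ 3 + J ^ 4)
def c1Y (k z I : ℝ) : ℝ := c1Ahi k z * c1P I (I - k * z * c1Alo k z) - c1B k z

end

theorem c1_specA {k s a b : ℝ} (hs : 0 ≤ s) (h : CK1a.pa_Spec k s a b) :
    c1Y k (s * a) (s * b) * (1 - k * (s * a)) ≤ k * (s * a) := by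
  obtain ⟨ka, q, k2, z, w, Alo, Ahi, de, p, p2, d2, Pp, B, y, kz, e1, -, e2, e3, e4, e5, e6, e7, e8,
    e9, e10, e11, e12, e13, e14, e15, h⟩ := h
  have a1 : c1Alo k (s * a) = Alo := by
    rw [e6, e2, e5, e3, e4]; unfold c1Alo c1phi; ring
  have a2 : c1Ahi k (s * a) = Ahi := by
    unfold c1Ahi; rw [a1, e7, e2, e5, e3, e4]; ring
  have a3 : c1B k (s * a) = s * B := by
    rw [e13, e2, e5, e3, e4]; unfold c1B c1st; ring
  have a4 : c1P (s * b) (s * b - k * (s * a) * Alo) = s * Pp := by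
    rw [e12, e10, e11, e9, e8, e1]; unfold c1P; ring
  have a5 : c1Y k (s * a) (s * b) = s * y := by
    unfold c1Y; rw [a1, a2, a3, a4, e14]; ring
  rw [a5]
  rw [e15, e4, e1] at h
  nlinarith [mul_nonneg hs h]

theorem c1_specB {k s a b : ℝ} (hs : 0 ≤ s) (h : CK1a.pb_Spec k s a b) :
    (k + 6) * (4 * k + 6)⁻¹ * c1Y k (s * a) (s * b) ≤
      (s * b - k * (s * a) * c1Ahi k (s * a) - k * (s * a) * c1Y k (s * a) (s * b) / 2) *
        (1 + c1Y k (s * a) (s * b)) := by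
  obtain ⟨ka, q, k2, z, w, Alo, Ahi, kz, de, p, p2, d2, Pp, B, y, e1, -, e2, e3, e4, e5, e6, e7, e15,
    e8, e9, e10, e11, e12, e13, e14, -, h⟩ := h
  have a1 : c1Alo k (s * a) = Alo := by
    rw [e6, e2, e5, e3, e4]; unfold c1Alo c1phi; ring
  have a2 : c1Ahi k (s * a) = Ahi := by
    unfold c1Ahi; rw [a1, e7, e2, e5, e3, e4]; ring
  have a3 : c1B k (s * a) = s * B := by
    rw [e13, e2, e5, e3, e4]; unfold c1B c1st; ring
  have a4 : c1P (s * b) (s * b - k * (s * a) * Alo) = s * Pp := by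
    rw [e12, e10, e11, e9, e8, e1]; unfold c1P; ring
  have a5 : c1Y k (s * a) (s * b) = s * y := by
    unfold c1Y; rw [a1, a2, a3, a4, e14]; ring
  rw [a5, a2]
  rw [e15, e4, e1] at h
  have := mul_nonneg hs h
  generalize (k + 6) * (4 * k + 6)⁻¹ = ρ at *
  nlinarith

theorem c1_num {k z I : ℝ} (hk0 : 0 ≤ k) (hk1 : k ≤ 1) (hz0 : 0 < z) (hz1 : z ≤ 1) (hI0 : 0 ≤ I)
    (hI1 : I ≤ 189 / 512) :
    c1Y k z I * (1 - k * z) ≤ k * z ∨
      (k + 6) * (4 * k + 6)⁻¹ * c1Y k z I ≤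
        (I - k * z * c1Ahi k z - k * z * c1Y k z I / 2) * (1 + c1Y k z I) := by
  rcases le_or_gt I (3 / 8 * z) with h | h
  · have e1 : z * 1 = z := mul_one z
    have e2 : z * (I / z) = I := by field_simp
    rcases CK1a.main k z 1 (I / z) hk0 hk1 hz0.le hz1 le_rfl le_rfl (by positivity)
      (by rw [div_le_iff₀ hz0]; exact h) with h' | h'
    · have := c1_specA hz0.le h'
      rw [e1, e2] at this
      exact Or.inl this
    · have := c1_specB hz0.le h'
      rw [e1, e2] at this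
      exact Or.inr this
  · have hI : 0 < I := by linarith
    have e1 : I * 1 = I := mul_one I
    have e2 : I * (z / I) = z := by field_simp
    rcases CK1b.main k I (z / I) 1 hk0 hk1 hI0 hI1 (by positivity)
      (by rw [div_le_iff₀ hI]; linarith) le_rfl le_rfl with h' | h'
    · have := c1_specA hI0 (show CK1a.pa_Spec k I (z / I) 1 from h')
      rw [e1, e2] at this
      exact Or.inl this
    · have := c1_specB hI0 (show CK1a.pb_Spec k I (z / I) 1 from h')
      rw [e1, e2] at this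
      exact Or.inr this

/-- the slope of the surplus is below the polynomial `c1L` -/
theorem c1_slope {r : ℝ} (h0 : 0 ≤ r) (h1 : r ≤ 4 / 5) :
    r / (1 - r ^ 2) - Real.artanh r ≤ c1L (psi r) * Real.artanh r := by
  have hr : |r| < 1 := by rw [abs_of_nonneg h0]; linarith
  have hz : 0 < 1 - r ^ 2 := by nlinarith
  obtain ⟨q, f, x, e1, e2, e3, h⟩ := CK1c.main (r ^ 2) (sq_nonneg r) (by nlinarith)
  have t1 := ser_artanh_ge h0 (by linarith) 10
  have t2 := ser_psi_ge hr 8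
  set τ := ∑ k ∈ range 10, r ^ (2 * k + 1) / (2 * (k : ℝ) + 1) with hτ
  have a1 : τ * (1 - r ^ 2) = r * (1 - r ^ 2 * q) := by
    rw [hτ, e1]
    simp only [sum_range_succ, range_zero, sum_empty]
    push_cast
    ring
  have a2 : x ≤ psi r := by
    refine le_of_eq_of_le ?_ t2
    rw [e3, e2]
    simp only [sum_range_succ, range_zero, sum_empty]
    push_cast
    ring
  have hf : 0 ≤ f := by rw [e2]; positivity
  have hx : 0 ≤ x := by rw [e3]; positivity
  have hτ0 : 0 ≤ τ := sum_nonneg fun k _ => by positivity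
  have a3 : c1L x ≤ c1L (psi r) := by unfold c1L; gcongr
  have a4 : 0 ≤ c1L x := by unfold c1L; positivity
  have a5 : r ≤ τ * (1 - r ^ 2) * (1 + c1L x) := by
    have := mul_nonneg (mul_nonneg h0 (sq_nonneg r)) h
    have e : c1L x = r ^ 2 * f * (x * (55 / 4 * x ^ 2 + 33 / 16) + 43 / 32) := by
      rw [← e3]; unfold c1L; ring
    rw [a1, e]
    nlinarith
  have a6 : τ * (1 - r ^ 2) * (1 + c1L x) ≤ Real.artanh r * (1 - r ^ 2) * (1 + c1L (psi r)) := by
    have := hτ0.trans t1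
    gcongr
  rw [sub_le_iff_le_add, div_le_iff₀ hz]
  nlinarith

theorem c1_deriv {r : ℝ} (h : |r| < 1) :
    HasDerivAt (fun x => c1G (psi x) - St x)
      (c1L (psi r) * Real.artanh r - (r / (1 - r ^ 2) - Real.artanh r)) r := by
  have h1 := hasDerivAt_psi h
  have h2 := hasDerivAt_artanh' h
  have h3 := ((((h1.pow 2).const_mul (43 / 64)).add ((h1.pow 3).const_mul (11 / 16))).add
    ((h1.pow 5).const_mul (11 / 4))).sub (((hasDerivAt_id r).mul h2).sub (h1.const_mul 2))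
  refine (h3.congr_deriv ?_).congr_of_eventuallyEq (Filter.Eventually.of_forall fun x => ?_)
  · unfold c1L
    simp only [id]
    push_cast
    ring
  · simp [c1G, St]

theorem c1_St {σ r : ℝ} (h0 : 0 ≤ σ) (h : σ ≤ r) (h1 : r ≤ 4 / 5) :
    St r - St σ ≤ c1G (psi r) - c1G (psi σ) := by
  have hd : ∀ x ∈ Set.Icc (0 : ℝ) (4 / 5), |x| < 1 := fun x hx => by
    rw [abs_of_nonneg hx.1]; linarith [hx.2]
  have hm : MonotoneOn (fun x => c1G (psi x) - St x) (Set.Icc 0 (4 / 5)) := by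
    refine monotoneOn_of_deriv_nonneg (convex_Icc _ _)
      (fun x hx => (c1_deriv (hd x hx)).continuousAt.continuousWithinAt)
      (fun x hx => (c1_deriv (hd x (interior_subset hx))).differentiableAt.differentiableWithinAt)
      fun x hx => ?_
    have hx' := interior_subset hx
    rw [(c1_deriv (hd x hx')).deriv]
    linarith [c1_slope hx'.1 hx'.2]
  have := hm ⟨h0, h.trans h1⟩ ⟨h0.trans h, h1⟩ h
  simp only at this
  linarith

theorem c1_log {k : ℝ} (hk : 0 ≤ k) : Real.log (1 + k) ≤ k * ((k + 6) * (4 * k + 6)⁻¹) := by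
  have hd : ∀ x : ℝ, 0 ≤ x → HasDerivAt (fun x => x * ((x + 6) * (4 * x + 6)⁻¹) - Real.log (1 + x))
      (4 * x ^ 3 / ((4 * x + 6) ^ 2 * (1 + x))) x := by
    intro x hx
    have h1 : HasDerivAt (fun x : ℝ => 4 * x + 6) 4 x := by
      simpa using ((hasDerivAt_id x).const_mul 4).add_const 6
    have h2 : HasDerivAt (fun x : ℝ => 1 + x) 1 x := by
      simpa using (hasDerivAt_id x).const_add 1
    have h3 := ((hasDerivAt_id x).mul (((hasDerivAt_id x).add_const 6).mul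
      (h1.inv (by positivity)))).sub (h2.log (by positivity))
    refine (h3.congr_deriv ?_).congr_of_eventuallyEq (Filter.Eventually.of_forall fun x => ?_)
    · simp only [id, Pi.mul_apply, Pi.inv_apply]
      field_simp
      ring
    · simp
  have hm : MonotoneOn (fun x : ℝ => x * ((x + 6) * (4 * x + 6)⁻¹) - Real.log (1 + x))
      (Set.Ici 0) := by
    refine monotoneOn_of_deriv_nonneg (convex_Ici _)
      (fun x hx => (hd x hx).continuousAt.continuousWithinAt)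
      (fun x hx => (hd x (interior_subset hx)).differentiableAt.differentiableWithinAt)
      fun x hx => ?_
    have hx' : 0 ≤ x := interior_subset hx
    rw [(hd x hx').deriv]
    positivity
  have := hm Set.self_mem_Ici hk hk
  simp at this
  linarith

theorem c1_psi_lo {y : ℝ} (h : |y| < 1) : y ^ 2 * c1phi (y ^ 2) ≤ psi y := by
  refine le_of_eq_of_le ?_ (ser_psi_ge h 3)
  simp only [sum_range_succ, range_zero, sum_empty, c1phi]
  push_cast
  ring

theorem c1_psi_hi {y : ℝ} (h : |y| < 1) : psi y ≤ y ^ 2 * c1phi (y ^ 2) + (y ^ 2) ^ 4 / 13 := by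
  refine (ser_psi_le h 3).trans (le_of_eq ?_)
  simp only [sum_range_succ, range_zero, sum_empty, c1phi]
  push_cast
  ring

theorem c1_St_lo {y : ℝ} (h : |y| < 1) : (y ^ 2) ^ 2 * c1st (y ^ 2) ≤ St y := by
  refine le_of_eq_of_le ?_ (ser_St_ge h 4)
  simp only [sum_range_succ, range_zero, sum_empty, c1st]
  push_cast
  ring

theorem c1_psi_max : psi (4 / 5) ≤ 189 / 512 := by
  refine (ser_psi_le (r := 4 / 5) (by rw [abs_of_nonneg] <;> norm_num) 8).trans ?_
  simp only [sum_range_succ, range_zero, sum_empty]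
  norm_num

/-- the last step: pure algebra -/
theorem c1_fin {κ v Y ρ ρ' Jl : ℝ} (hκv : κ ≤ v) (hκ : 0 ≤ κ) (hv : v < 1) (hρ : ρ ≤ ρ')
    (hρ' : 0 < ρ') (hJ : Jl < ρ * v)
    (h : Y * (1 - κ) ≤ κ ∨ ρ' * Y ≤ Jl * (1 + Y)) : Y * (1 - v) ≤ v := by
  have hv0 : 0 ≤ v := hκ.trans hκv
  rcases le_or_gt Y 0 with hY | hY
  · nlinarith
  rcases h with h | h
  · nlinarith
  · have h1 : ρ * v ≤ ρ' * v := by gcongr
    have h2 : Jl * (1 + Y) ≤ ρ' * v * (1 + Y) := by gcongr; linarith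
    have h3 : ρ' * Y ≤ ρ' * (v * (1 + Y)) := by linarith
    have := le_of_mul_le_mul_left h3 hρ'
    linarith

theorem ck1 {m d r X V : ℝ} (hm : 0 ≤ m) (hd : 0 ≤ d) (hd2 : d ≤ 1 / 2) (hmd : m + d < 1)
    (hr0 : 0 ≤ r) (hr : r ≤ 4 / 5) (h1 : Dl m d ≤ psi r) (h2 : psi r ≤ signEntropy m)
    (hV : d ^ 2 ≤ V) (hV1 : V < 1 - m ^ 2) (hXV : psi r - Dl m d ≤ X + rhoT m * V) :
    ∃ σ : ℝ, 0 ≤ σ ∧ σ < 1 ∧
      (St r - St σ - lam σ * (psi r - Dl m d - psi σ) ≤ E0 m d + 2 * X ∨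
        St r - St σ - lam σ * (psi r - Dl m d - psi σ) ≤
          E0 m d + (d ^ 2 / (1 - m ^ 2 - V) - d ^ 2 / (1 - m ^ 2))) := by
  have hp : |m + d| < 1 := by rw [abs_of_nonneg (by linarith)]; exact hmd
  have hn : |m - d| < 1 := abs_lt.2 ⟨by linarith, by linarith⟩
  have hD0 := Dl_nonneg hp hn
  have hI : psi r ≤ 189 / 512 := (psi_mono hr0 hr (by norm_num)).trans c1_psi_max
  rcases hd.eq_or_lt with rfl | hd'
  · refine ⟨r, hr0, by linarith, Or.inr ?_⟩
    have := E0_nonneg hp hn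
    have e : Dl m 0 = 0 := by unfold Dl; simp
    rw [e]
    simpa using this
  obtain ⟨σ, hσ0, hσ1, hσ⟩ := psi_surj (J := psi r - Dl m d) (by linarith)
    (by linarith [Real.log_two_gt_d9])
  refine ⟨σ, hσ0, hσ1, ?_⟩
  rw [hσ, sub_self, mul_zero, sub_zero]
  have hm1 : 0 < 1 - m := by linarith
  have hm2 : 0 < 1 + m := by linarith
  obtain ⟨k, hk⟩ : ∃ k, k = (1 - m) / (1 + m) := ⟨_, rfl⟩
  obtain ⟨z, hz⟩ : ∃ z, z = (d / (1 - m)) ^ 2 := ⟨_, rfl⟩
  have hk0 : 0 < k := by rw [hk]; positivity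
  have hk1 : k ≤ 1 := by rw [hk, div_le_one hm2]; linarith
  have hy1 : |d / (1 - m)| < 1 := by
    rw [abs_of_nonneg (by positivity), div_lt_one hm1]; linarith
  have hy2 : |d / (1 + m)| < 1 := by
    rw [abs_of_nonneg (by positivity), div_lt_one hm2]; linarith
  have hz0 : 0 < z := by rw [hz]; positivity
  have hz1 : z ≤ 1 := by
    rw [hz, ← sq_abs]; exact pow_le_one₀ (abs_nonneg _) hy1.le
  have hw : (d / (1 + m)) ^ 2 = k ^ 2 * z := by rw [hk, hz]; field_simp
  have hq1 : 1 + m = 2 * (k + 1)⁻¹ := by rw [hk]; field_simp; ring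
  have hq2 : 1 - m = 2 * k * (k + 1)⁻¹ := by rw [hk]; field_simp; ring
  have hq : 0 < (k + 1)⁻¹ := by positivity
  have ht : 0 < 1 - m ^ 2 := by nlinarith
  have hκ : d ^ 2 = k * z * (1 - m ^ 2) := by rw [hk, hz]; field_simp; ring
  have p1 := c1_psi_lo hy1
  have p2 := c1_psi_lo hy2
  have p3 := c1_psi_hi hy1
  have p4 := c1_psi_hi hy2
  have p5 := c1_St_lo hy1
  have p6 := c1_St_lo hy2
  rw [← hz] at p1 p3 p5
  rw [hw] at p2 p4 p6
  have eD : Dl m d = (k + 1)⁻¹ * (psi (d / (1 + m)) + k * psi (d / (1 - m))) := by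
    rw [Dl_eq hp hn]
    nth_rewrite 1 [hq1]
    nth_rewrite 1 [hq2]
    ring
  have eE : E0 m d = (k + 1)⁻¹ * (St (d / (1 + m)) + k * St (d / (1 - m))) := by
    unfold E0
    nth_rewrite 1 [hq1]
    nth_rewrite 1 [hq2]
    ring
  have dlo : k * z * c1Alo k z ≤ Dl m d := by
    rw [eD]
    calc k * z * c1Alo k z = (k + 1)⁻¹ * (k ^ 2 * z * c1phi (k ^ 2 * z) + k * (z * c1phi z)) := by
          unfold c1Alo; ring
      _ ≤ _ := by gcongr
  have dhi : Dl m d ≤ k * z * c1Ahi k z := by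
    rw [eD]
    calc _ ≤ (k + 1)⁻¹ * ((k ^ 2 * z * c1phi (k ^ 2 * z) + (k ^ 2 * z) ^ 4 / 13) +
          k * (z * c1phi z + z ^ 4 / 13)) := by gcongr
      _ = _ := by unfold c1Ahi c1Alo; ring
  have elo : k * z * c1B k z ≤ E0 m d := by
    rw [eE]
    calc k * z * c1B k z =
          (k + 1)⁻¹ * ((k ^ 2 * z) ^ 2 * c1st (k ^ 2 * z) + k * (z ^ 2 * c1st z)) := by
          unfold c1B; ring
      _ ≤ _ := by gcongr
  have hI0 := psi_nonneg r
  have hJ0 : 0 ≤ psi r - Dl m d := by linarith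
  have hP0 : 0 ≤ c1P (psi r) (psi r - Dl m d) := by unfold c1P; positivity
  have hG : c1G (psi r) - c1G (psi r - Dl m d) = Dl m d * c1P (psi r) (psi r - Dl m d) := by
    unfold c1G c1P; ring
  have hN : St r - St σ ≤ Dl m d * c1P (psi r) (psi r - Dl m d) := by
    rcases le_total σ r with h | h
    · have := c1_St hσ0 h hr
      rwa [hσ, hG] at this
    · have := St_mono hr0 h hσ1
      have := mul_nonneg hD0 hP0
      linarith
  have hP : c1P (psi r) (psi r - Dl m d) ≤ c1P (psi r) (psi r - k * z * c1Alo k z) := by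
    have : psi r - Dl m d ≤ psi r - k * z * c1Alo k z := by linarith
    unfold c1P
    gcongr
  have hη : St r - St σ - E0 m d ≤ k * z * c1Y k z (psi r) := by
    have : Dl m d * c1P (psi r) (psi r - Dl m d) ≤
        k * z * c1Ahi k z * c1P (psi r) (psi r - k * z * c1Alo k z) :=
      mul_le_mul dhi hP hP0 (hD0.trans dhi)
    unfold c1Y
    nlinarith
  by_cases hX : St r - St σ ≤ E0 m d + 2 * X
  · exact Or.inl hX
  right
  push Not at hX
  have hρ : rhoT m * (1 - m ^ 2) ≤ (k + 6) * (4 * k + 6)⁻¹ := by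
    have := c1_log hk0.le
    have e : rhoT m * (1 - m ^ 2) = Real.log (1 + k) / k := by
      unfold rhoT
      rw [show 2 / (1 + m) = 1 + k by rw [hk]; field_simp; ring, hk]
      field_simp
      ring
    rw [e, div_le_iff₀ hk0]
    linarith
  have key := c1_fin (κ := k * z) (v := V / (1 - m ^ 2)) (Y := c1Y k z (psi r))
    (Jl := psi r - k * z * c1Ahi k z - k * z * c1Y k z (psi r) / 2)
    (by rw [le_div_iff₀ ht]; linarith) (by positivity) (by rwa [div_lt_one ht]) hρ (by positivity)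
    (by
      have : rhoT m * (1 - m ^ 2) * (V / (1 - m ^ 2)) = rhoT m * V := by field_simp
      rw [this]
      linarith)
    (c1_num hk0.le hk1 hz0 hz1 hI0 hI)
  have htV : 0 < 1 - m ^ 2 - V := by linarith
  have e : d ^ 2 / (1 - m ^ 2 - V) - d ^ 2 / (1 - m ^ 2) = k * z * (V / (1 - m ^ 2 - V)) := by
    rw [hκ]; field_simp; ring
  have key2 : c1Y k z (psi r) ≤ V / (1 - m ^ 2 - V) := by
    rw [le_div_iff₀ htV]
    have e2 : 1 - V / (1 - m ^ 2) = (1 - m ^ 2 - V) / (1 - m ^ 2) := by field_simp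
    rw [e2, ← mul_div_assoc, div_le_div_iff_of_pos_right ht] at key
    exact key
  have : k * z * c1Y k z (psi r) ≤ k * z * (V / (1 - m ^ 2 - V)) := by gcongr
  rw [e]
  linarith

end Crest.Agent.R307
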