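import Crest.Agent.R307.AA

set_option autoImplicit false
set_option maxRecDepth 100000
set_option linter.unusedVariables false

namespace Crest.Agent.R307.CK1a
open Crest.Agent.R307.AA

noncomputable section

theorem k0 : |2 ^ 48 * (1 : ℝ) - (((4722366764344621924352 : ℕ) : ℝ) - 2 ^ 72)| ≤ ((0 : ℕ) : ℝ) := by norm_num [abs_le]
theorem k1 : |2 ^ 48 * (1 / 30 : ℝ) - (((4722366492252144437384 : ℕ) : ℝ) - 2 ^ 72)| ≤ ((1 : ℕ) : ℝ) := by norm_num [abs_le]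
theorem k2 : |2 ^ 48 * (1 / 12 : ℝ) - (((4722366506325893272917 : ℕ) : ℝ) - 2 ^ 72)| ≤ ((1 : ℕ) : ℝ) := by norm_num [abs_le]
theorem k3 : |2 ^ 48 * (1 / 2 : ℝ) - (((4722366623607133569024 : ℕ) : ℝ) - 2 ^ 72)| ≤ ((0 : ℕ) : ℝ) := by norm_num [abs_le]
theorem k4 : |2 ^ 48 * (1 / 13 : ℝ) - (((4722366504521566499131 : ℕ) : ℝ) - 2 ^ 72)| ≤ ((1 : ℕ) : ℝ) := by norm_num [abs_le]
theorem k5 : (1 / 2 : ℝ) = val 4722366623607133569024 := by norm_num [val]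
theorem k6 : (43 / 32 : ℝ) = val 4722366861101645168640 := by norm_num [val]
theorem k7 : |2 ^ 48 * (1 / 3 : ℝ) - (((4722366576694637450581 : ℕ) : ℝ) - 2 ^ 72)| ≤ ((1 : ℕ) : ℝ) := by norm_num [abs_le]
theorem k8 : (33 / 16 : ℝ) = val 4722367063411784679424 := by norm_num [val]
theorem k9 : (2 : ℝ) = val 4722367045819598635008 := by norm_num [val]
theorem k10 : |2 ^ 48 * (1 / 5 : ℝ) - (((4722366539164640555827 : ℕ) : ℝ) - 2 ^ 72)| ≤ ((1 : ℕ) : ℝ) := by norm_num [abs_le]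
theorem k11 : (55 / 4 : ℝ) = val 4722370353150574985216 := by norm_num [val]
theorem k12 : |2 ^ 48 * (3 / 28 : ℝ) - (((4722366513027678432694 : ℕ) : ℝ) - 2 ^ 72)| ≤ ((1 : ℕ) : ℝ) := by norm_num [abs_le]
theorem k13 : |2 ^ 48 * (2 / 15 : ℝ) - (((4722366520399642108450 : ℕ) : ℝ) - 2 ^ 72)| ≤ ((1 : ℕ) : ℝ) := by norm_num [abs_le]
theorem k14 : |2 ^ 48 * (1 / 6 : ℝ) - (((4722366529782141332138 : ℕ) : ℝ) - 2 ^ 72)| ≤ ((1 : ℕ) : ℝ) := by norm_num [abs_le]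
def pa_B (ps : ℕ) (x0 x1 x2 x3 : AF) : Bool :=
  mulK x0 x2 fun z9 =>
  addcK x0 4722366764344621924352 0 fun z7 =>
  invK z7 fun z8 =>
  sqrK x0 fun z5 =>
  mulK x1 x2 fun z4 =>
  mulK z5 z4 fun z6 =>
  mulK (cst 4722366492252144437384 1) z6 fun z12 =>
  addcK z12 4722366506325893272917 1 fun z13 =>
  mulK z13 z6 fun z14 =>
  addcK z14 4722366623607133569024 0 fun z15 =>
  mulK x0 z15 fun z16 =>
  mulK (cst 4722366492252144437384 1) z4 fun z17 =>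
  addcK z17 4722366506325893272917 1 fun z18 =>
  mulK z18 z4 fun z19 =>
  addcK z19 4722366623607133569024 0 fun z20 =>
  addK z16 z20 fun z21 =>
  normK z21 fun z22 =>
  mulK z8 z22 fun z23 =>
  sqrK z6 fun z24 =>
  mulK z24 z6 fun z25 =>
  mulK x0 z25 fun z26 =>
  sqrK z4 fun z27 =>
  mulK z27 z4 fun z28 =>
  addK z26 z28 fun z29 =>
  normK z29 fun z30 =>
  mulK z8 z30 fun z31 =>
  mulK (cst 4722366504521566499131 1) z31 fun z33 =>
  addK z23 z33 fun z34 =>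
  normK z34 fun z77 =>
  mulK z9 z23 fun z50 =>
  smulK z50 4722366623607133569024 fun z51 =>
  subK x3 z51 fun z52 =>
  smulK z52 4722366861101645168640 fun z56 =>
  normK z52 fun z53 =>
  sqrK z53 fun z54 =>
  sqrK z51 fun z55 =>
  mulK (cst 4722366576694637450581 1) z55 fun z58 =>
  addK z54 z58 fun z59 =>
  smulK z59 4722367063411784679424 fun z60 =>
  sqrK x1 fun z61 =>
  smulK z55 4722367045819598635008 fun z62 =>
  addK z54 z62 fun z63 =>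
  normK z63 fun z64 =>
  mulK z54 z64 fun z65 =>
  sqrK z55 fun z66 =>
  mulK (cst 4722366539164640555827 1) z66 fun z68 =>
  addK z65 z68 fun z69 =>
  normK z69 fun z70 =>
  mulK z61 z70 fun z71 =>
  smulK z71 4722370353150574985216 fun z72 =>
  addK z60 z72 fun z73 =>
  normK z73 fun z74 =>
  mulK x1 z74 fun z75 =>
  addK z56 z75 fun z76 =>
  normK z76 fun z78 =>
  mulK z77 z78 fun z79 =>
  mulK x2 z8 fun z35 =>
  mulK x0 z5 fun z36 =>
  mulK (cst 4722366513027678432694 1) z6 fun z38 =>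
  addcK z38 4722366520399642108450 1 fun z39 =>
  mulK z39 z6 fun z40 =>
  addcK z40 4722366529782141332138 1 fun z41 =>
  mulK z36 z41 fun z42 =>
  mulK (cst 4722366513027678432694 1) z4 fun z43 =>
  addcK z43 4722366520399642108450 1 fun z44 =>
  mulK z44 z4 fun z45 =>
  addcK z45 4722366529782141332138 1 fun z46 =>
  addK z42 z46 fun z47 =>
  normK z47 fun z48 =>
  mulK z35 z48 fun z49 =>
  subK z79 z49 fun z80 =>
  normK z80 fun z82 =>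
  mulK x0 z4 fun z10 =>
  rsubK z10 4722366764344621924352 0 fun z81 =>
  mulK z82 z81 fun z83 =>
  subK z9 z83 fun z84 =>
  posK z84 <|
  true

def pa_R (ps : ℕ) (k s a b : ℝ) : Prop :=
  letR (k * a) fun z9 =>
  letR (k + (1 : ℝ)) fun z7 =>
  invR z7 fun z8 =>
  letR (k ^ 2) fun z5 =>
  letR (s * a) fun z4 =>
  letR (z5 * z4) fun z6 =>
  letR ((1 / 30 : ℝ) * z6) fun z12 =>
  letR (z12 + (1 / 12 : ℝ)) fun z13 =>
  letR (z13 * z6) fun z14 =>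
  letR (z14 + (1 / 2 : ℝ)) fun z15 =>
  letR (k * z15) fun z16 =>
  letR ((1 / 30 : ℝ) * z4) fun z17 =>
  letR (z17 + (1 / 12 : ℝ)) fun z18 =>
  letR (z18 * z4) fun z19 =>
  letR (z19 + (1 / 2 : ℝ)) fun z20 =>
  letR (z16 + z20) fun z21 =>
  letR z21 fun z22 =>
  letR (z8 * z22) fun z23 =>
  letR (z6 ^ 2) fun z24 =>
  letR (z24 * z6) fun z25 =>
  letR (k * z25) fun z26 =>
  letR (z4 ^ 2) fun z27 =>
  letR (z27 * z4) fun z28 =>
  letR (z26 + z28) fun z29 =>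
  letR z29 fun z30 =>
  letR (z8 * z30) fun z31 =>
  letR ((1 / 13 : ℝ) * z31) fun z33 =>
  letR (z23 + z33) fun z34 =>
  letR z34 fun z77 =>
  letR (z9 * z23) fun z50 =>
  letR ((1 / 2 : ℝ) * z50) fun z51 =>
  letR (b - z51) fun z52 =>
  letR ((43 / 32 : ℝ) * z52) fun z56 =>
  letR z52 fun z53 =>
  letR (z53 ^ 2) fun z54 =>
  letR (z51 ^ 2) fun z55 =>
  letR ((1 / 3 : ℝ) * z55) fun z58 =>
  letR (z54 + z58) fun z59 =>
  letR ((33 / 16 : ℝ) * z59) fun z60 =>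
  letR (s ^ 2) fun z61 =>
  letR ((2 : ℝ) * z55) fun z62 =>
  letR (z54 + z62) fun z63 =>
  letR z63 fun z64 =>
  letR (z54 * z64) fun z65 =>
  letR (z55 ^ 2) fun z66 =>
  letR ((1 / 5 : ℝ) * z66) fun z68 =>
  letR (z65 + z68) fun z69 =>
  letR z69 fun z70 =>
  letR (z61 * z70) fun z71 =>
  letR ((55 / 4 : ℝ) * z71) fun z72 =>
  letR (z60 + z72) fun z73 =>
  letR z73 fun z74 =>
  letR (s * z74) fun z75 =>
  letR (z56 + z75) fun z76 =>
  letR z76 fun z78 =>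
  letR (z77 * z78) fun z79 =>
  letR (a * z8) fun z35 =>
  letR (k * z5) fun z36 =>
  letR ((3 / 28 : ℝ) * z6) fun z38 =>
  letR (z38 + (2 / 15 : ℝ)) fun z39 =>
  letR (z39 * z6) fun z40 =>
  letR (z40 + (1 / 6 : ℝ)) fun z41 =>
  letR (z36 * z41) fun z42 =>
  letR ((3 / 28 : ℝ) * z4) fun z43 =>
  letR (z43 + (2 / 15 : ℝ)) fun z44 =>
  letR (z44 * z4) fun z45 =>
  letR (z45 + (1 / 6 : ℝ)) fun z46 =>
  letR (z42 + z46) fun z47 =>
  letR z47 fun z48 =>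
  letR (z35 * z48) fun z49 =>
  letR (z79 - z49) fun z80 =>
  letR z80 fun z82 =>
  letR (k * z4) fun z10 =>
  letR ((1 : ℝ) - z10) fun z81 =>
  letR (z82 * z81) fun z83 =>
  letR (z9 - z83) fun z84 =>
  posR z84 <|
  True

theorem pa_S {ε : Fin 4 → ℝ} (hε : ∀ i, |ε i| ≤ 1) (ps : ℕ) (x0 x1 x2 x3 : AF) (k s a b : ℝ)
    (h0 : Rel ε x0 k) (h1 : Rel ε x1 s) (h2 : Rel ε x2 a) (h3 : Rel ε x3 b) :
    pa_B ps x0 x1 x2 x3 = true → pa_R ps k s a b := by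
  delta pa_B pa_R
  exact mulS hε h0 h2 fun z9 t9 g9 =>
  addcS h0 k0 fun z7 t7 g7 =>
  invS hε g7 fun z8 t8 g8 =>
  sqrS hε h0 fun z5 t5 g5 =>
  mulS hε h1 h2 fun z4 t4 g4 =>
  mulS hε g5 g4 fun z6 t6 g6 =>
  mulS hε (cst_rel k1) g6 fun z12 t12 g12 =>
  addcS g12 k2 fun z13 t13 g13 =>
  mulS hε g13 g6 fun z14 t14 g14 =>
  addcS g14 k3 fun z15 t15 g15 =>
  mulS hε h0 g15 fun z16 t16 g16 =>
  mulS hε (cst_rel k1) g4 fun z17 t17 g17 =>
  addcS g17 k2 fun z18 t18 g18 =>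
  mulS hε g18 g4 fun z19 t19 g19 =>
  addcS g19 k3 fun z20 t20 g20 =>
  addS g16 g20 fun z21 t21 g21 =>
  normS g21 fun z22 t22 g22 =>
  mulS hε g8 g22 fun z23 t23 g23 =>
  sqrS hε g6 fun z24 t24 g24 =>
  mulS hε g24 g6 fun z25 t25 g25 =>
  mulS hε h0 g25 fun z26 t26 g26 =>
  sqrS hε g4 fun z27 t27 g27 =>
  mulS hε g27 g4 fun z28 t28 g28 =>
  addS g26 g28 fun z29 t29 g29 =>
  normS g29 fun z30 t30 g30 =>
  mulS hε g8 g30 fun z31 t31 g31 =>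
  mulS hε (cst_rel k4) g31 fun z33 t33 g33 =>
  addS g23 g33 fun z34 t34 g34 =>
  normS g34 fun z77 t77 g77 =>
  mulS hε g9 g23 fun z50 t50 g50 =>
  smulS hε g50 k5 fun z51 t51 g51 =>
  subS h3 g51 fun z52 t52 g52 =>
  smulS hε g52 k6 fun z56 t56 g56 =>
  normS g52 fun z53 t53 g53 =>
  sqrS hε g53 fun z54 t54 g54 =>
  sqrS hε g51 fun z55 t55 g55 =>
  mulS hε (cst_rel k7) g55 fun z58 t58 g58 =>
  addS g54 g58 fun z59 t59 g59 =>
  smulS hε g59 k8 fun z60 t60 g60 =>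
  sqrS hε h1 fun z61 t61 g61 =>
  smulS hε g55 k9 fun z62 t62 g62 =>
  addS g54 g62 fun z63 t63 g63 =>
  normS g63 fun z64 t64 g64 =>
  mulS hε g54 g64 fun z65 t65 g65 =>
  sqrS hε g55 fun z66 t66 g66 =>
  mulS hε (cst_rel k10) g66 fun z68 t68 g68 =>
  addS g65 g68 fun z69 t69 g69 =>
  normS g69 fun z70 t70 g70 =>
  mulS hε g61 g70 fun z71 t71 g71 =>
  smulS hε g71 k11 fun z72 t72 g72 =>
  addS g60 g72 fun z73 t73 g73 =>
  normS g73 fun z74 t74 g74 =>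
  mulS hε h1 g74 fun z75 t75 g75 =>
  addS g56 g75 fun z76 t76 g76 =>
  normS g76 fun z78 t78 g78 =>
  mulS hε g77 g78 fun z79 t79 g79 =>
  mulS hε h2 g8 fun z35 t35 g35 =>
  mulS hε h0 g5 fun z36 t36 g36 =>
  mulS hε (cst_rel k12) g6 fun z38 t38 g38 =>
  addcS g38 k13 fun z39 t39 g39 =>
  mulS hε g39 g6 fun z40 t40 g40 =>
  addcS g40 k14 fun z41 t41 g41 =>
  mulS hε g36 g41 fun z42 t42 g42 =>
  mulS hε (cst_rel k12) g4 fun z43 t43 g43 =>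
  addcS g43 k13 fun z44 t44 g44 =>
  mulS hε g44 g4 fun z45 t45 g45 =>
  addcS g45 k14 fun z46 t46 g46 =>
  addS g42 g46 fun z47 t47 g47 =>
  normS g47 fun z48 t48 g48 =>
  mulS hε g35 g48 fun z49 t49 g49 =>
  subS g79 g49 fun z80 t80 g80 =>
  normS g80 fun z82 t82 g82 =>
  mulS hε h0 g4 fun z10 t10 g10 =>
  rsubS g10 k0 fun z81 t81 g81 =>
  mulS hε g82 g81 fun z83 t83 g83 =>
  subS g9 g83 fun z84 t84 g84 =>
  posS hε g84 <|
  fun _ => trivial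

def pa_Spec (k s a b : ℝ) : Prop :=
  ∃ ka q k2 z w Alo Ahi de p p2 d2 Pp B y kz : ℝ,
    ka = (k * a) ∧
    0 < (k + (1 : ℝ)) ∧
    q = ((k + (1 : ℝ))⁻¹) ∧
    k2 = (k ^ 2) ∧
    z = (s * a) ∧
    w = (k2 * z) ∧
    Alo = (q * ((k * (((((1 / 30 : ℝ) * w) + (1 / 12 : ℝ)) * w) + (1 / 2 : ℝ))) + (((((1 / 30 : ℝ) * z) + (1 / 12 : ℝ)) * z) + (1 / 2 : ℝ)))) ∧
    Ahi = (Alo + ((1 / 13 : ℝ) * (q * ((k * ((w ^ 2) * w)) + ((z ^ 2) * z))))) ∧
    de = ((1 / 2 : ℝ) * (ka * Alo)) ∧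
    p = (b - de) ∧
    p2 = (p ^ 2) ∧
    d2 = (de ^ 2) ∧
    Pp = (((43 / 32 : ℝ) * p) + (s * (((33 / 16 : ℝ) * (p2 + ((1 / 3 : ℝ) * d2))) + ((55 / 4 : ℝ) * ((s ^ 2) * ((p2 * (p2 + ((2 : ℝ) * d2))) + ((1 / 5 : ℝ) * (d2 ^ 2)))))))) ∧
    B = ((a * q) * (((k * k2) * (((((3 / 28 : ℝ) * w) + (2 / 15 : ℝ)) * w) + (1 / 6 : ℝ))) + (((((3 / 28 : ℝ) * z) + (2 / 15 : ℝ)) * z) + (1 / 6 : ℝ)))) ∧
    y = ((Ahi * Pp) - B) ∧
    kz = (k * z) ∧
    0 ≤ (ka - (y * ((1 : ℝ) - kz)))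

theorem pa_E {ps : ℕ} {k s a b : ℝ} (h : pa_R ps k s a b) : pa_Spec k s a b := by
  delta pa_R at h
  exact letR_ex h fun ka q1 h =>
  letR_in h fun h =>
  invR_ex h fun q2 h =>
  letR_ex h fun q q3 h =>
  letR_ex h fun k2 q4 h =>
  letR_ex h fun z q5 h =>
  letR_ex h fun w q6 h =>
  letR_in h fun h =>
  letR_in h fun h =>
  letR_in h fun h =>
  letR_in h fun h =>
  letR_in h fun h =>
  letR_in h fun h =>
  letR_in h fun h =>
  letR_in h fun h =>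
  letR_in h fun h =>
  letR_in h fun h =>
  letR_in h fun h =>
  letR_ex h fun Alo q7 h =>
  letR_in h fun h =>
  letR_in h fun h =>
  letR_in h fun h =>
  letR_in h fun h =>
  letR_in h fun h =>
  letR_in h fun h =>
  letR_in h fun h =>
  letR_in h fun h =>
  letR_in h fun h =>
  letR_ex h fun Ahi q8 h =>
  letR_in h fun h =>
  letR_in h fun h =>
  letR_ex h fun de q9 h =>
  letR_ex h fun p q10 h =>
  letR_in h fun h =>
  letR_in h fun h =>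
  letR_ex h fun p2 q11 h =>
  letR_ex h fun d2 q12 h =>
  letR_in h fun h =>
  letR_in h fun h =>
  letR_in h fun h =>
  letR_in h fun h =>
  letR_in h fun h =>
  letR_in h fun h =>
  letR_in h fun h =>
  letR_in h fun h =>
  letR_in h fun h =>
  letR_in h fun h =>
  letR_in h fun h =>
  letR_in h fun h =>
  letR_in h fun h =>
  letR_in h fun h =>
  letR_in h fun h =>
  letR_in h fun h =>
  letR_in h fun h =>
  letR_ex h fun Pp q13 h =>
  letR_in h fun h =>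
  letR_in h fun h =>
  letR_in h fun h =>
  letR_in h fun h =>
  letR_in h fun h =>
  letR_in h fun h =>
  letR_in h fun h =>
  letR_in h fun h =>
  letR_in h fun h =>
  letR_in h fun h =>
  letR_in h fun h =>
  letR_in h fun h =>
  letR_in h fun h =>
  letR_in h fun h =>
  letR_in h fun h =>
  letR_ex h fun B q14 h =>
  letR_ex h fun y q15 h =>
  letR_in h fun h =>
  letR_ex h fun kz q16 h =>
  letR_in h fun h =>
  letR_in h fun h =>
  letR_in h fun h =>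
  posR_ex h fun q17 h =>
  ⟨ka, q, k2, z, w, Alo, Ahi, de, p, p2, d2, Pp, B, y, kz, q1, q2, q3, q4, q5, q6, q7, q8, q9, q10, q11, q12, q13, q14, q15, q16, q17⟩

theorem k15 : |2 ^ 48 * (6 : ℝ) - (((4722368171719505477632 : ℕ) : ℝ) - 2 ^ 72)| ≤ ((0 : ℕ) : ℝ) := by norm_num [abs_le]
theorem k16 : (4 : ℝ) = val 4722367608769552056320 := by norm_num [val]
def pb_B (ps : ℕ) (x0 x1 x2 x3 : AF) : Bool :=
  mulK x0 x2 fun z9 =>
  addcK x0 4722366764344621924352 0 fun z7 =>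
  invK z7 fun z8 =>
  sqrK x0 fun z5 =>
  mulK x1 x2 fun z4 =>
  mulK z5 z4 fun z6 =>
  mulK (cst 4722366492252144437384 1) z6 fun z12 =>
  addcK z12 4722366506325893272917 1 fun z13 =>
  mulK z13 z6 fun z14 =>
  addcK z14 4722366623607133569024 0 fun z15 =>
  mulK x0 z15 fun z16 =>
  mulK (cst 4722366492252144437384 1) z4 fun z17 =>
  addcK z17 4722366506325893272917 1 fun z18 =>
  mulK z18 z4 fun z19 =>
  addcK z19 4722366623607133569024 0 fun z20 =>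
  addK z16 z20 fun z21 =>
  normK z21 fun z22 =>
  mulK z8 z22 fun z23 =>
  sqrK z6 fun z24 =>
  mulK z24 z6 fun z25 =>
  mulK x0 z25 fun z26 =>
  sqrK z4 fun z27 =>
  mulK z27 z4 fun z28 =>
  addK z26 z28 fun z29 =>
  normK z29 fun z30 =>
  mulK z8 z30 fun z31 =>
  mulK (cst 4722366504521566499131 1) z31 fun z33 =>
  addK z23 z33 fun z34 =>
  normK z34 fun z77 =>
  mulK z9 z77 fun z81 =>
  subK x3 z81 fun z82 =>
  mulK x0 z4 fun z10 =>
  mulK z9 z23 fun z50 =>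
  smulK z50 4722366623607133569024 fun z51 =>
  subK x3 z51 fun z52 =>
  smulK z52 4722366861101645168640 fun z56 =>
  normK z52 fun z53 =>
  sqrK z53 fun z54 =>
  sqrK z51 fun z55 =>
  mulK (cst 4722366576694637450581 1) z55 fun z58 =>
  addK z54 z58 fun z59 =>
  smulK z59 4722367063411784679424 fun z60 =>
  sqrK x1 fun z61 =>
  smulK z55 4722367045819598635008 fun z62 =>
  addK z54 z62 fun z63 =>
  normK z63 fun z64 =>
  mulK z54 z64 fun z65 =>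
  sqrK z55 fun z66 =>
  mulK (cst 4722366539164640555827 1) z66 fun z68 =>
  addK z65 z68 fun z69 =>
  normK z69 fun z70 =>
  mulK z61 z70 fun z71 =>
  smulK z71 4722370353150574985216 fun z72 =>
  addK z60 z72 fun z73 =>
  normK z73 fun z74 =>
  mulK x1 z74 fun z75 =>
  addK z56 z75 fun z76 =>
  normK z76 fun z78 =>
  mulK z77 z78 fun z79 =>
  mulK x2 z8 fun z35 =>
  mulK x0 z5 fun z36 =>
  mulK (cst 4722366513027678432694 1) z6 fun z38 =>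
  addcK z38 4722366520399642108450 1 fun z39 =>
  mulK z39 z6 fun z40 =>
  addcK z40 4722366529782141332138 1 fun z41 =>
  mulK z36 z41 fun z42 =>
  mulK (cst 4722366513027678432694 1) z4 fun z43 =>
  addcK z43 4722366520399642108450 1 fun z44 =>
  mulK z44 z4 fun z45 =>
  addcK z45 4722366529782141332138 1 fun z46 =>
  addK z42 z46 fun z47 =>
  normK z47 fun z48 =>
  mulK z35 z48 fun z49 =>
  subK z79 z49 fun z80 =>
  normK z80 fun z83 =>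
  mulK z10 z83 fun z84 =>
  smulK z84 4722366623607133569024 fun z85 =>
  subK z82 z85 fun z86 =>
  normK z86 fun z89 =>
  mulK x1 z83 fun z87 =>
  addcK z87 4722366764344621924352 0 fun z88 =>
  mulK z89 z88 fun z90 =>
  addcK x0 4722368171719505477632 0 fun z91 =>
  smulK x0 4722367608769552056320 fun z92 =>
  addcK z92 4722368171719505477632 0 fun z93 =>
  invK z93 fun z94 =>
  mulK z91 z94 fun z95 =>
  mulK z95 z83 fun z96 =>
  subK z90 z96 fun z97 =>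
  posK z97 <|
  true

def pb_R (ps : ℕ) (k s a b : ℝ) : Prop :=
  letR (k * a) fun z9 =>
  letR (k + (1 : ℝ)) fun z7 =>
  invR z7 fun z8 =>
  letR (k ^ 2) fun z5 =>
  letR (s * a) fun z4 =>
  letR (z5 * z4) fun z6 =>
  letR ((1 / 30 : ℝ) * z6) fun z12 =>
  letR (z12 + (1 / 12 : ℝ)) fun z13 =>
  letR (z13 * z6) fun z14 =>
  letR (z14 + (1 / 2 : ℝ)) fun z15 =>
  letR (k * z15) fun z16 =>
  letR ((1 / 30 : ℝ) * z4) fun z17 =>
  letR (z17 + (1 / 12 : ℝ)) fun z18 =>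
  letR (z18 * z4) fun z19 =>
  letR (z19 + (1 / 2 : ℝ)) fun z20 =>
  letR (z16 + z20) fun z21 =>
  letR z21 fun z22 =>
  letR (z8 * z22) fun z23 =>
  letR (z6 ^ 2) fun z24 =>
  letR (z24 * z6) fun z25 =>
  letR (k * z25) fun z26 =>
  letR (z4 ^ 2) fun z27 =>
  letR (z27 * z4) fun z28 =>
  letR (z26 + z28) fun z29 =>
  letR z29 fun z30 =>
  letR (z8 * z30) fun z31 =>
  letR ((1 / 13 : ℝ) * z31) fun z33 =>
  letR (z23 + z33) fun z34 =>
  letR z34 fun z77 =>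
  letR (z9 * z77) fun z81 =>
  letR (b - z81) fun z82 =>
  letR (k * z4) fun z10 =>
  letR (z9 * z23) fun z50 =>
  letR ((1 / 2 : ℝ) * z50) fun z51 =>
  letR (b - z51) fun z52 =>
  letR ((43 / 32 : ℝ) * z52) fun z56 =>
  letR z52 fun z53 =>
  letR (z53 ^ 2) fun z54 =>
  letR (z51 ^ 2) fun z55 =>
  letR ((1 / 3 : ℝ) * z55) fun z58 =>
  letR (z54 + z58) fun z59 =>
  letR ((33 / 16 : ℝ) * z59) fun z60 =>
  letR (s ^ 2) fun z61 =>
  letR ((2 : ℝ) * z55) fun z62 =>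
  letR (z54 + z62) fun z63 =>
  letR z63 fun z64 =>
  letR (z54 * z64) fun z65 =>
  letR (z55 ^ 2) fun z66 =>
  letR ((1 / 5 : ℝ) * z66) fun z68 =>
  letR (z65 + z68) fun z69 =>
  letR z69 fun z70 =>
  letR (z61 * z70) fun z71 =>
  letR ((55 / 4 : ℝ) * z71) fun z72 =>
  letR (z60 + z72) fun z73 =>
  letR z73 fun z74 =>
  letR (s * z74) fun z75 =>
  letR (z56 + z75) fun z76 =>
  letR z76 fun z78 =>
  letR (z77 * z78) fun z79 =>
  letR (a * z8) fun z35 =>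
  letR (k * z5) fun z36 =>
  letR ((3 / 28 : ℝ) * z6) fun z38 =>
  letR (z38 + (2 / 15 : ℝ)) fun z39 =>
  letR (z39 * z6) fun z40 =>
  letR (z40 + (1 / 6 : ℝ)) fun z41 =>
  letR (z36 * z41) fun z42 =>
  letR ((3 / 28 : ℝ) * z4) fun z43 =>
  letR (z43 + (2 / 15 : ℝ)) fun z44 =>
  letR (z44 * z4) fun z45 =>
  letR (z45 + (1 / 6 : ℝ)) fun z46 =>
  letR (z42 + z46) fun z47 =>
  letR z47 fun z48 =>
  letR (z35 * z48) fun z49 =>
  letR (z79 - z49) fun z80 =>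
  letR z80 fun z83 =>
  letR (z10 * z83) fun z84 =>
  letR ((1 / 2 : ℝ) * z84) fun z85 =>
  letR (z82 - z85) fun z86 =>
  letR z86 fun z89 =>
  letR (s * z83) fun z87 =>
  letR (z87 + (1 : ℝ)) fun z88 =>
  letR (z89 * z88) fun z90 =>
  letR (k + (6 : ℝ)) fun z91 =>
  letR ((4 : ℝ) * k) fun z92 =>
  letR (z92 + (6 : ℝ)) fun z93 =>
  invR z93 fun z94 =>
  letR (z91 * z94) fun z95 =>
  letR (z95 * z83) fun z96 =>
  letR (z90 - z96) fun z97 =>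
  posR z97 <|
  True

theorem pb_S {ε : Fin 4 → ℝ} (hε : ∀ i, |ε i| ≤ 1) (ps : ℕ) (x0 x1 x2 x3 : AF) (k s a b : ℝ)
    (h0 : Rel ε x0 k) (h1 : Rel ε x1 s) (h2 : Rel ε x2 a) (h3 : Rel ε x3 b) :
    pb_B ps x0 x1 x2 x3 = true → pb_R ps k s a b := by
  delta pb_B pb_R
  exact mulS hε h0 h2 fun z9 t9 g9 =>
  addcS h0 k0 fun z7 t7 g7 =>
  invS hε g7 fun z8 t8 g8 =>
  sqrS hε h0 fun z5 t5 g5 =>
  mulS hε h1 h2 fun z4 t4 g4 =>
  mulS hε g5 g4 fun z6 t6 g6 =>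
  mulS hε (cst_rel k1) g6 fun z12 t12 g12 =>
  addcS g12 k2 fun z13 t13 g13 =>
  mulS hε g13 g6 fun z14 t14 g14 =>
  addcS g14 k3 fun z15 t15 g15 =>
  mulS hε h0 g15 fun z16 t16 g16 =>
  mulS hε (cst_rel k1) g4 fun z17 t17 g17 =>
  addcS g17 k2 fun z18 t18 g18 =>
  mulS hε g18 g4 fun z19 t19 g19 =>
  addcS g19 k3 fun z20 t20 g20 =>
  addS g16 g20 fun z21 t21 g21 =>
  normS g21 fun z22 t22 g22 =>
  mulS hε g8 g22 fun z23 t23 g23 =>
  sqrS hε g6 fun z24 t24 g24 =>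
  mulS hε g24 g6 fun z25 t25 g25 =>
  mulS hε h0 g25 fun z26 t26 g26 =>
  sqrS hε g4 fun z27 t27 g27 =>
  mulS hε g27 g4 fun z28 t28 g28 =>
  addS g26 g28 fun z29 t29 g29 =>
  normS g29 fun z30 t30 g30 =>
  mulS hε g8 g30 fun z31 t31 g31 =>
  mulS hε (cst_rel k4) g31 fun z33 t33 g33 =>
  addS g23 g33 fun z34 t34 g34 =>
  normS g34 fun z77 t77 g77 =>
  mulS hε g9 g77 fun z81 t81 g81 =>
  subS h3 g81 fun z82 t82 g82 =>
  mulS hε h0 g4 fun z10 t10 g10 =>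
  mulS hε g9 g23 fun z50 t50 g50 =>
  smulS hε g50 k5 fun z51 t51 g51 =>
  subS h3 g51 fun z52 t52 g52 =>
  smulS hε g52 k6 fun z56 t56 g56 =>
  normS g52 fun z53 t53 g53 =>
  sqrS hε g53 fun z54 t54 g54 =>
  sqrS hε g51 fun z55 t55 g55 =>
  mulS hε (cst_rel k7) g55 fun z58 t58 g58 =>
  addS g54 g58 fun z59 t59 g59 =>
  smulS hε g59 k8 fun z60 t60 g60 =>
  sqrS hε h1 fun z61 t61 g61 =>
  smulS hε g55 k9 fun z62 t62 g62 =>
  addS g54 g62 fun z63 t63 g63 =>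
  normS g63 fun z64 t64 g64 =>
  mulS hε g54 g64 fun z65 t65 g65 =>
  sqrS hε g55 fun z66 t66 g66 =>
  mulS hε (cst_rel k10) g66 fun z68 t68 g68 =>
  addS g65 g68 fun z69 t69 g69 =>
  normS g69 fun z70 t70 g70 =>
  mulS hε g61 g70 fun z71 t71 g71 =>
  smulS hε g71 k11 fun z72 t72 g72 =>
  addS g60 g72 fun z73 t73 g73 =>
  normS g73 fun z74 t74 g74 =>
  mulS hε h1 g74 fun z75 t75 g75 =>
  addS g56 g75 fun z76 t76 g76 =>
  normS g76 fun z78 t78 g78 =>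
  mulS hε g77 g78 fun z79 t79 g79 =>
  mulS hε h2 g8 fun z35 t35 g35 =>
  mulS hε h0 g5 fun z36 t36 g36 =>
  mulS hε (cst_rel k12) g6 fun z38 t38 g38 =>
  addcS g38 k13 fun z39 t39 g39 =>
  mulS hε g39 g6 fun z40 t40 g40 =>
  addcS g40 k14 fun z41 t41 g41 =>
  mulS hε g36 g41 fun z42 t42 g42 =>
  mulS hε (cst_rel k12) g4 fun z43 t43 g43 =>
  addcS g43 k13 fun z44 t44 g44 =>
  mulS hε g44 g4 fun z45 t45 g45 =>
  addcS g45 k14 fun z46 t46 g46 =>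
  addS g42 g46 fun z47 t47 g47 =>
  normS g47 fun z48 t48 g48 =>
  mulS hε g35 g48 fun z49 t49 g49 =>
  subS g79 g49 fun z80 t80 g80 =>
  normS g80 fun z83 t83 g83 =>
  mulS hε g10 g83 fun z84 t84 g84 =>
  smulS hε g84 k5 fun z85 t85 g85 =>
  subS g82 g85 fun z86 t86 g86 =>
  normS g86 fun z89 t89 g89 =>
  mulS hε h1 g83 fun z87 t87 g87 =>
  addcS g87 k0 fun z88 t88 g88 =>
  mulS hε g89 g88 fun z90 t90 g90 =>
  addcS h0 k15 fun z91 t91 g91 =>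
  smulS hε h0 k16 fun z92 t92 g92 =>
  addcS g92 k15 fun z93 t93 g93 =>
  invS hε g93 fun z94 t94 g94 =>
  mulS hε g91 g94 fun z95 t95 g95 =>
  mulS hε g95 g83 fun z96 t96 g96 =>
  subS g90 g96 fun z97 t97 g97 =>
  posS hε g97 <|
  fun _ => trivial

def pb_Spec (k s a b : ℝ) : Prop :=
  ∃ ka q k2 z w Alo Ahi kz de p p2 d2 Pp B y : ℝ,
    ka = (k * a) ∧
    0 < (k + (1 : ℝ)) ∧
    q = ((k + (1 : ℝ))⁻¹) ∧
    k2 = (k ^ 2) ∧
    z = (s * a) ∧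
    w = (k2 * z) ∧
    Alo = (q * ((k * (((((1 / 30 : ℝ) * w) + (1 / 12 : ℝ)) * w) + (1 / 2 : ℝ))) + (((((1 / 30 : ℝ) * z) + (1 / 12 : ℝ)) * z) + (1 / 2 : ℝ)))) ∧
    Ahi = (Alo + ((1 / 13 : ℝ) * (q * ((k * ((w ^ 2) * w)) + ((z ^ 2) * z))))) ∧
    kz = (k * z) ∧
    de = ((1 / 2 : ℝ) * (ka * Alo)) ∧
    p = (b - de) ∧
    p2 = (p ^ 2) ∧
    d2 = (de ^ 2) ∧
    Pp = (((43 / 32 : ℝ) * p) + (s * (((33 / 16 : ℝ) * (p2 + ((1 / 3 : ℝ) * d2))) + ((55 / 4 : ℝ) * ((s ^ 2) * ((p2 * (p2 + ((2 : ℝ) * d2))) + ((1 / 5 : ℝ) * (d2 ^ 2)))))))) ∧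
    B = ((a * q) * (((k * k2) * (((((3 / 28 : ℝ) * w) + (2 / 15 : ℝ)) * w) + (1 / 6 : ℝ))) + (((((3 / 28 : ℝ) * z) + (2 / 15 : ℝ)) * z) + (1 / 6 : ℝ)))) ∧
    y = ((Ahi * Pp) - B) ∧
    0 < (((4 : ℝ) * k) + (6 : ℝ)) ∧
    0 ≤ ((((b - (ka * Ahi)) - ((1 / 2 : ℝ) * (kz * y))) * ((s * y) + (1 : ℝ))) - (((k + (6 : ℝ)) * ((((4 : ℝ) * k) + (6 : ℝ))⁻¹)) * y))

theorem pb_E {ps : ℕ} {k s a b : ℝ} (h : pb_R ps k s a b) : pb_Spec k s a b := by
  delta pb_R at h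
  exact letR_ex h fun ka q1 h =>
  letR_in h fun h =>
  invR_ex h fun q2 h =>
  letR_ex h fun q q3 h =>
  letR_ex h fun k2 q4 h =>
  letR_ex h fun z q5 h =>
  letR_ex h fun w q6 h =>
  letR_in h fun h =>
  letR_in h fun h =>
  letR_in h fun h =>
  letR_in h fun h =>
  letR_in h fun h =>
  letR_in h fun h =>
  letR_in h fun h =>
  letR_in h fun h =>
  letR_in h fun h =>
  letR_in h fun h =>
  letR_in h fun h =>
  letR_ex h fun Alo q7 h =>
  letR_in h fun h =>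
  letR_in h fun h =>
  letR_in h fun h =>
  letR_in h fun h =>
  letR_in h fun h =>
  letR_in h fun h =>
  letR_in h fun h =>
  letR_in h fun h =>
  letR_in h fun h =>
  letR_ex h fun Ahi q8 h =>
  letR_in h fun h =>
  letR_in h fun h =>
  letR_in h fun h =>
  letR_ex h fun kz q9 h =>
  letR_in h fun h =>
  letR_ex h fun de q10 h =>
  letR_ex h fun p q11 h =>
  letR_in h fun h =>
  letR_in h fun h =>
  letR_ex h fun p2 q12 h =>
  letR_ex h fun d2 q13 h =>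
  letR_in h fun h =>
  letR_in h fun h =>
  letR_in h fun h =>
  letR_in h fun h =>
  letR_in h fun h =>
  letR_in h fun h =>
  letR_in h fun h =>
  letR_in h fun h =>
  letR_in h fun h =>
  letR_in h fun h =>
  letR_in h fun h =>
  letR_in h fun h =>
  letR_in h fun h =>
  letR_in h fun h =>
  letR_in h fun h =>
  letR_in h fun h =>
  letR_in h fun h =>
  letR_ex h fun Pp q14 h =>
  letR_in h fun h =>
  letR_in h fun h =>
  letR_in h fun h =>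
  letR_in h fun h =>
  letR_in h fun h =>
  letR_in h fun h =>
  letR_in h fun h =>
  letR_in h fun h =>
  letR_in h fun h =>
  letR_in h fun h =>
  letR_in h fun h =>
  letR_in h fun h =>
  letR_in h fun h =>
  letR_in h fun h =>
  letR_in h fun h =>
  letR_ex h fun B q15 h =>
  letR_ex h fun y q16 h =>
  letR_in h fun h =>
  letR_in h fun h =>
  letR_in h fun h =>
  letR_in h fun h =>
  letR_in h fun h =>
  letR_in h fun h =>
  letR_in h fun h =>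
  letR_in h fun h =>
  letR_in h fun h =>
  letR_in h fun h =>
  letR_in h fun h =>
  invR_ex h fun q17 h =>
  letR_in h fun h =>
  letR_in h fun h =>
  letR_in h fun h =>
  letR_in h fun h =>
  posR_ex h fun q18 h =>
  ⟨ka, q, k2, z, w, Alo, Ahi, kz, de, p, p2, d2, Pp, B, y, q1, q2, q3, q4, q5, q6, q7, q8, q9, q10, q11, q12, q13, q14, q15, q16, q17, q18⟩

def PB : Prog := fun j ps x0 x1 x2 x3 =>
  Nat.rec (motive := fun _ => Bool) (pa_B ps x0 x1 x2 x3) (fun j _ => pb_B ps x0 x1 x2 x3) j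

def PR : ℕ → ℕ → ℝ → ℝ → ℝ → ℝ → Prop := fun j ps k s a b =>
  Nat.rec (motive := fun _ => Prop) (pa_R ps k s a b) (fun j _ => pb_R ps k s a b) j

theorem PS : Sound PB PR := fun _ hε j => match j with
  | 0 => pa_S hε
  | _ + 1 => pb_S hε

theorem PE {j ps : ℕ} {k s a b : ℝ} : PR j ps k s a b → pa_Spec k s a b ∨ pb_Spec k s a b := match j with
  | 0 => fun h => Or.inl (@pa_E ps k s a b h)
  | _ + 1 => fun h => Or.inr (@pb_E ps k s a b h)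

def l0 : Tree := Tree.leaf 0
def l1 : Tree := Tree.leaf 1

end

end Crest.Agent.R307.CK1a
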