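import Crest.Agent.R307.CK1bP

set_option autoImplicit false
set_option maxRecDepth 100000
set_option linter.unusedVariables false

namespace Crest.Agent.R307.CK1b
open Crest.Agent.R307.AA

open Tree

theorem c0 : Good PR 4722366482869645213696 4722366764344621924352 4722366482869645213696 4722366586773494038528 4722366482869645213696 4722367233469583108779 4722366764344621924352 4722366764344621924352 :=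
  run_sound PS (s2 (s0 (s1 (s0 (s2 l1 l1) (s2 l1 l1)) (s0 (s1 (s0 (s2 l1 l1) l1) (s2 (s0 (s2 l1 l1) (s2 l1 l1)) (s0 (s0 l1 l1) (s0 l1 (s2 l1 l1))))) (s2 (s1 l1 (s2 l1 (s0 l1 l1))) (s1 (s0 l1 l1) (s0 (s1 l1 (s2 l1 (s2 l1 l1))) (s2 (s2 l1 l1) (s1 l1 (s0 (s2 l1 l1) (s2 l1 (s1 l1 l1)))))))))) (s1 (s2 (s0 l1 l1) (s0 (s0 l1 l1) (s2 l1 l0))) (s2 (s0 (s2 (s1 l1 l1) (s1 l1 (s0 l1 l1))) (s2 (s1 l1 l1) (s1 l1 (s2 l1 (s0 l1 l1))))) (s0 (s1 (s2 (s0 l1 l1) (s0 l1 (s0 l1 l0))) (s2 (s0 (s2 l1 (s0 l1 l1)) (s1 l1 (s2 l1 (s0 l1 (s2 l1 (s1 l1 l1)))))) (s0 (s1 (s2 l1 l1) (s2 (s0 l1 (s2 l1 (s0 l1 l1))) (s0 (s1 l1 (s0 l1 (s2 l1 l1))) (s0 (s2 (s1 l0 l0) l0) l0)))) (s2 (s0 (s1 l1 (s1 l1 (s2 (s0 l1 l1) l0))) l0) l0)))) (s2 (s1 (s0 l1 (s1 l1 l1)) (s0 (s2 (s0 l1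 (s1 l1 l1)) (s2 (s1 l1 (s0 l1 (s0 l0 l0))) (s1 l0 l0))) (s2 (s1 l1 (s2 l1 (s0 l1 l0))) l0))) (s0 l0 l0)))))) (s0 (s1 (s0 (s0 l1 l1) (s0 (s2 l1 l1) (s2 l1 l1))) (s0 (s1 (s0 (s2 l1 l1) (s2 l1 l1)) (s0 (s2 (s1 l1 (s2 l1 l1)) (s1 l1 (s2 l1 l1))) (s2 (s1 (s2 l1 l1) (s0 (s2 l1 l1) (s2 l1 l1))) (s1 (s2 l1 l1) (s0 (s2 l1 l1) (s2 l1 l1)))))) (s2 (s1 (s0 l1 (s2 l1 l1)) (s0 (s1 (s2 l1 l1) (s2 (s0 l1 l1) (s0 l1 (s2 l1 l1)))) (s2 (s1 (s2 l1 l1) (s0 (s2 l1 (s1 l1 l1)) (s2 (s0 l1 (s1 l1 l1)) l0))) (s0 (s2 l0 l0) l0)))) (s0 (s2 (s0 (s1 l1 (s1 l1 l1)) (s1 l0 l0)) (s1 l0 l0)) (s1 l0 l0))))) (s0 (s2 (s1 (s2 l0 l0) (s0 (s2 (s1 l0 (s0 (s1 l0 l0) l0)) l0) l0)) (s1 l0 l0)) (s2 (s2 l0 l0) (s1 l0 l0))))) 0 _ _ _ _ _ _ _ _ (by decide +kernel)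

end Crest.Agent.R307.CK1b
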