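import Crest.Agent.R307.AA

set_option autoImplicit false
set_option maxRecDepth 100000
set_option linter.unusedVariables false

namespace Crest.Agent.R307.CK1c
open Crest.Agent.R307.AA

noncomputable section

theorem k0 : |2 ^ 48 * (1 / 19 : ℝ) - (((4722366497684117672151 : ℕ) : ℝ) - 2 ^ 72)| ≤ ((1 : ℕ) : ℝ) := by norm_num [abs_le]
theorem k1 : |2 ^ 48 * (2 / 323 : ℝ) - (((4722366484612524326455 : ℕ) : ℝ) - 2 ^ 72)| ≤ ((1 : ℕ) : ℝ) := by norm_num [abs_le]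
theorem k2 : |2 ^ 48 * (2 / 255 : ℝ) - (((4722366485077292089858 : ℕ) : ℝ) - 2 ^ 72)| ≤ ((1 : ℕ) : ℝ) := by norm_num [abs_le]
theorem k3 : |2 ^ 48 * (2 / 195 : ℝ) - (((4722366485756568051754 : ℕ) : ℝ) - 2 ^ 72)| ≤ ((1 : ℕ) : ℝ) := by norm_num [abs_le]
theorem k4 : |2 ^ 48 * (2 / 143 : ℝ) - (((4722366486806358174684 : ℕ) : ℝ) - 2 ^ 72)| ≤ ((1 : ℕ) : ℝ) := by norm_num [abs_le]
theorem k5 : |2 ^ 48 * (2 / 99 : ℝ) - (((4722366488556008379567 : ℕ) : ℝ) - 2 ^ 72)| ≤ ((1 : ℕ) : ℝ) := by norm_num [abs_le]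
theorem k6 : |2 ^ 48 * (2 / 63 : ℝ) - (((4722366491805358760066 : ℕ) : ℝ) - 2 ^ 72)| ≤ ((1 : ℕ) : ℝ) := by norm_num [abs_le]
theorem k7 : |2 ^ 48 * (2 / 35 : ℝ) - (((4722366498953929597162 : ℕ) : ℝ) - 2 ^ 72)| ≤ ((1 : ℕ) : ℝ) := by norm_num [abs_le]
theorem k8 : |2 ^ 48 * (2 / 15 : ℝ) - (((4722366520399642108450 : ℕ) : ℝ) - 2 ^ 72)| ≤ ((1 : ℕ) : ℝ) := by norm_num [abs_le]
theorem k9 : |2 ^ 48 * (2 / 3 : ℝ) - (((4722366670519629687466 : ℕ) : ℝ) - 2 ^ 72)| ≤ ((1 : ℕ) : ℝ) := by norm_num [abs_le]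
theorem k10 : |2 ^ 48 * (1 : ℝ) - (((4722366764344621924352 : ℕ) : ℝ) - 2 ^ 72)| ≤ ((0 : ℕ) : ℝ) := by norm_num [abs_le]
theorem k11 : |2 ^ 48 * (1 / 240 : ℝ) - (((4722366484042457616657 : ℕ) : ℝ) - 2 ^ 72)| ≤ ((1 : ℕ) : ℝ) := by norm_num [abs_le]
theorem k12 : |2 ^ 48 * (1 / 182 : ℝ) - (((4722366484416211019798 : ℕ) : ℝ) - 2 ^ 72)| ≤ ((1 : ℕ) : ℝ) := by norm_num [abs_le]
theorem k13 : |2 ^ 48 * (1 / 132 : ℝ) - (((4722366485002031400897 : ℕ) : ℝ) - 2 ^ 72)| ≤ ((1 : ℕ) : ℝ) := by norm_num [abs_le]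
theorem k14 : |2 ^ 48 * (1 / 90 : ℝ) - (((4722366485997144954925 : ℕ) : ℝ) - 2 ^ 72)| ≤ ((1 : ℕ) : ℝ) := by norm_num [abs_le]
theorem k15 : |2 ^ 48 * (1 / 56 : ℝ) - (((4722366487895984083529 : ℕ) : ℝ) - 2 ^ 72)| ≤ ((1 : ℕ) : ℝ) := by norm_num [abs_le]
theorem k16 : |2 ^ 48 * (1 / 30 : ℝ) - (((4722366492252144437384 : ℕ) : ℝ) - 2 ^ 72)| ≤ ((1 : ℕ) : ℝ) := by norm_num [abs_le]
theorem k17 : |2 ^ 48 * (1 / 12 : ℝ) - (((4722366506325893272917 : ℕ) : ℝ) - 2 ^ 72)| ≤ ((1 : ℕ) : ℝ) := by norm_num [abs_le]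
theorem k18 : |2 ^ 48 * (1 / 2 : ℝ) - (((4722366623607133569024 : ℕ) : ℝ) - 2 ^ 72)| ≤ ((0 : ℕ) : ℝ) := by norm_num [abs_le]
theorem k19 : (55 / 4 : ℝ) = val 4722370353150574985216 := by norm_num [val]
theorem k20 : |2 ^ 48 * (33 / 16 : ℝ) - (((4722367063411784679424 : ℕ) : ℝ) - 2 ^ 72)| ≤ ((0 : ℕ) : ℝ) := by norm_num [abs_le]
theorem k21 : |2 ^ 48 * (43 / 32 : ℝ) - (((4722366861101645168640 : ℕ) : ℝ) - 2 ^ 72)| ≤ ((0 : ℕ) : ℝ) := by norm_num [abs_le]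
def pc_B (ps : ℕ) (x0 x1 x2 x3 : AF) : Bool :=
  mulK (cst 4722366497684117672151 1) x0 fun z2 =>
  addcK z2 4722366484612524326455 1 fun z3 =>
  mulK z3 x0 fun z4 =>
  addcK z4 4722366485077292089858 1 fun z5 =>
  mulK z5 x0 fun z6 =>
  addcK z6 4722366485756568051754 1 fun z7 =>
  mulK z7 x0 fun z8 =>
  addcK z8 4722366486806358174684 1 fun z9 =>
  mulK z9 x0 fun z10 =>
  addcK z10 4722366488556008379567 1 fun z11 =>
  mulK z11 x0 fun z12 =>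
  addcK z12 4722366491805358760066 1 fun z13 =>
  mulK z13 x0 fun z14 =>
  addcK z14 4722366498953929597162 1 fun z15 =>
  mulK z15 x0 fun z16 =>
  addcK z16 4722366520399642108450 1 fun z17 =>
  mulK z17 x0 fun z18 =>
  addcK z18 4722366670519629687466 1 fun z19 =>
  mulK x0 z19 fun z36 =>
  rsubK z36 4722366764344621924352 0 fun z37 =>
  mulK (cst 4722366484042457616657 1) x0 fun z21 =>
  addcK z21 4722366484416211019798 1 fun z22 =>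
  mulK z22 x0 fun z23 =>
  addcK z23 4722366485002031400897 1 fun z24 =>
  mulK z24 x0 fun z25 =>
  addcK z25 4722366485997144954925 1 fun z26 =>
  mulK z26 x0 fun z27 =>
  addcK z27 4722366487895984083529 1 fun z28 =>
  mulK z28 x0 fun z29 =>
  addcK z29 4722366492252144437384 1 fun z30 =>
  mulK z30 x0 fun z31 =>
  addcK z31 4722366506325893272917 1 fun z32 =>
  mulK z32 x0 fun z33 =>
  addcK z33 4722366623607133569024 0 fun z34 =>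
  mulK z37 z34 fun z38 =>
  mulK x0 z34 fun z35 =>
  sqrK z35 fun z39 =>
  smulK z39 4722370353150574985216 fun z40 =>
  addcK z40 4722367063411784679424 0 fun z41 =>
  mulK z35 z41 fun z42 =>
  addcK z42 4722366861101645168640 0 fun z43 =>
  mulK z38 z43 fun z44 =>
  subK z44 z19 fun z45 =>
  posK z45 <|
  true

def pc_R (ps : ℕ) (z u1 u2 u3 : ℝ) : Prop :=
  letR ((1 / 19 : ℝ) * z) fun z2 =>
  letR (z2 + (2 / 323 : ℝ)) fun z3 =>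
  letR (z3 * z) fun z4 =>
  letR (z4 + (2 / 255 : ℝ)) fun z5 =>
  letR (z5 * z) fun z6 =>
  letR (z6 + (2 / 195 : ℝ)) fun z7 =>
  letR (z7 * z) fun z8 =>
  letR (z8 + (2 / 143 : ℝ)) fun z9 =>
  letR (z9 * z) fun z10 =>
  letR (z10 + (2 / 99 : ℝ)) fun z11 =>
  letR (z11 * z) fun z12 =>
  letR (z12 + (2 / 63 : ℝ)) fun z13 =>
  letR (z13 * z) fun z14 =>
  letR (z14 + (2 / 35 : ℝ)) fun z15 =>
  letR (z15 * z) fun z16 =>
  letR (z16 + (2 / 15 : ℝ)) fun z17 =>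
  letR (z17 * z) fun z18 =>
  letR (z18 + (2 / 3 : ℝ)) fun z19 =>
  letR (z * z19) fun z36 =>
  letR ((1 : ℝ) - z36) fun z37 =>
  letR ((1 / 240 : ℝ) * z) fun z21 =>
  letR (z21 + (1 / 182 : ℝ)) fun z22 =>
  letR (z22 * z) fun z23 =>
  letR (z23 + (1 / 132 : ℝ)) fun z24 =>
  letR (z24 * z) fun z25 =>
  letR (z25 + (1 / 90 : ℝ)) fun z26 =>
  letR (z26 * z) fun z27 =>
  letR (z27 + (1 / 56 : ℝ)) fun z28 =>
  letR (z28 * z) fun z29 =>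
  letR (z29 + (1 / 30 : ℝ)) fun z30 =>
  letR (z30 * z) fun z31 =>
  letR (z31 + (1 / 12 : ℝ)) fun z32 =>
  letR (z32 * z) fun z33 =>
  letR (z33 + (1 / 2 : ℝ)) fun z34 =>
  letR (z37 * z34) fun z38 =>
  letR (z * z34) fun z35 =>
  letR (z35 ^ 2) fun z39 =>
  letR ((55 / 4 : ℝ) * z39) fun z40 =>
  letR (z40 + (33 / 16 : ℝ)) fun z41 =>
  letR (z35 * z41) fun z42 =>
  letR (z42 + (43 / 32 : ℝ)) fun z43 =>
  letR (z38 * z43) fun z44 =>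
  letR (z44 - z19) fun z45 =>
  posR z45 <|
  True

theorem pc_S {ε : Fin 4 → ℝ} (hε : ∀ i, |ε i| ≤ 1) (ps : ℕ) (x0 x1 x2 x3 : AF) (z u1 u2 u3 : ℝ)
    (h0 : Rel ε x0 z) (h1 : Rel ε x1 u1) (h2 : Rel ε x2 u2) (h3 : Rel ε x3 u3) :
    pc_B ps x0 x1 x2 x3 = true → pc_R ps z u1 u2 u3 := by
  delta pc_B pc_R
  exact mulS hε (cst_rel k0) h0 fun z2 t2 g2 =>
  addcS g2 k1 fun z3 t3 g3 =>
  mulS hε g3 h0 fun z4 t4 g4 =>
  addcS g4 k2 fun z5 t5 g5 =>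
  mulS hε g5 h0 fun z6 t6 g6 =>
  addcS g6 k3 fun z7 t7 g7 =>
  mulS hε g7 h0 fun z8 t8 g8 =>
  addcS g8 k4 fun z9 t9 g9 =>
  mulS hε g9 h0 fun z10 t10 g10 =>
  addcS g10 k5 fun z11 t11 g11 =>
  mulS hε g11 h0 fun z12 t12 g12 =>
  addcS g12 k6 fun z13 t13 g13 =>
  mulS hε g13 h0 fun z14 t14 g14 =>
  addcS g14 k7 fun z15 t15 g15 =>
  mulS hε g15 h0 fun z16 t16 g16 =>
  addcS g16 k8 fun z17 t17 g17 =>
  mulS hε g17 h0 fun z18 t18 g18 =>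
  addcS g18 k9 fun z19 t19 g19 =>
  mulS hε h0 g19 fun z36 t36 g36 =>
  rsubS g36 k10 fun z37 t37 g37 =>
  mulS hε (cst_rel k11) h0 fun z21 t21 g21 =>
  addcS g21 k12 fun z22 t22 g22 =>
  mulS hε g22 h0 fun z23 t23 g23 =>
  addcS g23 k13 fun z24 t24 g24 =>
  mulS hε g24 h0 fun z25 t25 g25 =>
  addcS g25 k14 fun z26 t26 g26 =>
  mulS hε g26 h0 fun z27 t27 g27 =>
  addcS g27 k15 fun z28 t28 g28 =>
  mulS hε g28 h0 fun z29 t29 g29 =>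
  addcS g29 k16 fun z30 t30 g30 =>
  mulS hε g30 h0 fun z31 t31 g31 =>
  addcS g31 k17 fun z32 t32 g32 =>
  mulS hε g32 h0 fun z33 t33 g33 =>
  addcS g33 k18 fun z34 t34 g34 =>
  mulS hε g37 g34 fun z38 t38 g38 =>
  mulS hε h0 g34 fun z35 t35 g35 =>
  sqrS hε g35 fun z39 t39 g39 =>
  smulS hε g39 k19 fun z40 t40 g40 =>
  addcS g40 k20 fun z41 t41 g41 =>
  mulS hε g35 g41 fun z42 t42 g42 =>
  addcS g42 k21 fun z43 t43 g43 =>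
  mulS hε g38 g43 fun z44 t44 g44 =>
  subS g44 g19 fun z45 t45 g45 =>
  posS hε g45 <|
  fun _ => trivial

def pc_Spec (z : ℝ) : Prop :=
  ∃ q f x : ℝ,
    q = (((((((((((((((((((1 / 19 : ℝ) * z) + (2 / 323 : ℝ)) * z) + (2 / 255 : ℝ)) * z) + (2 / 195 : ℝ)) * z) + (2 / 143 : ℝ)) * z) + (2 / 99 : ℝ)) * z) + (2 / 63 : ℝ)) * z) + (2 / 35 : ℝ)) * z) + (2 / 15 : ℝ)) * z) + (2 / 3 : ℝ)) ∧
    f = (((((((((((((((1 / 240 : ℝ) * z) + (1 / 182 : ℝ)) * z) + (1 / 132 : ℝ)) * z) + (1 / 90 : ℝ)) * z) + (1 / 56 : ℝ)) * z) + (1 / 30 : ℝ)) * z) + (1 / 12 : ℝ)) * z) + (1 / 2 : ℝ)) ∧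
    x = (z * f) ∧
    0 ≤ (((((1 : ℝ) - (z * q)) * f) * ((x * (((55 / 4 : ℝ) * (x ^ 2)) + (33 / 16 : ℝ))) + (43 / 32 : ℝ))) - q)

theorem pc_E {ps : ℕ} {z u1 u2 u3 : ℝ} (h : pc_R ps z u1 u2 u3) : pc_Spec z := by
  delta pc_R at h
  exact letR_in h fun h =>
  letR_in h fun h =>
  letR_in h fun h =>
  letR_in h fun h =>
  letR_in h fun h =>
  letR_in h fun h =>
  letR_in h fun h =>
  letR_in h fun h =>
  letR_in h fun h =>
  letR_in h fun h =>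
  letR_in h fun h =>
  letR_in h fun h =>
  letR_in h fun h =>
  letR_in h fun h =>
  letR_in h fun h =>
  letR_in h fun h =>
  letR_in h fun h =>
  letR_ex h fun q q1 h =>
  letR_in h fun h =>
  letR_in h fun h =>
  letR_in h fun h =>
  letR_in h fun h =>
  letR_in h fun h =>
  letR_in h fun h =>
  letR_in h fun h =>
  letR_in h fun h =>
  letR_in h fun h =>
  letR_in h fun h =>
  letR_in h fun h =>
  letR_in h fun h =>
  letR_in h fun h =>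
  letR_in h fun h =>
  letR_in h fun h =>
  letR_ex h fun f q2 h =>
  letR_in h fun h =>
  letR_ex h fun x q3 h =>
  letR_in h fun h =>
  letR_in h fun h =>
  letR_in h fun h =>
  letR_in h fun h =>
  letR_in h fun h =>
  letR_in h fun h =>
  letR_in h fun h =>
  posR_ex h fun q4 h =>
  ⟨q, f, x, q1, q2, q3, q4⟩

def PB : Prog := fun j ps x0 x1 x2 x3 =>
  pc_B ps x0 x1 x2 x3

def PR : ℕ → ℕ → ℝ → ℝ → ℝ → ℝ → Prop := fun j ps z u1 u2 u3 =>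
  pc_R ps z u1 u2 u3

theorem PS : Sound PB PR := fun _ hε j => match j with
  | _ => pc_S hε

theorem PE {j ps : ℕ} {z u1 u2 u3 : ℝ} : PR j ps z u1 u2 u3 → pc_Spec z := match j with
  | _ => fun h => @pc_E ps z u1 u2 u3 h

def l0 : Tree := Tree.leaf 0

end

end Crest.Agent.R307.CK1c
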