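import Crest.Agent.R307.CK1cP

set_option autoImplicit false
set_option maxRecDepth 100000
set_option linter.unusedVariables false

namespace Crest.Agent.R307.CK1c
open Crest.Agent.R307.AA

open Tree

theorem c0 : Good PR 4722366482869645213696 4722366663013630308516 4722366482869645213696 4722366482869645213696 4722366482869645213696 4722366482869645213696 4722366482869645213696 4722366482869645213696 :=
  run_sound PS (s0 (s0 (s0 l0 l0) (s0 l0 l0)) (s0 (s0 (s0 l0 l0) (s0 l0 l0)) (s0 (s0 l0 l0) (s0 l0 (s0 l0 l0))))) 0 _ _ _ _ _ _ _ _ (by decide +kernel)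

end Crest.Agent.R307.CK1c
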