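import Crest.Agent.R307.Ser
import Crest.Agent.R307.CK2X

/-! Row 307: the surplus is dominated by an explicit function of the entropy.
`lam r ≤ C (1 / H r - 1 / log 2)` with `C = 13/20`; hence
`C (log (log 2 / H r) - 1 + H r / log 2) - St r` is monotone on `[0, 1)`. -/

set_option autoImplicit false
open Crest.CubeNoise Finset

namespace Crest.Agent.R307

theorem ck2_sE_eq (r : ℝ) : signEntropy r = Real.log 2 - psi r := by
  unfold psi; ring

theorem ck2_artanh_ge {r : ℝ} (h0 : 0 ≤ r) (h1 : r < 1) : r + r ^ 3 / 3 ≤ Real.artanh r := by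
  have := ser_artanh_ge h0 h1 2
  simp only [sum_range_succ, range_zero, sum_empty] at this
  norm_num at this
  linarith

theorem ck2_psi_ge {r : ℝ} (h : |r| < 1) : r ^ 2 / 2 ≤ psi r := by
  have := ser_psi_ge h 1
  simp only [sum_range_succ, range_zero, sum_empty] at this
  norm_num at this
  linarith

/-- the one-variable inequality -/
theorem ck2_one {r : ℝ} (h0 : 0 ≤ r) (h1 : r < 1) :
    (r / (1 - r ^ 2) - Real.artanh r) * signEntropy r * Real.log 2 ≤
      13 / 20 * (psi r * Real.artanh r) := by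
  have habs : |r| < 1 := by rwa [abs_of_nonneg h0]
  have hz : 0 < 1 - r ^ 2 := by nlinarith
  have hl1 := Real.log_two_gt_d9
  have hl2 := Real.log_two_lt_d9
  have hH := sE_pos habs
  have hp := psi_nonneg r
  have hw0 := Real.artanh_nonneg h0
  rcases le_total r (9 / 100) with hs | hs
  · have hw := ck2_artanh_ge h0 h1
    have hps := ck2_psi_ge habs
    have hr3 : 0 ≤ r ^ 3 := by positivity
    have h2 : r / (1 - r ^ 2) ≤ r + r ^ 3 * (10082 / 10000) := by
      rw [div_le_iff₀ hz]
      have : r ^ 2 ≤ 81 / 10000 := by nlinarith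
      nlinarith [mul_nonneg hr3 (sub_nonneg.2 this)]
    have h3 : r / (1 - r ^ 2) - Real.artanh r ≤ r ^ 3 * (675 / 1000) := by linarith
    have h4 : signEntropy r * Real.log 2 ≤ 481 / 1000 := by
      rw [ck2_sE_eq]; nlinarith
    have h5 : r ^ 2 / 2 * r ≤ psi r * Real.artanh r :=
      mul_le_mul hps (by linarith) h0 hp
    calc _ = (r / (1 - r ^ 2) - Real.artanh r) * (signEntropy r * Real.log 2) := by ring
      _ ≤ r ^ 3 * (675 / 1000) * (signEntropy r * Real.log 2) :=
          mul_le_mul_of_nonneg_right h3 (by positivity)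
      _ ≤ r ^ 3 * (675 / 1000) * (481 / 1000) := by gcongr
      _ ≤ _ := by nlinarith
  rcases le_total r (47 / 50) with hb | hb
  · obtain ⟨w1, lp, w3, lm, ps, w5, w, rfl, -, rfl, rfl, -, rfl, hps, rfl, -, hw, h⟩ :=
      CK2X.main r hs hb
    have e1 : psi r = ps := by rw [psi_eq habs.le, hps, add_comm r 1]; ring
    have e2 : Real.artanh r = w := by rw [artanh_eq habs, hw, add_comm r 1]; ring
    rw [← hw] at h
    rw [ck2_sE_eq, e1, e2, div_eq_mul_inv]
    linarith
  · have hp1 : 0 < 1 + r := by linarith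
    have hm1 : 0 < 1 - r := by linarith
    have hw : 5 / 3 ≤ Real.artanh r := by
      rw [artanh_eq habs, ← Real.log_div hp1.ne' hm1.ne']
      have : Real.log (2 ^ 5) ≤ Real.log ((1 + r) / (1 - r)) := by
        refine Real.log_le_log (by norm_num) ?_
        rw [le_div_iff₀ hm1]; linarith
      rw [Real.log_pow] at this
      push_cast at this
      linarith
    have hH2 : signEntropy r ≤ (1 - r) * (Real.artanh r + 1 / (1 + r)) := by
      have := Real.log_le_sub_one_of_pos (show 0 < 2 / (1 + r) by positivity)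
      rw [Real.log_div two_ne_zero hp1.ne'] at this
      have e : 2 / (1 + r) - 1 = (1 - r) * (1 / (1 + r)) := by field_simp; ring
      rw [ck2_sE_eq, psi_eq habs.le, artanh_eq habs]
      nlinarith
    have h3 : r / (1 - r ^ 2) * signEntropy r ≤ Real.artanh r / 2 + 1 / 4 := by
      calc _ ≤ r / (1 - r ^ 2) * ((1 - r) * (Real.artanh r + 1 / (1 + r))) := by gcongr
        _ = r / (1 + r) * Real.artanh r + r / (1 + r) ^ 2 := by
            have : 1 - r ^ 2 = (1 + r) * (1 - r) := by ring
            rw [this]; field_simp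
        _ ≤ 1 / 2 * Real.artanh r + 1 / 4 := by
            have a1 : r / (1 + r) ≤ 1 / 2 := by rw [div_le_iff₀ hp1]; linarith
            have a2 : r / (1 + r) ^ 2 ≤ 1 / 4 := by
              rw [div_le_iff₀ (by positivity)]; nlinarith [sq_nonneg (1 - r)]
            exact add_le_add (mul_le_mul_of_nonneg_right a1 hw0) a2
        _ = _ := by ring
    have h4 : r / (1 - r ^ 2) * signEntropy r ≤ 13 / 20 * Real.artanh r := by linarith
    have h5 : 0 ≤ Real.artanh r * signEntropy r := by positivity
    have e : psi r = Real.log 2 - signEntropy r := rfl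
    rw [e]
    nlinarith [mul_le_mul_of_nonneg_right h4 (show 0 ≤ Real.log 2 by linarith)]

/-- explicit majorant minus the surplus -/
noncomputable def ck2D (r : ℝ) : ℝ :=
  13 / 20 * (Real.log (Real.log 2) - Real.log (signEntropy r) - 1 + signEntropy r / Real.log 2) -
    St r

theorem ck2_hasDerivAt_sE {r : ℝ} (h : |r| < 1) : HasDerivAt signEntropy (-Real.artanh r) r := by
  have : signEntropy = fun r => Real.log 2 - psi r := funext ck2_sE_eq
  rw [this]
  exact (hasDerivAt_psi h).const_sub _

theorem ck2_hasDerivAt_St {r : ℝ} (h : |r| < 1) :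
    HasDerivAt St (r / (1 - r ^ 2) - Real.artanh r) r := by
  have h1 := ((hasDerivAt_id r).mul (hasDerivAt_artanh' h)).sub ((hasDerivAt_psi h).const_mul 2)
  refine (h1.congr_deriv ?_)
  simp only [id]; ring

theorem ck2D_hasDerivAt {r : ℝ} (h : |r| < 1) :
    HasDerivAt ck2D (13 / 20 * (Real.artanh r / signEntropy r - Real.artanh r / Real.log 2) -
      (r / (1 - r ^ 2) - Real.artanh r)) r := by
  have hH := sE_pos h
  have h1 := ck2_hasDerivAt_sE h
  have h2 := ((((h1.log hH.ne').const_sub (Real.log (Real.log 2))).sub_const 1).add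
    (h1.div_const (Real.log 2))).const_mul (13 / 20 : ℝ)
  refine ((h2.sub (ck2_hasDerivAt_St h)).congr_deriv ?_)
  ring

theorem ck2D_zero : ck2D 0 = 0 := by
  have hl : 0 < Real.log 2 := Real.log_pos one_lt_two
  have h0 : signEntropy 0 = Real.log 2 := by rw [ck2_sE_eq, psi_zero, sub_zero]
  rw [ck2D, St_zero, h0, div_self hl.ne']
  ring

theorem ck2D_mono {r s : ℝ} (hr : 0 ≤ r) (hrs : r ≤ s) (hs : s < 1) : ck2D r ≤ ck2D s := by
  have hl : 0 < Real.log 2 := Real.log_pos one_lt_two
  have hA : ∀ x ∈ Set.Icc r s, |x| < 1 := fun x hx => by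
    rw [abs_of_nonneg (hr.trans hx.1)]; exact hx.2.trans_lt hs
  have : MonotoneOn ck2D (Set.Icc r s) := by
    refine monotoneOn_of_hasDerivWithinAt_nonneg (convex_Icc r s)
      (fun x hx => (ck2D_hasDerivAt (hA x hx)).continuousAt.continuousWithinAt)
      (fun x hx => (ck2D_hasDerivAt (hA x (interior_subset hx))).hasDerivWithinAt) ?_
    intro x hx
    have hx' := interior_subset hx
    have hH := sE_pos (hA x hx')
    have h1 := ck2_one (hr.trans hx'.1) (hx'.2.trans_lt hs)
    have e : 13 / 20 * (Real.artanh x / signEntropy x - Real.artanh x / Real.log 2) =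
        13 / 20 * (psi x * Real.artanh x) / (signEntropy x * Real.log 2) := by
      have : psi x = Real.log 2 - signEntropy x := rfl
      rw [this]; field_simp
    rw [e, sub_nonneg, le_div_iff₀ (by positivity)]
    linarith
  exact this ⟨le_rfl, hrs⟩ ⟨hrs, le_rfl⟩ hrs

theorem ck2D_nonneg {s : ℝ} (h0 : 0 ≤ s) (hs : s < 1) : 0 ≤ ck2D s :=
  ck2D_zero ▸ ck2D_mono le_rfl h0 hs

end Crest.Agent.R307
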