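import Crest.Agent.R307.CK2YT0

set_option autoImplicit false
set_option maxRecDepth 100000
set_option linter.unusedVariables false

namespace Crest.Agent.R307.CK2Y
open Crest.Agent.R307.AA

theorem good : Good PR 4722366482869645213696 4722366764344621924352 4722366482869645213696 4722366764344621924352 4722366482869645213696 4722366482869645213696 4722366482869645213696 4722366482869645213696 :=
  c0

theorem main (u y : ℝ) (a0 : (0 : ℝ) ≤ u) (b0 : u ≤ (1 : ℝ)) (a1 : (0 : ℝ) ≤ y) (b1 : y ≤ (1 : ℝ)) :
    a_Spec u y ∨ b_Spec u y := by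
  obtain ⟨j, ps, h⟩ := good u y 0 0 ⟨⟨le_trans (by norm_num [val]) a0, le_trans b0 (by norm_num [val])⟩, ⟨le_trans (by norm_num [val]) a1, le_trans b1 (by norm_num [val])⟩, ⟨by norm_num [val], by norm_num [val]⟩, ⟨by norm_num [val], by norm_num [val]⟩⟩
  exact PE h

end Crest.Agent.R307.CK2Y
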