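import Crest.Agent.R307.Ser
import Crest.Agent.R307.CK2Y

/-! Row 307: the two-variable inequality behind `ck2`. -/

set_option autoImplicit false
open Crest.CubeNoise Finset

namespace Crest.Agent.R307

theorem ck2_St_sub {y c : ℝ} (h : |y| < 1) (hc : c ≤ 1 / 3) (n : ℕ) :
    ∑ k ∈ range (n + 1), (y ^ 2) ^ (k + 1) * ((k : ℝ) / ((k + 1) * (2 * k + 1)) - c / (k + 1)) ≤
      St y + c * Real.log (1 - y ^ 2) := by
  have h2 : |y ^ 2| < 1 := by
    rw [abs_pow]; exact pow_lt_one₀ (abs_nonneg _) h two_ne_zero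
  have hs := (ser_St h).sub ((Real.hasSum_pow_div_log_of_abs_lt_one h2).mul_left c)
  have hs' : HasSum (fun k : ℕ => (y ^ 2) ^ (k + 1) *
      ((k : ℝ) / ((k + 1) * (2 * k + 1)) - c / (k + 1))) (St y + c * Real.log (1 - y ^ 2)) :=
    ser_congr hs (fun k => by ring) (by ring)
  refine sum_le_hasSum _ (fun k hk => mul_nonneg (by positivity) ?_) hs'
  have hk1 : (1 : ℝ) ≤ k := by
    have : 1 ≤ k := by simp only [mem_range] at hk; omega
    exact_mod_cast this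
  rw [sub_nonneg, div_le_div_iff₀ (by positivity) (by positivity)]
  have : c * (2 * k + 1) ≤ k := by nlinarith
  nlinarith

theorem ck2_log_le {e : ℝ} (h0 : 0 ≤ e) (h1 : e < 1) :
    -Real.log (1 - e) ≤ e + e ^ 2 / 2 + e ^ 3 / 3 + e ^ 4 / (4 * (1 - e)) := by
  have hz : 0 < 1 - e := by linarith
  have := ser_tail (g := fun k => e ^ (k + 1) / (4 * (1 - e)))
    (Real.hasSum_pow_div_log_of_abs_lt_one (x := e) (by rwa [abs_of_nonneg h0])) 3
    (fun k => by positivity) fun k hk => by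
      have e1 : e ^ (k + 1) / (4 * (1 - e)) - e ^ (k + 1 + 1) / (4 * (1 - e)) = e ^ (k + 1) / 4 := by
        field_simp; ring
      have : (3 : ℝ) ≤ k := by exact_mod_cast hk
      rw [e1]
      gcongr
      linarith
  simp only [sum_range_succ, range_zero, sum_empty] at this
  norm_num at this
  linarith

theorem ck2_two {m d : ℝ} (hm : 0 ≤ m) (hd : 0 < d) (hd2 : d ≤ 1 / 2) (hmd : m + d < 1) :
    13 / 20 * (d ^ 2 * ((2 * d ^ 3 / ((1 - m ^ 2) * (1 - m ^ 2 - d ^ 2))) ^ 2 / 2 +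
        (d ^ 2 / (1 - m ^ 2)) ^ 2 - Real.log (1 - d ^ 2 / (1 - m ^ 2)) -
        Real.log (1 - (d / (1 + m)) ^ 2) / 2 - Real.log (1 - (d / (1 - m)) ^ 2) / 2) -
      (1 - m ^ 2 - d ^ 2) * Real.log (1 - d ^ 2 / (1 - m ^ 2)) - d ^ 2) ≤
      E0 m d + d ^ 4 / ((1 - m ^ 2) * (1 - m ^ 2 - d ^ 2)) := by
  obtain ⟨u, rfl⟩ : ∃ u, m = 1 - u := ⟨1 - m, by ring⟩
  have hu : 0 < u := by linarith
  obtain ⟨y, rfl⟩ : ∃ y, d = u * y := ⟨d / u, by field_simp⟩
  have hy : 0 < y := (mul_pos_iff_of_pos_left hu).1 hd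
  have hy1 : y < 1 := by nlinarith
  have hu1 : u ≤ 1 := by linarith
  rcases CK2Y.main u y hu.le hu1 hy.le hy1.le with h | h
  swap
  · exfalso; unfold CK2Y.b_Spec at h; linarith
  obtain ⟨x, c, p, ip, e, g, f, A, B, hx, hc, hp, hp0, hip, he, he1, hg, hf, hA, hB, h⟩ := h
  have e1 : 1 + (1 - u) = p := by rw [hp]; ring
  have e2 : 1 - (1 - u) = u := by ring
  have e3 : 1 - (1 - u) ^ 2 = u * p := by rw [hp]; ring
  have e4 : u * y / u = y := by field_simp
  have e5 : (u * y) ^ 2 / (u * p) = e := by rw [he, hc, hip, hx]; field_simp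
  have e6 : (u * y) ^ 2 = u * p * e := by rw [← e5]; field_simp
  have e7 : (u * y / p) ^ 2 = u * e * ip := by rw [div_pow, e6, hip]; field_simp
  have e8 : u * x = e * p := by rw [he, hc, hip]; field_simp
  have he0 : 0 ≤ e := by rw [← e5]; positivity
  have e9 : (u * y) ^ 4 / (u * p * (u * p - (u * y) ^ 2)) = e ^ 2 * g := by
    rw [show (u * y) ^ 4 = ((u * y) ^ 2) ^ 2 by ring, e6, hg]; field_simp
  have e10 : (u * y) ^ 2 * (2 * (u * y) ^ 3 / (u * p * (u * p - (u * y) ^ 2))) ^ 2 / 2 =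
      e ^ 2 * (2 * f ^ 2) := by
    rw [div_pow, mul_pow 2, show ((u * y) ^ 3) ^ 2 = ((u * y) ^ 2) ^ 3 by ring, e6, hf, hg]
    field_simp
  have hy' : |u * y / p| < 1 := by
    rw [abs_of_nonneg (by positivity), div_lt_one hp0]; linarith
  have s1 := ck2_St_sub (y := y) (c := 13 / 20 * c) (by rwa [abs_of_pos hy])
    (by rw [hc, hx]; nlinarith) 5
  have s2 := ck2_St_sub (y := u * y / p) (c := 13 / 20 * (u * e)) hy'
    (by
      have : u * e * p ≤ 1 / 4 := by nlinarith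
      have h1 : 1 ≤ p := by linarith
      have : u * e ≤ 1 / 4 := by nlinarith [mul_nonneg hu.le he0]
      linarith) 1
  have s3 := ck2_log_le he0 (by linarith)
  simp only [sum_range_succ, range_zero, sum_empty] at s1 s2
  norm_num at s1 s2
  rw [E0, e1, e2, e3, e4, e5, e9]
  rw [e7] at s2 ⊢
  rw [← hx] at s1 ⊢
  generalize St y = S1 at *
  generalize St (u * y / p) = S2 at *
  generalize Real.log (1 - x) = L1 at *
  generalize Real.log (1 - u * e * ip) = L2 at *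
  generalize Real.log (1 - e) = L0 at *
  have e11 : e ^ 4 / (4 * (1 - e)) = e ^ 3 * f / 4 := by rw [hf, hg]; field_simp
  rw [e11] at s3
  have hpi : p * ip = 1 := by rw [hip]; field_simp
  have s1' : -(13 / 20 * (x * c)) + x ^ 2 * (A - 13 / 20 * (c * B)) ≤ S1 + 13 / 20 * c * L1 := by
    rw [hA, hB]; linarith
  have hK : 0 ≤ e ^ 2 * (g + u ^ 2 * ip * (1 / 12 - 13 / 80 * (u * e)) -
      13 / 20 * (2 * f ^ 2 + u * p * (e * (1 / 4 * f + 4 / 3) + 1 / 2) + 1 + (1 - u) ^ 2)) +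
      u / 2 * (x ^ 2 * (A - 13 / 20 * (c * B))) := by
    refine (mul_nonneg_iff_of_pos_left hu).1 ?_
    have h' := mul_nonneg (sq_nonneg e) h
    have e12 : u * (u / 2 * (x ^ 2 * (A - 13 / 20 * (c * B)))) =
        e ^ 2 * (1 / 2 * (p ^ 2 * (A - 13 / 20 * (c * B)))) := by
      calc _ = (u * x) ^ 2 / 2 * (A - 13 / 20 * (c * B)) := by ring
        _ = _ := by rw [e8]; ring
    rw [mul_add u, e12]
    linarith
  have t1 := mul_le_mul_of_nonneg_left s1' (show 0 ≤ u / 2 by positivity)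
  have t2 := mul_le_mul_of_nonneg_left s2 (show 0 ≤ p / 2 by positivity)
  have t3 := mul_le_mul_of_nonneg_left s3 (show 0 ≤ u * p by positivity)
  have a1 : u * (x * c) = e ^ 2 * p ^ 2 := by
    calc _ = (u * x) ^ 2 := by rw [hc]; ring
      _ = _ := by rw [e8]; ring
  have a2 : u * c * L1 = u * p * e * L1 := by rw [hc, e8]; ring
  have a3 : p / 2 * ((u * e * ip) ^ 2 * (1 / 6 - 13 / 20 * (u * e) / 2)) =
      e ^ 2 * (u ^ 2 * ip * (1 / 12 - 13 / 80 * (u * e))) := by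
    calc _ = (p * ip) * (e ^ 2 * (u ^ 2 * ip * (1 / 12 - 13 / 80 * (u * e)))) := by ring
      _ = _ := by rw [hpi, one_mul]
  have a4 : p * (u * e * ip * (u * e)) = e ^ 2 * u ^ 2 := by
    calc _ = (p * ip) * (e ^ 2 * u ^ 2) := by ring
      _ = _ := by rw [hpi, one_mul]
  have a5 : e ^ 2 * p ^ 2 + e ^ 2 * u ^ 2 = 2 * (e ^ 2 * (1 + (1 - u) ^ 2)) := by rw [hp]; ring
  rw [a3] at t2
  generalize (2 * (u * y) ^ 3 / (u * p * (u * p - (u * y) ^ 2))) = η at *
  rw [e6] at e10 ⊢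
  generalize x ^ 2 * (A - 13 / 20 * (c * B)) = Z at *
  linarith

end Crest.Agent.R307
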