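import Crest.Agent.R307.CKPt
import Crest.Agent.R307.CK2L
import Crest.Agent.R307.CK2N

/-! Row 307, soft Courtade–Kumar: numerical core of the induction step of the mean-profile bound. -/

set_option autoImplicit false
open Crest.CubeNoise

namespace Crest.Agent.R307

theorem ck2_sinh_le {x : ℝ} (hx : 0 ≤ x) : Real.sinh x ≤ x * Real.cosh x := by
  have hc := Real.cosh_pos x
  have h0 : 0 ≤ Real.tanh x := by
    rw [Real.tanh_eq_sinh_div_cosh]; exact div_nonneg (Real.sinh_nonneg_iff.2 hx) hc.le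
  have h1 := ck2_artanh_ge h0 (Real.tanh_lt_one x)
  rw [Real.artanh_tanh] at h1
  have h2 : Real.tanh x ≤ x := by
    have : 0 ≤ Real.tanh x ^ 3 / 3 := by positivity
    linarith
  rwa [Real.tanh_eq_sinh_div_cosh, div_le_iff₀ hc] at h2

theorem ck2_cosh_artanh {y : ℝ} (h0 : 0 ≤ y) (h1 : y < 1) :
    Real.cosh (Real.artanh y) = Real.exp (-(Real.log (1 - y ^ 2) / 2)) ∧
      Real.sinh (Real.artanh y) = y * Real.exp (-(Real.log (1 - y ^ 2) / 2)) := by
  have hz : 0 < 1 - y ^ 2 := by nlinarith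
  have hy : y ∈ Set.Ioo (-1 : ℝ) 1 := ⟨by linarith, h1⟩
  have e : Real.exp (-(Real.log (1 - y ^ 2) / 2)) = 1 / √(1 - y ^ 2) := by
    rw [← Real.log_sqrt hz.le, Real.exp_neg, Real.exp_log (Real.sqrt_pos.2 hz), one_div]
  rw [Real.cosh_artanh hy, Real.sinh_artanh hy, e]
  exact ⟨rfl, by ring⟩

theorem ck2_sinh_add {y y' η : ℝ} (h0 : 0 ≤ y) (h1 : y < 1) (h0' : 0 ≤ y') (h1' : y' < 1)
    (hη : 0 ≤ η) : Real.sinh (Real.artanh y' + Real.artanh y + η) ≤ (y' + y + (1 + y' * y) * η) *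
      Real.exp (η ^ 2 / 2 - Real.log (1 - y' ^ 2) / 2 - Real.log (1 - y ^ 2) / 2) := by
  obtain ⟨c1, s1⟩ := ck2_cosh_artanh h0 h1
  obtain ⟨c2, s2⟩ := ck2_cosh_artanh h0' h1'
  have h3 := ck2_sinh_le hη
  have h4 := Real.cosh_le_exp_half_sq η
  rw [Real.sinh_add, Real.sinh_add, Real.cosh_add, c1, c2, s1, s2,
    sub_eq_add_neg _ (Real.log (1 - y ^ 2) / 2), sub_eq_add_neg _ (Real.log (1 - y' ^ 2) / 2),
    Real.exp_add, Real.exp_add]
  have hE1 := Real.exp_pos (-(Real.log (1 - y ^ 2) / 2))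
  have hE2 := Real.exp_pos (-(Real.log (1 - y' ^ 2) / 2))
  generalize Real.exp (-(Real.log (1 - y ^ 2) / 2)) = E1 at *
  generalize Real.exp (-(Real.log (1 - y' ^ 2) / 2)) = E2 at *
  calc _ = E2 * E1 * ((y' + y) * Real.cosh η + (1 + y' * y) * Real.sinh η) := by ring
    _ ≤ E2 * E1 * ((y' + y) * Real.exp (η ^ 2 / 2) + (1 + y' * y) * (η * Real.exp (η ^ 2 / 2))) := by
        gcongr
        exact h3.trans (by gcongr)
    _ = _ := by ring

/-- `(d/2) arsinh (k e^z) - C d² z` is monotone for `z ≥ 0` -/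
theorem ck2_arsinh_mono {d t z1 z : ℝ} (hd : 0 < d) (hd2 : d ≤ 1 / 2) (ht : 0 < t) (ht1 : t ≤ 1)
    (h0 : 0 ≤ z1) (h : z1 ≤ z) :
    d / 2 * Real.arsinh (2 * d / t * Real.exp z1) - 13 / 20 * d ^ 2 * z1 ≤
      d / 2 * Real.arsinh (2 * d / t * Real.exp z) - 13 / 20 * d ^ 2 * z := by
  have hD : ∀ x, HasDerivAt (fun x => d / 2 * Real.arsinh (2 * d / t * Real.exp x) -
      13 / 20 * d ^ 2 * x) (d / 2 * ((√(1 + (2 * d / t * Real.exp x) ^ 2))⁻¹ *
        (2 * d / t * Real.exp x)) - 13 / 20 * d ^ 2) x := fun x => by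
    have h1 := (((Real.hasDerivAt_exp x).const_mul (2 * d / t)).arsinh).const_mul (d / 2)
    have h2 := (hasDerivAt_id x).const_mul (13 / 20 * d ^ 2)
    refine (h1.sub h2).congr_deriv ?_
    simp
  have : MonotoneOn (fun x => d / 2 * Real.arsinh (2 * d / t * Real.exp x) -
      13 / 20 * d ^ 2 * x) (Set.Ici 0) := by
    refine monotoneOn_of_hasDerivWithinAt_nonneg (convex_Ici 0)
      (fun x _ => (hD x).continuousAt.continuousWithinAt)
      (fun x _ => (hD x).hasDerivWithinAt) ?_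
    intro x hx
    have hx0 : 0 ≤ x := interior_subset hx
    have hE : 1 ≤ Real.exp x := Real.one_le_exp hx0
    generalize Real.exp x = E at *
    have hk : 2 * d ≤ 2 * d / t * E := by
      have : 2 * d ≤ 2 * d / t := by rw [le_div_iff₀ ht]; nlinarith
      nlinarith
    generalize 2 * d / t * E = v at *
    have hv : 0 < v := by linarith
    have hs : 0 < √(1 + v ^ 2) := Real.sqrt_pos.2 (by positivity)
    have h3 : 13 / 10 * d * √(1 + v ^ 2) ≤ v := by
      have : √(1 + v ^ 2) ≤ v / (13 / 10 * d) := by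
        refine Real.sqrt_le_iff.2 ⟨by positivity, ?_⟩
        rw [div_pow, le_div_iff₀ (by positivity)]
        have a1 : 4 * d ^ 2 ≤ v ^ 2 := by nlinarith
        have a2 : d ^ 2 ≤ 1 / 4 := by nlinarith
        nlinarith [mul_le_mul_of_nonneg_right a2 (sq_nonneg v)]
      rwa [le_div_iff₀ (by positivity), mul_comm] at this
    have h4 : 13 / 10 * d ≤ (√(1 + v ^ 2))⁻¹ * v := by
      rw [inv_mul_eq_div, le_div_iff₀ hs]; exact h3
    nlinarith
  exact this h0 (h0.trans h) h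

theorem ck2_id {d t : ℝ} (ht : 0 < t) (hv : 0 < t - d ^ 2) :
    2 * d / t + (1 + d ^ 2 / t) * (2 * d ^ 3 / (t * (t - d ^ 2))) =
      2 * d / t * ((1 + (d ^ 2 / t) ^ 2) / (1 - d ^ 2 / t)) := by
  have e2 : 1 - d ^ 2 / t = (t - d ^ 2) / t := by field_simp
  rw [e2]
  field_simp
  ring

theorem ck2_caseA {d t s : ℝ} (ht : 0 < t) (ht1 : t ≤ 1) (hv : 0 < t - d ^ 2) (hs0 : 0 ≤ s)
    (hs1 : s < 1) (hc : (t - d ^ 2) * Real.log 2 ≤ t * signEntropy s) :
    t * St s ≤ d ^ 4 / (t * (t - d ^ 2)) := by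
  have hl : 0 < Real.log 2 := Real.log_pos one_lt_two
  have hsa : |s| < 1 := by rwa [abs_of_nonneg hs0]
  have ha := sE_pos hsa
  have ha2 : signEntropy s ≤ Real.log 2 := by have := psi_nonneg s; rw [ck2_sE_eq]; linarith
  have hDs := ck2D_nonneg hs0 hs1
  have hR : 0 ≤ d ^ 4 / (t * (t - d ^ 2)) := by positivity
  unfold ck2D at hDs
  have a1 : Real.log (Real.log 2) - Real.log (signEntropy s) ≤
      Real.log 2 / signEntropy s - 1 := by
    rw [← Real.log_div hl.ne' ha.ne']; exact Real.log_le_sub_one_of_pos (by positivity)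
  have a2 : 1 ≤ Real.log 2 / signEntropy s := by rwa [le_div_iff₀ ha, one_mul]
  have a3 : Real.log 2 / signEntropy s ≤ t / (t - d ^ 2) := by
    rw [div_le_div_iff₀ ha hv]; linarith
  have a4 : signEntropy s / Real.log 2 = (Real.log 2 / signEntropy s)⁻¹ := by rw [inv_div]
  rw [a4] at hDs
  generalize Real.log 2 / signEntropy s = ρ at *
  have a5 : ρ - 2 + ρ⁻¹ ≤ d ^ 4 / (t * (t - d ^ 2)) := by
    have b1 : d ^ 4 / (t * (t - d ^ 2)) = t / (t - d ^ 2) - 2 + (t / (t - d ^ 2))⁻¹ := by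
      field_simp; ring
    rw [b1]
    generalize t / (t - d ^ 2) = τ at *
    have hρ : 0 < ρ := by linarith
    have hτ : 0 < τ := by linarith
    have : ρ⁻¹ - τ⁻¹ ≤ τ - ρ := by
      rw [inv_sub_inv hρ.ne' hτ.ne', div_le_iff₀ (by positivity)]
      have h1 : 1 ≤ ρ * τ := one_le_mul_of_one_le_of_one_le a2 (a2.trans a3)
      exact le_mul_of_one_le_right (by linarith) h1
    linarith
  have a7 : t * St s ≤ St s := mul_le_of_le_one_left (St_nonneg hsa) ht1
  linarith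

theorem ck2_caseB {d t s : ℝ} (hd : 0 < d) (ht : 0 < t) (hv : 0 < t - d ^ 2) (hs0 : 0 ≤ s)
    (hs1 : s < 1) (hc : t * signEntropy s < (t - d ^ 2) * Real.log 2) :
    ∃ σ : ℝ, 0 ≤ σ ∧ σ < 1 ∧ t * St s - (t - d ^ 2) * kap σ + lam σ * (t * signEntropy s) ≤
      13 / 20 * (d ^ 2 * (Real.log (Real.log 2) - Real.log (signEntropy s)) -
        (t - d ^ 2) * Real.log (1 - d ^ 2 / t) - d ^ 2) := by
  have hsa : |s| < 1 := by rwa [abs_of_nonneg hs0]
  have ha := sE_pos hsa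
  have e1 : 1 - d ^ 2 / t = (t - d ^ 2) / t := by field_simp
  have he1 : 0 < 1 - d ^ 2 / t := by rw [e1]; positivity
  obtain ⟨σ, hσ0, hσ1, hσ⟩ := psi_surj (J := Real.log 2 - t * signEntropy s / (t - d ^ 2))
    (by rw [sub_nonneg, div_le_iff₀ hv]; linarith) (by
      have : 0 < t * signEntropy s / (t - d ^ 2) := by positivity
      linarith)
  have hα : signEntropy σ = signEntropy s / (1 - d ^ 2 / t) := by
    rw [ck2_sE_eq σ, hσ, e1]; field_simp; ring
  have hα' : (t - d ^ 2) * signEntropy σ = t * signEntropy s := by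
    rw [hα, e1]; field_simp
  have hσs : σ ≤ s := by
    by_contra hn
    have b1 := psi_mono hs0 (not_le.1 hn).le hσ1.le
    have b2 : signEntropy σ ≤ signEntropy s := by rw [ck2_sE_eq, ck2_sE_eq]; linarith
    have b3 : 0 < d ^ 2 * signEntropy s := by positivity
    have b4 := mul_le_mul_of_nonneg_left b2 hv.le
    linarith
  have hDm := ck2D_mono hσ0 hσs hs1
  have hDσ := ck2D_nonneg hσ0 hσ1
  have hD : (t - d ^ 2) * ck2D σ ≤ t * ck2D s :=
    mul_le_mul (by linarith [sq_nonneg d]) hDm hDσ ht.le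
  refine ⟨σ, hσ0, hσ1, ?_⟩
  unfold ck2D at hD
  have b1 : Real.log (signEntropy σ) = Real.log (signEntropy s) - Real.log (1 - d ^ 2 / t) := by
    rw [hα, Real.log_div ha.ne' he1.ne']
  have b2 : (t - d ^ 2) * (signEntropy σ / Real.log 2) = t * (signEntropy s / Real.log 2) := by
    rw [← mul_div_assoc, hα', mul_div_assoc]
  rw [b1] at hD
  rw [kap, ← hα']
  linarith

theorem ck2 {m d s : ℝ} (hm : 0 ≤ m) (hd : 0 ≤ d) (hd2 : d ≤ 1 / 2) (hmd : m + d < 1)
    (hs0 : 0 ≤ s) (hs1 : s < 1) (hA : (1 - m ^ 2) * signEntropy s ≤ signEntropy m - Dl m d) :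
    ∃ σ : ℝ, 0 ≤ σ ∧ σ < 1 ∧
      ((1 - m ^ 2) * St s - (1 - m ^ 2 - d ^ 2) * kap σ + lam σ * ((1 - m ^ 2) * signEntropy s) ≤
          E0 m d + d ^ 4 / ((1 - m ^ 2) * (1 - m ^ 2 - d ^ 2)) ∨
        (1 - m ^ 2) * St s - (1 - m ^ 2 - d ^ 2) * kap σ + lam σ * ((1 - m ^ 2) * signEntropy s) ≤
          d / 2 * Real.arsinh (2 * d * Real.log 2 / ((1 - m ^ 2) * signEntropy s)) - 2 * Dl m d) := by
  clear hA
  have h1 : |m + d| < 1 := by rw [abs_lt]; constructor <;> linarith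
  have h2 : |m - d| < 1 := by rw [abs_lt]; constructor <;> linarith
  have hE0 := E0_nonneg h1 h2
  rcases hd.eq_or_lt with rfl | hd
  · refine ⟨s, hs0, hs1, Or.inl ?_⟩
    rw [kap]; norm_num; linarith
  have hl : 0 < Real.log 2 := Real.log_pos one_lt_two
  have hsa : |s| < 1 := by rwa [abs_of_nonneg hs0]
  have ha := sE_pos hsa
  have hu : 0 < 1 - m := by linarith
  have hp : 0 < 1 + m := by linarith
  have ht : 0 < 1 - m ^ 2 := by nlinarith
  have ht1 : 1 - m ^ 2 ≤ 1 := by nlinarith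
  have hv : 0 < 1 - m ^ 2 - d ^ 2 := by nlinarith
  have htwo := ck2_two hm hd hd2 hmd
  have hy : d / (1 - m) < 1 := by rw [div_lt_one hu]; linarith
  have hy' : d / (1 + m) < 1 := by rw [div_lt_one hp]; linarith
  have hsh := ck2_sinh_add (y := d / (1 - m)) (y' := d / (1 + m))
    (η := 2 * d ^ 3 / ((1 - m ^ 2) * (1 - m ^ 2 - d ^ 2))) (by positivity) hy (by positivity) hy'
    (by positivity)
  have hcP := (cP_eq h1 h2).symm.trans (cP_eq' h1 h2)
  have hL1 : Real.log (1 - (d / (1 - m)) ^ 2) ≤ 0 :=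
    Real.log_nonpos (by have : 0 < d / (1 - m) := by positivity
                        nlinarith) (by nlinarith [sq_nonneg (d / (1 - m))])
  have hL2 : Real.log (1 - (d / (1 + m)) ^ 2) ≤ 0 :=
    Real.log_nonpos (by have : 0 < d / (1 + m) := by positivity
                        nlinarith) (by nlinarith [sq_nonneg (d / (1 + m))])
  have hk : d / (1 + m) + d / (1 - m) + (1 + d / (1 + m) * (d / (1 - m))) *
      (2 * d ^ 3 / ((1 - m ^ 2) * (1 - m ^ 2 - d ^ 2))) =
      2 * d / (1 - m ^ 2) * ((1 + (d ^ 2 / (1 - m ^ 2)) ^ 2) / (1 - d ^ 2 / (1 - m ^ 2))) := by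
    have b1 : d / (1 + m) + d / (1 - m) = 2 * d / (1 - m ^ 2) := by field_simp; ring
    have b2 : d / (1 + m) * (d / (1 - m)) = d ^ 2 / (1 - m ^ 2) := by field_simp; ring
    rw [b1, b2]
    exact ck2_id ht hv
  rw [hk] at hsh
  generalize Real.log (1 - (d / (1 - m)) ^ 2) = L1 at *
  generalize Real.log (1 - (d / (1 + m)) ^ 2) = L2 at *
  generalize Real.artanh (d / (1 + m)) + Real.artanh (d / (1 - m)) = W at *
  generalize 1 - m ^ 2 = t at *
  have e1 : 1 - d ^ 2 / t = (t - d ^ 2) / t := by field_simp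
  have he1 : 0 < 1 - d ^ 2 / t := by rw [e1]; positivity
  rcases le_or_gt ((t - d ^ 2) * Real.log 2) (t * signEntropy s) with hc | hc
  · refine ⟨0, le_rfl, one_pos, Or.inl ?_⟩
    rw [kap_zero, lam_zero]
    have := ck2_caseA ht ht1 hv hs0 hs1 hc
    linarith
  · obtain ⟨σ, hσ0, hσ1, hU⟩ := ck2_caseB hd ht hv hs0 hs1 hc
    set z := Real.log (Real.log 2) - Real.log (signEntropy s) with hz
    set L0 := Real.log (1 - d ^ 2 / t) with hL0
    set η := 2 * d ^ 3 / (t * (t - d ^ 2)) with hη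
    set z1 := η ^ 2 / 2 + (d ^ 2 / t) ^ 2 - L0 - L2 / 2 - L1 / 2 with hz1
    refine ⟨σ, hσ0, hσ1, ?_⟩
    rcases le_total z z1 with hzz | hzz
    · left
      have := mul_le_mul_of_nonneg_left hzz (sq_nonneg d)
      linarith
    · right
      have hL0' : L0 ≤ 0 := Real.log_nonpos he1.le (by
        have : 0 ≤ d ^ 2 / t := by positivity
        linarith)
      have hz10 : 0 ≤ z1 := by
        rw [hz1]; linarith [sq_nonneg η, sq_nonneg (d ^ 2 / t)]
      have hmono := ck2_arsinh_mono hd hd2 ht ht1 hz10 hzz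
      have b1 : 2 * d / t * Real.exp z = 2 * d * Real.log 2 / (t * signEntropy s) := by
        rw [hz, Real.exp_sub, Real.exp_log hl, Real.exp_log ha]; field_simp
      have b2 : Real.sinh (W + η) ≤ 2 * d / t * Real.exp z1 := by
        refine hsh.trans ?_
        rw [mul_assoc]
        refine mul_le_mul_of_nonneg_left ?_ (by positivity)
        have c1 : z1 = (d ^ 2 / t) ^ 2 + -L0 + (η ^ 2 / 2 - L2 / 2 - L1 / 2) := by rw [hz1]; ring
        rw [c1, Real.exp_add, Real.exp_add, Real.exp_neg, hL0, Real.exp_log he1, div_eq_mul_inv]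
        gcongr
        linarith [Real.add_one_le_exp ((d ^ 2 / t) ^ 2)]
      have b3 : W + η ≤ Real.arsinh (2 * d / t * Real.exp z1) := by
        rw [← Real.arsinh_sinh (W + η)]; exact Real.arsinh_le_arsinh.2 b2
      have b4 : d / 2 * η = d ^ 4 / (t * (t - d ^ 2)) := by rw [hη]; ring
      have b5 := mul_le_mul_of_nonneg_left b3 (show 0 ≤ d / 2 by positivity)
      rw [b1] at hmono
      linarith

end Crest.Agent.R307
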