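import Crest.Agent.R307.CKPt

/-! Row 307: power series of `y artanh y`, `ψ`, and consequences used in `CK21` and `CK2b`. -/

set_option autoImplicit false
open Crest.CubeNoise

namespace Crest.Agent.R307

theorem ck2b_hasSum_congr {f g : ℕ → ℝ} {a b : ℝ} (h : HasSum f a) (hf : ∀ j, g j = f j)
    (hb : b = a) : HasSum g b := by
  rw [hb, funext hf]
  exact h

theorem ck2b_hasSum_xa {y : ℝ} (h : |y| < 1) :
    HasSum (fun j : ℕ => (1 / (2 * (j : ℝ) + 1)) * y ^ (2 * j + 2)) (y * Real.artanh y) := by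
  have h1 := (Real.hasSum_log_sub_log_of_abs_lt_one h).mul_left (y / 2)
  rw [artanh_eq h]
  exact ck2b_hasSum_congr h1 (fun j => by ring) (by ring)

theorem ck2b_sq_lt {y : ℝ} (h : |y| < 1) : y ^ 2 < 1 := by
  have := abs_lt.1 h
  nlinarith [this.1, this.2]

theorem ck2b_hasSum_ell {y : ℝ} (h : |y| < 1) :
    HasSum (fun j : ℕ => (1 / ((j : ℝ) + 1)) * y ^ (2 * j + 2)) (-Real.log (1 - y ^ 2)) := by
  have h0 : |y ^ 2| < 1 := by
    rw [abs_of_nonneg (sq_nonneg y)]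
    exact ck2b_sq_lt h
  have h1 := Real.hasSum_pow_div_log_of_abs_lt_one h0
  convert h1 using 1
  funext j
  rw [← pow_mul]
  ring

theorem ck2b_log_one_sub_sq {y : ℝ} (h : |y| < 1) :
    Real.log (1 - y ^ 2) = Real.log (1 + y) + Real.log (1 - y) := by
  have := abs_lt.1 h
  rw [← Real.log_mul (by linarith [this.1]) (by linarith [this.2])]
  congr 1
  ring

theorem ck2b_psi_eq {y : ℝ} (h : |y| < 1) :
    psi y = y * Real.artanh y + Real.log (1 - y ^ 2) / 2 := by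
  rw [psi_eq h.le, artanh_eq h, ck2b_log_one_sub_sq h]
  ring

theorem ck2b_hasSum_psi {y : ℝ} (h : |y| < 1) :
    HasSum (fun j : ℕ => (1 / ((2 * (j : ℝ) + 1) * (2 * j + 2))) * y ^ (2 * j + 2)) (psi y) := by
  have h1 := (ck2b_hasSum_xa h).sub ((ck2b_hasSum_ell h).mul_left (1 / 2))
  rw [ck2b_psi_eq h]
  refine ck2b_hasSum_congr h1 (fun j => ?_) (by ring)
  field_simp
  ring

theorem ck2b_pow_nonneg (y : ℝ) (j : ℕ) : 0 ≤ y ^ (2 * j + 2) := by
  rw [show 2 * j + 2 = 2 * (j + 1) by ring, pow_mul]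
  positivity

theorem ck2b_psi_ge {y : ℝ} (h : |y| < 1) : y ^ 2 / 2 ≤ psi y := by
  have h1 := le_hasSum (ck2b_hasSum_psi h) 0 fun j _ =>
    mul_nonneg (by positivity) (ck2b_pow_nonneg y j)
  norm_num at h1
  linarith

theorem ck2b_psi_le_ell {y : ℝ} (h : |y| < 1) : psi y ≤ -Real.log (1 - y ^ 2) / 2 := by
  have h1 : y * Real.artanh y ≤ -Real.log (1 - y ^ 2) := by
    refine hasSum_le (fun j => ?_) (ck2b_hasSum_xa h) (ck2b_hasSum_ell h)
    refine mul_le_mul_of_nonneg_right ?_ (ck2b_pow_nonneg y j)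
    have : (0 : ℝ) ≤ j := Nat.cast_nonneg j
    exact one_div_le_one_div_of_le (by positivity) (by linarith)
  rw [ck2b_psi_eq h]
  linarith

theorem ck2b_psi_le_sq {y : ℝ} (h : |y| ≤ 1) : psi y ≤ Real.log 2 * y ^ 2 := by
  have := sE_ge h
  unfold psi
  linarith

theorem ck2b_psi_le_quartic {m : ℝ} (hm : 0 ≤ m) (hm1 : m < 1) :
    psi m ≤ m ^ 2 / 2 + m ^ 4 * (Real.log 2 - 1 / 2) := by
  have key : ∀ y ∈ Set.Ico (0 : ℝ) 1,
      psi (m * y) - (m * y) ^ 2 / 2 ≤ m ^ 4 * (Real.log 2 - y ^ 2 / 2) := by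
    intro y hy
    have hy1 : |y| < 1 := by rw [abs_of_nonneg hy.1]; exact hy.2
    have hmy : |m * y| < 1 := by
      rw [abs_of_nonneg (mul_nonneg hm hy.1)]
      nlinarith [hy.1, hy.2]
    have h1 := ((ck2b_hasSum_psi hy1).mul_left (m ^ 4)).sub (ck2b_hasSum_psi hmy)
    have h2 := le_hasSum h1 0 fun j hj => by
      have h3 : m ^ (2 * j + 2) ≤ m ^ 4 := pow_le_pow_of_le_one hm hm1.le (by omega)
      have h4 : (0 : ℝ) ≤ 1 / ((2 * (j : ℝ) + 1) * (2 * j + 2)) := by positivity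
      have h5 := mul_nonneg (mul_nonneg h4 (ck2b_pow_nonneg y j)) (sub_nonneg.2 h3)
      rw [mul_pow]
      linarith
    have h6 : psi y ≤ Real.log 2 := by
      have := sE_pos hy1
      unfold psi
      linarith
    have h7 := mul_le_mul_of_nonneg_left h6 (pow_nonneg hm 4)
    norm_num at h2
    nlinarith
  have hcl : IsClosed {y : ℝ | psi (m * y) - (m * y) ^ 2 / 2 ≤ m ^ 4 * (Real.log 2 - y ^ 2 / 2)} := by
    refine isClosed_le ?_ (by fun_prop)
    exact (continuous_psi.comp (by fun_prop)).sub (by fun_prop)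
  have h1 : (1 : ℝ) ∈ closure (Set.Ico (0 : ℝ) 1) := by
    rw [closure_Ico zero_ne_one]
    exact ⟨zero_le_one, le_rfl⟩
  have h2 := hcl.closure_subset_iff.2 key h1
  simp only [Set.mem_ofPred_eq, mul_one, one_pow] at h2
  linarith

end Crest.Agent.R307
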