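import Crest.Agent.R307.CKPt
import Crest.Agent.R307.CK2bA

/-! Row 307, soft Courtade–Kumar: for large information the mean-profile bound gives the rate bound. -/

set_option autoImplicit false
open Crest.CubeNoise

namespace Crest.Agent.R307

theorem ck21_artanh : Real.artanh (4 / 5) = Real.log 3 := by
  rw [artanh_eq (by norm_num [abs_lt]), ← Real.log_div (by norm_num) (by norm_num),
    show ((1 + 4 / 5) / (1 - 4 / 5) : ℝ) = 3 ^ 2 by norm_num, Real.log_pow]
  norm_num

theorem ck21_psi : psi (4 / 5) = 9 / 5 * Real.log 3 - Real.log 5 := by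
  rw [psi_eq (by norm_num [abs_le]), show (1 + 4 / 5 : ℝ) = 3 ^ 2 / 5 by norm_num,
    show (1 - 4 / 5 : ℝ) = 5⁻¹ by norm_num, Real.log_div (by norm_num) (by norm_num), Real.log_pow,
    Real.log_inv]
  push_cast
  ring

theorem ck21_lam : 1 ≤ lam (4 / 5) := by
  have h3 := Real.log_three_gt_d9
  have h3' := Real.log_three_lt_d9
  unfold lam
  rw [ck21_artanh, le_div_iff₀ (by linarith)]
  norm_num
  linarith

theorem ck21 {m r : ℝ} (hm : 0 ≤ m) (hm1 : m < 1) (hr : 4 / 5 ≤ r) (hr1 : r < 1)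
    (h2 : psi r < signEntropy m) :
    ∃ σ : ℝ, 0 ≤ σ ∧ σ < 1 ∧ St r ≤ (1 - m ^ 2) * kap σ - lam σ * (signEntropy m - psi r) := by
  have hr0 : 0 ≤ r := by linarith
  refine ⟨r, hr0, hr1, ?_⟩
  have h2' := Real.log_two_lt_d9
  have h3 := Real.log_three_gt_d9
  have h5 := Real.log_five_lt_d9
  have hl : 1 ≤ lam r := ck21_lam.trans (lam_mono (by norm_num) hr hr1)
  have ht := St_tangent hr0 hr1 (s := 4 / 5) (by norm_num [abs_lt])
  have hS : St (4 / 5) = 2 * Real.log 5 - 14 / 5 * Real.log 3 := by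
    unfold St
    rw [ck21_artanh, ck21_psi]
    ring
  rw [hS, ck21_psi] at ht
  have hp := ck2b_psi_ge (y := m) (by rw [abs_of_nonneg hm]; exact hm1)
  have hc : 0 ≤ 1 / 2 - Real.log 2 + (9 / 5 * Real.log 3 - Real.log 5) := by linarith
  have h6 := mul_le_mul_of_nonneg_right hl hc
  have h7 : St r ≤ lam r * (1 / 2 - Real.log 2 + psi r) := by nlinarith
  have h8 := mul_le_mul_of_nonneg_left h7 (sq_nonneg m)
  have h9 := mul_le_mul_of_nonneg_left hp (show 0 ≤ lam r by linarith)
  have e1 : signEntropy m = Real.log 2 - psi m := by unfold psi; ring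
  have e2 : signEntropy r = Real.log 2 - psi r := by unfold psi; ring
  unfold kap
  rw [e1, e2]
  nlinarith

end Crest.Agent.R307
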