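import Crest.Agent.R307.AA

set_option autoImplicit false
set_option maxRecDepth 100000
set_option linter.unusedVariables false

namespace Crest.Agent.R307.CK2X
open Crest.Agent.R307.AA

noncomputable section

theorem k0 : |2 ^ 48 * (1 : ℝ) - (((4722366764344621924352 : ℕ) : ℝ) - 2 ^ 72)| ≤ ((0 : ℕ) : ℝ) := by norm_num [abs_le]
theorem k1 : (1 / 2 : ℝ) = val 4722366623607133569024 := by norm_num [val]
theorem k2 : |2 ^ 48 * (13 / 20 : ℝ) - (((4722366665828380075622 : ℕ) : ℝ) - 2 ^ 72)| ≤ ((1 : ℕ) : ℝ) := by norm_num [abs_le]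
theorem k3 : |2 ^ 48 * (Real.log 2) - (((4722366677973231701990 : ℕ) : ℝ) - 2 ^ 72)| ≤ ((84500 : ℕ) : ℝ) := ln2_rel
def a_B (ps : ℕ) (x0 x1 x2 x3 : AF) : Bool :=
  addcK x0 4722366764344621924352 0 fun z1 =>
  logK z1 fun z2 =>
  mulK z1 z2 fun z7 =>
  rsubK x0 4722366764344621924352 0 fun z3 =>
  logK z3 fun z4 =>
  mulK z3 z4 fun z8 =>
  addK z7 z8 fun z9 =>
  normK z9 fun z11 =>
  smulK z11 4722366623607133569024 fun z12 =>
  subK z2 z4 fun z5 =>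
  normK z5 fun z13 =>
  smulK z13 4722366623607133569024 fun z14 =>
  mulK z12 z14 fun z15 =>
  mulK (cst 4722366665828380075622 1) z15 fun z17 =>
  sqrK x0 fun z18 =>
  rsubK z18 4722366764344621924352 0 fun z19 =>
  invK z19 fun z20 =>
  mulK x0 z20 fun z21 =>
  smulK z5 4722366623607133569024 fun z6 =>
  subK z21 z6 fun z22 =>
  normK z22 fun z24 =>
  rsubK z12 4722366677973231701990 84500 fun z25 =>
  mulK z24 z25 fun z26 =>
  mulK (cst 4722366677973231701990 84500) z26 fun z28 =>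
  subK z17 z28 fun z29 =>
  posK z29 <|
  true

def a_R (ps : ℕ) (r u1 u2 u3 : ℝ) : Prop :=
  letR (r + (1 : ℝ)) fun z1 =>
  logR z1 fun z2 =>
  letR (z1 * z2) fun z7 =>
  letR ((1 : ℝ) - r) fun z3 =>
  logR z3 fun z4 =>
  letR (z3 * z4) fun z8 =>
  letR (z7 + z8) fun z9 =>
  letR z9 fun z11 =>
  letR ((1 / 2 : ℝ) * z11) fun z12 =>
  letR (z2 - z4) fun z5 =>
  letR z5 fun z13 =>
  letR ((1 / 2 : ℝ) * z13) fun z14 =>
  letR (z12 * z14) fun z15 =>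
  letR ((13 / 20 : ℝ) * z15) fun z17 =>
  letR (r ^ 2) fun z18 =>
  letR ((1 : ℝ) - z18) fun z19 =>
  invR z19 fun z20 =>
  letR (r * z20) fun z21 =>
  letR ((1 / 2 : ℝ) * z5) fun z6 =>
  letR (z21 - z6) fun z22 =>
  letR z22 fun z24 =>
  letR ((Real.log 2) - z12) fun z25 =>
  letR (z24 * z25) fun z26 =>
  letR ((Real.log 2) * z26) fun z28 =>
  letR (z17 - z28) fun z29 =>
  posR z29 <|
  True

theorem a_S {ε : Fin 4 → ℝ} (hε : ∀ i, |ε i| ≤ 1) (ps : ℕ) (x0 x1 x2 x3 : AF) (r u1 u2 u3 : ℝ)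
    (h0 : Rel ε x0 r) (h1 : Rel ε x1 u1) (h2 : Rel ε x2 u2) (h3 : Rel ε x3 u3) :
    a_B ps x0 x1 x2 x3 = true → a_R ps r u1 u2 u3 := by
  delta a_B a_R
  exact addcS h0 k0 fun z1 t1 g1 =>
  logS hε g1 fun z2 t2 g2 =>
  mulS hε g1 g2 fun z7 t7 g7 =>
  rsubS h0 k0 fun z3 t3 g3 =>
  logS hε g3 fun z4 t4 g4 =>
  mulS hε g3 g4 fun z8 t8 g8 =>
  addS g7 g8 fun z9 t9 g9 =>
  normS g9 fun z11 t11 g11 =>
  smulS hε g11 k1 fun z12 t12 g12 =>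
  subS g2 g4 fun z5 t5 g5 =>
  normS g5 fun z13 t13 g13 =>
  smulS hε g13 k1 fun z14 t14 g14 =>
  mulS hε g12 g14 fun z15 t15 g15 =>
  mulS hε (cst_rel k2) g15 fun z17 t17 g17 =>
  sqrS hε h0 fun z18 t18 g18 =>
  rsubS g18 k0 fun z19 t19 g19 =>
  invS hε g19 fun z20 t20 g20 =>
  mulS hε h0 g20 fun z21 t21 g21 =>
  smulS hε g5 k1 fun z6 t6 g6 =>
  subS g21 g6 fun z22 t22 g22 =>
  normS g22 fun z24 t24 g24 =>
  rsubS g12 k3 fun z25 t25 g25 =>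
  mulS hε g24 g25 fun z26 t26 g26 =>
  mulS hε (cst_rel k3) g26 fun z28 t28 g28 =>
  subS g17 g28 fun z29 t29 g29 =>
  posS hε g29 <|
  fun _ => trivial

def a_Spec (r : ℝ) : Prop :=
  ∃ w1 lp w3 lm ps w5 w : ℝ,
    w1 = (r + (1 : ℝ)) ∧
    0 < w1 ∧
    lp = (Real.log w1) ∧
    w3 = ((1 : ℝ) - r) ∧
    0 < w3 ∧
    lm = (Real.log w3) ∧
    ps = ((1 / 2 : ℝ) * ((w1 * lp) + (w3 * lm))) ∧
    w5 = (lp - lm) ∧
    0 < ((1 : ℝ) - (r ^ 2)) ∧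
    w = ((1 / 2 : ℝ) * w5) ∧
    0 ≤ (((13 / 20 : ℝ) * (ps * ((1 / 2 : ℝ) * w5))) - ((Real.log 2) * (((r * (((1 : ℝ) - (r ^ 2))⁻¹)) - w) * ((Real.log 2) - ps))))

theorem a_E {ps : ℕ} {r u1 u2 u3 : ℝ} (h : a_R ps r u1 u2 u3) : a_Spec r := by
  delta a_R at h
  exact letR_ex h fun w1 q1 h =>
  logR_ex h fun q2 h =>
  letR_ex h fun lp q3 h =>
  letR_in h fun h =>
  letR_ex h fun w3 q4 h =>
  logR_ex h fun q5 h =>
  letR_ex h fun lm q6 h =>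
  letR_in h fun h =>
  letR_in h fun h =>
  letR_in h fun h =>
  letR_ex h fun ps q7 h =>
  letR_ex h fun w5 q8 h =>
  letR_in h fun h =>
  letR_in h fun h =>
  letR_in h fun h =>
  letR_in h fun h =>
  letR_in h fun h =>
  letR_in h fun h =>
  invR_ex h fun q9 h =>
  letR_in h fun h =>
  letR_in h fun h =>
  letR_ex h fun w q10 h =>
  letR_in h fun h =>
  letR_in h fun h =>
  letR_in h fun h =>
  letR_in h fun h =>
  letR_in h fun h =>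
  letR_in h fun h =>
  posR_ex h fun q11 h =>
  ⟨w1, lp, w3, lm, ps, w5, w, q1, q2, q3, q4, q5, q6, q7, q8, q9, q10, q11⟩

def PB : Prog := fun j ps x0 x1 x2 x3 =>
  a_B ps x0 x1 x2 x3

def PR : ℕ → ℕ → ℝ → ℝ → ℝ → ℝ → Prop := fun j ps r u1 u2 u3 =>
  a_R ps r u1 u2 u3

theorem PS : Sound PB PR := fun _ hε j => match j with
  | _ => a_S hε

theorem PE {j ps : ℕ} {r u1 u2 u3 : ℝ} : PR j ps r u1 u2 u3 → a_Spec r := match j with
  | _ => fun h => @a_E ps r u1 u2 u3 h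

def l0 : Tree := Tree.leaf 0

end

end Crest.Agent.R307.CK2X
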