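import Crest.Agent.R307.CK2XP

set_option autoImplicit false
set_option maxRecDepth 100000
set_option linter.unusedVariables false

namespace Crest.Agent.R307.CK2X
open Crest.Agent.R307.AA

open Tree

theorem c0 : Good PR 4722366508202393117655 4722366747456123321713 4722366482869645213696 4722366482869645213696 4722366482869645213696 4722366482869645213696 4722366482869645213696 4722366482869645213696 :=
  run_sound PS (s0 (s0 (s0 (s0 (s0 (s0 (s0 (s0 l0 l0) (s0 l0 l0)) (s0 l0 l0)) (s0 (s0 l0 l0) (s0 l0 l0))) (s0 (s0 (s0 l0 l0) (s0 l0 l0)) (s0 (s0 l0 l0) (s0 l0 l0)))) (s0 (s0 (s0 l0 l0) (s0 l0 l0)) (s0 (s0 l0 l0) (s0 l0 l0)))) (s0 (s0 (s0 (s0 l0 l0) (s0 l0 l0)) (s0 (s0 l0 l0) (s0 l0 l0))) (s0 (s0 l0 l0) (s0 l0 l0)))) (s0 (s0 (s0 (s0 l0 l0) (s0 l0 l0)) (s0 (s0 l0 l0) (s0 l0 l0))) (s0 (s0 (s0 l0 l0) (s0 l0 l0)) (s0 (s0 l0 (s0 l0 l0)) (s0 (s0 l0 l0) (s0 l0 l0))))))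 0 _ _ _ _ _ _ _ _ (by decide +kernel)

end Crest.Agent.R307.CK2X
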