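import Crest.Agent.R307.AA

set_option autoImplicit false
set_option maxRecDepth 100000
set_option linter.unusedVariables false

namespace Crest.Agent.R307.CK2Y
open Crest.Agent.R307.AA

noncomputable section

theorem k0 : |2 ^ 48 * (2 : ℝ) - (((4722367045819598635008 : ℕ) : ℝ) - 2 ^ 72)| ≤ ((0 : ℕ) : ℝ) := by norm_num [abs_le]
theorem k1 : |2 ^ 48 * (1 : ℝ) - (((4722366764344621924352 : ℕ) : ℝ) - 2 ^ 72)| ≤ ((0 : ℕ) : ℝ) := by norm_num [abs_le]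
theorem k2 : |2 ^ 48 * (13 / 80 : ℝ) - (((4722366528609328929177 : ℕ) : ℝ) - 2 ^ 72)| ≤ ((1 : ℕ) : ℝ) := by norm_num [abs_le]
theorem k3 : |2 ^ 48 * (1 / 12 : ℝ) - (((4722366506325893272917 : ℕ) : ℝ) - 2 ^ 72)| ≤ ((1 : ℕ) : ℝ) := by norm_num [abs_le]
theorem k4 : (2 : ℝ) = val 4722367045819598635008 := by norm_num [val]
theorem k5 : (1 / 4 : ℝ) = val 4722366553238389391360 := by norm_num [val]
theorem k6 : |2 ^ 48 * (4 / 3 : ℝ) - (((4722366858169614161237 : ℕ) : ℝ) - 2 ^ 72)| ≤ ((1 : ℕ) : ℝ) := by norm_num [abs_le]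
theorem k7 : |2 ^ 48 * (1 / 2 : ℝ) - (((4722366623607133569024 : ℕ) : ℝ) - 2 ^ 72)| ≤ ((0 : ℕ) : ℝ) := by norm_num [abs_le]
theorem k8 : |2 ^ 48 * (13 / 20 : ℝ) - (((4722366665828380075622 : ℕ) : ℝ) - 2 ^ 72)| ≤ ((1 : ℕ) : ℝ) := by norm_num [abs_le]
theorem k9 : |2 ^ 48 * (5 / 66 : ℝ) - (((4722366504193507085715 : ℕ) : ℝ) - 2 ^ 72)| ≤ ((1 : ℕ) : ℝ) := by norm_num [abs_le]
theorem k10 : |2 ^ 48 * (4 / 45 : ℝ) - (((4722366507889643143532 : ℕ) : ℝ) - 2 ^ 72)| ≤ ((1 : ℕ) : ℝ) := by norm_num [abs_le]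
theorem k11 : |2 ^ 48 * (3 / 28 : ℝ) - (((4722366513027678432694 : ℕ) : ℝ) - 2 ^ 72)| ≤ ((1 : ℕ) : ℝ) := by norm_num [abs_le]
theorem k12 : |2 ^ 48 * (2 / 15 : ℝ) - (((4722366520399642108450 : ℕ) : ℝ) - 2 ^ 72)| ≤ ((1 : ℕ) : ℝ) := by norm_num [abs_le]
theorem k13 : |2 ^ 48 * (1 / 6 : ℝ) - (((4722366529782141332138 : ℕ) : ℝ) - 2 ^ 72)| ≤ ((1 : ℕ) : ℝ) := by norm_num [abs_le]
theorem k14 : |2 ^ 48 * (1 / 5 : ℝ) - (((4722366539164640555827 : ℕ) : ℝ) - 2 ^ 72)| ≤ ((1 : ℕ) : ℝ) := by norm_num [abs_le]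
theorem k15 : |2 ^ 48 * (1 / 4 : ℝ) - (((4722366553238389391360 : ℕ) : ℝ) - 2 ^ 72)| ≤ ((0 : ℕ) : ℝ) := by norm_num [abs_le]
theorem k16 : |2 ^ 48 * (1 / 3 : ℝ) - (((4722366576694637450581 : ℕ) : ℝ) - 2 ^ 72)| ≤ ((1 : ℕ) : ℝ) := by norm_num [abs_le]
theorem k17 : (1 / 2 : ℝ) = val 4722366623607133569024 := by norm_num [val]
def a_B (ps : ℕ) (x0 x1 x2 x3 : AF) : Bool :=
  sqrK x1 fun z4 =>
  mulK x0 z4 fun z5 =>
  rsubK x0 4722367045819598635008 0 fun z2 =>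
  invK z2 fun z3 =>
  mulK z5 z3 fun z6 =>
  rsubK z6 4722366764344621924352 0 fun z7 =>
  invK z7 fun z8 =>
  sqrK x0 fun z29 =>
  mulK z29 z3 fun z30 =>
  mulK x0 z6 fun z31 =>
  mulK (cst 4722366528609328929177 1) z31 fun z33 =>
  rsubK z33 4722366506325893272917 1 fun z34 =>
  mulK z30 z34 fun z35 =>
  addK z8 z35 fun z36 =>
  mulK z6 z8 fun z9 =>
  sqrK z9 fun z37 =>
  smulK z37 4722367045819598635008 fun z38 =>
  mulK x0 z2 fun z39 =>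
  smulK z9 4722366553238389391360 fun z40 =>
  addcK z40 4722366858169614161237 1 fun z41 =>
  mulK z6 z41 fun z42 =>
  addcK z42 4722366623607133569024 0 fun z43 =>
  mulK z39 z43 fun z44 =>
  addK z38 z44 fun z45 =>
  addcK z45 4722366764344621924352 0 fun z46 =>
  rsubK x0 4722366764344621924352 0 fun z28 =>
  sqrK z28 fun z47 =>
  addK z46 z47 fun z48 =>
  normK z48 fun z50 =>
  mulK (cst 4722366665828380075622 1) z50 fun z51 =>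
  subK z36 z51 fun z52 =>
  normK z52 fun z53 =>
  mulK x0 z53 fun z54 =>
  sqrK z2 fun z55 =>
  mulK (cst 4722366504193507085715 1) z4 fun z11 =>
  addcK z11 4722366507889643143532 1 fun z12 =>
  mulK z12 z4 fun z13 =>
  addcK z13 4722366513027678432694 1 fun z14 =>
  mulK z14 z4 fun z15 =>
  addcK z15 4722366520399642108450 1 fun z16 =>
  mulK z16 z4 fun z17 =>
  addcK z17 4722366529782141332138 1 fun z18 =>
  mulK (cst 4722366529782141332138 1) z4 fun z20 =>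
  addcK z20 4722366539164640555827 1 fun z21 =>
  mulK z21 z4 fun z22 =>
  addcK z22 4722366553238389391360 0 fun z23 =>
  mulK z23 z4 fun z24 =>
  addcK z24 4722366576694637450581 1 fun z25 =>
  mulK z25 z4 fun z26 =>
  addcK z26 4722366623607133569024 0 fun z27 =>
  mulK z5 z27 fun z56 =>
  mulK (cst 4722366665828380075622 1) z56 fun z57 =>
  subK z18 z57 fun z58 =>
  normK z58 fun z59 =>
  mulK z55 z59 fun z60 =>
  smulK z60 4722366623607133569024 fun z61 =>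
  addK z54 z61 fun z62 =>
  posK z62 <|
  true

def a_R (ps : ℕ) (u y u2 u3 : ℝ) : Prop :=
  letR (y ^ 2) fun z4 =>
  letR (u * z4) fun z5 =>
  letR ((2 : ℝ) - u) fun z2 =>
  invR z2 fun z3 =>
  letR (z5 * z3) fun z6 =>
  letR ((1 : ℝ) - z6) fun z7 =>
  invR z7 fun z8 =>
  letR (u ^ 2) fun z29 =>
  letR (z29 * z3) fun z30 =>
  letR (u * z6) fun z31 =>
  letR ((13 / 80 : ℝ) * z31) fun z33 =>
  letR ((1 / 12 : ℝ) - z33) fun z34 =>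
  letR (z30 * z34) fun z35 =>
  letR (z8 + z35) fun z36 =>
  letR (z6 * z8) fun z9 =>
  letR (z9 ^ 2) fun z37 =>
  letR ((2 : ℝ) * z37) fun z38 =>
  letR (u * z2) fun z39 =>
  letR ((1 / 4 : ℝ) * z9) fun z40 =>
  letR (z40 + (4 / 3 : ℝ)) fun z41 =>
  letR (z6 * z41) fun z42 =>
  letR (z42 + (1 / 2 : ℝ)) fun z43 =>
  letR (z39 * z43) fun z44 =>
  letR (z38 + z44) fun z45 =>
  letR (z45 + (1 : ℝ)) fun z46 =>
  letR ((1 : ℝ) - u) fun z28 =>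
  letR (z28 ^ 2) fun z47 =>
  letR (z46 + z47) fun z48 =>
  letR z48 fun z50 =>
  letR ((13 / 20 : ℝ) * z50) fun z51 =>
  letR (z36 - z51) fun z52 =>
  letR z52 fun z53 =>
  letR (u * z53) fun z54 =>
  letR (z2 ^ 2) fun z55 =>
  letR ((5 / 66 : ℝ) * z4) fun z11 =>
  letR (z11 + (4 / 45 : ℝ)) fun z12 =>
  letR (z12 * z4) fun z13 =>
  letR (z13 + (3 / 28 : ℝ)) fun z14 =>
  letR (z14 * z4) fun z15 =>
  letR (z15 + (2 / 15 : ℝ)) fun z16 =>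
  letR (z16 * z4) fun z17 =>
  letR (z17 + (1 / 6 : ℝ)) fun z18 =>
  letR ((1 / 6 : ℝ) * z4) fun z20 =>
  letR (z20 + (1 / 5 : ℝ)) fun z21 =>
  letR (z21 * z4) fun z22 =>
  letR (z22 + (1 / 4 : ℝ)) fun z23 =>
  letR (z23 * z4) fun z24 =>
  letR (z24 + (1 / 3 : ℝ)) fun z25 =>
  letR (z25 * z4) fun z26 =>
  letR (z26 + (1 / 2 : ℝ)) fun z27 =>
  letR (z5 * z27) fun z56 =>
  letR ((13 / 20 : ℝ) * z56) fun z57 =>
  letR (z18 - z57) fun z58 =>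
  letR z58 fun z59 =>
  letR (z55 * z59) fun z60 =>
  letR ((1 / 2 : ℝ) * z60) fun z61 =>
  letR (z54 + z61) fun z62 =>
  posR z62 <|
  True

theorem a_S {ε : Fin 4 → ℝ} (hε : ∀ i, |ε i| ≤ 1) (ps : ℕ) (x0 x1 x2 x3 : AF) (u y u2 u3 : ℝ)
    (h0 : Rel ε x0 u) (h1 : Rel ε x1 y) (h2 : Rel ε x2 u2) (h3 : Rel ε x3 u3) :
    a_B ps x0 x1 x2 x3 = true → a_R ps u y u2 u3 := by
  delta a_B a_R
  exact sqrS hε h1 fun z4 t4 g4 =>
  mulS hε h0 g4 fun z5 t5 g5 =>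
  rsubS h0 k0 fun z2 t2 g2 =>
  invS hε g2 fun z3 t3 g3 =>
  mulS hε g5 g3 fun z6 t6 g6 =>
  rsubS g6 k1 fun z7 t7 g7 =>
  invS hε g7 fun z8 t8 g8 =>
  sqrS hε h0 fun z29 t29 g29 =>
  mulS hε g29 g3 fun z30 t30 g30 =>
  mulS hε h0 g6 fun z31 t31 g31 =>
  mulS hε (cst_rel k2) g31 fun z33 t33 g33 =>
  rsubS g33 k3 fun z34 t34 g34 =>
  mulS hε g30 g34 fun z35 t35 g35 =>
  addS g8 g35 fun z36 t36 g36 =>
  mulS hε g6 g8 fun z9 t9 g9 =>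
  sqrS hε g9 fun z37 t37 g37 =>
  smulS hε g37 k4 fun z38 t38 g38 =>
  mulS hε h0 g2 fun z39 t39 g39 =>
  smulS hε g9 k5 fun z40 t40 g40 =>
  addcS g40 k6 fun z41 t41 g41 =>
  mulS hε g6 g41 fun z42 t42 g42 =>
  addcS g42 k7 fun z43 t43 g43 =>
  mulS hε g39 g43 fun z44 t44 g44 =>
  addS g38 g44 fun z45 t45 g45 =>
  addcS g45 k1 fun z46 t46 g46 =>
  rsubS h0 k1 fun z28 t28 g28 =>
  sqrS hε g28 fun z47 t47 g47 =>
  addS g46 g47 fun z48 t48 g48 =>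
  normS g48 fun z50 t50 g50 =>
  mulS hε (cst_rel k8) g50 fun z51 t51 g51 =>
  subS g36 g51 fun z52 t52 g52 =>
  normS g52 fun z53 t53 g53 =>
  mulS hε h0 g53 fun z54 t54 g54 =>
  sqrS hε g2 fun z55 t55 g55 =>
  mulS hε (cst_rel k9) g4 fun z11 t11 g11 =>
  addcS g11 k10 fun z12 t12 g12 =>
  mulS hε g12 g4 fun z13 t13 g13 =>
  addcS g13 k11 fun z14 t14 g14 =>
  mulS hε g14 g4 fun z15 t15 g15 =>
  addcS g15 k12 fun z16 t16 g16 =>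
  mulS hε g16 g4 fun z17 t17 g17 =>
  addcS g17 k13 fun z18 t18 g18 =>
  mulS hε (cst_rel k13) g4 fun z20 t20 g20 =>
  addcS g20 k14 fun z21 t21 g21 =>
  mulS hε g21 g4 fun z22 t22 g22 =>
  addcS g22 k15 fun z23 t23 g23 =>
  mulS hε g23 g4 fun z24 t24 g24 =>
  addcS g24 k16 fun z25 t25 g25 =>
  mulS hε g25 g4 fun z26 t26 g26 =>
  addcS g26 k7 fun z27 t27 g27 =>
  mulS hε g5 g27 fun z56 t56 g56 =>
  mulS hε (cst_rel k8) g56 fun z57 t57 g57 =>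
  subS g18 g57 fun z58 t58 g58 =>
  normS g58 fun z59 t59 g59 =>
  mulS hε g55 g59 fun z60 t60 g60 =>
  smulS hε g60 k17 fun z61 t61 g61 =>
  addS g54 g61 fun z62 t62 g62 =>
  posS hε g62 <|
  fun _ => trivial

def a_Spec (u y : ℝ) : Prop :=
  ∃ x c p ip e g f A B : ℝ,
    x = (y ^ 2) ∧
    c = (u * x) ∧
    p = ((2 : ℝ) - u) ∧
    0 < p ∧
    ip = (p⁻¹) ∧
    e = (c * ip) ∧
    0 < ((1 : ℝ) - e) ∧
    g = (((1 : ℝ) - e)⁻¹) ∧
    f = (e * g) ∧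
    A = (((((((((5 / 66 : ℝ) * x) + (4 / 45 : ℝ)) * x) + (3 / 28 : ℝ)) * x) + (2 / 15 : ℝ)) * x) + (1 / 6 : ℝ)) ∧
    B = (((((((((1 / 6 : ℝ) * x) + (1 / 5 : ℝ)) * x) + (1 / 4 : ℝ)) * x) + (1 / 3 : ℝ)) * x) + (1 / 2 : ℝ)) ∧
    0 ≤ ((u * ((g + (((u ^ 2) * ip) * ((1 / 12 : ℝ) - ((13 / 80 : ℝ) * (u * e))))) - ((13 / 20 : ℝ) * (((((2 : ℝ) * (f ^ 2)) + ((u * p) * ((e * (((1 / 4 : ℝ) * f) + (4 / 3 : ℝ))) + (1 / 2 : ℝ)))) + (1 : ℝ)) + (((1 : ℝ) - u) ^ 2))))) + ((1 / 2 : ℝ) * ((p ^ 2) * (A - ((13 / 20 : ℝ) * (c * B))))))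

theorem a_E {ps : ℕ} {u y u2 u3 : ℝ} (h : a_R ps u y u2 u3) : a_Spec u y := by
  delta a_R at h
  exact letR_ex h fun x q1 h =>
  letR_ex h fun c q2 h =>
  letR_ex h fun p q3 h =>
  invR_ex h fun q4 h =>
  letR_ex h fun ip q5 h =>
  letR_ex h fun e q6 h =>
  letR_in h fun h =>
  invR_ex h fun q7 h =>
  letR_ex h fun g q8 h =>
  letR_in h fun h =>
  letR_in h fun h =>
  letR_in h fun h =>
  letR_in h fun h =>
  letR_in h fun h =>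
  letR_in h fun h =>
  letR_in h fun h =>
  letR_ex h fun f q9 h =>
  letR_in h fun h =>
  letR_in h fun h =>
  letR_in h fun h =>
  letR_in h fun h =>
  letR_in h fun h =>
  letR_in h fun h =>
  letR_in h fun h =>
  letR_in h fun h =>
  letR_in h fun h =>
  letR_in h fun h =>
  letR_in h fun h =>
  letR_in h fun h =>
  letR_in h fun h =>
  letR_in h fun h =>
  letR_in h fun h =>
  letR_in h fun h =>
  letR_in h fun h =>
  letR_in h fun h =>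
  letR_in h fun h =>
  letR_in h fun h =>
  letR_in h fun h =>
  letR_in h fun h =>
  letR_in h fun h =>
  letR_in h fun h =>
  letR_in h fun h =>
  letR_in h fun h =>
  letR_ex h fun A q10 h =>
  letR_in h fun h =>
  letR_in h fun h =>
  letR_in h fun h =>
  letR_in h fun h =>
  letR_in h fun h =>
  letR_in h fun h =>
  letR_in h fun h =>
  letR_ex h fun B q11 h =>
  letR_in h fun h =>
  letR_in h fun h =>
  letR_in h fun h =>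
  letR_in h fun h =>
  letR_in h fun h =>
  letR_in h fun h =>
  letR_in h fun h =>
  posR_ex h fun q12 h =>
  ⟨x, c, p, ip, e, g, f, A, B, q1, q2, q3, q4, q5, q6, q7, q8, q9, q10, q11, q12⟩

theorem k18 : |2 ^ 48 * (-501 / 1000 : ℝ) - (((4722366341850681881657 : ℕ) : ℝ) - 2 ^ 72)| ≤ ((1 : ℕ) : ℝ) := by norm_num [abs_le]
def b_B (ps : ℕ) (x0 x1 x2 x3 : AF) : Bool :=
  mulK x0 x1 fun z2 =>
  addcK z2 4722366341850681881657 1 fun z3 =>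
  posK z3 <|
  true

def b_R (ps : ℕ) (u y u2 u3 : ℝ) : Prop :=
  letR (u * y) fun z2 =>
  letR (z2 + (-501 / 1000 : ℝ)) fun z3 =>
  posR z3 <|
  True

theorem b_S {ε : Fin 4 → ℝ} (hε : ∀ i, |ε i| ≤ 1) (ps : ℕ) (x0 x1 x2 x3 : AF) (u y u2 u3 : ℝ)
    (h0 : Rel ε x0 u) (h1 : Rel ε x1 y) (h2 : Rel ε x2 u2) (h3 : Rel ε x3 u3) :
    b_B ps x0 x1 x2 x3 = true → b_R ps u y u2 u3 := by
  delta b_B b_R
  exact mulS hε h0 h1 fun z2 t2 g2 =>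
  addcS g2 k18 fun z3 t3 g3 =>
  posS hε g3 <|
  fun _ => trivial

def b_Spec (u y : ℝ) : Prop :=
  0 ≤ ((u * y) + (-501 / 1000 : ℝ))

theorem b_E {ps : ℕ} {u y u2 u3 : ℝ} (h : b_R ps u y u2 u3) : b_Spec u y := by
  delta b_R at h
  exact letR_in h fun h =>
  letR_in h fun h =>
  posR_ex h fun q1 h =>
  q1

def PB : Prog := fun j ps x0 x1 x2 x3 =>
  Nat.rec (motive := fun _ => Bool) (a_B ps x0 x1 x2 x3) (fun j _ => b_B ps x0 x1 x2 x3) j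

def PR : ℕ → ℕ → ℝ → ℝ → ℝ → ℝ → Prop := fun j ps u y u2 u3 =>
  Nat.rec (motive := fun _ => Prop) (a_R ps u y u2 u3) (fun j _ => b_R ps u y u2 u3) j

theorem PS : Sound PB PR := fun _ hε j => match j with
  | 0 => a_S hε
  | _ + 1 => b_S hε

theorem PE {j ps : ℕ} {u y u2 u3 : ℝ} : PR j ps u y u2 u3 → a_Spec u y ∨ b_Spec u y := match j with
  | 0 => fun h => Or.inl (@a_E ps u y u2 u3 h)
  | _ + 1 => fun h => Or.inr (@b_E ps u y u2 u3 h)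

def l0 : Tree := Tree.leaf 0
def l1 : Tree := Tree.leaf 1

end

end Crest.Agent.R307.CK2Y
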