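import Crest.Agent.R307.CK2YP

set_option autoImplicit false
set_option maxRecDepth 100000
set_option linter.unusedVariables false

namespace Crest.Agent.R307.CK2Y
open Crest.Agent.R307.AA

open Tree

theorem c0 : Good PR 4722366482869645213696 4722366764344621924352 4722366482869645213696 4722366764344621924352 4722366482869645213696 4722366482869645213696 4722366482869645213696 4722366482869645213696 :=
  run_sound PS (s0 (s1 (s0 l0 l0) (s1 (s0 l0 l0) (s0 (s0 l0 l0) (s1 l0 (s0 l0 (s0 l0 l0)))))) (s1 (s0 (s1 l0 l0) (s1 l0 (s0 l0 (s1 l0 l0)))) (s0 (s1 (s0 l0 (s1 l0 (s0 l0 (s1 l0 (s0 l0 (s0 (s1 l0 l1) l1)))))) (s0 (s1 (s1 l0 (s0 l0 (s1 l0 (s0 l0 (s1 l0 l1))))) (s0 (s1 (s0 l0 l0) (s0 (s1 l0 (s1 l0 (s1 l0 (s0 l0 l1)))) (s0 (s0 (s0 (s1 l0 l1) l1) l1) l1))) (s0 (s0 (s1 (s1 l0 l1) l1) l1) l1))) (s0 (s1 (s1 (s1 l0 (s0 l0 l1)) l1) l1)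 l1))) (s1 (s1 (s0 (s0 l0 (s1 l0 l0)) (s1 (s0 l0 (s0 l0 (s1 l0 l1))) (s1 (s1 (s0 l0 l1) l1) l1))) (s1 (s0 (s0 (s0 l0 (s0 l0 (s0 (s1 l0 l0) l1))) l1) l1) l1)) l1)))) 0 _ _ _ _ _ _ _ _ (by decide +kernel)

end Crest.Agent.R307.CK2Y
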