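import Crest.Agent.R307.CKPt
import Crest.Agent.R307.CK2bA

/-! Row 307, soft Courtade–Kumar: the mean-profile bound in dimension one. -/

set_option autoImplicit false
open Crest.CubeNoise

namespace Crest.Agent.R307

/-- the convexity gap of `y ^ (2 j + 2)` -/
noncomputable def ck2b_tau (m d : ℝ) (j : ℕ) : ℝ :=
  ((1 + m) * (d / (1 + m)) ^ (2 * j + 2) + (1 - m) * (d / (1 - m)) ^ (2 * j + 2)) / 2 -
    (1 - m ^ 2) * (d / (1 - m ^ 2)) ^ (2 * j + 2)

theorem ck2b_tau_eq {m d : ℝ} (hm : 0 ≤ m) (hm1 : m < 1) (j : ℕ) :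
    ck2b_tau m d j = (1 - m ^ 2) * (d / (1 - m ^ 2)) ^ (2 * j + 2) *
      (((1 + -m) ^ (2 * j + 1) + (1 + m) ^ (2 * j + 1)) / 2 - 1) := by
  have h1 : 1 + m ≠ 0 := by linarith
  have h2 : 1 - m ≠ 0 := by linarith
  have h3 : 1 - m ^ 2 = (1 + m) * (1 - m) := by ring
  have e1 : d / (1 + m) = d / (1 - m ^ 2) * (1 + -m) := by
    rw [h3]; field_simp; ring
  have e2 : d / (1 - m) = d / (1 - m ^ 2) * (1 + m) := by
    rw [h3]; field_simp
  unfold ck2b_tau
  rw [e1, e2, mul_pow, mul_pow, pow_succ (1 + -m) (2 * j + 1), pow_succ (1 + m) (2 * j + 1)]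
  generalize (d / (1 - m ^ 2)) ^ (2 * j + 2) = W
  generalize (1 + -m) ^ (2 * j + 1) = P
  generalize (1 + m) ^ (2 * j + 1) = Q
  ring

theorem ck2b_tau_nonneg {m d : ℝ} (hm : 0 ≤ m) (hm1 : m < 1) (j : ℕ) : 0 ≤ ck2b_tau m d j := by
  rw [ck2b_tau_eq hm hm1]
  have h1 := one_add_mul_le_pow (a := -m) (by linarith) (2 * j + 1)
  have h2 := one_add_mul_le_pow (a := m) (by linarith) (2 * j + 1)
  refine mul_nonneg (mul_nonneg (by nlinarith) (ck2b_pow_nonneg _ j)) ?_
  linarith

theorem ck2b_hasSum_T {m d : ℝ} (hm : 0 ≤ m) (hd : 0 ≤ d) (hmd : m + d < 1) {c : ℕ → ℝ}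
    {f : ℝ → ℝ} (hf : ∀ y, |y| < 1 → HasSum (fun j : ℕ => c j * y ^ (2 * j + 2)) (f y)) :
    HasSum (fun j => c j * ck2b_tau m d j)
      (((1 + m) * f (d / (1 + m)) + (1 - m) * f (d / (1 - m))) / 2 -
        (1 - m ^ 2) * f (d / (1 - m ^ 2))) := by
  have h1 : |d / (1 + m)| < 1 := by
    rw [abs_of_nonneg (by positivity), div_lt_one (by linarith)]; linarith
  have h2 : |d / (1 - m)| < 1 := by
    rw [abs_of_nonneg (div_nonneg hd (by linarith)), div_lt_one (by linarith)]; linarith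
  have h3 : |d / (1 - m ^ 2)| < 1 := by
    rw [abs_of_nonneg (div_nonneg hd (by nlinarith)), div_lt_one (by nlinarith)]; nlinarith
  have h4 := (((hf _ h1).mul_left ((1 + m) / 2)).add ((hf _ h2).mul_left ((1 - m) / 2))).sub
    ((hf _ h3).mul_left (1 - m ^ 2))
  refine ck2b_hasSum_congr h4 (fun j => ?_) (by ring)
  unfold ck2b_tau
  ring

theorem ck2b_hasSum_comb (k : ℝ) {y : ℝ} (h : |y| < 1) :
    HasSum (fun j : ℕ => ((2 * (j : ℝ) - k) / ((2 * (j : ℝ) + 1) * (2 * j + 2))) * y ^ (2 * j + 2))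
      (St y - k * psi y) := by
  have h1 := (ck2b_hasSum_xa h).sub ((ck2b_hasSum_psi h).mul_left (k + 2))
  refine ck2b_hasSum_congr h1 (fun j => ?_) (by unfold St; ring)
  field_simp
  ring

theorem ck2b_H0 : signEntropy (16 / 17) < Real.log 2 / 5 := by
  have h2 := Real.log_two_gt_d9
  have h2' := Real.log_two_lt_d9
  have h1 := psi_eq (r := 16 / 17) (by norm_num [abs_le])
  have e1 : Real.log (1 + 16 / 17) = Real.log 2 - Real.log (34 / 33) := by
    rw [← Real.log_div (by norm_num) (by norm_num)]; norm_num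
  have e2 : Real.log (1 - 16 / 17) = -(4 * Real.log 2) - Real.log (17 / 16) := by
    rw [show (1 - 16 / 17 : ℝ) = (2 ^ 4)⁻¹ / (17 / 16) by norm_num,
      Real.log_div (by norm_num) (by norm_num), Real.log_inv, Real.log_pow]
    norm_num
  have b1 := Real.log_le_sub_one_of_pos (show (0 : ℝ) < 34 / 33 by norm_num)
  have b2 := Real.log_le_sub_one_of_pos (show (0 : ℝ) < 17 / 16 by norm_num)
  rw [e1, e2] at h1
  unfold psi at h1
  linarith

theorem ck2b_lam0 : lam (16 / 17) ≤ 4 := by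
  have h2 := Real.log_two_gt_d9
  have ha : 5 / 2 * Real.log 2 ≤ Real.artanh (16 / 17) := by
    rw [artanh_eq (by norm_num [abs_lt]), ← Real.log_div (by norm_num) (by norm_num)]
    have h1 : Real.log (2 ^ 5) ≤ Real.log ((1 + 16 / 17) / (1 - 16 / 17)) :=
      Real.log_le_log (by norm_num) (by norm_num)
    rw [Real.log_pow] at h1
    push_cast at h1
    linarith
  unfold lam
  rw [div_le_iff₀ (by linarith)]
  norm_num
  linarith

theorem ck2b_small {m d s : ℝ} (hm : 0 ≤ m) (hd : 0 ≤ d) (hmd : m + d < 1) (hs0 : 0 ≤ s)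
    (hs1 : s < 1) (hA : (1 - m ^ 2) * signEntropy s = signEntropy m - Dl m d) (hd9 : d ≤ 8 / 9) :
    (1 - m ^ 2) * St s ≤ E0 m d := by
  have hm1 : m < 1 := by linarith
  have ht : 0 < 1 - m ^ 2 := by nlinarith
  have hL := Real.log_two_gt_d9
  have hu : |m + d| < 1 := by rw [abs_of_nonneg (by linarith)]; exact hmd
  have hv : |m - d| < 1 := abs_lt.2 ⟨by linarith, by linarith⟩
  -- the slope is at most four
  have hH : Real.log 2 / 5 ≤ signEntropy s := by
    have h1 := sE_ge hu.le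
    have h2 := sE_ge hv.le
    have h3 : 5 * d ^ 2 ≤ 4 * (1 - m ^ 2) := by nlinarith
    have h4 : (1 - m ^ 2) * (Real.log 2 / 5) ≤ (1 - m ^ 2) * signEntropy s := by
      rw [hA]
      unfold Dl
      nlinarith
    exact le_of_mul_le_mul_left h4 ht
  have hs : s ≤ 16 / 17 := by
    by_contra hn
    have h1 := psi_mono (r := 16 / 17) (by norm_num) (not_le.1 hn).le hs1.le
    have h2 := ck2b_H0
    unfold psi at h1
    linarith
  have hl4 : lam s ≤ 4 := (lam_mono hs0 hs (by norm_num)).trans ck2b_lam0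
  have hl0 : 0 ≤ lam s := lam_nonneg hs0 hs1
  have hw0 : 0 ≤ d / (1 - m ^ 2) := div_nonneg hd ht.le
  have hw1 : d / (1 - m ^ 2) < 1 := by rw [div_lt_one ht]; nlinarith
  have htan := St_tangent hs0 hs1 (s := d / (1 - m ^ 2)) (by rw [abs_of_nonneg hw0]; exact hw1)
  -- the two series
  have hS0 : 0 ≤ E0 m d - (1 - m ^ 2) * St (d / (1 - m ^ 2)) := by
    have h1 := (ck2b_hasSum_T hm hd hmd (fun y hy => ck2b_hasSum_comb 0 hy)).nonneg fun j =>
      mul_nonneg (by rw [sub_zero]; positivity) (ck2b_tau_nonneg hm hm1 j)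
    unfold E0
    linarith
  have hS4 : -((1 - m ^ 2) * m ^ 2 / 2) ≤ E0 m d - (1 - m ^ 2) * St (d / (1 - m ^ 2)) -
      4 * (Dl m d - (1 - m ^ 2) * psi (d / (1 - m ^ 2))) := by
    have h1 := le_hasSum (ck2b_hasSum_T hm hd hmd (fun y hy => ck2b_hasSum_comb 4 hy)) 1
      fun j hj => by
        rcases Nat.eq_zero_or_pos j with rfl | h0
        · rw [ck2b_tau_eq hm hm1,
            show ((1 + -m) ^ (2 * 0 + 1) + (1 + m) ^ (2 * 0 + 1)) / 2 - 1 = 0 by ring]
          simp
        · have h2 : (2 : ℝ) ≤ j := by exact_mod_cast (show 2 ≤ j by omega)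
          exact mul_nonneg (div_nonneg (by linarith) (by positivity)) (ck2b_tau_nonneg hm hm1 j)
    rw [ck2b_tau_eq hm hm1] at h1
    have h3 : (d / (1 - m ^ 2)) ^ (2 * 1 + 2) ≤ 1 := pow_le_one₀ hw0 hw1.le
    have h4 := mul_le_mul_of_nonneg_left h3 (mul_nonneg ht.le (sq_nonneg m))
    rw [Dl_eq hu hv]
    unfold E0
    generalize (d / (1 - m ^ 2)) ^ (2 * 1 + 2) = W at h1 h4
    norm_num at h1
    nlinarith
  have hη := ck2b_psi_le_quartic hm hm1
  have e1 : signEntropy m = Real.log 2 - psi m := by unfold psi; ring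
  have e2 : signEntropy s = Real.log 2 - psi s := by unfold psi; ring
  rw [e1, e2] at hA
  generalize psi (d / (1 - m ^ 2)) = pw at *
  generalize St (d / (1 - m ^ 2)) = Sw at *
  have h5 : (1 - m ^ 2) * m ^ 2 / 8 ≤ m ^ 2 * Real.log 2 - psi m := by
    have := mul_nonneg (mul_nonneg ht.le (sq_nonneg m)) (show 0 ≤ Real.log 2 - 5 / 8 by linarith)
    nlinarith
  -- `Z = (1 - m²) (ψ s - ψ w)`
  have hZ : 4 * ((1 - m ^ 2) * (psi s - pw)) ≤ E0 m d - (1 - m ^ 2) * Sw := by nlinarith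
  have h6 : lam s * ((1 - m ^ 2) * (psi s - pw)) ≤ E0 m d - (1 - m ^ 2) * Sw := by
    rcases le_total 0 ((1 - m ^ 2) * (psi s - pw)) with h | h
    · exact (mul_le_mul_of_nonneg_right hl4 h).trans hZ
    · exact (mul_nonpos_of_nonneg_of_nonpos hl0 h).trans hS0
  have h7 := mul_le_mul_of_nonneg_left htan ht.le
  nlinarith

theorem ck2b_artanh_sub {d s : ℝ} (hd : 0 ≤ d) (hds : d ≤ s) (hs : s < 1) :
    Real.artanh s - Real.artanh d ≤ ((s - d) / (1 + d) + (s - d) / (1 - s)) / 2 := by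
  rw [artanh_eq (r := s) (by rw [abs_of_nonneg (by linarith)]; exact hs),
    artanh_eq (r := d) (by rw [abs_of_nonneg hd]; linarith)]
  have h1 := Real.log_le_sub_one_of_pos (show 0 < (1 + s) / (1 + d) from
    div_pos (by linarith) (by linarith))
  have h2 := Real.log_le_sub_one_of_pos (show 0 < (1 - d) / (1 - s) from
    div_pos (by linarith) (by linarith))
  rw [Real.log_div (by linarith) (by linarith)] at h1 h2
  have e1 : (1 + s) / (1 + d) - 1 = (s - d) / (1 + d) := by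
    have : 1 + d ≠ 0 := by linarith
    field_simp
    ring
  have e2 : (1 - d) / (1 - s) - 1 = (s - d) / (1 - s) := by
    have : 1 - s ≠ 0 := by linarith
    field_simp
    ring
  linarith

theorem ck2b_gap {m d : ℝ} (hm : 0 ≤ m) (hd : 0 ≤ d) (hmd : m + d < 1) :
    Real.artanh (m + d) - Real.artanh (m - d) = 2 * Real.artanh d +
      (Real.log (1 - (m / (1 + d)) ^ 2) - Real.log (1 - (m / (1 - d)) ^ 2)) / 2 := by
  have hu : |m + d| < 1 := by rw [abs_of_nonneg (by linarith)]; exact hmd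
  have hv : |m - d| < 1 := abs_lt.2 ⟨by linarith, by linarith⟩
  have h0 : |d| < 1 := by rw [abs_of_nonneg hd]; linarith
  have h1 : |m / (1 + d)| < 1 := by
    rw [abs_of_nonneg (by positivity), div_lt_one (by linarith)]; linarith
  have h2 : |m / (1 - d)| < 1 := by
    rw [abs_of_nonneg (div_nonneg hm (by linarith)), div_lt_one (by linarith)]; linarith
  have n1 : 1 + d ≠ 0 := by linarith
  have n2 : 1 - d ≠ 0 := by linarith
  have e1 : 1 + m / (1 + d) = (1 + (m + d)) / (1 + d) := by field_simp; ring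
  have e2 : 1 - m / (1 + d) = (1 - (m - d)) / (1 + d) := by field_simp; ring
  have e3 : 1 + m / (1 - d) = (1 + (m - d)) / (1 - d) := by field_simp; ring
  have e4 : 1 - m / (1 - d) = (1 - (m + d)) / (1 - d) := by field_simp; ring
  rw [artanh_eq hu, artanh_eq hv, artanh_eq h0, ck2b_log_one_sub_sq h1, ck2b_log_one_sub_sq h2,
    e1, e2, e3, e4, Real.log_div (by linarith) n1, Real.log_div (by linarith) n1,
    Real.log_div (by linarith) n2, Real.log_div (by linarith) n2]
  ring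

theorem ck2b_artanh_ge {d : ℝ} (hd : 8 / 9 ≤ d) (hd1 : d < 1) :
    2 * Real.log 2 ≤ Real.artanh d := by
  rw [artanh_eq (by rw [abs_of_nonneg (by linarith)]; exact hd1),
    ← Real.log_div (by linarith) (by linarith)]
  have h1 : Real.log (2 ^ 4) ≤ Real.log ((1 + d) / (1 - d)) :=
    Real.log_le_log (by norm_num) (by rw [le_div_iff₀ (by linarith)]; linarith)
  rw [Real.log_pow] at h1
  push_cast at h1
  linarith

/-- the upper bound for `t s artanh s` -/
theorem ck2b_upper {t d s G ℓ : ℝ} (hd : 8 / 9 ≤ d) (hd1 : d < 1) (hs0 : 0 ≤ s) (hs1 : s < 1)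
    (ht : 80 / 81 ≤ t) (ht1 : t ≤ 1) (hℓ : 0 ≤ ℓ) (hG1 : G ≤ 9 / 17 * (1 - d) * Real.log 2)
    (hG2 : G ≤ 0.2704 * (1 - d) * ℓ) (hG : t * (psi s - psi d) ≤ G) :
    t * (s * Real.artanh s) ≤ d * Real.artanh d + 0.171 * ℓ := by
  have hL := Real.log_two_gt_d9
  have ha := ck2b_artanh_ge hd hd1
  have ha0 : 0 ≤ Real.artanh d := by linarith
  have hda : 0 ≤ d * Real.artanh d := mul_nonneg (by linarith) ha0
  rcases le_total s d with hsd | hsd
  · have h1 : Real.artanh s ≤ Real.artanh d :=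
      Real.artanh_le_artanh (by linarith) hd1 hsd
    have h2 : s * Real.artanh s ≤ d * Real.artanh d :=
      (mul_le_mul_of_nonneg_left h1 hs0).trans (mul_le_mul_of_nonneg_right hsd ha0)
    have h3 := mul_le_mul_of_nonneg_left h2 (show 0 ≤ t by linarith)
    have h4 := mul_le_mul_of_nonneg_right ht1 hda
    linarith
  · have hh : 0 < 1 - d := by linarith
    obtain ⟨θ, hθ⟩ : ∃ θ, s - d = θ * (1 - d) := ⟨(s - d) / (1 - d), by field_simp⟩
    have hθ0 : 0 ≤ θ := by
      by_contra hn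
      have := mul_neg_of_neg_of_pos (not_le.1 hn) hh
      linarith
    have htan := psi_tangent (m := d) (u := s) (by rw [abs_of_nonneg (by linarith)]; exact hd1)
      (by rw [abs_of_nonneg hs0]; exact hs1.le)
    have h1 : t * (Real.artanh d * (s - d)) ≤ G :=
      (mul_le_mul_of_nonneg_left (by linarith) (by linarith)).trans hG
    have htθ : 0 ≤ t * θ := mul_nonneg (by linarith) hθ0
    have h2 : (t * θ * (2 * Real.log 2)) * (1 - d) ≤ G := by
      have := mul_le_mul_of_nonneg_right (mul_le_mul_of_nonneg_left ha htθ) hh.le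
      rw [hθ] at h1
      linarith
    have h3 : t * θ * (2 * Real.log 2) ≤ 9 / 17 * Real.log 2 :=
      le_of_mul_le_mul_right (by linarith) hh
    have h4 : t * θ * (2 * Real.log 2) ≤ 0.2704 * ℓ :=
      le_of_mul_le_mul_right (by linarith) hh
    have h5 : t * θ ≤ 9 / 34 := le_of_mul_le_mul_right (by linarith) (show 0 < Real.log 2 by linarith)
    have h6 : θ ≤ 0.27 := by
      have := mul_le_mul_of_nonneg_right ht hθ0
      linarith
    have h7 : t * θ ≤ 0.1951 * ℓ := by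
      have := mul_le_mul_of_nonneg_left hL.le htθ
      linarith
    have h8 := ck2b_artanh_sub (by linarith) hsd hs1
    have h9 : (s - d) / (1 + d) ≤ θ / 17 := by
      rw [div_le_iff₀ (by linarith), hθ]
      have := mul_le_mul_of_nonneg_left hd hθ0
      linarith
    have h10 : (s - d) / (1 - s) ≤ θ * (100 / 73) := by
      rw [div_le_iff₀ (by linarith), show 1 - s = (1 - θ) * (1 - d) by linarith, hθ]
      have := mul_nonneg (mul_nonneg hθ0 hh.le) (show 0 ≤ 0.27 - θ by linarith)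
      linarith
    have h11 : Real.artanh s - Real.artanh d ≤ 0.715 * θ := by linarith
    have h12 : s * (Real.artanh s - Real.artanh d) ≤ 0.715 * θ := by
      have := mul_le_mul_of_nonneg_left h11 hs0
      have := mul_le_mul_of_nonneg_right hs1.le hθ0
      linarith
    have h13 := mul_le_mul_of_nonneg_left h12 (show 0 ≤ t by linarith)
    have h14 : G ≤ 0.0301 * ℓ := by
      have := mul_le_mul_of_nonneg_right hd hℓ
      linarith
    have h15 := mul_le_mul_of_nonneg_right ht1 hda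
    linarith

theorem ck2b_large {m d s : ℝ} (hm : 0 ≤ m) (hmd : m + d < 1) (hs0 : 0 ≤ s)
    (hs1 : s < 1) (hA : (1 - m ^ 2) * signEntropy s = signEntropy m - Dl m d) (hd9 : 8 / 9 ≤ d) :
    (1 - m ^ 2) * St s ≤ E0 m d := by
  have hd : 0 ≤ d := by linarith
  have hd1 : d < 1 := by linarith
  have hh : 0 < 1 - d := by linarith
  have hL := Real.log_two_gt_d9
  have hL' := Real.log_two_lt_d9
  have hu : |m + d| < 1 := by rw [abs_of_nonneg (by linarith)]; exact hmd
  have hv : |m - d| < 1 := abs_lt.2 ⟨by linarith, by linarith⟩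
  have hu' : |d + m| < 1 := by rwa [add_comm]
  have hv' : |d - m| < 1 := by rwa [abs_sub_comm]
  have hgap := ck2b_gap hm hd hmd
  have hG := Dl_eq hu' hv'
  have hcP := cP_eq hu hv
  obtain ⟨x, hx⟩ : ∃ x, x = m / (1 - d) := ⟨_, rfl⟩
  obtain ⟨z, hz⟩ : ∃ z, z = m / (1 + d) := ⟨_, rfl⟩
  rw [← hx, ← hz] at hgap hG
  have hmx : m = x * (1 - d) := by rw [hx]; field_simp
  have hmz : m = z * (1 + d) := by rw [hz]; field_simp
  have hx0 : 0 ≤ x := hx ▸ div_nonneg hm hh.le
  have hz0 : 0 ≤ z := hz ▸ div_nonneg hm (by linarith)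
  have hx1 : x < 1 := by rw [hx, div_lt_one hh]; linarith
  have hzx : z ≤ x / 17 := by
    have h1 := mul_le_mul_of_nonneg_left hd9 hx0
    have h2 := mul_le_mul_of_nonneg_left hd9 hz0
    linarith
  have hxa : |x| < 1 := by rw [abs_of_nonneg hx0]; exact hx1
  have hza : |z| < 1 := by rw [abs_of_nonneg hz0]; linarith
  have hx2 := ck2b_sq_lt hxa
  have hzx2 : z ^ 2 ≤ x ^ 2 / 289 := by
    have := pow_le_pow_left₀ hz0 hzx 2
    linarith
  have hℓ := Real.log_le_sub_one_of_pos (show 0 < 1 - x ^ 2 by linarith)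
  have hlz : -(x ^ 2 / 288) ≤ Real.log (1 - z ^ 2) := by
    have h1 := Real.one_sub_inv_le_log_of_pos (show 0 < 1 - z ^ 2 by linarith)
    have h2 : (1 - z ^ 2)⁻¹ ≤ 1 + x ^ 2 / 288 := by
      rw [inv_eq_one_div, div_le_iff₀ (by linarith)]
      have h3 := mul_le_mul_of_nonneg_right hx2.le (sq_nonneg z)
      linarith
    linarith
  have hp1 := ck2b_psi_le_sq hxa.le
  have hp2 := ck2b_psi_le_ell hxa
  have hp3 := ck2b_psi_le_sq hza.le
  obtain ⟨ℓ, hℓe⟩ : ∃ ℓ, ℓ = -Real.log (1 - x ^ 2) := ⟨_, rfl⟩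
  have hxℓ : x ^ 2 ≤ ℓ := by linarith
  have hℓ0 : 0 ≤ ℓ := (sq_nonneg x).trans hxℓ
  have hp4 : (1 + d) * psi z ≤ Real.log 2 * x ^ 2 / 17 * (1 - d) := by
    have h1 := mul_le_mul_of_nonneg_left hp3 (show 0 ≤ 1 + d by linarith)
    have h2 : (1 + d) * z ^ 2 = z * x * (1 - d) := by
      have : z * (1 + d) = x * (1 - d) := by linarith
      linear_combination z * this
    have h3 : z * x * (1 - d) ≤ x / 17 * x * (1 - d) :=
      mul_le_mul_of_nonneg_right (mul_le_mul_of_nonneg_right hzx hx0) hh.le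
    have h4 := mul_le_mul_of_nonneg_left (h2.le.trans h3) (show 0 ≤ Real.log 2 by linarith)
    linarith
  have hG1 : Dl d m ≤ 9 / 17 * (1 - d) * Real.log 2 := by
    have h1 : Real.log 2 * x ^ 2 ≤ Real.log 2 := mul_le_of_le_one_right (by linarith) hx2.le
    have h2 := mul_le_mul_of_nonneg_left (hp1.trans h1) hh.le
    have h3 := mul_le_mul_of_nonneg_left h1 hh.le
    rw [hG]
    linarith
  have hG2 : Dl d m ≤ 0.2704 * (1 - d) * ℓ := by
    have h1 : Real.log 2 * x ^ 2 ≤ 0.6932 * ℓ :=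
      mul_le_mul (by linarith) hxℓ (sq_nonneg x) (by norm_num)
    have h2 := mul_le_mul_of_nonneg_left (show psi x ≤ ℓ / 2 by linarith) hh.le
    have h3 := mul_le_mul_of_nonneg_left h1 hh.le
    have h4 := mul_nonneg hh.le hℓ0
    rw [hG]
    linarith
  have hm2 : m ^ 2 ≤ x ^ 2 / 81 := by
    have h1 : m ≤ x / 9 := by
      have := mul_le_mul_of_nonneg_left hd9 hx0
      linarith
    have := pow_le_pow_left₀ hm h1 2
    linarith
  have hHd : 0 ≤ m ^ 2 * signEntropy d :=
    mul_nonneg (sq_nonneg m) (sE_pos (by rw [abs_of_nonneg hd]; exact hd1)).le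
  have hGG : (1 - m ^ 2) * (psi s - psi d) ≤ Dl d m := by
    have h1 : signEntropy (m - d) = signEntropy (d - m) := by rw [← sE_neg, neg_sub]
    unfold Dl at hA ⊢
    unfold psi
    rw [add_comm d m, ← h1]
    linarith
  have hup := ck2b_upper hd9 hd1 hs0 hs1 (t := 1 - m ^ 2) (by linarith) (by linarith [sq_nonneg m]) hℓ0 hG1 hG2
    hGG
  have hpm := psi_nonneg m
  have hc : d * Real.artanh d + 0.2214 * ℓ ≤ cP (m + d) (m - d) := by
    unfold cP
    rw [hgap]
    have h1 : 287 / 288 * ℓ ≤ Real.log (1 - z ^ 2) - Real.log (1 - x ^ 2) := by linarith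
    have h2 := mul_le_mul_of_nonneg_left h1 hd
    have h3 := mul_le_mul_of_nonneg_right hd9 hℓ0
    linarith
  have h16 : m ^ 2 * Real.log 2 ≤ ℓ / 81 :=
    (mul_le_of_le_one_right (sq_nonneg m) (by linarith)).trans (by linarith)
  unfold St
  unfold psi at hpm ⊢
  linarith

theorem ck2b {m d s : ℝ} (hm : 0 ≤ m) (hd : 0 ≤ d) (hmd : m + d < 1) (hs0 : 0 ≤ s) (hs1 : s < 1)
    (hA : (1 - m ^ 2) * signEntropy s = signEntropy m - Dl m d) :
    (1 - m ^ 2) * St s ≤ E0 m d := by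
  rcases le_total d (8 / 9) with h | h
  · exact ck2b_small hm hd hmd hs0 hs1 hA h
  · exact ck2b_large hm hmd hs0 hs1 hA h

end Crest.Agent.R307
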