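import Crest.Agent.R307.CKJen
import Crest.Agent.R307.CK1
import Crest.Agent.R307.CK2
import Crest.Agent.R307.CK21
import Crest.Agent.R307.CK2b

/-! Row 307, soft Courtade–Kumar: the two inductions on the dimension, in tangent form.
Notation: `D` production, `I` information, `A = E H(g)`, `m` mean, `t = 1 - m²`, `δ = dl i g`;
faces `g₁, g₀` have means `m ± δ`; `A = (A₁+A₀)/2`, `I = (I₁+I₀)/2 + Dl m δ`,
`(t₁+t₀)/2 = t - δ²`, `D = (D₁+D₀)/2 + C` (`production_split`). -/

set_option autoImplicit false
open Crest.CubeNoise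

namespace Crest.Agent.R307

/-- the tangent family is below its envelope: if `A = t H(s)` then `t kap σ - lam σ A ≤ t St s`
(`St_tangent`), and if `A ≥ t log 2` then it is `≤ 0` (`St_tangent` at `s = 0`, `lam_nonneg`). -/
theorem tan_le {t A σ s : ℝ} (ht : 0 < t) (h0 : 0 ≤ σ) (h1 : σ < 1) (hs : |s| < 1)
    (hA : A = t * signEntropy s) : t * kap σ - lam σ * A ≤ t * St s := by
  have h := mul_le_mul_of_nonneg_left (St_tangent h0 h1 hs) ht.le
  unfold psi at h
  unfold kap
  rw [hA]
  linarith

theorem tan_le0 {t A σ : ℝ} (ht : 0 < t) (h0 : 0 ≤ σ) (h1 : σ < 1)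
    (hA : t * Real.log 2 ≤ A) : t * kap σ - lam σ * A ≤ 0 := by
  have h := mul_le_mul_of_nonneg_left (St_tangent (s := 0) h0 h1 (by simp)) ht.le
  rw [St_zero, psi_zero] at h
  have h2 := mul_le_mul_of_nonneg_left hA (lam_nonneg h0 h1)
  unfold psi at h
  unfold kap
  linarith

theorem ind_prod0 (g : (Fin 0 → Bool) → ℝ) : production g = 0 := by
  unfold production
  simp [avg_const]

theorem ind_info0 (g : (Fin 0 → Bool) → ℝ) : information g = 0 := by
  unfold information
  rw [avg_zero_dim g default, avg_zero_dim _ default, sub_self]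

theorem ind_A {n : ℕ} (i : Fin (n + 1)) (g : (Fin (n + 1) → Bool) → ℝ) :
    cubeAverage (fun x => signEntropy (g x)) =
      (cubeAverage (fun x => signEntropy (res i true g x)) +
        cubeAverage (fun x => signEntropy (res i false g x))) / 2 :=
  avg_split i (fun x => signEntropy (g x))

theorem ind_A' {n : ℕ} (i : Fin (n + 1)) (g : (Fin (n + 1) → Bool) → ℝ) :
    cubeAverage (fun x => (signEntropy (res i true g x) + signEntropy (res i false g x)) / 2) =
      cubeAverage (fun x => signEntropy (g x)) := by
  rw [ind_A i g, avg_div, avg_add]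

theorem ind_I {n : ℕ} (i : Fin (n + 1)) (g : (Fin (n + 1) → Bool) → ℝ) :
    information g = (information (res i true g) + information (res i false g)) / 2 +
      Dl (cubeAverage g) (dl i g) := by
  unfold information Dl
  rw [ind_A i g, avg_res_true, avg_res_false]
  ring

theorem ind_A_pos {n : ℕ} {g : (Fin n → Bool) → ℝ} (hg : ∀ x, |g x| < 1) :
    0 < cubeAverage (fun x => signEntropy (g x)) := by
  have h := avg_lt (f := fun _ : Fin n → Bool => (0 : ℝ)) fun x => sE_pos (hg x)
  rwa [avg_const] at h

theorem ind_t_pos {m : ℝ} (h : |m| < 1) : 0 < 1 - m ^ 2 := by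
  have := sq_lt_one_iff_abs_lt_one m |>.2 h
  linarith

theorem ind_s {t A : ℝ} (ht : 0 < t) (hA : 0 < A) (h : A < t * Real.log 2) :
    ∃ s, 0 ≤ s ∧ s < 1 ∧ A = t * signEntropy s := by
  have h1 : A / t < Real.log 2 := by rw [div_lt_iff₀ ht]; linarith
  have h2 : 0 < A / t := div_pos hA ht
  obtain ⟨s, hs0, hs1, hs⟩ := psi_surj (J := Real.log 2 - A / t) (by linarith) (by linarith)
  refine ⟨s, hs0, hs1, ?_⟩
  have h3 : signEntropy s = A / t := by unfold psi at hs; linarith
  rw [h3]; field_simp

theorem ind_abs {m d : ℝ} (h1 : |m + d| < 1) (h2 : |m - d| < 1) : |m| + |d| < 1 := by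
  rw [abs_lt] at h1 h2
  rcases abs_cases m with h | h <;> rcases abs_cases d with h' | h' <;> linarith [h.1, h'.1]

theorem ind_U_lt {n : ℕ} {a b : (Fin n → Bool) → ℝ} (ha : ∀ x, |a x| < 1) (hb : ∀ x, |b x| < 1) :
    cubeAverage (fun x => ((a x + b x) / 2) ^ 2) < 1 := by
  have h := avg_lt (f := fun x => ((a x + b x) / 2) ^ 2) (g := fun _ : Fin n → Bool => (1 : ℝ))
    fun x => by
      have h1 := abs_lt.1 (ha x)
      have h2 := abs_lt.1 (hb x)
      exact (sq_lt_one_iff_abs_lt_one _).2 (abs_lt.2 ⟨by linarith [h1.1, h2.1], by linarith [h1.2, h2.2]⟩)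
  rwa [avg_const] at h

/-- dimension one -/
theorem ind_one (g : (Fin 1 → Bool) → ℝ) (hg : ∀ x, |g x| < 1) :
    ∃ d : ℝ, |cubeAverage g + d| < 1 ∧ |cubeAverage g - d| < 1 ∧
      information g = Dl (cubeAverage g) d ∧
      production g = E0 (cubeAverage g) d + 2 * Dl (cubeAverage g) d := by
  have h1 : |cubeAverage g + dl 0 g| < 1 := by
    rw [← avg_res_true]; exact avg_abs_lt fun x => hg _
  have h2 : |cubeAverage g - dl 0 g| < 1 := by
    rw [← avg_res_false]; exact avg_abs_lt fun x => hg _
  refine ⟨dl 0 g, h1, h2, ?_, ?_⟩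
  · rw [ind_I 0 g, ind_info0, ind_info0]; ring
  · rw [production_split 0 g, ind_prod0, ind_prod0, ← cP_eq h1 h2, ← avg_res_true, ← avg_res_false,
      avg_zero_dim _ default, avg_zero_dim (res 0 true g) default,
      avg_zero_dim (res 0 false g) default]
    ring

/-- Mean-profile bound.  `n = 0`: `D = I = 0`, `A = H m ≥ t log 2`.  `n = 1`: `D - 2 I = E0 m δ`
(`cP_eq`), `A = H m - Dl m δ`; if `A ≥ t log 2` use `E0_nonneg`, else `A = t H s` (`psi_surj`) and `ck2b`.
`n ≥ 2`: `i` from `small_coord`; if `A ≥ t log 2` use the hypothesis at `σ = 0` and `C_ge2`/`C_ge1`;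
else `A = t H s`, take `σ` from `ck2` at `(|m|, |δ|, s)`, the hypothesis for both faces at `σ`, and
`C_ge1` (with `E u² ≥ m² + δ²`) or `C_ge3`. -/
theorem ih2 (n : ℕ) (g : (Fin n → Bool) → ℝ) (hg : ∀ x, |g x| < 1) {σ : ℝ} (h0 : 0 ≤ σ) (h1 : σ < 1) :
    2 * information g + ((1 - cubeAverage g ^ 2) * kap σ -
      lam σ * cubeAverage (fun x => signEntropy (g x))) ≤ production g := by
  induction n generalizing σ with
  | zero =>
    have hm := avg_abs_lt hg
    have hA : cubeAverage (fun x => signEntropy (g x)) = signEntropy (cubeAverage g) := by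
      rw [avg_zero_dim g default, avg_zero_dim _ default]
    have h2 := tan_le0 (A := cubeAverage (fun x => signEntropy (g x))) (ind_t_pos hm) h0 h1
      (by rw [hA, mul_comm]; exact sE_ge hm.le)
    rw [ind_prod0, ind_info0]
    linarith
  | succ n ih =>
    have hm := avg_abs_lt hg
    have ht := ind_t_pos hm
    have hApos := ind_A_pos hg
    rcases n with _ | n
    · obtain ⟨d, h2, h3, hI, hD⟩ := ind_one g hg
      rw [hD]
      rcases le_or_gt ((1 - cubeAverage g ^ 2) * Real.log 2)
        (cubeAverage (fun x => signEntropy (g x))) with h | h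
      · have h4 := tan_le0 ht h0 h1 h
        have h5 := E0_nonneg h2 h3
        linarith
      · obtain ⟨s, hs0, hs1, hs⟩ := ind_s ht hApos h
        have h4 := tan_le ht h0 h1 (abs_lt.2 ⟨by linarith, hs1⟩) hs
        have h5 := ck2b (abs_nonneg _) (abs_nonneg _) (ind_abs h2 h3) hs0 hs1 (by
          rw [sq_abs, sE_abs, Dl_abs, ← hI, ← hs]
          unfold information
          ring)
        rw [sq_abs, E0_abs h2 h3] at h5
        linarith
    · obtain ⟨i, hi1, hi2⟩ := small_coord g fun x => (hg x).le
      have ha : ∀ x, |res i true g x| < 1 := fun x => hg _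
      have hb : ∀ x, |res i false g x| < 1 := fun x => hg _
      have e1 := avg_res_true i g
      have e0 := avg_res_false i g
      have h2 : |cubeAverage g + dl i g| < 1 := by rw [← e1]; exact avg_abs_lt ha
      have h3 : |cubeAverage g - dl i g| < 1 := by rw [← e0]; exact avg_abs_lt hb
      have hU := ind_U_lt ha hb
      have c1 := C_ge1 ha hb e1 e0
      have c3 := C_ge3 ha hb e1 e0
      have hI := ind_I i g
      have hA := ind_A i g
      have hD := production_split i g
      rw [ind_A'] at c3
      have hE := E0_nonneg h2 h3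
      have i1 := info_nonneg fun x => (ha x).le
      have i0 := info_nonneg fun x => (hb x).le
      have hIA : information g = signEntropy (cubeAverage g) -
        cubeAverage (fun x => signEntropy (g x)) := rfl
      have ih1 := fun (τ : ℝ) (h0 : 0 ≤ τ) (h1 : τ < 1) => ih (res i true g) ha h0 h1
      have ih0 := fun (τ : ℝ) (h0 : 0 ≤ τ) (h1 : τ < 1) => ih (res i false g) hb h0 h1
      rw [e1] at ih1
      rw [e0] at ih0
      generalize cubeAverage (fun x => ((res i true g x + res i false g x) / 2) ^ 2) = U at *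
      generalize cubeAverage (fun x => cP (res i true g x) (res i false g x)) = C at *
      generalize cubeAverage (fun x => signEntropy (res i true g x)) = A1 at *
      generalize cubeAverage (fun x => signEntropy (res i false g x)) = A0 at *
      generalize cubeAverage (fun x => signEntropy (g x)) = A at *
      generalize cubeAverage g = m at *
      generalize dl i g = d at *
      have htd : 0 < 1 - m ^ 2 - d ^ 2 := by linarith
      have q1 : d ^ 2 / (1 - m ^ 2 - d ^ 2) ≤ d ^ 2 / (1 - U) :=
        div_le_div_of_nonneg_left (sq_nonneg d) (by linarith) (by linarith)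
      have q2 : d ^ 4 / ((1 - m ^ 2) * (1 - m ^ 2 - d ^ 2)) =
          d ^ 2 / (1 - m ^ 2 - d ^ 2) - d ^ 2 / (1 - m ^ 2) := by
        field_simp
        ring
      have q3 : 0 ≤ d ^ 4 / ((1 - m ^ 2) * (1 - m ^ 2 - d ^ 2)) := by positivity
      rcases le_or_gt ((1 - m ^ 2) * Real.log 2) A with h | h
      · have h4 := tan_le0 ht h0 h1 h
        have h5 := ih1 0 le_rfl one_pos
        have h6 := ih0 0 le_rfl one_pos
        rw [kap_zero, lam_zero] at h5 h6
        linarith
      · obtain ⟨s, hs0, hs1, hs⟩ := ind_s ht hApos h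
        have h4 := tan_le ht h0 h1 (abs_lt.2 ⟨by linarith, hs1⟩) hs
        obtain ⟨τ, hτ0, hτ1, hτ⟩ := ck2 (abs_nonneg m) (abs_nonneg d) hi1 (ind_abs h2 h3) hs0 hs1 (by
          rw [sq_abs, sE_abs, Dl_abs, ← hs]
          linarith)
        have q4 : |d| ^ 4 = d ^ 4 := by
          rw [show (4 : ℕ) = 2 * 2 by norm_num, pow_mul, pow_mul, sq_abs]
        rw [sq_abs, sq_abs, q4, E0_abs h2 h3, Dl_abs, ← hs] at hτ
        have h5 := ih1 τ hτ0 hτ1
        have h6 := ih0 τ hτ0 hτ1
        have h7 : lam τ * A = (lam τ * A1 + lam τ * A0) / 2 := by rw [hA]; ring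
        rcases hτ with hτ | hτ <;> linarith

/-- Rate bound.  Pick `r` with `ψ r = I` (`0 ≤ I < H m ≤ log 2`); by `St_tangent` it suffices to show
`2 I + St r ≤ D`.  `r ≥ 4/5`: `ih2` and `ck21`.  `n = 0`: `I = 0`.  `n = 1`: `D - 2 I = E0 m δ`,
`I = Dl m δ = ½ Σ (1±m) ψ(y±)`; `St_tangent` at `r` for `y± = δ/(1±m)`, weights `(1±m)/2` sum to one.
`n ≥ 2`, `r ≤ 4/5`: `u` = mean of the faces, `V = E u² - m²`, `X = E Dl(u,d) - Dl m δ`,
`I = information u + E Dl(u,d)`, `info_le`, `ck1`, the hypothesis for both faces at `σ`, `C_ge2` or `C_ge1`. -/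
theorem ih1 (n : ℕ) (g : (Fin n → Bool) → ℝ) (hg : ∀ x, |g x| < 1) {σ : ℝ} (h0 : 0 ≤ σ) (h1 : σ < 1) :
    2 * information g + (St σ + lam σ * (information g - psi σ)) ≤ production g := by
  induction n generalizing σ with
  | zero =>
    have h := St_tangent (s := 0) h0 h1 (by simp)
    rw [St_zero, psi_zero] at h
    rw [ind_prod0, ind_info0]
    linarith
  | succ n ih =>
    have hm := avg_abs_lt hg
    have ht := ind_t_pos hm
    have hApos := ind_A_pos hg
    have hIA : information g = signEntropy (cubeAverage g) -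
      cubeAverage (fun x => signEntropy (g x)) := rfl
    rcases n with _ | n
    · obtain ⟨d, h2, h3, hI, hD⟩ := ind_one g hg
      rw [hD, hI]
      generalize cubeAverage g = m at *
      have hm' := abs_lt.1 hm
      have h2' := abs_lt.1 h2
      have h3' := abs_lt.1 h3
      have p1 : 0 < 1 + m := by linarith [hm'.1]
      have p2 : 0 < 1 - m := by linarith [hm'.2]
      have y1 : |d / (1 + m)| < 1 := by
        rw [abs_div, abs_of_pos p1, div_lt_one p1]
        exact abs_lt.2 ⟨by linarith [h2'.1], by linarith [h3'.1]⟩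
      have y2 : |d / (1 - m)| < 1 := by
        rw [abs_div, abs_of_pos p2, div_lt_one p2]
        exact abs_lt.2 ⟨by linarith [h3'.2], by linarith [h2'.2]⟩
      have t1 := mul_le_mul_of_nonneg_left (St_tangent h0 h1 y1) p1.le
      have t2 := mul_le_mul_of_nonneg_left (St_tangent h0 h1 y2) p2.le
      have t3 := congrArg (fun z => lam σ * z) (Dl_eq h2 h3)
      unfold E0
      linarith
    · obtain ⟨r, hr0, hr1, hr⟩ := psi_surj (J := information g) (info_nonneg fun x => (hg x).le) (by
        have := psi_nonneg (cubeAverage g)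
        unfold psi at this
        linarith)
      have t1 := St_tangent h0 h1 (abs_lt.2 ⟨by linarith, hr1⟩ : |r| < 1)
      rw [hr] at t1
      suffices hs : 2 * information g + St r ≤ production g by linarith
      rcases le_total (4 / 5) r with h45 | h45
      · obtain ⟨τ, hτ0, hτ1, hτ⟩ := ck21 (abs_nonneg _) hm h45 hr1 (by rw [sE_abs, hr]; linarith)
        have h2 := ih2 _ g hg hτ0 hτ1
        rw [sq_abs, sE_abs, hr, hIA, sub_sub_cancel] at hτ
        linarith
      obtain ⟨i, hi1, hi2⟩ := small_coord g fun x => (hg x).le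
      have ha : ∀ x, |res i true g x| < 1 := fun x => hg _
      have hb : ∀ x, |res i false g x| < 1 := fun x => hg _
      have e1 := avg_res_true i g
      have e0 := avg_res_false i g
      have h2 : |cubeAverage g + dl i g| < 1 := by rw [← e1]; exact avg_abs_lt ha
      have h3 : |cubeAverage g - dl i g| < 1 := by rw [← e0]; exact avg_abs_lt hb
      have hU := ind_U_lt ha hb
      have c1 := C_ge1 ha hb e1 e0
      have c2 := C_ge2 ha hb e1 e0
      have hI := ind_I i g
      have hD := production_split i g
      have i1 := info_nonneg fun x => (ha x).le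
      have i0 := info_nonneg fun x => (hb x).le
      have hu : ∀ x, |(res i true g x + res i false g x) / 2| < 1 := fun x => by
        have h1 := abs_lt.1 (ha x)
        have h2 := abs_lt.1 (hb x)
        exact abs_lt.2 ⟨by linarith [h1.1, h2.1], by linarith [h1.2, h2.2]⟩
      have eu : cubeAverage (fun x => (res i true g x + res i false g x) / 2) = cubeAverage g := by
        rw [avg_div, avg_add, ← avg_split]
      have iu := info_le hu
      have eI : information g = information (fun x => (res i true g x + res i false g x) / 2) +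
          cubeAverage (fun x => Dl ((res i true g x + res i false g x) / 2)
            ((res i true g x - res i false g x) / 2)) := by
        have e2 : (fun x => Dl ((res i true g x + res i false g x) / 2)
            ((res i true g x - res i false g x) / 2)) = fun x =>
            signEntropy ((res i true g x + res i false g x) / 2) -
              (signEntropy (res i true g x) + signEntropy (res i false g x)) / 2 := by
          funext x
          unfold Dl
          congr 4 <;> ring
        rw [e2, avg_sub, ind_A']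
        unfold information
        rw [eu]
        ring
      rw [eu] at iu
      have ih1 := fun (τ : ℝ) (h0 : 0 ≤ τ) (h1 : τ < 1) => ih (res i true g) ha h0 h1
      have ih0 := fun (τ : ℝ) (h0 : 0 ≤ τ) (h1 : τ < 1) => ih (res i false g) hb h0 h1
      generalize cubeAverage (fun x => ((res i true g x + res i false g x) / 2) ^ 2) = U at *
      generalize cubeAverage (fun x => cP (res i true g x) (res i false g x)) = C at *
      generalize cubeAverage (fun x => Dl ((res i true g x + res i false g x) / 2)
            ((res i true g x - res i false g x) / 2)) = ED at *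
      generalize information (fun x => (res i true g x + res i false g x) / 2) = Iu at *
      generalize cubeAverage g = m at *
      generalize dl i g = d at *
      obtain ⟨τ, hτ0, hτ1, hτ⟩ := ck1 (X := ED - Dl m d) (V := U - m ^ 2) (abs_nonneg m) (abs_nonneg d)
        hi1 (ind_abs h2 h3) hr0 h45 (by rw [Dl_abs, hr]; linarith) (by rw [sE_abs, hr]; linarith)
        (by rw [sq_abs]; linarith) (by rw [sq_abs]; linarith) (by rw [Dl_abs, hr]; linarith)
      rw [sq_abs, sq_abs, E0_abs h2 h3, Dl_abs, hr,
        show 1 - m ^ 2 - (U - m ^ 2) = 1 - U by ring] at hτ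
      have h5 := ih1 τ hτ0 hτ1
      have h6 := ih0 τ hτ0 hτ1
      have h7 := congrArg (fun z => lam τ * z) hI
      rcases hτ with hτ | hτ <;> linarith

end Crest.Agent.R307
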