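import Crest.Agent.R307.Defs

/-! Row 307, soft Courtade–Kumar: one-variable lemmas about `psi`, `St`, `lam`. -/

set_option autoImplicit false
open Crest.CubeNoise

namespace Crest.Agent.R307

set_option linter.unusedVariables false in
theorem psi_eq {r : ℝ} (h : |r| ≤ 1) :
    psi r = ((1 + r) * Real.log (1 + r) + (1 - r) * Real.log (1 - r)) / 2 := by
  have key : ∀ x : ℝ, x / 2 * Real.log (x / 2)⁻¹ = x / 2 * (Real.log 2 - Real.log x) := by
    intro x
    rcases eq_or_ne x 0 with rfl | hx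
    · simp
    · rw [Real.log_inv, Real.log_div hx two_ne_zero]; ring
  have e : 1 - (1 + r) / 2 = (1 - r) / 2 := by ring
  rw [psi, signEntropy, Real.binEntropy, e, key, key]
  ring

theorem artanh_eq {r : ℝ} (h : |r| < 1) :
    Real.artanh r = (Real.log (1 + r) - Real.log (1 - r)) / 2 := by
  obtain ⟨h1, h2⟩ := abs_lt.1 h
  rw [Real.artanh_eq_half_log ⟨h1.le, h2.le⟩, Real.log_div (by linarith) (by linarith)]
  ring

theorem CKPt_artanh_neg {r : ℝ} (h : |r| < 1) : Real.artanh (-r) = -Real.artanh r := by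
  rw [artanh_eq h, artanh_eq (by rwa [abs_neg]), sub_neg_eq_add, ← sub_eq_add_neg]
  ring

theorem CKPt_mono {f f' : ℝ → ℝ} {a b : ℝ} (hab : a ≤ b) (hc : ContinuousOn f (Set.Icc a b))
    (hd : ∀ x ∈ Set.Ioo a b, HasDerivAt f (f' x) x) (h0 : ∀ x ∈ Set.Ioo a b, 0 ≤ f' x) :
    f a ≤ f b := by
  rcases hab.eq_or_lt with rfl | hlt
  · exact le_rfl
  obtain ⟨c, hc, he⟩ := exists_hasDerivAt_eq_slope f f' hlt hc hd
  have := h0 c hc
  rw [he, le_div_iff₀ (by linarith)] at this
  linarith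

theorem CKPt_anti {f f' : ℝ → ℝ} {a b : ℝ} (hab : a ≤ b) (hc : ContinuousOn f (Set.Icc a b))
    (hd : ∀ x ∈ Set.Ioo a b, HasDerivAt f (f' x) x) (h0 : ∀ x ∈ Set.Ioo a b, f' x ≤ 0) :
    f b ≤ f a := by
  have := CKPt_mono (f := fun x => -f x) (f' := fun x => -f' x) hab hc.neg
    (fun x hx => (hd x hx).neg) (fun x hx => neg_nonneg.2 (h0 x hx))
  simpa using this

theorem CKPt_one_sub_sq_pos {r : ℝ} (h : |r| < 1) : 0 < 1 - r ^ 2 := by
  obtain ⟨h1, h2⟩ := abs_lt.1 h
  nlinarith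

theorem sE_neg (r : ℝ) : signEntropy (-r) = signEntropy r := by
  have e : (1 + -r) / 2 = 1 - (1 + r) / 2 := by ring
  rw [signEntropy, signEntropy, e, Real.binEntropy_one_sub]

theorem sE_abs (r : ℝ) : signEntropy |r| = signEntropy r := by
  rcases abs_choice r with h | h <;> rw [h]
  exact sE_neg r

theorem psi_neg (r : ℝ) : psi (-r) = psi r := by
  rw [psi, psi, sE_neg]

theorem CKPt_psi_abs (r : ℝ) : psi |r| = psi r := by
  rw [psi, psi, sE_abs]

theorem CKPt_psi_one : psi 1 = Real.log 2 := by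
  simp [psi, signEntropy]

theorem psi_zero : psi 0 = 0 := by
  simp [psi, signEntropy]

theorem St_neg {r : ℝ} (h : |r| < 1) : St (-r) = St r := by
  rw [St, St, psi_neg, CKPt_artanh_neg h]
  ring

theorem St_abs {r : ℝ} (h : |r| < 1) : St |r| = St r := by
  rcases abs_choice r with h' | h' <;> rw [h']
  exact St_neg h

theorem St_zero : St 0 = 0 := by
  simp [St, psi_zero]

theorem lam_zero : lam 0 = 0 := by
  simp [lam]

theorem kap_zero : kap 0 = 0 := by
  simp [kap, St_zero, lam_zero]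

theorem sE_pos {r : ℝ} (h : |r| < 1) : 0 < signEntropy r := by
  obtain ⟨h1, h2⟩ := abs_lt.1 h
  exact Real.binEntropy_pos (by linarith) (by linarith)

theorem psi_nonneg (r : ℝ) : 0 ≤ psi r := by
  exact sub_nonneg.2 Real.binEntropy_le_log_two

theorem hasDerivAt_psi {r : ℝ} (h : |r| < 1) : HasDerivAt psi (Real.artanh r) r := by
  obtain ⟨h1, h2⟩ := abs_lt.1 h
  have hp : HasDerivAt (fun r : ℝ => (1 + r) / 2) (1 / 2) r := by
    simpa using ((hasDerivAt_id r).const_add 1).div_const 2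
  have hb := (Real.hasDerivAt_binEntropy (p := (1 + r) / 2) (by linarith) (by linarith)).comp r hp
  have hs := hb.const_sub (Real.log 2)
  have e : 1 - (1 + r) / 2 = (1 - r) / 2 := by ring
  rw [e, Real.log_div (by linarith) two_ne_zero, Real.log_div (by linarith) two_ne_zero] at hs
  refine HasDerivAt.congr_deriv hs ?_
  rw [artanh_eq h]
  ring

theorem hasDerivAt_artanh' {r : ℝ} (h : |r| < 1) : HasDerivAt Real.artanh (1 / (1 - r ^ 2)) r := by
  obtain ⟨h1, h2⟩ := abs_lt.1 h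
  have hp := CKPt_one_sub_sq_pos h
  have ha : HasDerivAt (fun r : ℝ => Real.log (1 + r)) (1 / (1 + r)) r := by
    simpa using ((hasDerivAt_id r).const_add 1).log (by simp; linarith)
  have hb : HasDerivAt (fun r : ℝ => Real.log (1 - r)) (-1 / (1 - r)) r := by
    simpa using ((hasDerivAt_id r).const_sub 1).log (by simp; linarith)
  have hc := (ha.sub hb).div_const 2
  have he : Real.artanh =ᶠ[nhds r] fun r => (Real.log (1 + r) - Real.log (1 - r)) / 2 := by
    filter_upwards [Ioo_mem_nhds h1 h2] with x hx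
    exact artanh_eq (abs_lt.2 hx)
  refine HasDerivAt.congr_of_eventuallyEq ?_ he
  refine HasDerivAt.congr_deriv hc ?_
  have h3 : 1 + r ≠ 0 := by linarith
  have h4 : 1 - r ≠ 0 := by linarith
  have h5 : 1 - r ^ 2 = (1 + r) * (1 - r) := by ring
  rw [h5]
  field_simp
  ring

theorem continuous_psi : Continuous psi := by
  unfold psi signEntropy
  fun_prop

theorem psi_mono {r s : ℝ} (hr : 0 ≤ r) (hrs : r ≤ s) (hs : s ≤ 1) : psi r ≤ psi s := by
  have := Real.binEntropy_strictAntiOn.antitoneOn (a := (1 + r) / 2) (b := (1 + s) / 2)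
    ⟨by linarith, by linarith⟩ ⟨by linarith, by linarith⟩ (by linarith)
  simp only [psi, signEntropy]
  linarith

theorem psi_surj {J : ℝ} (h0 : 0 ≤ J) (h1 : J < Real.log 2) : ∃ s, 0 ≤ s ∧ s < 1 ∧ psi s = J := by
  obtain ⟨s, hs, he⟩ := intermediate_value_Ico (zero_le_one' ℝ) continuous_psi.continuousOn
    (show J ∈ Set.Ico (psi 0) (psi 1) by rw [psi_zero, CKPt_psi_one]; exact ⟨h0, h1⟩)
  exact ⟨s, hs.1, hs.2, he⟩

/-- convexity of `ψ` -/
theorem psi_tangent {m u : ℝ} (hm : |m| < 1) (hu : |u| ≤ 1) :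
    psi m + Real.artanh m * (u - m) ≤ psi u := by
  obtain ⟨m1, m2⟩ := abs_lt.1 hm
  obtain ⟨u1, u2⟩ := abs_le.1 hu
  have hc : Continuous fun x => psi x - Real.artanh m * x :=
    continuous_psi.sub (continuous_const.mul continuous_id)
  have hd : ∀ x, -1 < x → x < 1 → HasDerivAt (fun x => psi x - Real.artanh m * x)
      (Real.artanh x - Real.artanh m) x := fun x x1 x2 => by
    refine HasDerivAt.congr_deriv
      ((hasDerivAt_psi (abs_lt.2 ⟨x1, x2⟩)).sub ((hasDerivAt_id x).const_mul (Real.artanh m))) ?_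
    rw [mul_one]
  rcases le_total m u with h | h
  · have := CKPt_mono h hc.continuousOn (fun x hx => hd x (by linarith [hx.1]) (by linarith [hx.2]))
      (fun x hx => sub_nonneg.2 (Real.artanh_le_artanh m1 (by linarith [hx.2]) hx.1.le))
    linarith
  · have := CKPt_anti h hc.continuousOn (fun x hx => hd x (by linarith [hx.1]) (by linarith [hx.2]))
      (fun x hx => sub_nonpos.2 (Real.artanh_le_artanh (by linarith [hx.1]) m2 hx.2.le))
    linarith

theorem CKPt_artanh_le {r : ℝ} (h0 : 0 ≤ r) (h1 : r < 1) : Real.artanh r ≤ r / (1 - r ^ 2) := by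
  have hp : 0 < 1 - r ^ 2 := by nlinarith
  have hr : r ∈ Set.Ioo (-1 : ℝ) 1 := ⟨by linarith, h1⟩
  have h := Real.self_le_sinh_iff.2 (show 0 ≤ 2 * Real.artanh r by
    have := Real.artanh_nonneg h0; linarith)
  rw [Real.sinh_two_mul, Real.sinh_artanh hr, Real.cosh_artanh hr, mul_assoc, div_mul_div_comm,
    Real.mul_self_sqrt hp.le, mul_one] at h
  linarith

theorem CKPt_le_artanh {r : ℝ} (h0 : 0 ≤ r) (h1 : r < 1) : r ≤ Real.artanh r := by
  have hd : ∀ x, 0 ≤ x → x ≤ r → HasDerivAt (fun x => Real.artanh x - x)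
      (1 / (1 - x ^ 2) - 1) x := fun x x1 x2 =>
    (hasDerivAt_artanh' (abs_lt.2 ⟨by linarith, by linarith⟩)).sub (hasDerivAt_id x)
  have := CKPt_mono h0 (fun x hx => (hd x hx.1 hx.2).continuousAt.continuousWithinAt)
    (fun x hx => hd x hx.1.le hx.2.le) (fun x hx => by
      have hp : 0 < 1 - x ^ 2 := by nlinarith [hx.1, hx.2]
      rw [sub_nonneg, le_div_iff₀ hp]
      nlinarith)
  simp only [Real.artanh_zero, sub_self] at this
  linarith

theorem CKPt_hasDerivAt_frac {r : ℝ} (h : |r| < 1) :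
    HasDerivAt (fun x : ℝ => x / (1 - x ^ 2)) ((1 + r ^ 2) / (1 - r ^ 2) ^ 2) r := by
  have hp := CKPt_one_sub_sq_pos h
  have h2 : HasDerivAt (fun x : ℝ => 1 - x ^ 2) (-(2 * r)) r := by
    simpa using (hasDerivAt_pow 2 r).const_sub 1
  refine HasDerivAt.congr_deriv ((hasDerivAt_id r).div h2 hp.ne') ?_
  simp only [id]
  congr 1
  ring

theorem CKPt_hasDerivAt_St {r : ℝ} (h : |r| < 1) :
    HasDerivAt St (r / (1 - r ^ 2) - Real.artanh r) r := by
  have := ((hasDerivAt_id r).mul (hasDerivAt_artanh' h)).sub ((hasDerivAt_psi h).const_mul 2)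
  refine HasDerivAt.congr_deriv this ?_
  simp only [id]
  ring

theorem CKPt_hasDerivAt_lam {r : ℝ} (h0 : 0 < r) (h1 : r < 1) :
    HasDerivAt lam (((1 + r ^ 2) * Real.artanh r - r) / ((1 - r ^ 2) ^ 2 * Real.artanh r ^ 2)) r := by
  have h : |r| < 1 := abs_lt.2 ⟨by linarith, h1⟩
  have hp := CKPt_one_sub_sq_pos h
  have hA := Real.artanh_pos ⟨h0, h1⟩
  have := ((CKPt_hasDerivAt_frac h).sub (hasDerivAt_artanh' h)).div (hasDerivAt_artanh' h) hA.ne'
  refine HasDerivAt.congr_deriv this ?_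
  simp only [Pi.sub_apply]
  field_simp
  ring

theorem lam_nonneg {σ : ℝ} (h0 : 0 ≤ σ) (h1 : σ < 1) : 0 ≤ lam σ := by
  exact div_nonneg (sub_nonneg.2 (CKPt_artanh_le h0 h1)) (Real.artanh_nonneg h0)

/-- `lam` is monotone: `(lam + 1) = σ / ((1 - σ²) artanh σ)` has derivative of the sign of
`(1 + σ²) artanh σ - σ ≥ 0` -/
theorem lam_mono {σ τ : ℝ} (h0 : 0 ≤ σ) (h : σ ≤ τ) (h1 : τ < 1) : lam σ ≤ lam τ := by
  rcases h0.eq_or_lt with rfl | h0
  · rw [lam_zero]
    exact lam_nonneg h h1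
  refine CKPt_mono h (fun x hx => (CKPt_hasDerivAt_lam (by linarith [hx.1])
    (by linarith [hx.2])).continuousAt.continuousWithinAt)
    (fun x hx => CKPt_hasDerivAt_lam (by linarith [hx.1]) (by linarith [hx.2])) fun x hx => ?_
  have x0 : 0 ≤ x := by linarith [hx.1]
  have := CKPt_le_artanh x0 (by linarith [hx.2])
  refine div_nonneg ?_ (by positivity)
  nlinarith [mul_nonneg (sq_nonneg x) (Real.artanh_nonneg x0)]

/-- convexity of the surplus: `d/ds [St s - lam σ ψ s] = (lam s - lam σ) artanh s` -/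
theorem St_tangent {σ s : ℝ} (h0 : 0 ≤ σ) (h1 : σ < 1) (hs : |s| < 1) :
    St σ + lam σ * (psi s - psi σ) ≤ St s := by
  rw [← St_abs hs, ← CKPt_psi_abs s]
  have s0 := abs_nonneg s
  generalize |s| = u at hs s0
  have hd : ∀ x, 0 ≤ x → x < 1 → HasDerivAt (fun x => St x - lam σ * psi x)
      (x / (1 - x ^ 2) - Real.artanh x - lam σ * Real.artanh x) x := fun x x0 x1 =>
    (CKPt_hasDerivAt_St (abs_lt.2 ⟨by linarith, x1⟩)).sub
      ((hasDerivAt_psi (abs_lt.2 ⟨by linarith, x1⟩)).const_mul (lam σ))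
  have he : ∀ x, 0 < x → x < 1 → x / (1 - x ^ 2) - Real.artanh x - lam σ * Real.artanh x =
      (lam x - lam σ) * Real.artanh x := fun x x0 x1 => by
    have hA := Real.artanh_pos ⟨x0, x1⟩
    rw [sub_mul, show lam x * Real.artanh x = _ from div_mul_cancel₀ _ hA.ne']
  rcases le_total σ u with h | h
  · have := CKPt_mono h
      (fun x hx => (hd x (by linarith [hx.1]) (by linarith [hx.2])).continuousAt.continuousWithinAt)
      (fun x hx => hd x (by linarith [hx.1]) (by linarith [hx.2])) fun x hx => by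
        rw [he x (by linarith [hx.1]) (by linarith [hx.2])]
        exact mul_nonneg (sub_nonneg.2 (lam_mono h0 hx.1.le (by linarith [hx.2])))
          (Real.artanh_nonneg (by linarith [hx.1]))
    linarith
  · have := CKPt_anti h
      (fun x hx => (hd x (by linarith [hx.1]) (by linarith [hx.2])).continuousAt.continuousWithinAt)
      (fun x hx => hd x (by linarith [hx.1]) (by linarith [hx.2])) fun x hx => by
        rw [he x (by linarith [hx.1]) (by linarith [hx.2])]
        exact mul_nonpos_of_nonpos_of_nonneg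
          (sub_nonpos.2 (lam_mono (by linarith [hx.1]) hx.2.le h1))
          (Real.artanh_nonneg (by linarith [hx.1]))
    linarith

theorem St_nonneg {s : ℝ} (hs : |s| < 1) : 0 ≤ St s := by
  simpa [St_zero, lam_zero] using St_tangent le_rfl one_pos hs

theorem St_mono {r s : ℝ} (hr : 0 ≤ r) (hrs : r ≤ s) (hs : s < 1) : St r ≤ St s := by
  have h := St_tangent hr (by linarith) (s := s) (abs_lt.2 ⟨by linarith, hs⟩)
  have := mul_nonneg (lam_nonneg hr (by linarith)) (sub_nonneg.2 (psi_mono hr hrs hs.le))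
  linarith

/-- `H r ≥ log 2 · (1 - r²)`: `ψ r = Σ r^(2k)/(2k(2k-1)) ≤ r² ψ 1`, or convexity of `ψ (√y)` -/
theorem sE_ge {r : ℝ} (h : |r| ≤ 1) : Real.log 2 * (1 - r ^ 2) ≤ signEntropy r := by
  rw [← sE_abs, ← sq_abs]
  have r0 := abs_nonneg r
  generalize |r| = u at h r0
  suffices hs : psi u ≤ Real.log 2 * u ^ 2 by
    rw [psi] at hs
    linarith
  rcases r0.eq_or_lt with rfl | u0
  · simp [psi_zero]
  have hd : ∀ x, 0 < x → x < 1 → HasDerivAt (fun x => psi x / x ^ 2) (St x / x ^ 3) x :=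
    fun x x0 x1 => by
      have := (hasDerivAt_psi (abs_lt.2 ⟨by linarith, x1⟩)).div (hasDerivAt_pow 2 x)
        (by positivity)
      refine HasDerivAt.congr_deriv this ?_
      rw [St]
      field_simp
      ring
  have := CKPt_mono h (f := fun x => psi x / x ^ 2)
    (continuous_psi.continuousOn.div (by fun_prop) fun x hx =>
      pow_ne_zero 2 (by linarith [hx.1]))
    (fun x hx => hd x (by linarith [hx.1]) hx.2) fun x hx =>
      div_nonneg (St_nonneg (abs_lt.2 ⟨by linarith [hx.1], hx.2⟩))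
        (pow_nonneg (by linarith [hx.1]) 3)
  simp only [CKPt_psi_one, one_pow, div_one] at this
  rwa [div_le_iff₀ (by positivity)] at this

theorem CKPt_abs_div_add {m d : ℝ} (h1 : |m + d| < 1) (h2 : |m - d| < 1) :
    |d / (1 + m)| < 1 := by
  obtain ⟨a1, a2⟩ := abs_lt.1 h1
  obtain ⟨b1, b2⟩ := abs_lt.1 h2
  have hm : 0 < 1 + m := by linarith
  rw [abs_lt, lt_div_iff₀ hm, div_lt_iff₀ hm]
  constructor <;> linarith

theorem CKPt_abs_div_sub {m d : ℝ} (h1 : |m + d| < 1) (h2 : |m - d| < 1) :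
    |d / (1 - m)| < 1 := by
  obtain ⟨a1, a2⟩ := abs_lt.1 h1
  obtain ⟨b1, b2⟩ := abs_lt.1 h2
  have hm : 0 < 1 - m := by linarith
  rw [abs_lt, lt_div_iff₀ hm, div_lt_iff₀ hm]
  constructor <;> linarith

theorem CKPt_log_add {c d : ℝ} (hc : 0 < c) (h : 0 < c + d) :
    Real.log (1 + d / c) = Real.log (c + d) - Real.log c := by
  rw [← Real.log_div h.ne' hc.ne']
  congr 1
  field_simp

theorem CKPt_log_sub {c d : ℝ} (hc : 0 < c) (h : 0 < c - d) :
    Real.log (1 - d / c) = Real.log (c - d) - Real.log c := by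
  rw [← Real.log_div h.ne' hc.ne']
  congr 1
  field_simp

theorem Dl_eq {m d : ℝ} (h1 : |m + d| < 1) (h2 : |m - d| < 1) :
    Dl m d = ((1 + m) * psi (d / (1 + m)) + (1 - m) * psi (d / (1 - m))) / 2 := by
  obtain ⟨a1, a2⟩ := abs_lt.1 h1
  obtain ⟨b1, b2⟩ := abs_lt.1 h2
  have hm : 0 < 1 + m := by linarith
  have hm' : 0 < 1 - m := by linarith
  have e : Dl m d = (psi (m + d) + psi (m - d)) / 2 - psi m := by
    simp only [Dl, psi]; ring
  rw [e, psi_eq h1.le, psi_eq h2.le, psi_eq (r := m) (abs_le.2 ⟨by linarith, by linarith⟩),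
    psi_eq (CKPt_abs_div_add h1 h2).le, psi_eq (CKPt_abs_div_sub h1 h2).le,
    CKPt_log_add hm (by linarith), CKPt_log_sub hm (by linarith),
    CKPt_log_add hm' (by linarith), CKPt_log_sub hm' (by linarith),
    show 1 + (m + d) = 1 + m + d by ring, show 1 - (m + d) = 1 - m - d by ring,
    show 1 + (m - d) = 1 + m - d by ring, show 1 - (m - d) = 1 - m + d by ring]
  field_simp
  ring

theorem cP_eq' {m d : ℝ} (h1 : |m + d| < 1) (h2 : |m - d| < 1) :
    cP (m + d) (m - d) = d / 2 * (Real.artanh (d / (1 + m)) + Real.artanh (d / (1 - m))) := by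
  obtain ⟨a1, a2⟩ := abs_lt.1 h1
  obtain ⟨b1, b2⟩ := abs_lt.1 h2
  have hm : 0 < 1 + m := by linarith
  have hm' : 0 < 1 - m := by linarith
  rw [cP, artanh_eq h1, artanh_eq h2, artanh_eq (CKPt_abs_div_add h1 h2),
    artanh_eq (CKPt_abs_div_sub h1 h2),
    CKPt_log_add hm (by linarith), CKPt_log_sub hm (by linarith),
    CKPt_log_add hm' (by linarith), CKPt_log_sub hm' (by linarith),
    show 1 + (m + d) = 1 + m + d by ring, show 1 - (m + d) = 1 - m - d by ring,
    show 1 + (m - d) = 1 + m - d by ring, show 1 - (m - d) = 1 - m + d by ring]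
  ring

theorem cP_eq {m d : ℝ} (h1 : |m + d| < 1) (h2 : |m - d| < 1) :
    cP (m + d) (m - d) = E0 m d + 2 * Dl m d := by
  obtain ⟨a1, a2⟩ := abs_lt.1 h1
  obtain ⟨b1, b2⟩ := abs_lt.1 h2
  have hm : 0 < 1 + m := by linarith
  have hm' : 0 < 1 - m := by linarith
  rw [cP_eq' h1 h2, Dl_eq h1 h2, E0, St, St]
  field_simp
  ring

theorem CKPt_Dl_neg_left (m d : ℝ) : Dl (-m) d = Dl m d := by
  rw [Dl, Dl, sE_neg, show -m + d = -(m - d) by ring, show -m - d = -(m + d) by ring, sE_neg,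
    sE_neg, add_comm]

theorem CKPt_Dl_neg_right (m d : ℝ) : Dl m (-d) = Dl m d := by
  rw [Dl, Dl, sub_neg_eq_add, ← sub_eq_add_neg, add_comm]

theorem CKPt_E0_neg_left (m d : ℝ) : E0 (-m) d = E0 m d := by
  rw [E0, E0, sub_neg_eq_add, ← sub_eq_add_neg, add_comm]

theorem CKPt_E0_neg_right {m d : ℝ} (h1 : |m + d| < 1) (h2 : |m - d| < 1) :
    E0 m (-d) = E0 m d := by
  rw [E0, E0, neg_div, neg_div, St_neg (CKPt_abs_div_add h1 h2), St_neg (CKPt_abs_div_sub h1 h2)]

theorem Dl_abs (m d : ℝ) : Dl |m| |d| = Dl m d := by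
  rcases abs_choice m with h | h <;> rcases abs_choice d with h' | h' <;>
    simp only [h, h', CKPt_Dl_neg_left, CKPt_Dl_neg_right]

theorem E0_abs {m d : ℝ} (h1 : |m + d| < 1) (h2 : |m - d| < 1) : E0 |m| |d| = E0 m d := by
  rcases abs_choice m with h | h <;> rcases abs_choice d with h' | h' <;>
    simp only [h, h', CKPt_E0_neg_left, CKPt_E0_neg_right h1 h2]

theorem Dl_nonneg {m d : ℝ} (h1 : |m + d| < 1) (h2 : |m - d| < 1) : 0 ≤ Dl m d := by
  obtain ⟨a1, a2⟩ := abs_lt.1 h1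
  obtain ⟨b1, b2⟩ := abs_lt.1 h2
  rw [Dl_eq h1 h2]
  exact div_nonneg (add_nonneg (mul_nonneg (by linarith) (psi_nonneg _))
    (mul_nonneg (by linarith) (psi_nonneg _))) two_pos.le

theorem E0_nonneg {m d : ℝ} (h1 : |m + d| < 1) (h2 : |m - d| < 1) : 0 ≤ E0 m d := by
  obtain ⟨a1, a2⟩ := abs_lt.1 h1
  obtain ⟨b1, b2⟩ := abs_lt.1 h2
  exact div_nonneg (add_nonneg (mul_nonneg (by linarith) (St_nonneg (CKPt_abs_div_add h1 h2)))
    (mul_nonneg (by linarith) (St_nonneg (CKPt_abs_div_sub h1 h2)))) two_pos.le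

end Crest.Agent.R307
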