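import Crest.Agent.R307.Cube
import Crest.Agent.R307.CKPt

/-! Row 307, soft Courtade–Kumar: Jensen bounds for the production of one direction.
`a`, `b` are the two faces, `u = (a+b)/2`, `d = (a-b)/2`, `m = E u`, `δ = E d`.
All bounds are Jensen inequalities for perspectives `w φ(d / w)` of convex `φ`; the easy way is a
supporting plane: `w φ(d/w) ≥ w φ(y) + φ'(y) (d - y w)` at `y = δ / E w`, then average. -/

set_option autoImplicit false
open Crest.CubeNoise

namespace Crest.Agent.R307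

variable {n : ℕ} {a b : (Fin n → Bool) → ℝ} {m δ : ℝ}

theorem jen_le {f f' : ℝ → ℝ} {p q : ℝ} (hpq : p ≤ q) (hc : ContinuousOn f (Set.Icc p q))
    (hd : ∀ x ∈ Set.Ioo p q, HasDerivAt f (f' x) x) (h0 : ∀ x ∈ Set.Ioo p q, 0 ≤ f' x) :
    f p ≤ f q := by
  rcases hpq.eq_or_lt with rfl | hlt
  · exact le_rfl
  · obtain ⟨c, hc, e⟩ := exists_hasDerivAt_eq_slope f f' hlt hc hd
    have h1 := h0 c hc
    rw [e, le_div_iff₀ (sub_pos.2 hlt)] at h1
    linarith

theorem jen_mono {f f' : ℝ → ℝ} (hd : ∀ x, |x| < 1 → HasDerivAt f (f' x) x)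
    (h0 : ∀ x, |x| < 1 → 0 ≤ f' x) {p q : ℝ} (hp : |p| < 1) (hq : |q| < 1) (hpq : p ≤ q) :
    f p ≤ f q := by
  have hm : ∀ x ∈ Set.Icc p q, |x| < 1 := fun x hx =>
    abs_lt.2 ⟨(abs_lt.1 hp).1.trans_le hx.1, hx.2.trans_lt (abs_lt.1 hq).2⟩
  exact jen_le hpq (fun x hx => (hd x (hm x hx)).continuousAt.continuousWithinAt)
    (fun x hx => hd x (hm x (Set.Ioo_subset_Icc_self hx)))
    fun x hx => h0 x (hm x (Set.Ioo_subset_Icc_self hx))

theorem jen_tan {P : ℝ → Prop} (hP : ∀ p q x, P p → P q → p ≤ x → x ≤ q → P x) {f f' : ℝ → ℝ}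
    (hd : ∀ x, P x → HasDerivAt f (f' x) x) (hm : ∀ p q, P p → P q → p ≤ q → f' p ≤ f' q)
    (y z : ℝ) (hy : P y) (hz : P z) : f y + f' y * (z - y) ≤ f z := by
  rcases le_total y z with h | h
  · have := jen_le (f := fun t => f t - f' y * t) (f' := fun t => f' t - f' y * 1) h
      (fun x hx => ((hd x (hP y z x hy hz hx.1 hx.2)).sub
        ((hasDerivAt_id x).const_mul _)).continuousAt.continuousWithinAt)
      (fun x hx => (hd x (hP y z x hy hz hx.1.le hx.2.le)).sub ((hasDerivAt_id x).const_mul _))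
      fun x hx => by linarith [hm y x hy (hP y z x hy hz hx.1.le hx.2.le) hx.1.le]
    linarith
  · have := jen_le (f := fun t => f' y * t - f t) (f' := fun t => f' y * 1 - f' t) h
      (fun x hx => (((hasDerivAt_id x).const_mul _).sub
        (hd x (hP z y x hz hy hx.1 hx.2))).continuousAt.continuousWithinAt)
      (fun x hx => ((hasDerivAt_id x).const_mul _).sub (hd x (hP z y x hz hy hx.1.le hx.2.le)))
      fun x hx => by linarith [hm x y (hP z y x hz hy hx.1.le hx.2.le) hy hx.2.le]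
    linarith

theorem jen_abs (p q x : ℝ) (hp : |p| < 1) (hq : |q| < 1) (h1 : p ≤ x) (h2 : x ≤ q) : |x| < 1 :=
  abs_lt.2 ⟨(abs_lt.1 hp).1.trans_le h1, h2.trans_lt (abs_lt.1 hq).2⟩

/-- Jensen's inequality for a perspective. -/
theorem jen_persp {P : ℝ → Prop} {f f' : ℝ → ℝ}
    (ht : ∀ y z, P y → P z → f y + f' y * (z - y) ≤ f z) {w d : (Fin n → Bool) → ℝ} {W D : ℝ}
    (hW : cubeAverage w = W) (hD : cubeAverage d = D) (hw : ∀ x, 0 < w x)
    (hd : ∀ x, P (d x / w x)) (hP : P (D / W)) :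
    W * f (D / W) ≤ cubeAverage fun x => w x * f (d x / w x) := by
  have hW0 : 0 < W := by
    have := avg_lt (f := fun _ => 0) hw
    rwa [avg_const, hW] at this
  refine le_trans (le_of_eq ?_) (avg_mono (f := fun x =>
    (f (D / W) - f' (D / W) * (D / W)) * w x + f' (D / W) * d x) fun x => ?_)
  · rw [avg_add, avg_mul, avg_mul, hW, hD]
    field_simp
    ring
  · have h1 := mul_le_mul_of_nonneg_left (ht _ _ hP (hd x)) (hw x).le
    refine le_trans (le_of_eq ?_) h1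
    have := (hw x).ne'
    field_simp
    ring

theorem jen_pos {y : ℝ} (h : |y| < 1) : 0 < 1 - y ^ 2 := by
  have := (sq_lt_one_iff_abs_lt_one y).2 h
  linarith

theorem jen_dq {y : ℝ} (h : |y| < 1) :
    HasDerivAt (fun t : ℝ => t / (1 - t ^ 2)) ((1 + y ^ 2) / (1 - y ^ 2) ^ 2) y := by
  have h1 : HasDerivAt (fun t : ℝ => 1 - t ^ 2) (-(2 * y)) y := by
    simpa using (hasDerivAt_pow 2 y).const_sub 1
  refine ((hasDerivAt_id y).div h1 (jen_pos h).ne').congr_deriv ?_
  simp only [id]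
  ring

theorem jen_chi (y z : ℝ) (hy : |y| < 1) (hz : |z| < 1) :
    (y * Real.artanh y - y ^ 2) + (Real.artanh y + y / (1 - y ^ 2) - 2 * y) * (z - y) ≤
      z * Real.artanh z - z ^ 2 := by
  refine jen_tan (P := fun t => |t| < 1) jen_abs (f := fun t => t * Real.artanh t - t ^ 2)
    (f' := fun t => Real.artanh t + t / (1 - t ^ 2) - 2 * t) (fun x hx => ?_)
    (fun p q hp hq hpq => ?_) y z hy hz
  · refine (((hasDerivAt_id x).mul (hasDerivAt_artanh' hx)).sub (hasDerivAt_pow 2 x)).congr_deriv ?_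
    simp only [id]
    ring
  · refine jen_mono (f := fun t => Real.artanh t + t / (1 - t ^ 2) - 2 * t)
      (f' := fun t => 1 / (1 - t ^ 2) + (1 + t ^ 2) / (1 - t ^ 2) ^ 2 - 2 * 1)
      (fun x hx => ((hasDerivAt_artanh' hx).add (jen_dq hx)).sub ((hasDerivAt_id x).const_mul 2))
      (fun x hx => ?_) hp hq hpq
    have h1 := jen_pos hx
    have h2 : 1 ≤ 1 / (1 - x ^ 2) := by
      rw [le_div_iff₀ h1]; nlinarith [sq_nonneg x]
    have h3 : 1 ≤ (1 + x ^ 2) / (1 - x ^ 2) ^ 2 := by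
      rw [le_div_iff₀ (by positivity)]; nlinarith [sq_nonneg x]
    linarith

theorem jen_St (y z : ℝ) (hy : |y| < 1) (hz : |z| < 1) :
    St y + (y / (1 - y ^ 2) - Real.artanh y) * (z - y) ≤ St z := by
  refine jen_tan (P := fun t => |t| < 1) jen_abs (f := St)
    (f' := fun t => t / (1 - t ^ 2) - Real.artanh t) (fun x hx => ?_)
    (fun p q hp hq hpq => ?_) y z hy hz
  · refine (((hasDerivAt_id x).mul (hasDerivAt_artanh' hx)).sub
      ((hasDerivAt_psi hx).const_mul 2)).congr_deriv ?_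
    simp only [id]
    ring
  · refine jen_mono (f := fun t => t / (1 - t ^ 2) - Real.artanh t)
      (f' := fun t => (1 + t ^ 2) / (1 - t ^ 2) ^ 2 - 1 / (1 - t ^ 2))
      (fun x hx => (jen_dq hx).sub (hasDerivAt_artanh' hx)) (fun x hx => ?_) hp hq hpq
    have h1 := jen_pos hx
    have : (1 + x ^ 2) / (1 - x ^ 2) ^ 2 - 1 / (1 - x ^ 2) = 2 * x ^ 2 / (1 - x ^ 2) ^ 2 := by
      field_simp; ring
    rw [this]; positivity

theorem jen_ash (y z : ℝ) :
    y * Real.arsinh y + (Real.arsinh y + y / √(1 + y ^ 2)) * (z - y) ≤ z * Real.arsinh z := by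
  refine jen_tan (P := fun _ => True) (fun _ _ _ _ _ _ _ => trivial)
    (f := fun t => t * Real.arsinh t) (f' := fun t => Real.arsinh t + t / √(1 + t ^ 2))
    (fun x _ => ?_) (fun p q _ _ hpq => ?_) y z trivial trivial
  · refine ((hasDerivAt_id x).mul (Real.hasDerivAt_arsinh x)).congr_deriv ?_
    simp only [id, one_mul, div_eq_mul_inv]
  · have h1 := Real.arsinh_le_arsinh.2 hpq
    refine add_le_add h1 ?_
    rw [← Real.tanh_arsinh, ← Real.tanh_arsinh, ← Real.artanh_le_artanh_iff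
      ⟨Real.neg_one_lt_tanh _, Real.tanh_lt_one _⟩ ⟨Real.neg_one_lt_tanh _, Real.tanh_lt_one _⟩,
      Real.artanh_tanh, Real.artanh_tanh]
    exact h1

theorem jen_div {u d : ℝ} (h1 : |u + d| < 1) (h2 : |u - d| < 1) :
    0 < 1 + u ∧ 0 < 1 - u ∧ |d / (1 + u)| < 1 ∧ |d / (1 - u)| < 1 := by
  obtain ⟨a1, a2⟩ := abs_lt.1 h1
  obtain ⟨b1, b2⟩ := abs_lt.1 h2
  have c1 : 0 < 1 + u := by linarith
  have c2 : 0 < 1 - u := by linarith
  refine ⟨c1, c2, ?_, ?_⟩
  · rw [abs_div, abs_of_pos c1, div_lt_one c1, abs_lt]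
    constructor <;> linarith
  · rw [abs_div, abs_of_pos c2, div_lt_one c2, abs_lt]
    constructor <;> linarith

theorem jen_cP {u d : ℝ} (h1 : |u + d| < 1) (h2 : |u - d| < 1) :
    cP (u + d) (u - d) = (1 - u ^ 2) * (d / (1 - u ^ 2)) ^ 2 +
      ((1 + u) * (d / (1 + u) * Real.artanh (d / (1 + u)) - (d / (1 + u)) ^ 2) +
        (1 - u) * (d / (1 - u) * Real.artanh (d / (1 - u)) - (d / (1 - u)) ^ 2)) / 2 := by
  obtain ⟨c1, c2, -, -⟩ := jen_div h1 h2
  rw [cP_eq' h1 h2, show 1 - u ^ 2 = (1 + u) * (1 - u) by ring]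
  generalize Real.artanh (d / (1 + u)) = A
  generalize Real.artanh (d / (1 - u)) = B
  field_simp
  ring

theorem jen_u (h1 : cubeAverage a = m + δ) (h0 : cubeAverage b = m - δ) :
    cubeAverage (fun x => 1 + (a x + b x) / 2) = 1 + m ∧
      cubeAverage (fun x => 1 - (a x + b x) / 2) = 1 - m ∧
      cubeAverage (fun x => (a x - b x) / 2) = δ := by
  refine ⟨?_, ?_, ?_⟩
  · rw [avg_add, avg_const, avg_div, avg_add, h1, h0]; ring
  · rw [avg_sub, avg_const, avg_div, avg_add, h1, h0]; ring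
  · rw [avg_div, avg_sub, h1, h0]; ring

theorem jen_a (p q : ℝ) : (p + q) / 2 + (p - q) / 2 = p := by ring
theorem jen_b (p q : ℝ) : (p + q) / 2 - (p - q) / 2 = q := by ring

theorem jen_cP3 {p q : ℝ} (hp : |p| < 1) (hq : |q| < 1) :
    (p - q) / 2 * Real.arsinh ((p - q) / 2 /
      ((signEntropy p + signEntropy q) / 2 / (2 * Real.log 2))) / 2 ≤ cP p q := by
  have p0 := jen_pos hp
  have q0 := jen_pos hq
  have l2 : 0 < Real.log 2 := Real.log_pos (by norm_num)
  have s1 : 0 < √(1 - p ^ 2) := Real.sqrt_pos.2 p0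
  have s2 : 0 < √(1 - q ^ 2) := Real.sqrt_pos.2 q0
  have e1 : Real.artanh p - Real.artanh q =
      Real.arsinh ((p - q) / 2 / (√(1 - p ^ 2) * √(1 - q ^ 2) / 2)) := by
    rw [← Real.arsinh_sinh (Real.artanh p - Real.artanh q), Real.sinh_sub,
      Real.sinh_artanh (abs_lt.1 hp), Real.sinh_artanh (abs_lt.1 hq),
      Real.cosh_artanh (abs_lt.1 hp), Real.cosh_artanh (abs_lt.1 hq)]
    congr 1
    field_simp
  have e2 : √(1 - p ^ 2) * √(1 - q ^ 2) / 2 ≤
      (signEntropy p + signEntropy q) / 2 / (2 * Real.log 2) := by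
    rw [le_div_iff₀ (by positivity)]
    have a1 := sE_ge hp.le
    have a2 := sE_ge hq.le
    have a3 : 2 * (√(1 - p ^ 2) * √(1 - q ^ 2)) ≤ (1 - p ^ 2) + (1 - q ^ 2) := by
      nlinarith [sq_nonneg (√(1 - p ^ 2) - √(1 - q ^ 2)), Real.sq_sqrt p0.le, Real.sq_sqrt q0.le]
    nlinarith
  have e3 : 0 < √(1 - p ^ 2) * √(1 - q ^ 2) / 2 := by positivity
  rw [cP, e1, show (p - q) / 4 = (p - q) / 2 / 2 by ring]
  generalize (signEntropy p + signEntropy q) / 2 / (2 * Real.log 2) = w at e2 ⊢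
  generalize √(1 - p ^ 2) * √(1 - q ^ 2) / 2 = s at e2 e3 ⊢
  generalize (p - q) / 2 = d
  rcases le_total 0 d with h | h
  · have := Real.arsinh_le_arsinh.2 (div_le_div_of_nonneg_left h e3 e2)
    nlinarith
  · have h2 : d / s ≤ d / w := by
      have := div_le_div_of_nonneg_left (neg_nonneg.2 h) e3 e2
      rw [neg_div, neg_div] at this
      linarith
    have := Real.arsinh_le_arsinh.2 h2
    nlinarith

/-- `cP = d²/(1-u²) + ½ Σ_± (1±u) χ(d/(1±u))`, `χ y = y artanh y - y²` convex on `(-1,1)`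
(`χ'' = 2/(1-y²)² - 2 ≥ 0`), `d²/v` jointly convex; and
`E0 m δ + 2 Dl m δ = δ²/(1-m²) + ½ Σ (1±m) χ(δ/(1±m))` (`cP_eq`, `cP_eq'`). -/
theorem C_ge1 (ha : ∀ x, |a x| < 1) (hb : ∀ x, |b x| < 1) (h1 : cubeAverage a = m + δ)
    (h0 : cubeAverage b = m - δ) :
    E0 m δ + 2 * Dl m δ + (δ ^ 2 / (1 - cubeAverage (fun x => ((a x + b x) / 2) ^ 2)) -
      δ ^ 2 / (1 - m ^ 2)) ≤ cubeAverage (fun x => cP (a x) (b x)) := by
  obtain ⟨u1, u2, u3⟩ := jen_u h1 h0
  have m1 : |m + δ| < 1 := h1 ▸ avg_abs_lt ha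
  have m2 : |m - δ| < 1 := h0 ▸ avg_abs_lt hb
  have hx := fun x => jen_div (u := (a x + b x) / 2) (d := (a x - b x) / 2)
    (by rw [jen_a]; exact ha x) (by rw [jen_b]; exact hb x)
  obtain ⟨c1, c2, c3, c4⟩ := jen_div m1 m2
  have j1 := jen_persp jen_chi u1 u3 (fun x => (hx x).1) (fun x => (hx x).2.2.1) c3
  have j2 := jen_persp jen_chi u2 u3 (fun x => (hx x).2.1) (fun x => (hx x).2.2.2) c4
  have hv : ∀ x, 0 < 1 - ((a x + b x) / 2) ^ 2 := fun x => by
    nlinarith [mul_pos (hx x).1 (hx x).2.1]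
  have u4 : cubeAverage (fun x => 1 - ((a x + b x) / 2) ^ 2) =
      1 - cubeAverage (fun x => ((a x + b x) / 2) ^ 2) := by rw [avg_sub, avg_const]
  have j3 := jen_persp (P := fun _ => True) (f := fun t => t ^ 2) (f' := fun t => 2 * t)
    (fun y z _ _ => by nlinarith [sq_nonneg (z - y)]) u4 u3 hv (fun _ => trivial) trivial
  have sq : ∀ V : ℝ, V * (δ / V) ^ 2 = δ ^ 2 / V := fun V => by
    rcases eq_or_ne V 0 with rfl | hV
    · simp
    · field_simp
  have e := funext fun x => jen_cP (u := (a x + b x) / 2) (d := (a x - b x) / 2)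
    (by rw [jen_a]; exact ha x) (by rw [jen_b]; exact hb x)
  simp only [jen_a, jen_b] at e
  rw [← cP_eq m1 m2, jen_cP m1 m2, e, avg_add, avg_div, avg_add, sq]
  rw [sq] at j3
  linarith

/-- `cP = E0 u d + 2 Dl u d` pointwise and `E0` is jointly convex (`St` is convex on `(-1,1)`:
`St' y = y/(1-y²) - artanh y`, `St'' = 2y²/(1-y²)²`). -/
theorem C_ge2 (ha : ∀ x, |a x| < 1) (hb : ∀ x, |b x| < 1) (h1 : cubeAverage a = m + δ)
    (h0 : cubeAverage b = m - δ) :
    E0 m δ + 2 * cubeAverage (fun x => Dl ((a x + b x) / 2) ((a x - b x) / 2)) ≤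
      cubeAverage (fun x => cP (a x) (b x)) := by
  obtain ⟨u1, u2, u3⟩ := jen_u h1 h0
  have m1 : |m + δ| < 1 := h1 ▸ avg_abs_lt ha
  have m2 : |m - δ| < 1 := h0 ▸ avg_abs_lt hb
  have hx := fun x => jen_div (u := (a x + b x) / 2) (d := (a x - b x) / 2)
    (by rw [jen_a]; exact ha x) (by rw [jen_b]; exact hb x)
  obtain ⟨c1, c2, c3, c4⟩ := jen_div m1 m2
  have j1 := jen_persp jen_St u1 u3 (fun x => (hx x).1) (fun x => (hx x).2.2.1) c3
  have j2 := jen_persp jen_St u2 u3 (fun x => (hx x).2.1) (fun x => (hx x).2.2.2) c4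
  have e := funext fun x => cP_eq (m := (a x + b x) / 2) (d := (a x - b x) / 2)
    (by rw [jen_a]; exact ha x) (by rw [jen_b]; exact hb x)
  simp only [jen_a, jen_b] at e
  rw [e, avg_add, avg_mul]
  simp only [E0]
  rw [avg_div, avg_add]
  linarith

/-- pointwise `sinh (artanh a - artanh b) = (a-b)/√((1-a²)(1-b²))` and
`√((1-a²)(1-b²)) ≤ ((1-a²)+(1-b²))/2 ≤ h / log 2`, `h = (H a + H b)/2` (`sE_ge`), so
`cP a b ≥ (d/2) arsinh (2 d log 2 / h) = h φ(d/h)`, `φ y = (y/2) arsinh (κ y)` even and convex. -/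
theorem C_ge3 (ha : ∀ x, |a x| < 1) (hb : ∀ x, |b x| < 1) (h1 : cubeAverage a = m + δ)
    (h0 : cubeAverage b = m - δ) :
    |δ| / 2 * Real.arsinh (2 * |δ| * Real.log 2 /
      cubeAverage (fun x => (signEntropy (a x) + signEntropy (b x)) / 2)) ≤
      cubeAverage (fun x => cP (a x) (b x)) := by
  obtain ⟨-, -, u3⟩ := jen_u h1 h0
  have l2 : 0 < Real.log 2 := Real.log_pos (by norm_num)
  have hw : ∀ x, 0 < (signEntropy (a x) + signEntropy (b x)) / 2 / (2 * Real.log 2) := fun x => by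
    have := sE_pos (ha x)
    have := sE_pos (hb x)
    positivity
  have j := jen_persp (P := fun _ => True) (f := fun t => t * Real.arsinh t)
    (f' := fun t => Real.arsinh t + t / √(1 + t ^ 2)) (fun y z _ _ => jen_ash y z)
    (avg_div (2 * Real.log 2) fun x => (signEntropy (a x) + signEntropy (b x)) / 2) u3 hw
    (fun _ => trivial) trivial
  have hH : 0 < cubeAverage fun x => (signEntropy (a x) + signEntropy (b x)) / 2 := by
    have := avg_lt (f := fun _ => 0) (g := fun x => (signEntropy (a x) + signEntropy (b x)) / 2)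
      fun x => by
        have := sE_pos (ha x)
        have := sE_pos (hb x)
        positivity
    rwa [avg_const] at this
  have k := avg_mono (f := fun x =>
    (signEntropy (a x) + signEntropy (b x)) / 2 / (2 * Real.log 2) *
      ((a x - b x) / 2 / ((signEntropy (a x) + signEntropy (b x)) / 2 / (2 * Real.log 2)) *
        Real.arsinh ((a x - b x) / 2 /
          ((signEntropy (a x) + signEntropy (b x)) / 2 / (2 * Real.log 2)))) / 2)
    (g := fun x => cP (a x) (b x)) fun x => by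
      rw [← mul_assoc, mul_div_cancel₀ _ (hw x).ne']
      exact jen_cP3 (ha x) (hb x)
  rw [avg_div] at k
  generalize (cubeAverage fun x => (signEntropy (a x) + signEntropy (b x)) / 2) = H at j hH ⊢
  rw [← mul_assoc, mul_div_cancel₀ _ (by positivity)] at j
  have e : ∀ t : ℝ, 2 * t * Real.log 2 / H = t / (H / (2 * Real.log 2)) := fun t => by
    field_simp
  rw [e]
  rcases abs_choice δ with h | h
  · rw [h]; linarith
  · rw [h, neg_div (H / (2 * Real.log 2)), Real.arsinh_neg]; linarith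

theorem info_nonneg {u : (Fin n → Bool) → ℝ} (hu : ∀ x, |u x| ≤ 1) : 0 ≤ information u := by
  have h2 : (0 : ℝ) < 2 ^ n := by positivity
  have hs : ∑ _x : Fin n → Bool, (1 / 2 ^ n : ℝ) = 1 := by
    rw [Finset.sum_const, Finset.card_univ, Fintype.card_fun, Fintype.card_bool, Fintype.card_fin,
      nsmul_eq_mul]
    push_cast
    field_simp
  have j := Real.strictConcave_binEntropy.concaveOn.le_map_sum (t := Finset.univ)
    (w := fun _ : Fin n → Bool => (1 / 2 ^ n : ℝ)) (p := fun x => (1 + u x) / 2)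
    (fun _ _ => by positivity) hs fun x _ => by
      obtain ⟨a1, a2⟩ := abs_le.1 (hu x)
      constructor <;> linarith
  have e : ∀ g : (Fin n → Bool) → ℝ, ∑ x, (1 / 2 ^ n : ℝ) • g x = cubeAverage g := fun g => by
    rw [← Finset.smul_sum, cubeAverage, smul_eq_mul]; ring
  rw [e, e, avg_div, avg_add, avg_const] at j
  exact sub_nonneg.2 j

/-- pointwise (for `0 ≤ m < 1`, `|u| ≤ 1`): `h u = ρ̃ (u-m)² - (ψ u - ψ m - artanh m (u-m)) ≥ 0`.
`h m = h' m = 0`, `h 1 = 0`, `h (-1) ≥ 0` (i.e. `p² log (1/p) ≥ q² log (1/q)` for `p = (1+m)/2 ≥ q = 1-p`),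
`h'' = 2ρ̃ - 1/(1-u²)` is `≥ 0` exactly on an interval `|u| ≤ u₀` containing `m`
(`2ρ̃ ≥ 1/(1-m²)` since `log (1/p) ≥ q ≥ q/(2p)`), so `h ≥ 0` there; outside `h` is concave. -/
theorem breg_le {m u : ℝ} (hm0 : 0 ≤ m) (hm : m < 1) (hu : |u| ≤ 1) :
    psi u - psi m - Real.artanh m * (u - m) ≤ rhoT m * (u - m) ^ 2 := by
  obtain ⟨u1, u2⟩ := abs_le.1 hu
  have hma : |m| < 1 := abs_lt.2 ⟨by linarith, hm⟩
  have hz : ∀ t, 0 ≤ t → t < 1 → |m + t * (u - m)| ≤ m + t * (1 - m) ∧ m + t * (1 - m) < 1 :=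
    fun t t0 t1 => ⟨abs_le.2 ⟨by nlinarith, by nlinarith⟩, by nlinarith⟩
  have hz1 : ∀ t, 0 ≤ t → t < 1 → |m + t * (u - m)| < 1 := fun t t0 t1 =>
    (hz t t0 t1).1.trans_lt (hz t t0 t1).2
  have hz2 : ∀ t, 0 ≤ t → t < 1 → |m + t * (1 - m)| < 1 := fun t t0 t1 => by
    rw [abs_of_nonneg ((abs_nonneg _).trans (hz t t0 t1).1)]
    exact (hz t t0 t1).2
  have lin : ∀ c t : ℝ, HasDerivAt (fun t : ℝ => m + t * c) c t := fun c t => by
    simpa using ((hasDerivAt_id t).mul_const c).const_add m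
  have dG : ∀ t, 0 ≤ t → t < 1 → HasDerivAt (fun t : ℝ =>
      (u - m) ^ 2 * (1 - m) * Real.artanh (m + t * (1 - m)) -
        (1 - m) ^ 2 * (u - m) * Real.artanh (m + t * (u - m)))
      ((u - m) ^ 2 * (1 - m) * (1 / (1 - (m + t * (1 - m)) ^ 2) * (1 - m)) -
        (1 - m) ^ 2 * (u - m) * (1 / (1 - (m + t * (u - m)) ^ 2) * (u - m))) t := fun t t0 t1 =>
    (((hasDerivAt_artanh' (hz2 t t0 t1)).comp t (lin _ t)).const_mul _).sub
      (((hasDerivAt_artanh' (hz1 t t0 t1)).comp t (lin _ t)).const_mul _)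
  have hG : ∀ t, 0 ≤ t → t < 1 →
      (u - m) ^ 2 * (1 - m) * Real.artanh m - (1 - m) ^ 2 * (u - m) * Real.artanh m ≤
        (u - m) ^ 2 * (1 - m) * Real.artanh (m + t * (1 - m)) -
          (1 - m) ^ 2 * (u - m) * Real.artanh (m + t * (u - m)) := fun t t0 t1 => by
    have := jen_le t0 (fun x hx => (dG x hx.1 (hx.2.trans_lt t1)).continuousAt.continuousWithinAt)
      (fun x hx => dG x hx.1.le (hx.2.trans t1)) fun x hx => by
        have x1 := hx.2.trans t1
        have k1 : (m + x * (u - m)) ^ 2 ≤ (m + x * (1 - m)) ^ 2 :=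
          sq_le_sq' (abs_le.1 (hz x hx.1.le x1).1).1 (abs_le.1 (hz x hx.1.le x1).1).2
        have k2 : 1 / (1 - (m + x * (u - m)) ^ 2) ≤ 1 / (1 - (m + x * (1 - m)) ^ 2) :=
          one_div_le_one_div_of_le (jen_pos (hz2 x hx.1.le x1)) (by linarith)
        have k3 := mul_le_mul_of_nonneg_left k2 (show 0 ≤ (u - m) ^ 2 * (1 - m) ^ 2 by positivity)
        linarith
    simpa only [zero_mul, add_zero] using this
  have hF := jen_le (f := fun t : ℝ =>
      (u - m) ^ 2 * psi (m + t * (1 - m)) - (1 - m) ^ 2 * psi (m + t * (u - m)) -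
        ((u - m) ^ 2 * (1 - m) * Real.artanh m - (1 - m) ^ 2 * (u - m) * Real.artanh m) * t)
    (f' := fun t : ℝ => (u - m) ^ 2 * (Real.artanh (m + t * (1 - m)) * (1 - m)) -
        (1 - m) ^ 2 * (Real.artanh (m + t * (u - m)) * (u - m)) -
        ((u - m) ^ 2 * (1 - m) * Real.artanh m - (1 - m) ^ 2 * (u - m) * Real.artanh m) * 1)
    zero_le_one (by
      have := continuous_psi
      fun_prop)
    (fun t ht => ((((hasDerivAt_psi (hz2 t ht.1.le ht.2)).comp t (lin _ t)).const_mul _).sub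
      (((hasDerivAt_psi (hz1 t ht.1.le ht.2)).comp t (lin _ t)).const_mul _)).sub
      ((hasDerivAt_id t).const_mul _))
    fun t ht => by linarith [hG t ht.1.le ht.2]
  simp only [zero_mul, add_zero, one_mul, mul_zero, mul_one, add_sub_cancel] at hF
  have e1 : psi 1 = Real.log 2 := by
    rw [psi_eq (by simp)]; norm_num
  have e2 : psi m + Real.artanh m * (1 - m) = Real.log (1 + m) := by
    rw [psi_eq hma.le, artanh_eq hma]; ring
  have m1 : 0 < (1 - m) ^ 2 := by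
    have : 0 < 1 - m := by linarith
    positivity
  rw [rhoT, Real.log_div two_ne_zero (by linarith), div_mul_eq_mul_div, le_div_iff₀ m1, ← e2, ← e1]
  linarith

theorem rhoT_nonneg {m : ℝ} (hm0 : 0 ≤ m) (hm : m < 1) : 0 ≤ rhoT m := by
  refine div_nonneg (Real.log_nonneg ?_) (sq_nonneg _)
  rw [le_div_iff₀ (by linarith)]
  linarith

theorem info_le {u : (Fin n → Bool) → ℝ} (hu : ∀ x, |u x| < 1) :
    information u ≤ rhoT |cubeAverage u| *
      (cubeAverage (fun x => u x ^ 2) - cubeAverage u ^ 2) := by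
  have hm := avg_abs_lt hu
  obtain ⟨m, hm'⟩ : ∃ m, cubeAverage u = m := ⟨_, rfl⟩
  rw [hm'] at hm
  obtain ⟨c, hc⟩ : ∃ c : ℝ, ∀ x, psi (u x) - psi m - c * (u x - m) ≤ rhoT |m| * (u x - m) ^ 2 := by
    rcases le_total 0 m with h | h
    · rw [abs_of_nonneg h] at hm ⊢
      exact ⟨_, fun x => breg_le h hm (hu x).le⟩
    · rw [abs_of_nonpos h] at hm ⊢
      refine ⟨-Real.artanh (-m), fun x => ?_⟩
      have := breg_le (neg_nonneg.2 h) hm (u := -u x) (by rw [abs_neg]; exact (hu x).le)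
      rw [psi_neg, psi_neg] at this
      linarith
  have k := avg_mono (f := fun x => (signEntropy m + c * m) - signEntropy (u x) - c * u x)
    (g := fun x => rhoT |m| * (u x ^ 2 - 2 * m * u x + m ^ 2)) fun x => by
      have := hc x
      simp only [psi] at this
      linarith
  rw [avg_sub, avg_sub, avg_const, avg_mul, avg_mul, avg_add, avg_sub, avg_mul, avg_const,
    hm'] at k
  rw [information, hm']
  linarith

end Crest.Agent.R307
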