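import Crest.Agent.R307.CKInd

/-! Row 307: the soft Courtade–Kumar bound from the rate bound, by comparison along the noise flow.
For `0 < ρ < 1` and `u` not constant `± 1`, `g = noise ρ u` has `|g| < 1`;
`w ρ = information (noise ρ u) - ψ (ρ r)` is continuous on `[0,1]`, `w 1 = 0`, and
`ρ w' = production g - ρ r artanh (ρ r) ≥ (2 + lam (ρ r)) w` by `ih1` at `σ = ρ r`.
So `w` cannot be positive at `ρ₀ ∈ (0,1)` (it would stay positive and increase up to `ρ = 1`;
e.g. `image_le_of_deriv_right_lt_deriv_boundary` after `ρ ↦ 1 - ρ`, or a `sSup` argument). -/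

set_option autoImplicit false
open Crest.CubeNoise

namespace Crest.Agent.R307

theorem ode_spin_not (b : Bool) : spin (!b) = -spin b := by cases b <;> simp [spin]

theorem ode_spin_mul (a b : Bool) : spin a * spin b = 1 ∨ spin a * spin b = -1 := by
  cases a <;> cases b <;> simp [spin]

theorem ode_kernel {n : ℕ} (x y : Fin n → Bool) {ρ : ℝ} (hρ : ρ ≠ 0) :
    HasDerivAt (fun ρ : ℝ => ∏ i, (1 + ρ * spin (x i) * spin (y i)) / 2)
      ((∑ i, ((∏ j, (1 + ρ * spin (x j) * spin (y j)) / 2) -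
        ∏ j, (1 + ρ * spin (flipBit i x j) * spin (y j)) / 2)) / 2 / ρ) ρ := by
  have h := HasDerivAt.fun_finsetProd (u := Finset.univ)
    (f := fun i (ρ : ℝ) => (1 + ρ * spin (x i) * spin (y i)) / 2)
    (f' := fun i => spin (x i) * spin (y i) / 2) (x := ρ) fun i _ => by
      have := ((((hasDerivAt_id ρ).mul_const (spin (x i))).mul_const (spin (y i))).const_add
        1).div_const 2
      simpa using this
  refine h.congr_deriv ?_
  rw [Finset.sum_div, Finset.sum_div]
  refine Finset.sum_congr rfl fun i _ => ?_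
  rw [← Finset.prod_erase_mul _ _ (Finset.mem_univ i),
    ← Finset.prod_erase_mul _ (fun j => (1 + ρ * spin (flipBit i x j) * spin (y j)) / 2)
      (Finset.mem_univ i)]
  have e : ∏ j ∈ Finset.univ.erase i, (1 + ρ * spin (flipBit i x j) * spin (y j)) / 2 =
      ∏ j ∈ Finset.univ.erase i, (1 + ρ * spin (x j) * spin (y j)) / 2 :=
    Finset.prod_congr rfl fun j hj => by
      rw [flipBit, Function.update_of_ne (Finset.ne_of_mem_erase hj)]
  rw [e, flipBit, Function.update_self, ode_spin_not, smul_eq_mul]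
  field_simp
  ring

theorem hasDerivAt_noise {n : ℕ} (u : (Fin n → Bool) → ℝ) (x : Fin n → Bool) {ρ : ℝ} (hρ : ρ ≠ 0) :
    HasDerivAt (fun ρ => noise ρ u x)
      ((∑ i, (noise ρ u x - noise ρ u (flipBit i x))) / 2 / ρ) ρ := by
  have h := HasDerivAt.fun_sum (u := Finset.univ) fun y _ => (ode_kernel x y hρ).mul_const (u y)
  refine h.congr_deriv ?_
  simp only [noise, ← Finset.sum_sub_distrib]
  rw [Finset.sum_comm, Finset.sum_div, Finset.sum_div]
  refine Finset.sum_congr rfl fun y _ => ?_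
  simp only [← sub_mul, ← Finset.sum_mul]
  ring

theorem ode_noise_pos {n : ℕ} {v : (Fin n → Bool) → ℝ} (hv : ∀ x, 0 ≤ v x) (h : ∃ x, v x ≠ 0)
    {ρ : ℝ} (hρ : |ρ| < 1) (x : Fin n → Bool) : 0 < noise ρ v x := by
  have hk : ∀ y : Fin n → Bool, 0 < ∏ i, (1 + ρ * spin (x i) * spin (y i)) / 2 := fun y =>
    Finset.prod_pos fun i _ => by
      have := abs_lt.1 hρ
      rcases ode_spin_mul (x i) (y i) with e | e <;> rw [mul_assoc, e] <;> linarith
  obtain ⟨y, hy⟩ := h
  exact Finset.sum_pos' (fun y _ => mul_nonneg (hk y).le (hv y))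
    ⟨y, Finset.mem_univ _, mul_pos (hk y) ((hv y).lt_of_ne' hy)⟩

theorem noise_abs_lt {n : ℕ} {u : (Fin n → Bool) → ℝ} (hu : ∀ x, |u x| ≤ 1)
    (h1 : ∃ x, u x ≠ 1) (h2 : ∃ x, u x ≠ -1) {ρ : ℝ} (hρ : |ρ| < 1) (x : Fin n → Bool) :
    |noise ρ u x| < 1 := by
  obtain ⟨x1, h1⟩ := h1
  obtain ⟨x2, h2⟩ := h2
  have a1 := ode_noise_pos (v := fun y => -1 * u y + 1)
    (fun y => by linarith [(abs_le.1 (hu y)).2]) ⟨x1, fun h => h1 (by linarith)⟩ hρ x
  have a2 := ode_noise_pos (v := fun y => 1 * u y + 1)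
    (fun y => by linarith [(abs_le.1 (hu y)).1]) ⟨x2, fun h => h2 (by linarith)⟩ hρ x
  rw [noise_affine] at a1 a2
  exact abs_lt.2 ⟨by linarith, by linarith⟩

theorem ode_info_const {n : ℕ} {g : (Fin n → Bool) → ℝ} {c : ℝ} (h : ∀ x, g x = c) :
    information g = 0 := by
  obtain rfl : g = fun _ => c := funext h
  rw [information, avg_const, avg_const, sub_self]

theorem ode_noise_const {n : ℕ} {g : (Fin n → Bool) → ℝ} {c : ℝ} (h : ∀ x, g x = c) (ρ : ℝ)
    (x : Fin n → Bool) : noise ρ g x = c := by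
  have := noise_affine ρ 0 c g x
  simp only [zero_mul, zero_add] at this
  rw [funext h, this]

theorem ode_info_eq {n : ℕ} (u : (Fin n → Bool) → ℝ) (ρ : ℝ) : information (noise ρ u) =
    (∑ x, psi (noise ρ u x)) / 2 ^ n - psi (cubeAverage u) := by
  have e : (fun x => signEntropy (noise ρ u x)) = fun x => Real.log 2 - psi (noise ρ u x) := by
    funext x; rw [psi]; ring
  rw [information, avg_noise, e, avg_sub, avg_const, psi]
  change _ = cubeAverage (fun x => psi (noise ρ u x)) - _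
  ring

theorem ode_info_cont {n : ℕ} (u : (Fin n → Bool) → ℝ) :
    Continuous fun ρ => information (noise ρ u) := by
  simp only [ode_info_eq]
  refine ((continuous_finsetSum _ fun x _ => continuous_psi.comp ?_).div_const _).sub
    continuous_const
  unfold noise
  fun_prop

theorem ode_info_deriv {n : ℕ} {u : (Fin n → Bool) → ℝ} {ρ : ℝ} (hρ : ρ ≠ 0)
    (h : ∀ x, |noise ρ u x| < 1) :
    HasDerivAt (fun ρ => information (noise ρ u)) (production (noise ρ u) / ρ) ρ := by
  simp only [ode_info_eq]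
  refine (((HasDerivAt.fun_sum (u := Finset.univ) fun x _ =>
    (hasDerivAt_psi (h x)).comp ρ (hasDerivAt_noise u x hρ)).div_const _).sub_const _).congr_deriv ?_
  rw [production, cubeAverage, div_right_comm, Finset.sum_div _ _ ρ]
  simp only [mul_div_assoc]

theorem ode_compare {w w' : ℝ → ℝ} {a b : ℝ} (hab : a ≤ b) (hc : Continuous w) (hb : w b ≤ 0)
    (hd : ∀ t ∈ Set.Ioo a b, HasDerivAt w (w' t) t ∧ (0 < w t → 0 ≤ w' t)) : w a ≤ 0 := by
  by_contra h
  rw [not_le] at h
  have hK : IsCompact (Set.Icc a b ∩ {t | w t ≤ 0}) :=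
    isCompact_Icc.inter_right (isClosed_le hc continuous_const)
  obtain ⟨t, ⟨ht, ht0⟩, hmin⟩ := hK.exists_isLeast ⟨b, ⟨hab, le_rfl⟩, hb⟩
  have ht0' : w t ≤ 0 := ht0
  have hat : a < t := ht.1.lt_of_ne fun e => by rw [← e] at ht0'; linarith
  obtain ⟨c, hc1, hc2⟩ := exists_hasDerivAt_eq_slope w w' hat hc.continuousOn
    fun s hs => (hd s ⟨hs.1, hs.2.trans_le ht.2⟩).1
  have h1 : 0 < w c := lt_of_not_ge fun h' =>
    absurd (hmin ⟨⟨hc1.1.le, hc1.2.le.trans ht.2⟩, h'⟩) (not_le.2 hc1.2)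
  have h2 := (hd c ⟨hc1.1, hc1.2.trans_le ht.2⟩).2 h1
  rw [hc2] at h2
  have h3 := div_neg_of_neg_of_pos (show w t - w a < 0 by linarith) (sub_pos.2 hat)
  linarith

theorem soft_ck (n : ℕ) (u : (Fin n → Bool) → ℝ)
    (hu : ∀ x, |u x| ≤ 1) (ρ : ℝ) (hρ : |ρ| ≤ 1) (r : ℝ) (hr : 0 ≤ r) (hr1 : r ≤ 1)
    (hI : information u = Real.log 2 - signEntropy r) :
    information (noise ρ u) ≤ Real.log 2 - signEntropy (|ρ| * r) := by
  have e : information (noise ρ u) = information (noise |ρ| u) := by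
    rw [information, information, avg_noise, avg_noise, avg_noise_abs ρ u signEntropy]
  rw [e]
  have h0 := abs_nonneg ρ
  generalize |ρ| = a at *
  change _ ≤ psi (a * r)
  by_cases h1 : ∃ x, u x ≠ 1
  swap
  · push Not at h1
    rw [ode_info_const (ode_noise_const h1 a)]
    exact psi_nonneg _
  by_cases h2 : ∃ x, u x ≠ -1
  swap
  · push Not at h2
    rw [ode_info_const (ode_noise_const h2 a)]
    exact psi_nonneg _
  rw [← sub_nonpos]
  refine ode_compare (w := fun t => information (noise t u) - psi (t * r))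
    (w' := fun t => production (noise t u) / t - Real.artanh (t * r) * r) hρ
    ((ode_info_cont u).sub (continuous_psi.comp (by fun_prop))) ?_ fun t ht => ?_
  · simp only [noise_one, one_mul, hI, psi, sub_self, le_refl]
  · have t0 : 0 < t := h0.trans_lt ht.1
    have hg := noise_abs_lt hu h1 h2 (ρ := t) (by rw [abs_of_pos t0]; exact ht.2)
    have s0 : 0 ≤ t * r := mul_nonneg t0.le hr
    have s1 : t * r < 1 := (mul_le_of_le_one_right t0.le hr1).trans_lt ht.2
    refine ⟨(ode_info_deriv t0.ne' hg).sub ?_, fun hw => ?_⟩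
    · have := (hasDerivAt_psi (r := t * r) (by rwa [abs_of_nonneg s0])).comp t
        (hasDerivAt_mul_const (x := t) r)
      exact this
    · have h3 := ih1 n _ hg s0 s1
      have h4 := mul_nonneg (lam_nonneg s0 s1) hw.le
      rw [St] at h3
      rw [sub_nonneg, le_div_iff₀ t0]
      linarith

/-- statement S0472 from `ih1`, `ih2` (take `σ = r`, `σ = 0`, `σ = s`) -/
theorem prod_bounds (n : ℕ) (g : (Fin n → Bool) → ℝ) (hg : ∀ x, |g x| < 1) :
    (∀ r : ℝ, 0 ≤ r → r < 1 → Real.log 2 - signEntropy r = information g →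
        r * Real.artanh r ≤ production g) ∧
    (surplusArg g < 0 → 2 * information g ≤ production g) ∧
    (∀ s : ℝ, 0 ≤ s → s < 1 → Real.log 2 - signEntropy s = surplusArg g →
        2 * information g + (1 - cubeAverage g ^ 2) * (s * Real.artanh s - 2 * surplusArg g)
          ≤ production g) := by
  refine ⟨fun r h0 h1 h => ?_, fun _ => ?_, fun s h0 h1 h => ?_⟩
  · have := ih1 n g hg h0 h1
    rw [St, psi, h] at this
    linarith
  · have := ih2 n g hg le_rfl zero_lt_one
    rw [kap_zero, lam_zero] at this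
    linarith
  · have h2 := ih2 n g hg h0 h1
    have hm := abs_lt.1 (avg_abs_lt hg)
    have ht : 0 < 1 - cubeAverage g ^ 2 := by nlinarith
    have hA : cubeAverage (fun x => signEntropy (g x)) = (1 - cubeAverage g ^ 2) * signEntropy s := by
      rw [surplusArg, sub_right_inj, eq_div_iff ht.ne'] at h
      linarith
    rw [hA, kap, St, psi, h] at h2
    linarith

end Crest.Agent.R307
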