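import Crest.Agent.R307.Defs

/-! Row 307: elementary facts about cube averages, restrictions and noise.
Hints: `Fin.insertNthEquiv`, `Fin.prod_univ_succAbove`, `Fin.sum_univ_succAbove`,
`Fin.insertNth_apply_same`, `Fin.insertNth_apply_succAbove`, `Fintype.piFinset`/`Finset.prod_univ_sum`
(total weight of the noise kernel is `1`). -/

set_option autoImplicit false
open Crest.CubeNoise

namespace Crest.Agent.R307

variable {n : ℕ}

theorem avg_const (c : ℝ) : cubeAverage (fun _ : Fin n → Bool => c) = c := by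
  simp [cubeAverage]

theorem avg_add (f g : (Fin n → Bool) → ℝ) :
    cubeAverage (fun x => f x + g x) = cubeAverage f + cubeAverage g := by
  simp only [cubeAverage, Finset.sum_add_distrib, add_div]

theorem avg_sub (f g : (Fin n → Bool) → ℝ) :
    cubeAverage (fun x => f x - g x) = cubeAverage f - cubeAverage g := by
  simp only [cubeAverage, Finset.sum_sub_distrib, sub_div]

theorem avg_mul (c : ℝ) (f : (Fin n → Bool) → ℝ) :
    cubeAverage (fun x => c * f x) = c * cubeAverage f := by
  simp only [cubeAverage, ← Finset.mul_sum, mul_div_assoc]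

theorem avg_div (c : ℝ) (f : (Fin n → Bool) → ℝ) :
    cubeAverage (fun x => f x / c) = cubeAverage f / c := by
  simp only [cubeAverage, ← Finset.sum_div, div_right_comm]

theorem avg_mono {f g : (Fin n → Bool) → ℝ} (h : ∀ x, f x ≤ g x) :
    cubeAverage f ≤ cubeAverage g := by
  unfold cubeAverage
  exact div_le_div_of_nonneg_right (Finset.sum_le_sum fun x _ => h x) (by positivity)

theorem avg_lt {f g : (Fin n → Bool) → ℝ} (h : ∀ x, f x < g x) :
    cubeAverage f < cubeAverage g := by
  unfold cubeAverage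
  exact div_lt_div_of_pos_right
    (Finset.sum_lt_sum_of_nonempty Finset.univ_nonempty fun x _ => h x) (by positivity)

theorem avg_nonneg {f : (Fin n → Bool) → ℝ} (h : ∀ x, 0 ≤ f x) : 0 ≤ cubeAverage f := by
  simpa only [avg_const] using avg_mono (f := fun _ => 0) h

theorem avg_abs_lt {f : (Fin n → Bool) → ℝ} (h : ∀ x, |f x| < 1) : |cubeAverage f| < 1 := by
  rw [abs_lt]
  constructor
  · simpa only [avg_const] using avg_lt (f := fun _ => -1) fun x => (abs_lt.1 (h x)).1
  · simpa only [avg_const] using avg_lt (g := fun _ => 1) fun x => (abs_lt.1 (h x)).2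

theorem avg_abs_le {f : (Fin n → Bool) → ℝ} (h : ∀ x, |f x| ≤ 1) : |cubeAverage f| ≤ 1 := by
  rw [abs_le]
  constructor
  · simpa only [avg_const] using avg_mono (f := fun _ => -1) fun x => (abs_le.1 (h x)).1
  · simpa only [avg_const] using avg_mono (g := fun _ => 1) fun x => (abs_le.1 (h x)).2

theorem avg_zero_dim (f : (Fin 0 → Bool) → ℝ) (x : Fin 0 → Bool) : cubeAverage f = f x := by
  unfold cubeAverage
  rw [Fintype.sum_subsingleton _ x]
  simp

/-- Cauchy–Schwarz -/
theorem avg_mul_sq_le (f g : (Fin n → Bool) → ℝ) :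
    cubeAverage (fun x => f x * g x) ^ 2 ≤
      cubeAverage (fun x => f x ^ 2) * cubeAverage (fun x => g x ^ 2) := by
  unfold cubeAverage
  rw [div_pow, div_mul_div_comm, ← sq]
  exact div_le_div_of_nonneg_right (Finset.sum_mul_sq_le_sq_mul_sq _ _ _) (by positivity)

theorem Cube_sum_split (i : Fin (n + 1)) (g : (Fin (n + 1) → Bool) → ℝ) :
    ∑ x, g x = ∑ x, res i true g x + ∑ x, res i false g x := by
  rw [← (Fin.insertNthEquiv (fun _ => Bool) i).sum_comp, Fintype.sum_prod_type, Fintype.sum_bool]
  rfl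

theorem avg_split (i : Fin (n + 1)) (g : (Fin (n + 1) → Bool) → ℝ) :
    cubeAverage g = (cubeAverage (res i true g) + cubeAverage (res i false g)) / 2 := by
  unfold cubeAverage
  rw [Cube_sum_split i, pow_succ]
  field_simp

theorem avg_res_true (i : Fin (n + 1)) (g : (Fin (n + 1) → Bool) → ℝ) :
    cubeAverage (res i true g) = cubeAverage g + dl i g := by
  rw [avg_split i g, dl]
  ring

theorem avg_res_false (i : Fin (n + 1)) (g : (Fin (n + 1) → Bool) → ℝ) :
    cubeAverage (res i false g) = cubeAverage g - dl i g := by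
  rw [avg_split i g, dl]
  ring

theorem noise_res (ρ : ℝ) (i : Fin (n + 1)) (b : Bool) (g : (Fin (n + 1) → Bool) → ℝ)
    (x : Fin n → Bool) :
    res i b (noise ρ g) x =
      (1 + ρ) / 2 * noise ρ (res i b g) x + (1 - ρ) / 2 * noise ρ (res i (!b) g) x := by
  have h : res i b (noise ρ g) x = ∑ y : Fin (n + 1) → Bool,
      (∏ j, (1 + ρ * spin (Fin.insertNth (α := fun _ => Bool) i b x j) * spin (y j)) / 2) * g y :=
    rfl
  rw [h, Cube_sum_split i]
  simp only [res, noise, Fin.prod_univ_succAbove _ i, Fin.insertNth_apply_same,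
    Fin.insertNth_apply_succAbove, Finset.mul_sum, ← mul_assoc]
  cases b
  · simp only [spin, Bool.not_false, if_true, Bool.false_eq_true, if_false]
    rw [add_comm]
    congr 1 <;> refine Finset.sum_congr rfl fun y _ => ?_ <;> ring
  · simp only [spin, Bool.not_true, if_true, Bool.false_eq_true, if_false]
    congr 1 <;> refine Finset.sum_congr rfl fun y _ => ?_ <;> ring

theorem Cube_flip_same (i : Fin (n + 1)) (b : Bool) (x : Fin n → Bool) :
    flipBit i (Fin.insertNth (α := fun _ => Bool) i b x) =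
      Fin.insertNth (α := fun _ => Bool) i (!b) x := by
  rw [Fin.eq_insertNth_iff]
  refine ⟨by simp [flipBit], ?_⟩
  funext j
  simp [flipBit, Fin.removeNth]

theorem Cube_flip_succAbove (i : Fin (n + 1)) (j : Fin n) (b : Bool) (x : Fin n → Bool) :
    flipBit (i.succAbove j) (Fin.insertNth (α := fun _ => Bool) i b x) =
      Fin.insertNth (α := fun _ => Bool) i b (flipBit j x) := by
  rw [Fin.eq_insertNth_iff]
  refine ⟨by simp [flipBit], ?_⟩
  funext k
  by_cases h : k = j
  · subst h
    simp [flipBit, Fin.removeNth]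
  · simp [flipBit, Fin.removeNth, h]

theorem production_split (i : Fin (n + 1)) (g : (Fin (n + 1) → Bool) → ℝ) :
    production g = (production (res i true g) + production (res i false g)) / 2 +
      cubeAverage (fun x => cP (res i true g x) (res i false g x)) := by
  unfold production
  rw [avg_split i, ← avg_add, ← avg_add, ← avg_div, ← avg_div, ← avg_add]
  congr 1
  funext x
  simp only [res, Fin.sum_univ_succAbove _ i, Cube_flip_same, Cube_flip_succAbove, cP,
    Bool.not_true, Bool.not_false]
  ring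

theorem Cube_weight (ρ : ℝ) (x : Fin n → Bool) :
    ∑ y : Fin n → Bool, ∏ i, (1 + ρ * spin (x i) * spin (y i)) / 2 = 1 := by
  rw [← Fintype.prod_sum (fun i (b : Bool) => (1 + ρ * spin (x i) * spin b) / 2)]
  refine Finset.prod_eq_one fun i _ => ?_
  simp only [Fintype.sum_bool, spin, if_true, Bool.false_eq_true, if_false]
  ring

theorem Cube_weight_nonneg {ρ : ℝ} (hρ : |ρ| ≤ 1) (x y : Fin n → Bool) :
    0 ≤ ∏ i, (1 + ρ * spin (x i) * spin (y i)) / 2 := by
  obtain ⟨h1, h2⟩ := abs_le.1 hρ
  refine Finset.prod_nonneg fun i _ => ?_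
  cases x i <;> cases y i <;> simp only [spin, if_true, Bool.false_eq_true, if_false] <;> linarith

theorem avg_noise (ρ : ℝ) (g : (Fin n → Bool) → ℝ) : cubeAverage (noise ρ g) = cubeAverage g := by
  unfold cubeAverage noise
  rw [Finset.sum_comm]
  congr 1
  refine Finset.sum_congr rfl fun y _ => ?_
  rw [← Finset.sum_mul]
  have := Cube_weight ρ y
  simp only [mul_right_comm ρ (spin (y _))] at this
  rw [this, one_mul]

theorem noise_affine (ρ a b : ℝ) (g : (Fin n → Bool) → ℝ) (x : Fin n → Bool) :
    noise ρ (fun y => a * g y + b) x = a * noise ρ g x + b := by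
  unfold noise
  simp only [mul_add, Finset.sum_add_distrib, ← Finset.sum_mul, Cube_weight, one_mul,
    Finset.mul_sum]
  congr 1
  refine Finset.sum_congr rfl fun y _ => ?_
  ring

theorem noise_mono {ρ : ℝ} (hρ : |ρ| ≤ 1) {f g : (Fin n → Bool) → ℝ} (h : ∀ y, f y ≤ g y)
    (x : Fin n → Bool) : noise ρ f x ≤ noise ρ g x := by
  exact Finset.sum_le_sum fun y _ => mul_le_mul_of_nonneg_left (h y) (Cube_weight_nonneg hρ x y)

theorem noise_nonneg {ρ : ℝ} (hρ : |ρ| ≤ 1) {g : (Fin n → Bool) → ℝ} (h : ∀ y, 0 ≤ g y)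
    (x : Fin n → Bool) : 0 ≤ noise ρ g x := by
  exact Finset.sum_nonneg fun y _ => mul_nonneg (Cube_weight_nonneg hρ x y) (h y)

theorem noise_le_one {ρ : ℝ} (hρ : |ρ| ≤ 1) {g : (Fin n → Bool) → ℝ} (h : ∀ y, g y ≤ 1)
    (x : Fin n → Bool) : noise ρ g x ≤ 1 := by
  refine (noise_mono hρ (g := fun _ => 1) h x).trans_eq ?_
  simp only [noise, mul_one, Cube_weight]

theorem noise_one (g : (Fin n → Bool) → ℝ) : noise 1 g = g := by
  funext x
  unfold noise
  rw [Finset.sum_eq_single x]
  · rw [Finset.prod_eq_one, one_mul]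
    intro i _
    cases x i <;> norm_num [spin]
  · intro y _ hy
    obtain ⟨i, hi⟩ := Function.ne_iff.1 hy
    rw [Finset.prod_eq_zero (Finset.mem_univ i), zero_mul]
    revert hi
    cases x i <;> cases y i <;> norm_num [spin]
  · simp

theorem noise_zero (g : (Fin n → Bool) → ℝ) (x : Fin n → Bool) : noise 0 g x = cubeAverage g := by
  simp only [noise, cubeAverage, zero_mul, add_zero, Finset.prod_const, Finset.card_univ,
    Fintype.card_fin, ← Finset.mul_sum]
  rw [one_div, inv_pow]
  ring

theorem noise_zero_dim (ρ : ℝ) (g : (Fin 0 → Bool) → ℝ) : noise ρ g = g := by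
  funext x
  unfold noise
  rw [Fintype.sum_subsingleton _ x]
  simp

theorem noise_neg (ρ : ℝ) (g : (Fin n → Bool) → ℝ) (x : Fin n → Bool) :
    noise (-ρ) g x = noise ρ g (fun i => !x i) := by
  unfold noise
  refine Finset.sum_congr rfl fun y _ => ?_
  congr 1
  refine Finset.prod_congr rfl fun i _ => ?_
  beta_reduce
  cases x i <;> simp [spin]

theorem avg_not (g : (Fin n → Bool) → ℝ) :
    cubeAverage (fun x => g (fun i => !x i)) = cubeAverage g := by
  unfold cubeAverage
  congr 1
  exact Function.Bijective.sum_comp (e := fun (x : Fin n → Bool) i => !x i)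
    (Function.Involutive.bijective fun x => by funext i; simp) g

/-- averages of a function of the noisy values depend on `|ρ|` only -/
theorem avg_noise_abs (ρ : ℝ) (g : (Fin n → Bool) → ℝ) (F : ℝ → ℝ) :
    cubeAverage (fun x => F (noise ρ g x)) = cubeAverage (fun x => F (noise |ρ| g x)) := by
  rcases abs_choice ρ with h | h
  · rw [h]
  · rw [h]
    simp only [noise_neg]
    exact (avg_not fun x => F (noise ρ g x)).symm

theorem Cube_sq_le (f : (Fin n → Bool) → ℝ) :
    cubeAverage f ^ 2 ≤ cubeAverage (fun x => f x ^ 2) := by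
  simpa only [mul_one, one_pow, avg_const] using avg_mul_sq_le f (fun _ => 1)

theorem Cube_bessel (j : Fin (n + 1)) (u : (Fin (n + 1) → Bool) → ℝ) :
    cubeAverage u ^ 2 + dl j u ^ 2 ≤ cubeAverage (fun x => u x ^ 2) := by
  have h1 := Cube_sq_le (res j true u)
  have h2 := Cube_sq_le (res j false u)
  rw [avg_split j u, avg_split j (fun x => u x ^ 2), dl]
  change _ ≤ (cubeAverage (fun x => res j true u x ^ 2) +
    cubeAverage (fun x => res j false u x ^ 2)) / 2
  nlinarith

theorem Cube_res_comm (a b : Bool) (g : (Fin (n + 2) → Bool) → ℝ) :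
    res 0 a (res 1 b g) = res 0 b (res 0 a g) := by
  funext x
  simp only [res, Fin.insertNth_zero']
  rw [show (1 : Fin (n + 2)) = (0 : Fin (n + 1)).succ from rfl, Fin.insertNth_succ_cons,
    Fin.insertNth_zero']

theorem Cube_half (j : Fin (n + 1)) (f g : (Fin (n + 1) → Bool) → ℝ) :
    cubeAverage (fun x => (f x + g x) / 2) = (cubeAverage f + cubeAverage g) / 2 ∧
      dl j (fun x => (f x + g x) / 2) = (dl j f + dl j g) / 2 := by
  refine ⟨by rw [avg_div, avg_add], ?_⟩
  have h : ∀ b, cubeAverage (res j b fun x => (f x + g x) / 2) =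
      (cubeAverage (res j b f) + cubeAverage (res j b g)) / 2 := fun b => by
    rw [← avg_add, ← avg_div]
    rfl
  simp only [dl, h]
  ring

/-- In dimension `≥ 2` take `i ∈ {0, 1}` with the smaller `|dl i g|` (`dl i g = E[g · spin xᵢ]`).
`|dl 0| + |dl 1| = E[g (± x₀ ± x₁)] ≤ E|x₀ ± x₁| = 1`; for `u` = average of the two faces of `i`,
`E u = E g`, `E[u · spin xⱼ] = dl j g`, and Bessel gives `E u² ≥ (E g)² + (dl j g)²`
(e.g. split `u` once more and use `a² + b² ≥ …` with `avg_mul_sq_le`). -/
theorem small_coord (g : (Fin (n + 2) → Bool) → ℝ) (hg : ∀ x, |g x| ≤ 1) :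
    ∃ i : Fin (n + 2), |dl i g| ≤ 1 / 2 ∧ cubeAverage g ^ 2 + dl i g ^ 2 ≤
      cubeAverage (fun x => ((res i true g x + res i false g x) / 2) ^ 2) := by
  have hb : ∀ a b, |cubeAverage (res 0 b (res 0 a g))| ≤ 1 := fun a b =>
    avg_abs_le fun x => hg _
  have hA := abs_le.1 (hb true true)
  have hB := abs_le.1 (hb true false)
  have hC := abs_le.1 (hb false true)
  have hD := abs_le.1 (hb false false)
  have e0 : dl 0 g = (dl 0 (res 1 true g) + dl 0 (res 1 false g)) / 2 := by
    simp only [dl, Cube_res_comm]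
    rw [avg_split 0 (res 0 true g), avg_split 0 (res 0 false g)]
    ring
  have e1 : dl 1 g = (dl 0 (res 0 true g) + dl 0 (res 0 false g)) / 2 := by
    simp only [dl]
    rw [avg_split 0 (res 1 true g), avg_split 0 (res 1 false g)]
    simp only [Cube_res_comm]
    ring
  have hs : |dl 0 g| + |dl 1 g| ≤ 1 := by
    rw [e0, e1]
    simp only [dl, Cube_res_comm]
    rcases abs_cases (((cubeAverage (res 0 true (res 0 true g)) -
        cubeAverage (res 0 true (res 0 false g))) / 2 +
        (cubeAverage (res 0 false (res 0 true g)) -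
        cubeAverage (res 0 false (res 0 false g))) / 2) / 2) with h1 | h1 <;>
    rcases abs_cases (((cubeAverage (res 0 true (res 0 true g)) -
        cubeAverage (res 0 false (res 0 true g))) / 2 +
        (cubeAverage (res 0 true (res 0 false g)) -
        cubeAverage (res 0 false (res 0 false g))) / 2) / 2) with h2 | h2 <;>
    linarith [h1.1, h2.1, hA.1, hA.2, hB.1, hB.2, hC.1, hC.2, hD.1, hD.2]
  rcases le_total |dl 0 g| |dl 1 g| with h | h
  · refine ⟨0, by linarith, ?_⟩
    have h1 := Cube_bessel 0 (fun x => (res 0 true g x + res 0 false g x) / 2)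
    obtain ⟨h2, h3⟩ := Cube_half 0 (res 0 true g) (res 0 false g)
    rw [h2, h3, ← avg_split, ← e1] at h1
    have := sq_le_sq.2 h
    linarith
  · refine ⟨1, by linarith, ?_⟩
    have h1 := Cube_bessel 0 (fun x => (res 1 true g x + res 1 false g x) / 2)
    obtain ⟨h2, h3⟩ := Cube_half 0 (res 1 true g) (res 1 false g)
    rw [h2, h3, ← avg_split, ← e0] at h1
    have := sq_le_sq.2 h
    linarith

end Crest.Agent.R307
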