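import Crest.Prelude.Def_CubeNoise

/-! Row 307: definitions shared by the three statements. -/

set_option autoImplicit false
open Crest.CubeNoise

namespace Crest.Agent.R307

noncomputable section

/-- restriction of `g` to the face `x i = b` -/
def res {n : ℕ} (i : Fin (n + 1)) (b : Bool) (g : (Fin (n + 1) → Bool) → ℝ) :
    (Fin n → Bool) → ℝ := fun x => g (Fin.insertNth (α := fun _ => Bool) i b x)

/-- half the difference of the means of the two faces (the Fourier coefficient of `i`) -/
def dl {n : ℕ} (i : Fin (n + 1)) (g : (Fin (n + 1) → Bool) → ℝ) : ℝ :=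
  (cubeAverage (res i true g) - cubeAverage (res i false g)) / 2

/-- `ψ r = log 2 - H r` -/
def psi (r : ℝ) : ℝ := Real.log 2 - signEntropy r

/-- the surplus `S (ψ r) = r artanh r - 2 ψ r` -/
def St (r : ℝ) : ℝ := r * Real.artanh r - 2 * psi r

/-- slope of `S` at `ψ σ` (equal to `0` at `σ = 0`) -/
def lam (σ : ℝ) : ℝ := (σ / (1 - σ ^ 2) - Real.artanh σ) / Real.artanh σ

def kap (σ : ℝ) : ℝ := St σ + lam σ * signEntropy σ

/-- production of one edge with end values `a`, `b` -/
def cP (a b : ℝ) : ℝ := (a - b) / 4 * (Real.artanh a - Real.artanh b)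

/-- information of one edge with end values `m ± d` -/
def Dl (m d : ℝ) : ℝ := signEntropy m - (signEntropy (m + d) + signEntropy (m - d)) / 2

/-- surplus of one edge: `cP (m + d) (m - d) = E0 m d + 2 Dl m d` -/
def E0 (m d : ℝ) : ℝ := ((1 + m) * St (d / (1 + m)) + (1 - m) * St (d / (1 - m))) / 2

/-- the best constant in `information ≤ ρ̃ · variance` at mean `± m`, `0 ≤ m < 1` -/
def rhoT (m : ℝ) : ℝ := Real.log (2 / (1 + m)) / (1 - m) ^ 2

end

end Crest.Agent.R307
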