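import Crest.Agent.R307.HBase

/-! Row 307: vertex certificates; interpolation in `ρ²`. -/

set_option autoImplicit false

namespace Crest.Agent.R307

lemma HBa_uf_nonneg {α : ℝ} (h0 : 0 ≤ α) (h1 : α ≤ 1) : 0 ≤ uf α := by
  unfold uf
  exact mul_nonneg h0 (by linarith)

lemma HBa_sqrt_concave {p q θ : ℝ} (hp : 0 ≤ p) (hq : 0 ≤ q) (h0 : 0 ≤ θ) (h1 : θ ≤ 1) :
    (1 - θ) * √p + θ * √q ≤ √((1 - θ) * p + θ * q) := by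
  refine Real.le_sqrt_of_sq_le ?_
  have ha := Real.sq_sqrt hp
  have hb := Real.sq_sqrt hq
  have := mul_nonneg (mul_nonneg h0 (sub_nonneg.2 h1)) (sq_nonneg (√p - √q))
  nlinarith

lemma HBa_pair {x t : ℝ} (h1 : 0 ≤ x + t) (h2 : 0 ≤ x - t) :
    √(x + t) + √(x - t) = √(2 * x + 2 * √(x ^ 2 - t ^ 2)) := by
  have ha := Real.sq_sqrt h1
  have hb := Real.sq_sqrt h2
  have h3 : √(x ^ 2 - t ^ 2) = √(x + t) * √(x - t) := by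
    rw [← Real.sqrt_mul h1]; congr 1; ring
  rw [h3, ← Real.sqrt_sq (add_nonneg (Real.sqrt_nonneg (x + t)) (Real.sqrt_nonneg (x - t)))]
  congr 1
  nlinarith

lemma HBa_interp {ρ ρa ρb θ x g : ℝ}
    (hθ0 : 0 ≤ θ) (hθ1 : θ ≤ 1) (h0 : 0 ≤ ρ) (ha0 : 0 ≤ ρa) (ha1 : ρa ≤ 1) (hb0 : 0 ≤ ρb) (hb1 : ρb ≤ 1)
    (hρ : ρ ^ 2 = (1 - θ) * ρa ^ 2 + θ * ρb ^ 2) (hx1 : 0 ≤ x + g) (hx2 : 0 ≤ x - g) :
    (1 - θ) * (√(x + ρa * g) + √(x - ρa * g)) + θ * (√(x + ρb * g) + √(x - ρb * g)) ≤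
      √(x + ρ * g) + √(x - ρ * g) := by
  have key : ∀ r : ℝ, 0 ≤ r → r ≤ 1 → 0 ≤ x + r * g ∧ 0 ≤ x - r * g := fun r hr0 hr1 => by
    constructor <;> nlinarith [mul_nonneg hr0 hx1, mul_nonneg hr0 hx2,
      mul_nonneg (sub_nonneg.2 hr1) (add_nonneg hx1 hx2)]
  have h1 : ρ ≤ 1 := by
    have ha : ρa ^ 2 ≤ 1 := pow_le_one₀ ha0 ha1
    have hb : ρb ^ 2 ≤ 1 := pow_le_one₀ hb0 hb1
    have : ρ ^ 2 ≤ 1 := by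
      nlinarith [mul_le_mul_of_nonneg_left ha (sub_nonneg.2 hθ1), mul_le_mul_of_nonneg_left hb hθ0]
    nlinarith
  have hx : 0 ≤ x := by linarith
  obtain ⟨a1, a2⟩ := key ρa ha0 ha1
  obtain ⟨b1, b2⟩ := key ρb hb0 hb1
  obtain ⟨c1, c2⟩ := key ρ h0 h1
  rw [HBa_pair a1 a2, HBa_pair b1 b2, HBa_pair c1 c2]
  refine (HBa_sqrt_concave (by positivity) (by positivity) hθ0 hθ1).trans (Real.sqrt_le_sqrt ?_)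
  have h2 := HBa_sqrt_concave (p := x ^ 2 - (ρa * g) ^ 2) (q := x ^ 2 - (ρb * g) ^ 2)
    (by nlinarith [mul_nonneg a1 a2]) (by nlinarith [mul_nonneg b1 b2]) hθ0 hθ1
  have h3 : (1 - θ) * (x ^ 2 - (ρa * g) ^ 2) + θ * (x ^ 2 - (ρb * g) ^ 2) = x ^ 2 - (ρ * g) ^ 2 := by
    rw [mul_pow ρ, hρ]; ring
  rw [h3] at h2
  linarith

lemma HBa_psi (α r a0 a1 : ℝ) :
    psiH α ((1 + r) / 2 * a0 + (1 - r) / 2 * a1) + psiH α ((1 - r) / 2 * a0 + (1 + r) / 2 * a1) =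
      uf α * (√((a0 + a1) / 2 + r * ((a0 - a1) / 2)) + √((a0 + a1) / 2 - r * ((a0 - a1) / 2))) +
      uf (1 - α) * (√(1 - (a0 + a1) / 2 + r * ((a0 - a1) / 2)) +
        √(1 - (a0 + a1) / 2 - r * ((a0 - a1) / 2))) := by
  unfold psiH
  rw [show 1 - ((1 + r) / 2 * a0 + (1 - r) / 2 * a1) = 1 - (a0 + a1) / 2 - r * ((a0 - a1) / 2) by ring,
    show 1 - ((1 - r) / 2 * a0 + (1 + r) / 2 * a1) = 1 - (a0 + a1) / 2 + r * ((a0 - a1) / 2) by ring,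
    show (1 + r) / 2 * a0 + (1 - r) / 2 * a1 = (a0 + a1) / 2 + r * ((a0 - a1) / 2) by ring,
    show (1 - r) / 2 * a0 + (1 + r) / 2 * a1 = (a0 + a1) / 2 - r * ((a0 - a1) / 2) by ring]
  ring

/-- `√(x + ρ g) + √(x - ρ g) = √(2x + 2 √(x² - ρ² g²))` is concave in `ρ²` (`√` is concave and monotone);
use it for `(x, g) = ((a0+a1)/2, (a0-a1)/2)` and for `(1 - (a0+a1)/2, (a0-a1)/2)`; `uf α, uf (1-α) ≥ 0`. -/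
theorem PW_interp {ρ ρa ρb θ α δ μ0 μ1 η l0 l1 κ μ0' μ1' η' l0' l1' κ' : ℝ}
    (hθ0 : 0 ≤ θ) (hθ1 : θ ≤ 1) (h0 : 0 ≤ ρ) (ha0 : 0 ≤ ρa) (ha1 : ρa ≤ 1) (hb0 : 0 ≤ ρb) (hb1 : ρb ≤ 1)
    (hρ : ρ ^ 2 = (1 - θ) * ρa ^ 2 + θ * ρb ^ 2) (hα0 : 0 ≤ α) (hα1 : α ≤ 1)
    (ha : PW ρa α δ μ0 μ1 η l0 l1 κ) (hb : PW ρb α δ μ0' μ1' η' l0' l1' κ') :
    PW ρ α δ ((1 - θ) * μ0 + θ * μ0') ((1 - θ) * μ1 + θ * μ1') ((1 - θ) * η + θ * η')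
      ((1 - θ) * l0 + θ * l0') ((1 - θ) * l1 + θ * l1') ((1 - θ) * κ + θ * κ') := by
  intro a0 a1 h00 h01 h10 h11
  have ha' := mul_le_mul_of_nonneg_left (ha a0 a1 h00 h01 h10 h11) (sub_nonneg.2 hθ1)
  have hb' := mul_le_mul_of_nonneg_left (hb a0 a1 h00 h01 h10 h11) hθ0
  rw [HBa_psi] at ha' hb' ⊢
  have e1 := mul_le_mul_of_nonneg_left (HBa_interp (x := (a0 + a1) / 2) (g := (a0 - a1) / 2)
    hθ0 hθ1 h0 ha0 ha1 hb0 hb1 hρ (by linarith) (by linarith)) (HBa_uf_nonneg hα0 hα1)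
  have e2 := mul_le_mul_of_nonneg_left (HBa_interp (x := 1 - (a0 + a1) / 2) (g := (a0 - a1) / 2)
    hθ0 hθ1 h0 ha0 ha1 hb0 hb1 hρ (by linarith) (by linarith))
    (HBa_uf_nonneg (α := 1 - α) (by linarith) (by linarith))
  linarith

theorem Vx_interp {ρ ρa ρb θ α δ μ0 μ1 η T μ0' μ1' η' T' : ℝ}
    (hθ0 : 0 ≤ θ) (hθ1 : θ ≤ 1) (h0 : 0 ≤ ρ) (ha0 : 0 ≤ ρa) (ha1 : ρa ≤ 1) (hb0 : 0 ≤ ρb) (hb1 : ρb ≤ 1)
    (hρ : ρ ^ 2 = (1 - θ) * ρa ^ 2 + θ * ρb ^ 2) (hα0 : 0 ≤ α) (hα1 : α ≤ 1)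
    (ha : Vx ρa α δ μ0 μ1 η T) (hb : Vx ρb α δ μ0' μ1' η' T') :
    Vx ρ α δ ((1 - θ) * μ0 + θ * μ0') ((1 - θ) * μ1 + θ * μ1') ((1 - θ) * η + θ * η') ((1 - θ) * T + θ * T') := by
  obtain ⟨a1, a2, a3, l0, l1, κ, ha, hT⟩ := ha
  obtain ⟨b1, b2, b3, l0', l1', κ', hb, hT'⟩ := hb
  have hθ := sub_nonneg.2 hθ1
  refine ⟨by positivity, by positivity, by positivity, _, _, _,
    PW_interp hθ0 hθ1 h0 ha0 ha1 hb0 hb1 hρ hα0 hα1 ha hb, ?_⟩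
  have e1 := mul_le_mul_of_nonneg_left hT hθ
  have e2 := mul_le_mul_of_nonneg_left hT' hθ0
  linarith

theorem HS_of_Vx {ρ β α δ μ0 μ1 η T : ℝ} (h : Vx ρ α δ μ0 μ1 η T)
    (hs : 2 * RH β α ≤ μ0 * RH β (α + δ) + μ1 * RH β (α - δ) + η * (α - δ) ^ (1 / (2 - ρ ^ 2)) + T) :
    HS ρ β α δ := by
  obtain ⟨a1, a2, a3, l0, l1, κ, ha, hT⟩ := h
  exact ⟨μ0, μ1, η, l0, l1, κ, a1, a2, a3, by linarith, ha⟩

lemma HBa_Bg {a c : ℝ} (ha : 0 ≤ a) (hc : 0 < c) : Bg a c = a / (2 * √c) - √a + √c / 2 := by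
  unfold Bg
  have h1 := Real.sq_sqrt ha
  have h2 : √c ≠ 0 := (Real.sqrt_pos.2 hc).ne'
  rw [sub_sq, h1]
  field_simp

/-- the affine part of `FB` -/
noncomputable def HBa_aff (ρ u w U0 Λ W0 W1 c0 r1 a0 a1 : ℝ) : ℝ :=
  U0 * (a0 / (2 * √c0) + √c0 / 2) + Λ * (a1 + r1 ^ 2)
    - u * (((1 + ρ) / 2 * a0 + (1 - ρ) / 2 * a1) / (2 * √((1 + ρ) / 2 * c0 + (1 - ρ) / 2 * r1 ^ 2))
        + √((1 + ρ) / 2 * c0 + (1 - ρ) / 2 * r1 ^ 2) / 2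
        + ((1 - ρ) / 2 * a0 + (1 + ρ) / 2 * a1) / (2 * √((1 - ρ) / 2 * c0 + (1 + ρ) / 2 * r1 ^ 2))
        + √((1 - ρ) / 2 * c0 + (1 + ρ) / 2 * r1 ^ 2) / 2)
    + W0 * ((1 - a0) / (2 * √(1 - c0)) + √(1 - c0) / 2)
    + W1 * ((1 - a1) / (2 * √(1 - r1 ^ 2)) + √(1 - r1 ^ 2) / 2)
    - w * ((1 - ((1 + ρ) / 2 * a0 + (1 - ρ) / 2 * a1)) /
          (2 * √(1 - ((1 + ρ) / 2 * c0 + (1 - ρ) / 2 * r1 ^ 2)))
        + √(1 - ((1 + ρ) / 2 * c0 + (1 - ρ) / 2 * r1 ^ 2)) / 2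
        + (1 - ((1 - ρ) / 2 * a0 + (1 + ρ) / 2 * a1)) /
          (2 * √(1 - ((1 - ρ) / 2 * c0 + (1 + ρ) / 2 * r1 ^ 2)))
        + √(1 - ((1 - ρ) / 2 * c0 + (1 + ρ) / 2 * r1 ^ 2)) / 2)

lemma HBa_aff_eq (ρ u w U0 Λ W0 W1 c0 r1 : ℝ) : ∃ l0 l1 κ : ℝ, ∀ a0 a1,
    -HBa_aff ρ u w U0 Λ W0 W1 c0 r1 a0 a1 = l0 * a0 + l1 * a1 + κ := by
  refine ⟨HBa_aff ρ u w U0 Λ W0 W1 c0 r1 0 0 - HBa_aff ρ u w U0 Λ W0 W1 c0 r1 1 0,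
    HBa_aff ρ u w U0 Λ W0 W1 c0 r1 0 0 - HBa_aff ρ u w U0 Λ W0 W1 c0 r1 0 1,
    -HBa_aff ρ u w U0 Λ W0 W1 c0 r1 0 0, fun a0 a1 => ?_⟩
  unfold HBa_aff
  generalize √c0 = s1
  generalize √(1 - c0) = s2
  generalize √(1 - r1 ^ 2) = s3
  generalize √((1 + ρ) / 2 * c0 + (1 - ρ) / 2 * r1 ^ 2) = s4
  generalize √((1 - ρ) / 2 * c0 + (1 + ρ) / 2 * r1 ^ 2) = s5
  generalize √(1 - ((1 + ρ) / 2 * c0 + (1 - ρ) / 2 * r1 ^ 2)) = s6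
  generalize √(1 - ((1 - ρ) / 2 * c0 + (1 + ρ) / 2 * r1 ^ 2)) = s7
  ring

lemma HBa_FB_eq {ρ c0 r1 a0 a1 : ℝ} (u w U0 Λ W0 W1 : ℝ) (h0 : 0 ≤ ρ) (h1 : ρ < 1)
    (hc0 : 0 < c0) (hc1 : c0 < 1) (hr0 : 0 ≤ r1) (hr1 : r1 < 1)
    (h00 : 0 ≤ a0) (h01 : a0 ≤ 1) (h10 : 0 ≤ a1) (h11 : a1 ≤ 1) :
    FB ρ u w U0 Λ W0 W1 c0 r1 a0 a1 = HBa_aff ρ u w U0 Λ W0 W1 c0 r1 a0 a1
      + u * (√((1 + ρ) / 2 * a0 + (1 - ρ) / 2 * a1) + √((1 - ρ) / 2 * a0 + (1 + ρ) / 2 * a1))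
      + w * (√(1 - ((1 + ρ) / 2 * a0 + (1 - ρ) / 2 * a1)) +
        √(1 - ((1 - ρ) / 2 * a0 + (1 + ρ) / 2 * a1)))
      - (U0 * √a0 + W0 * √(1 - a0) + 2 * r1 * Λ * √a1 + W1 * √(1 - a1)) := by
  have hp : 0 < (1 + ρ) / 2 := by linarith
  have hq : 0 < (1 - ρ) / 2 := by linarith
  have hr2 : r1 ^ 2 < 1 := by nlinarith
  have hr3 : 0 ≤ r1 ^ 2 := sq_nonneg _
  have e1 := mul_pos hp (sub_pos.2 hc1)
  have e2 := mul_pos hq (sub_pos.2 hc1)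
  have e3 := mul_pos hp (sub_pos.2 hr2)
  have e4 := mul_pos hq (sub_pos.2 hr2)
  have e5 := mul_nonneg hp.le (sub_nonneg.2 h01)
  have e6 := mul_nonneg hq.le (sub_nonneg.2 h01)
  have e7 := mul_nonneg hp.le (sub_nonneg.2 h11)
  have e8 := mul_nonneg hq.le (sub_nonneg.2 h11)
  unfold FB HBa_aff
  rw [HBa_Bg h00 hc0, HBa_Bg (a := (1 + ρ) / 2 * a0 + (1 - ρ) / 2 * a1) (by positivity) (by positivity),
    HBa_Bg (a := (1 - ρ) / 2 * a0 + (1 + ρ) / 2 * a1) (by positivity) (by positivity),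
    HBa_Bg (a := 1 - a0) (by linarith) (by linarith), HBa_Bg (a := 1 - a1) (by linarith) (by linarith),
    HBa_Bg (a := 1 - ((1 + ρ) / 2 * a0 + (1 - ρ) / 2 * a1)) (by linarith) (by linarith),
    HBa_Bg (a := 1 - ((1 - ρ) / 2 * a0 + (1 + ρ) / 2 * a1)) (by linarith) (by linarith),
    sub_sq, Real.sq_sqrt h10]
  ring

/-- `Bg a c = a / (2 √c) - √a + √c / 2` for `a ≥ 0`, `c > 0`, and `Λ (√a1 - r1)² = Λ a1 - 2 r1 Λ √a1 + Λ r1²`; hence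
(right side of `PW`) - (`μ0, μ1, η` terms) - `FB` is an affine function `l0 a0 + l1 a1 + κ` on `[0,1]²`. -/
theorem Vx_of_FB {ρ α δ μ0 μ1 η Λ c0 r1 : ℝ} (h0 : 0 ≤ ρ) (h1 : ρ < 1) (hδ0 : 0 ≤ δ) (hδ : δ ≤ α) (hα : α + δ ≤ 1)
    (hμ0 : 0 ≤ μ0) (hμ1 : 0 ≤ μ1) (hη : 0 ≤ η) (hc0 : 0 < c0) (hc1 : c0 < 1) (hr0 : 0 ≤ r1) (hr1 : r1 < 1)
    (hU : 2 * r1 * Λ = μ1 * uf (α - δ) + η)
    (hF : ∀ a0 a1 : ℝ, 0 ≤ a0 → a0 ≤ 1 → 0 ≤ a1 → a1 ≤ 1 →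
      0 ≤ FB ρ (uf α) (uf (1 - α)) (μ0 * uf (α + δ)) Λ (μ0 * uf (1 - (α + δ))) (μ1 * uf (1 - (α - δ))) c0 r1 a0 a1) :
    Vx ρ α δ μ0 μ1 η
      (psiH α (α + ρ * δ) + psiH α (α - ρ * δ) - μ0 * psiH (α + δ) (α + δ) - μ1 * psiH (α - δ) (α - δ) - η * √(α - δ)
        - FB ρ (uf α) (uf (1 - α)) (μ0 * uf (α + δ)) Λ (μ0 * uf (1 - (α + δ))) (μ1 * uf (1 - (α - δ))) c0 r1
            (α + δ) (α - δ)) := by
  obtain ⟨l0, l1, κ, hl⟩ := HBa_aff_eq ρ (uf α) (uf (1 - α)) (μ0 * uf (α + δ)) Λ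
    (μ0 * uf (1 - (α + δ))) (μ1 * uf (1 - (α - δ))) c0 r1
  have key : ∀ a0 a1 : ℝ, 0 ≤ a0 → a0 ≤ 1 → 0 ≤ a1 → a1 ≤ 1 →
      psiH α ((1 + ρ) / 2 * a0 + (1 - ρ) / 2 * a1) + psiH α ((1 - ρ) / 2 * a0 + (1 + ρ) / 2 * a1)
        - μ0 * psiH (α + δ) a0 - μ1 * psiH (α - δ) a1 - η * √a1
        - FB ρ (uf α) (uf (1 - α)) (μ0 * uf (α + δ)) Λ (μ0 * uf (1 - (α + δ)))
          (μ1 * uf (1 - (α - δ))) c0 r1 a0 a1 = l0 * a0 + l1 * a1 + κ := by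
    intro a0 a1 h00 h01 h10 h11
    rw [← hl, HBa_FB_eq _ _ _ _ _ _ h0 h1 hc0 hc1 hr0 hr1 h00 h01 h10 h11, hU]
    unfold psiH
    ring
  refine ⟨hμ0, hμ1, hη, l0, l1, κ, fun a0 a1 h00 h01 h10 h11 => ?_, ?_⟩
  · have e1 := key a0 a1 h00 h01 h10 h11
    have e2 := hF a0 a1 h00 h01 h10 h11
    linarith
  · have e1 := key (α + δ) (α - δ) (by linarith) hα (by linarith) (by linarith)
    rw [show (1 + ρ) / 2 * (α + δ) + (1 - ρ) / 2 * (α - δ) = α + ρ * δ by ring,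
      show (1 - ρ) / 2 * (α + δ) + (1 + ρ) / 2 * (α - δ) = α - ρ * δ by ring] at e1
    exact e1.le

theorem Vx_mono {ρ α δ μ0 μ1 η T T' : ℝ} (h : Vx ρ α δ μ0 μ1 η T) (hT : T' ≤ T) : Vx ρ α δ μ0 μ1 η T' := by
  obtain ⟨a1, a2, a3, l0, l1, κ, ha, hT'⟩ := h
  exact ⟨a1, a2, a3, l0, l1, κ, ha, hT.trans hT'⟩

theorem Kap_mono {ρ A0 A1 k A0' A1' k' : ℝ} (h : Kap ρ A0 A1 k) (h0 : A0 ≤ A0') (h1 : A1 ≤ A1') (hk : k' ≤ k) :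
    Kap ρ A0' A1' k' := by
  intro y hy0 hy1
  have e := h y hy0 hy1
  have hp : 0 ≤ 1 + y := by linarith
  have hq : 0 ≤ 1 - y := by linarith
  have e1 := div_le_div_of_nonneg_right h0 (mul_nonneg hp (Real.sqrt_nonneg (1 + y)))
  have e2 := div_le_div_of_nonneg_right h1 (mul_nonneg hq (Real.sqrt_nonneg (1 - y)))
  linarith

lemma HBa_KS {ρ A A' k y : ℝ} (h : KS ρ A A' k) (h0 : 0 ≤ y) (h1 : y < 1) :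
    k ≤ A' / ((1 + y) * √(1 + y)) + A / ((1 - y) * √(1 - y))
      - ρ ^ 2 * (1 / ((1 + ρ * y) * √(1 + ρ * y)) + 1 / ((1 - ρ * y) * √(1 - ρ * y))) := by
  have hq : 0 < 1 - y := by linarith
  have hs := Real.sqrt_pos.2 hq
  have h2 := Real.sq_sqrt hq.le
  have e := h √(1 - y) hs.le (Real.sqrt_le_one.2 (by linarith))
  rw [pow_succ √(1 - y) 2, h2, show 2 - (1 - y) = 1 + y by ring, show 1 - (1 - y) = y by ring] at e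
  have hm := mul_pos hq hs
  have e2 := div_nonneg e hm.le
  rw [add_div, mul_div_cancel_left₀ _ hm.ne'] at e2
  linarith

/-- `y ≥ 0`: `s = √(1 - y)` in the first hypothesis, divide by `s³ = (1-y) √(1-y)`; `y ≤ 0`: `s = √(1 + y)` in the second. -/
theorem Kap_of_KS {ρ A0 A1 k : ℝ} (h1 : KS ρ A1 A0 k) (h0 : KS ρ A0 A1 k) : Kap ρ A0 A1 k := by
  intro y hy0 hy1
  rcases le_total 0 y with h | h
  · exact HBa_KS h1 h hy1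
  · have e := HBa_KS (y := -y) h0 (by linarith) (by linarith)
    simp only [mul_neg, sub_neg_eq_add, ← sub_eq_add_neg] at e
    linarith

/-- `RH² = ψ² - u w (1 - β)` with `ψ = psiH a a` -/
theorem RH_eq {β a : ℝ} (h0 : 0 ≤ a) (h1 : a ≤ 1) :
    RH β a = √(psiH a a ^ 2 - uf a * uf (1 - a) * (1 - β)) := by
  unfold RH psiH
  congr 1
  have e1 := Real.sq_sqrt h0
  have e2 := Real.sq_sqrt (sub_nonneg.2 h1)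
  rw [Real.sqrt_mul h0, add_sq, mul_pow (uf a) √a, mul_pow (uf (1 - a)) √(1 - a), e1, e2]
  ring

/-- `a ^ (1 / (2 - ρ²)) = √a · exp (-t)`, `t = (1/(2-ρ²) - 1/2) (-log a) = ρ² (-log a) / (2 (2 - ρ²))`, and
`exp (-t) ≥ 1 - T / (1 + T/2)` for `0 ≤ t ≤ T` (since `exp T ≤ (1 + T/2)/(1 - T/2)` for `T < 2`, trivial for `T ≥ 2`). -/
theorem rpow_ge {ρ a T : ℝ} (hρ : ρ ^ 2 ≤ 1) (h0 : 0 < a) (h1 : a ≤ 1)
    (hT : ρ ^ 2 * (-Real.log a) / (2 * (2 - ρ ^ 2)) ≤ T) :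
    √a - √a * (T / (1 + T / 2)) ≤ a ^ (1 / (2 - ρ ^ 2)) := by
  have h2 : 0 < 2 - ρ ^ 2 := by linarith
  have hl : 0 ≤ -Real.log a := neg_nonneg.2 (Real.log_nonpos h0.le h1)
  set t := ρ ^ 2 * (-Real.log a) / (2 * (2 - ρ ^ 2)) with ht
  have ht0 : 0 ≤ t := by positivity
  have hT0 : 0 ≤ T := ht0.trans hT
  have e1 : a ^ (1 / (2 - ρ ^ 2)) = √a * Real.exp (-t) := by
    rw [Real.sqrt_eq_rpow, Real.rpow_def_of_pos h0, Real.rpow_def_of_pos h0, ← Real.exp_add]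
    congr 1
    rw [ht]; field_simp; ring
  have e2 : 1 - T / (1 + T / 2) ≤ Real.exp (-t) := by
    refine le_trans ?_ (Real.exp_le_exp.2 (neg_le_neg hT))
    have e3 : 1 - T / (1 + T / 2) = (2 - T) / (2 + T) := by field_simp; ring
    rw [e3]
    rcases lt_or_ge T 2 with h | h
    · rw [Real.exp_neg, ← inv_div]
      exact inv_anti₀ (Real.exp_pos T) (Real.exp_le_two_add_div_two_sub hT0 h)
    · exact (div_nonpos_of_nonpos_of_nonneg (by linarith) (by linarith)).trans (Real.exp_pos _).le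
  rw [e1]
  have := mul_le_mul_of_nonneg_left e2 (Real.sqrt_nonneg a)
  linarith

end Crest.Agent.R307
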