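import Crest.Agent.R307.HLDefs

/-! Row 307: framework for the certificate `hstep` (definitions and soft lemmas). -/

set_option autoImplicit false

namespace Crest.Agent.R307

noncomputable section

/-- the pointwise half of a certificate -/
def PW (ρ α δ μ0 μ1 η l0 l1 κ : ℝ) : Prop :=
  ∀ a0 a1 : ℝ, 0 ≤ a0 → a0 ≤ 1 → 0 ≤ a1 → a1 ≤ 1 →
    μ0 * psiH (α + δ) a0 + μ1 * psiH (α - δ) a1 + η * √a1 + l0 * a0 + l1 * a1 + κ ≤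
      psiH α ((1 + ρ) / 2 * a0 + (1 - ρ) / 2 * a1) + psiH α ((1 - ρ) / 2 * a0 + (1 + ρ) / 2 * a1)

/-- the conclusion of `hstep` -/
def HS (ρ β α δ : ℝ) : Prop :=
  ∃ μ0 μ1 η l0 l1 κ : ℝ, 0 ≤ μ0 ∧ 0 ≤ μ1 ∧ 0 ≤ η ∧
    2 * RH β α ≤ μ0 * RH β (α + δ) + μ1 * RH β (α - δ) + η * (α - δ) ^ (1 / (2 - ρ ^ 2)) +
      l0 * (α + δ) + l1 * (α - δ) + κ ∧ PW ρ α δ μ0 μ1 η l0 l1 κ

/-- a vertex certificate: the affine part is worth at least `T` at `(α + δ, α - δ)` -/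
def Vx (ρ α δ μ0 μ1 η T : ℝ) : Prop :=
  0 ≤ μ0 ∧ 0 ≤ μ1 ∧ 0 ≤ η ∧ ∃ l0 l1 κ : ℝ, PW ρ α δ μ0 μ1 η l0 l1 κ ∧ T ≤ l0 * (α + δ) + l1 * (α - δ) + κ

/-- Bregman divergence of `-√·` -/
def Bg (a c : ℝ) : ℝ := (√a - √c) ^ 2 / (2 * √c)

/-- the pointwise defect of the tangent certificate with base point `(c0, r1²)`; `U1 = 2 r1 Λ` -/
def FB (ρ u w U0 Λ W0 W1 c0 r1 a0 a1 : ℝ) : ℝ :=
  U0 * Bg a0 c0 + Λ * (√a1 - r1) ^ 2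
    - u * (Bg ((1 + ρ) / 2 * a0 + (1 - ρ) / 2 * a1) ((1 + ρ) / 2 * c0 + (1 - ρ) / 2 * r1 ^ 2)
         + Bg ((1 - ρ) / 2 * a0 + (1 + ρ) / 2 * a1) ((1 - ρ) / 2 * c0 + (1 + ρ) / 2 * r1 ^ 2))
    + W0 * Bg (1 - a0) (1 - c0) + W1 * Bg (1 - a1) (1 - r1 ^ 2)
    - w * (Bg (1 - ((1 + ρ) / 2 * a0 + (1 - ρ) / 2 * a1)) (1 - ((1 + ρ) / 2 * c0 + (1 - ρ) / 2 * r1 ^ 2))
         + Bg (1 - ((1 - ρ) / 2 * a0 + (1 + ρ) / 2 * a1)) (1 - ((1 - ρ) / 2 * c0 + (1 + ρ) / 2 * r1 ^ 2)))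

/-- derivative of `a ↦ Bg a c` -/
def Bg' (a c : ℝ) : ℝ := 1 / (2 * √c) - 1 / (2 * √a)

/-- derivative of `g ↦ FB (x + g) (x - g)` at the point `(a0, a1)`, `a1 = (r1 φ)²` -/
def FB' (ρ u w U0 Λ W0 W1 c0 r1 a0 a1 φ : ℝ) : ℝ :=
  U0 * Bg' a0 c0 - Λ * (1 - 1 / φ)
    - ρ * u * (Bg' ((1 + ρ) / 2 * a0 + (1 - ρ) / 2 * a1) ((1 + ρ) / 2 * c0 + (1 - ρ) / 2 * r1 ^ 2)
         - Bg' ((1 - ρ) / 2 * a0 + (1 + ρ) / 2 * a1) ((1 - ρ) / 2 * c0 + (1 + ρ) / 2 * r1 ^ 2))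
    - W0 * Bg' (1 - a0) (1 - c0) + W1 * Bg' (1 - a1) (1 - r1 ^ 2)
    + ρ * w * (Bg' (1 - ((1 + ρ) / 2 * a0 + (1 - ρ) / 2 * a1)) (1 - ((1 + ρ) / 2 * c0 + (1 - ρ) / 2 * r1 ^ 2))
         - Bg' (1 - ((1 - ρ) / 2 * a0 + (1 + ρ) / 2 * a1)) (1 - ((1 - ρ) / 2 * c0 + (1 + ρ) / 2 * r1 ^ 2)))

/-- modulus of convexity in the direction `a0 - a1` -/
def Kap (ρ A0 A1 k : ℝ) : Prop :=
  ∀ y : ℝ, -1 < y → y < 1 →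
    k ≤ A0 / ((1 + y) * √(1 + y)) + A1 / ((1 - y) * √(1 - y))
      - ρ ^ 2 * (1 / ((1 + ρ * y) * √(1 + ρ * y)) + 1 / ((1 - ρ * y) * √(1 - ρ * y)))

/-- one half of `Kap`, desingularised by `y = 1 - s²` -/
def KS (ρ A A' k : ℝ) : Prop :=
  ∀ s : ℝ, 0 ≤ s → s ≤ 1 →
    0 ≤ A + s ^ 3 * (A' / ((2 - s ^ 2) * √(2 - s ^ 2))
      - ρ ^ 2 * (1 / ((1 + ρ * (1 - s ^ 2)) * √(1 + ρ * (1 - s ^ 2)))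
        + 1 / ((1 - ρ * (1 - s ^ 2)) * √(1 - ρ * (1 - s ^ 2)))) - k)

end

end Crest.Agent.R307
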