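import Crest.Agent.R307.HLDefs

/-! Row 307: hypercontractivity and reverse hypercontractivity for indicators, by induction on the
dimension (`noise_res`, `avg_split` at `i = 0`; faces have means `α₀, α₁`, `α = (α₀+α₁)/2`; `p,q = (1±ρ)/2`). -/

set_option autoImplicit false
open Crest.CubeNoise

namespace Crest.Agent.R307

theorem HC_mono {f f' : ℝ → ℝ} (hc : Continuous f)
    (hd : ∀ x, 0 < x → x < 1 → HasDerivAt f (f' x) x) (h0 : ∀ x, 0 < x → x < 1 → 0 ≤ f' x)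
    {z : ℝ} (hz0 : 0 ≤ z) (hz1 : z ≤ 1) : f 0 ≤ f z := by
  refine monotoneOn_of_hasDerivWithinAt_nonneg (f' := f') (convex_Icc 0 1) hc.continuousOn
    (fun x hx => ?_) (fun x hx => ?_) ⟨le_rfl, zero_le_one⟩ ⟨hz0, hz1⟩ hz0
  · rw [interior_Icc] at hx ⊢
    exact (hd x hx.1 hx.2).hasDerivWithinAt
  · rw [interior_Icc] at hx
    exact h0 x hx.1 hx.2

theorem HC_dp (r : ℝ) {x : ℝ} (hx : 0 < x) :
    HasDerivAt (fun z : ℝ => (1 + z) ^ r) (r * (1 + x) ^ (r - 1)) x := by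
  have := ((hasDerivAt_id x).const_add 1).rpow_const (p := r) (Or.inl (by simp; linarith))
  simpa using this

theorem HC_dm (r : ℝ) {x : ℝ} (hx : x < 1) :
    HasDerivAt (fun z : ℝ => (1 - z) ^ r) (-(r * (1 - x) ^ (r - 1))) x := by
  have := ((hasDerivAt_id x).const_sub 1).rpow_const (p := r) (Or.inl (by simp; linarith))
  simpa using this

theorem HC_cp {r : ℝ} (hr : 0 ≤ r) : Continuous fun z : ℝ => (1 + z) ^ r :=
  (continuous_const.add continuous_id).rpow_const fun _ => Or.inr hr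

theorem HC_cm {r : ℝ} (hr : 0 ≤ r) : Continuous fun z : ℝ => (1 - z) ^ r :=
  (continuous_const.sub continuous_id).rpow_const fun _ => Or.inr hr

theorem HC_a1 {τ z : ℝ} (h0 : 0 ≤ τ) (h1 : τ ≤ 1) (hz0 : 0 ≤ z) (hz1 : z ≤ 1) :
    2 * τ * z ≤ (1 + z) ^ τ - (1 - z) ^ τ := by
  have := HC_mono (f := fun z => (1 + z) ^ τ - (1 - z) ^ τ - 2 * τ * z)
    (f' := fun x => τ * (1 + x) ^ (τ - 1) - -(τ * (1 - x) ^ (τ - 1)) - 2 * τ * 1)
    (((HC_cp h0).sub (HC_cm h0)).sub (by fun_prop))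
    (fun x hx hx' => ((HC_dp τ hx).sub (HC_dm τ hx')).sub ((hasDerivAt_id x).const_mul _))
    (fun x hx hx' => ?_) hz0 hz1
  · simp only [add_zero, sub_zero, Real.one_rpow, sub_self, mul_zero] at this
    linarith
  · have ha : 0 < (1 + x) ^ (τ - 1) := Real.rpow_pos_of_pos (by linarith) _
    have hb : 0 < (1 - x) ^ (τ - 1) := Real.rpow_pos_of_pos (by linarith) _
    have hab : 1 ≤ (1 + x) ^ (τ - 1) * (1 - x) ^ (τ - 1) := by
      rw [← Real.mul_rpow (by linarith) (by linarith)]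
      exact Real.one_le_rpow_of_pos_of_le_one_of_nonpos (by nlinarith) (by nlinarith) (by linarith)
    have h2 : 2 ≤ (1 + x) ^ (τ - 1) + (1 - x) ^ (τ - 1) := by
      by_contra h
      nlinarith [sq_nonneg ((1 + x) ^ (τ - 1) - (1 - x) ^ (τ - 1))]
    nlinarith

theorem HC_a {r z : ℝ} (h1 : 1 ≤ r) (h2 : r ≤ 2) (hz0 : 0 ≤ z) (hz1 : z ≤ 1) :
    2 + r * (r - 1) * z ^ 2 ≤ (1 + z) ^ r + (1 - z) ^ r := by
  have h0 : 0 ≤ r := by linarith
  have := HC_mono (f := fun z => (1 + z) ^ r + (1 - z) ^ r - r * (r - 1) * (z * z))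
    (f' := fun x => r * (1 + x) ^ (r - 1) + -(r * (1 - x) ^ (r - 1)) - r * (r - 1) * (1 * x + x * 1))
    (((HC_cp h0).add (HC_cm h0)).sub (by fun_prop))
    (fun x hx hx' => ((HC_dp r hx).add (HC_dm r hx')).sub
      (((hasDerivAt_id x).mul (hasDerivAt_id x)).const_mul _))
    (fun x hx hx' => ?_) hz0 hz1
  · simp only [add_zero, sub_zero, Real.one_rpow, mul_zero] at this
    linarith
  · have := mul_le_mul_of_nonneg_left
      (HC_a1 (τ := r - 1) (by linarith) (by linarith) hx.le hx'.le) h0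
    linarith

theorem HC_b {r z : ℝ} (h1 : 1 ≤ r) (h2 : r ≤ 2) (hz0 : 0 ≤ z) (hz1 : z ≤ 1) :
    ((1 + z) ^ r - (1 - z) ^ r) ^ 2 ≤ (2 * r * z) ^ 2 := by
  have h0 : 0 ≤ r := by linarith
  refine pow_le_pow_left₀ (sub_nonneg.2 (Real.rpow_le_rpow (by linarith) (by linarith) h0)) ?_ 2
  have := HC_mono (f := fun z => 2 * r * z - ((1 + z) ^ r - (1 - z) ^ r))
    (f' := fun x => 2 * r * 1 - (r * (1 + x) ^ (r - 1) - -(r * (1 - x) ^ (r - 1))))
    ((by fun_prop : Continuous fun z : ℝ => 2 * r * z).sub ((HC_cp h0).sub (HC_cm h0)))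
    (fun x hx hx' => ((hasDerivAt_id x).const_mul _).sub ((HC_dp r hx).sub (HC_dm r hx')))
    (fun x hx hx' => ?_) hz0 hz1
  · simp only [add_zero, sub_zero, Real.one_rpow, sub_self, mul_zero] at this
    linarith
  · have ha := rpow_one_add_le_one_add_mul_self (s := x) (p := r - 1) (by linarith)
      (by linarith) (by linarith)
    have hb := rpow_one_add_le_one_add_mul_self (s := -x) (p := r - 1) (by linarith)
      (by linarith) (by linarith)
    rw [← sub_eq_add_neg] at hb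
    nlinarith

/-- the key inequality `ρ² D² ≤ 4 (M - 1)` -/
theorem HC_key {r z : ℝ} (h1 : 1 ≤ r) (h2 : r ≤ 2) (hz0 : -1 ≤ z) (hz1 : z ≤ 1) :
    (r - 1) * ((1 + z) ^ r - (1 - z) ^ r) ^ 2 ≤ 4 * r * ((1 + z) ^ r + (1 - z) ^ r - 2) := by
  have key : ∀ z : ℝ, 0 ≤ z → z ≤ 1 →
      (r - 1) * ((1 + z) ^ r - (1 - z) ^ r) ^ 2 ≤ 4 * r * ((1 + z) ^ r + (1 - z) ^ r - 2) := by
    intro z h0 h1'
    have ha := mul_le_mul_of_nonneg_left (HC_a h1 h2 h0 h1') (show 0 ≤ 4 * r by linarith)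
    have hb := mul_le_mul_of_nonneg_left (HC_b h1 h2 h0 h1') (show 0 ≤ r - 1 by linarith)
    nlinarith
  rcases le_total 0 z with h | h
  · exact key z h hz1
  · have := key (-z) (by linarith) (by linarith)
    rw [← sub_eq_add_neg, sub_neg_eq_add] at this
    linarith

/-- normalisation of a pair of non-negative numbers -/
theorem HC_norm {s t : ℝ} (hs : 0 ≤ s) (ht : 0 ≤ t) : ∃ m z : ℝ, 0 ≤ m ∧ -1 ≤ z ∧ z ≤ 1 ∧
    s = m * (1 + z) ∧ t = m * (1 - z) := by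
  rcases (add_nonneg hs ht).eq_or_lt with h | h
  · exact ⟨0, 0, le_rfl, by norm_num, by norm_num, by linarith, by linarith⟩
  · refine ⟨(s + t) / 2, (s - t) / (s + t), by linarith, ?_, ?_, ?_, ?_⟩
    · rw [le_div_iff₀ h]; linarith
    · rw [div_le_iff₀ h]; linarith
    · field_simp; ring
    · field_simp; ring

theorem HC_sinh {τ y : ℝ} (h0 : 0 ≤ τ) (h1 : τ ≤ 1) (hy : 0 ≤ y) :
    Real.sinh (τ * y) ≤ τ * Real.sinh y := by
  have := HC_mono (f := fun z => τ * Real.sinh (y * z) - Real.sinh (τ * y * z))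
    (f' := fun x => τ * (Real.cosh (y * x) * (y * 1)) - Real.cosh (τ * y * x) * (τ * y * 1))
    (by fun_prop)
    (fun x _ _ => ((((hasDerivAt_id x).const_mul y).sinh).const_mul τ).sub
      ((hasDerivAt_id x).const_mul (τ * y)).sinh)
    (fun x hx _ => ?_) zero_le_one le_rfl
  · simp only [mul_zero, Real.sinh_zero, sub_self, mul_one] at this
    linarith
  · have h2 : Real.cosh (τ * y * x) ≤ Real.cosh (y * x) := by
      have : 0 ≤ y * x := by positivity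
      rw [Real.cosh_le_cosh, abs_of_nonneg (by positivity), abs_of_nonneg this]
      nlinarith
    have := mul_le_mul_of_nonneg_right h2 (mul_nonneg h0 hy)
    linarith

theorem HC_c1 {τ u v : ℝ} (h0 : 0 ≤ τ) (h1 : τ ≤ 1) (hv : 0 < v) (huv : v ≤ u) :
    u ^ τ - v ^ τ ≤ τ * (u - v) * (u * v) ^ ((τ + 1) / 2 - 1) := by
  have hu : 0 < u := hv.trans_le huv
  have hy : 0 ≤ (Real.log u - Real.log v) / 2 := by linarith [Real.log_le_log hv huv]
  have h := HC_sinh h0 h1 hy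
  set a := (Real.log u + Real.log v) / 2 with ha
  set y := (Real.log u - Real.log v) / 2 with hy'
  have e1 : u ^ τ = Real.exp (τ * a) * Real.exp (τ * y) := by
    rw [Real.rpow_def_of_pos hu, ← Real.exp_add]; congr 1; rw [ha, hy']; ring
  have e2 : v ^ τ = Real.exp (τ * a) * Real.exp (-(τ * y)) := by
    rw [Real.rpow_def_of_pos hv, ← Real.exp_add]; congr 1; rw [ha, hy']; ring
  have e3 : u * (u * v) ^ ((τ + 1) / 2 - 1) = Real.exp (τ * a) * Real.exp y := by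
    rw [Real.rpow_def_of_pos (mul_pos hu hv), Real.log_mul hu.ne' hv.ne', ← Real.exp_add]
    nth_rewrite 1 [← Real.exp_log hu]
    rw [← Real.exp_add]; congr 1; rw [ha, hy']; ring
  have e4 : v * (u * v) ^ ((τ + 1) / 2 - 1) = Real.exp (τ * a) * Real.exp (-y) := by
    rw [Real.rpow_def_of_pos (mul_pos hu hv), Real.log_mul hu.ne' hv.ne', ← Real.exp_add]
    nth_rewrite 1 [← Real.exp_log hv]
    rw [← Real.exp_add]; congr 1; rw [ha, hy']; ring
  rw [Real.sinh_eq, Real.sinh_eq] at h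
  have h2 := mul_le_mul_of_nonneg_left h (Real.exp_pos (τ * a)).le
  rw [mul_assoc, sub_mul, e1, e2, e3, e4]
  linarith

theorem HC_c {r z : ℝ} (h1 : 1 ≤ r) (h2 : r ≤ 2) (hz0 : -1 ≤ z) (hz1 : z ≤ 1) :
    (1 + z) ^ r + (1 - z) ^ r + 2 * (r - 1) * ((1 + z) * (1 - z)) ^ (r / 2) ≤ 2 * r := by
  have h0 : 0 ≤ r := by linarith
  have key : ∀ z : ℝ, 0 ≤ z → z ≤ 1 →
      (1 + z) ^ r + (1 - z) ^ r + 2 * (r - 1) * ((1 + z) * (1 - z)) ^ (r / 2) ≤ 2 * r := by
    intro z hz0 hz1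
    have := HC_mono
      (f := fun z => -((1 + z) ^ r + (1 - z) ^ r + 2 * (r - 1) * ((1 + z) * (1 - z)) ^ (r / 2)))
      (f' := fun x => -(r * (1 + x) ^ (r - 1) + -(r * (1 - x) ^ (r - 1)) + 2 * (r - 1) *
        ((1 * (1 - x) + (1 + x) * (-1)) * (r / 2) * ((1 + x) * (1 - x)) ^ (r / 2 - 1))))
      (((HC_cp h0).add (HC_cm h0)).add (continuous_const.mul
        ((by fun_prop : Continuous fun z : ℝ => (1 + z) * (1 - z)).rpow_const
          fun _ => Or.inr (by linarith)))).neg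
      (fun x hx hx' => (((HC_dp r hx).add (HC_dm r hx')).add
        (((((hasDerivAt_id x).const_add 1).mul ((hasDerivAt_id x).const_sub 1)).rpow_const
          (Or.inl (mul_pos (show 0 < 1 + x by linarith) (show 0 < 1 - x by linarith)).ne')).const_mul
          _)).neg)
      (fun x hx hx' => ?_) hz0 hz1
    · simp only [add_zero, sub_zero, Real.one_rpow, mul_one] at this
      linarith
    · have h3 := HC_c1 (τ := r - 1) (u := 1 + x) (v := 1 - x) (by linarith) (by linarith)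
        (by linarith) (by linarith)
      rw [sub_add_cancel] at h3
      have := mul_le_mul_of_nonneg_left h3 h0
      linarith
  rcases le_total 0 z with h | h
  · exact key z h hz1
  · have := key (-z) (by linarith) (by linarith)
    rw [← sub_eq_add_neg, sub_neg_eq_add, mul_comm (1 - z)] at this
    linarith

/-- Two-point inequality.  By homogeneity `(s,t) = (1+z,1-z)`, `0 ≤ |z| ≤ 1`.  With `r = 2θ = 2/(2-ρ²) ∈ [1,2]`,
`A = (1+z)^r`, `B = (1-z)^r`, `M = (A+B)/2`, `D = (A-B)/2`: the square of the right side is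
`2M + 2√(M² - ρ² D²)`, so it suffices that `4(M-1) ≥ ρ² D²`, `ρ² = 2(r-1)/r`; and
`M ≥ 1 + r(r-1)z²/2` (`M'' ≥ r(r-1)` by convexity of `x^(r-2)`), `|D| ≤ r|z|` (`D' ≤ r` by concavity of `x^(r-1)`). -/
theorem rev_two {ρ s t : ℝ} (h0 : 0 ≤ ρ) (h1 : ρ ≤ 1) (hs : 0 ≤ s) (ht : 0 ≤ t) :
    2 * ((s + t) / 2) ^ (1 / (2 - ρ ^ 2)) ≤
      √((1 + ρ) / 2 * (s ^ (1 / (2 - ρ ^ 2))) ^ 2 + (1 - ρ) / 2 * (t ^ (1 / (2 - ρ ^ 2))) ^ 2) +
      √((1 - ρ) / 2 * (s ^ (1 / (2 - ρ ^ 2))) ^ 2 + (1 + ρ) / 2 * (t ^ (1 / (2 - ρ ^ 2))) ^ 2) := by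
  obtain ⟨m, z, hm, hz0, hz1, rfl, rfl⟩ := HC_norm hs ht
  have hρ : 0 < 2 - ρ ^ 2 := by nlinarith
  set θ := 1 / (2 - ρ ^ 2) with hθ
  have hθ' : θ * (2 - ρ ^ 2) = 1 := by rw [hθ]; field_simp
  have hθ0 : 0 < θ := by positivity
  have hk := HC_key (r := 2 * θ) (by nlinarith) (by nlinarith) hz0 hz1
  have hp : 0 ≤ 1 + z := by linarith
  have hq : 0 ≤ 1 - z := by linarith
  have e : ∀ y : ℝ, 0 ≤ y → ((m * y) ^ θ) ^ 2 = (m ^ θ) ^ 2 * y ^ (2 * θ) := fun y hy => by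
    rw [Real.mul_rpow hm hy, mul_pow, mul_comm 2 θ, Real.rpow_mul hy, Real.rpow_two]
  rw [e _ hp, e _ hq, show (m * (1 + z) + m * (1 - z)) / 2 = m by ring]
  have hA : 0 ≤ (1 + z) ^ (2 * θ) := Real.rpow_nonneg hp _
  have hB : 0 ≤ (1 - z) ^ (2 * θ) := Real.rpow_nonneg hq _
  have hμ : 0 ≤ m ^ θ := Real.rpow_nonneg hm _
  set A := (1 + z) ^ (2 * θ)
  set B := (1 - z) ^ (2 * θ)
  set μ := m ^ θ
  have hX : 0 ≤ (1 + ρ) / 2 * A + (1 - ρ) / 2 * B := by
    have := sub_nonneg.2 h1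
    positivity
  have hY : 0 ≤ (1 - ρ) / 2 * A + (1 + ρ) / 2 * B := by
    have := sub_nonneg.2 h1
    positivity
  rw [show (1 + ρ) / 2 * (μ ^ 2 * A) + (1 - ρ) / 2 * (μ ^ 2 * B) =
      μ ^ 2 * ((1 + ρ) / 2 * A + (1 - ρ) / 2 * B) by ring,
    show (1 - ρ) / 2 * (μ ^ 2 * A) + (1 + ρ) / 2 * (μ ^ 2 * B) =
      μ ^ 2 * ((1 - ρ) / 2 * A + (1 + ρ) / 2 * B) by ring,
    Real.sqrt_mul (sq_nonneg μ), Real.sqrt_mul (sq_nonneg μ), Real.sqrt_sq hμ, ← mul_add,
    mul_comm 2 μ]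
  refine mul_le_mul_of_nonneg_left ?_ hμ
  have hk' : ρ ^ 2 * (A - B) ^ 2 ≤ 8 * (A + B - 2) := by
    refine le_of_mul_le_mul_left ?_ hθ0
    rw [← mul_assoc, show θ * ρ ^ 2 = 2 * θ - 1 by linarith]
    linarith
  have h3 : 2 - (A + B) / 2 ≤ √((1 + ρ) / 2 * A + (1 - ρ) / 2 * B) *
      √((1 - ρ) / 2 * A + (1 + ρ) / 2 * B) := by
    rw [← Real.sqrt_mul hX]
    exact Real.le_sqrt_of_sq_le (by nlinarith)
  refine le_of_sq_le_sq ?_ (by positivity)
  rw [add_sq, Real.sq_sqrt hX, Real.sq_sqrt hY]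
  linarith

/-- Minkowski: `(x,y) ↦ √(p x² + q y²)` is a norm, so `E √(p a₀ + q a₁) ≥ √(p (E√a₀)² + q (E√a₁)²)`
(Cauchy–Schwarz against the vector of means). -/
theorem mink {n : ℕ} {p q : ℝ} (hp : 0 ≤ p) (hq : 0 ≤ q) {a b : (Fin n → Bool) → ℝ}
    (ha : ∀ x, 0 ≤ a x) (hb : ∀ x, 0 ≤ b x) :
    √(p * cubeAverage (fun x => √(a x)) ^ 2 + q * cubeAverage (fun x => √(b x)) ^ 2) ≤
      cubeAverage (fun x => √(p * a x + q * b x)) := by
  set U := cubeAverage (fun x => √(a x)) with hU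
  set V := cubeAverage (fun x => √(b x)) with hV
  have hN : 0 ≤ p * U ^ 2 + q * V ^ 2 := by positivity
  rcases (Real.sqrt_nonneg (p * U ^ 2 + q * V ^ 2)).eq_or_lt with h | h
  · rw [← h]
    exact avg_nonneg fun x => Real.sqrt_nonneg _
  · refine le_of_mul_le_mul_left ?_ h
    rw [Real.mul_self_sqrt hN, ← avg_mul]
    have e : p * U ^ 2 + q * V ^ 2 =
        cubeAverage (fun x => p * U * √(a x) + q * V * √(b x)) := by
      rw [avg_add, avg_mul, avg_mul, ← hU, ← hV]; ring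
    refine e.trans_le (avg_mono fun x => ?_)
    rw [← Real.sqrt_mul hN]
    refine Real.le_sqrt_of_sq_le ?_
    have h1 := Real.sq_sqrt (ha x)
    have h2 := Real.sq_sqrt (hb x)
    set u := √(a x)
    set v := √(b x)
    rw [← h1, ← h2]
    nlinarith [mul_nonneg (mul_nonneg hp hq) (sq_nonneg (U * v - V * u))]

theorem HC_res {n : ℕ} {g : (Fin (n + 1) → Bool) → ℝ} (hg : Bo g) (b : Bool) : Bo (res 0 b g) :=
  fun _ => hg _

theorem HC_nonneg {n : ℕ} {g : (Fin n → Bool) → ℝ} (hg : Bo g) (x : Fin n → Bool) : 0 ≤ g x := by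
  rcases hg x with h | h <;> rw [h]
  exact zero_le_one

/-- reverse hypercontractivity for indicators -/
theorem revhc {ρ : ℝ} (h0 : 0 ≤ ρ) (h1 : ρ ≤ 1) (n : ℕ) (g : (Fin n → Bool) → ℝ) (hg : Bo g) :
    cubeAverage g ^ (1 / (2 - ρ ^ 2)) ≤ cubeAverage (fun x => √(noise ρ g x)) := by
  have hρ : 0 < 2 - ρ ^ 2 := by nlinarith
  have hρ' : |ρ| ≤ 1 := by rwa [abs_of_nonneg h0]
  have hp : 0 ≤ (1 + ρ) / 2 := by linarith
  have hq : 0 ≤ (1 - ρ) / 2 := by linarith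
  induction n with
  | zero =>
    rw [noise_zero_dim, avg_zero_dim _ default, avg_zero_dim _ default]
    rcases hg default with h | h <;> rw [h]
    · rw [Real.zero_rpow (by positivity), Real.sqrt_zero]
    · rw [Real.one_rpow, Real.sqrt_one]
  | succ n ih =>
    have ht := ih _ (HC_res hg true)
    have hf := ih _ (HC_res hg false)
    have nt := noise_nonneg hρ' (HC_nonneg (HC_res hg true))
    have nf := noise_nonneg hρ' (HC_nonneg (HC_res hg false))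
    have at' := avg_nonneg (HC_nonneg (HC_res hg true))
    have af := avg_nonneg (HC_nonneg (HC_res hg false))
    have h2 := rev_two h0 h1 at' af
    have ht2 := pow_le_pow_left₀ (Real.rpow_nonneg at' _) ht 2
    have hf2 := pow_le_pow_left₀ (Real.rpow_nonneg af _) hf 2
    have m1 := (Real.sqrt_le_sqrt (add_le_add (mul_le_mul_of_nonneg_left ht2 hp)
      (mul_le_mul_of_nonneg_left hf2 hq))).trans (mink hp hq nt nf)
    have m2 := (Real.sqrt_le_sqrt (add_le_add (mul_le_mul_of_nonneg_left ht2 hq)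
      (mul_le_mul_of_nonneg_left hf2 hp))).trans (mink hq hp nt nf)
    have e1 : res 0 true (fun x => √(noise ρ g x)) = fun x => √((1 + ρ) / 2 *
        noise ρ (res 0 true g) x + (1 - ρ) / 2 * noise ρ (res 0 false g) x) :=
      funext fun x => congrArg Real.sqrt (noise_res ρ 0 true g x)
    have e2 : res 0 false (fun x => √(noise ρ g x)) = fun x => √((1 - ρ) / 2 *
        noise ρ (res 0 true g) x + (1 + ρ) / 2 * noise ρ (res 0 false g) x) :=
      funext fun x => congrArg Real.sqrt ((noise_res ρ 0 false g x).trans (add_comm _ _))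
    rw [avg_split 0 g, avg_split 0 (fun x => √(noise ρ g x)), e1, e2]
    linarith

/-- Two-point inequality.  With `(s,t) = (1+z,1-z)`, `r = 2/(1+ρ²) ∈ [1,2]`, `M = ((1+z)^r + (1-z)^r)/2` the left
side is `M/r + (r-1)/r (1-z²)^(r/2)`; it equals `1` at `z = 0` and its derivative is `≤ 0` for `0 ≤ z < 1`:
`(1+z)^τ - (1-z)^τ ≤ 2τ z (1-z²)^((τ-1)/2)`, `τ = r - 1`, which is `sinh (τ y) ≤ τ sinh y`, `y = artanh z`. -/
theorem hc_two {ρ s t : ℝ} (h0 : 0 ≤ ρ) (h1 : ρ ≤ 1) (hs : 0 ≤ s) (ht : 0 ≤ t) :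
    (1 + ρ ^ 2) / 4 * (s ^ (2 / (1 + ρ ^ 2)) + t ^ (2 / (1 + ρ ^ 2))) +
      (1 - ρ ^ 2) / 2 * (s ^ (1 / (1 + ρ ^ 2)) * t ^ (1 / (1 + ρ ^ 2))) ≤
      ((s + t) / 2) ^ (2 / (1 + ρ ^ 2)) := by
  obtain ⟨m, z, hm, hz0, hz1, rfl, rfl⟩ := HC_norm hs ht
  have hρ : 0 < 1 + ρ ^ 2 := by positivity
  rw [show 1 / (1 + ρ ^ 2) = 2 / (1 + ρ ^ 2) / 2 by ring]
  set r := 2 / (1 + ρ ^ 2) with hr
  have hr' : r * (1 + ρ ^ 2) = 2 := by rw [hr]; field_simp
  have hr0 : 0 < r := by positivity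
  have hk := HC_c (r := r) (by nlinarith) (by nlinarith) hz0 hz1
  have hp : 0 ≤ 1 + z := by linarith
  have hq : 0 ≤ 1 - z := by linarith
  have e : (m * (1 + z)) ^ (r / 2) * (m * (1 - z)) ^ (r / 2) =
      m ^ r * ((1 + z) * (1 - z)) ^ (r / 2) := by
    rw [Real.mul_rpow hm hp, Real.mul_rpow hm hq, Real.mul_rpow hp hq, mul_mul_mul_comm,
      ← Real.rpow_add' hm (by linarith), add_halves]
  rw [e, Real.mul_rpow hm hp, Real.mul_rpow hm hq,
    show (m * (1 + z) + m * (1 - z)) / 2 = m by ring]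
  have hμ : 0 ≤ m ^ r := Real.rpow_nonneg hm _
  set A := (1 + z) ^ r
  set B := (1 - z) ^ r
  set C := ((1 + z) * (1 - z)) ^ (r / 2)
  set μ := m ^ r
  have h3 : (1 + ρ ^ 2) / 4 * (A + B) + (1 - ρ ^ 2) / 2 * C ≤ 1 := by
    refine le_of_mul_le_mul_left ?_ hr0
    have e1 : r * ((1 + ρ ^ 2) / 4 * (A + B) + (1 - ρ ^ 2) / 2 * C) =
        (A + B) / 2 + (r - 1) * C := by
      linear_combination ((A + B) / 4 - C / 2) * hr'
    rw [e1]
    linarith
  have := mul_le_mul_of_nonneg_left h3 hμ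
  linarith

/-- hypercontractivity for indicators: `½[(p a₀+q a₁)² + (q a₀+p a₁)²] = (1+ρ²)/4 (a₀²+a₁²) + (1-ρ²)/2 a₀a₁`
and Cauchy–Schwarz `avg_mul_sq_le` -/
theorem hc2 {ρ : ℝ} (h0 : 0 ≤ ρ) (h1 : ρ ≤ 1) (n : ℕ) (g : (Fin n → Bool) → ℝ) (hg : Bo g) :
    cubeAverage (fun x => noise ρ g x ^ 2) ≤ cubeAverage g ^ (2 / (1 + ρ ^ 2)) := by
  have hρ : 0 < 1 + ρ ^ 2 := by positivity
  have hq : 0 ≤ (1 - ρ ^ 2) / 2 := by nlinarith
  induction n with
  | zero =>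
    rw [noise_zero_dim, avg_zero_dim _ default, avg_zero_dim _ default]
    rcases hg default with h | h <;> rw [h]
    · rw [Real.zero_rpow (by positivity), zero_pow two_ne_zero]
    · rw [Real.one_rpow, one_pow]
  | succ n ih =>
    have ht := ih _ (HC_res hg true)
    have hf := ih _ (HC_res hg false)
    have at' := avg_nonneg (HC_nonneg (HC_res hg true))
    have af := avg_nonneg (HC_nonneg (HC_res hg false))
    have h2 := hc_two h0 h1 at' af
    have e : ∀ y : ℝ, 0 ≤ y → y ^ (2 / (1 + ρ ^ 2)) = (y ^ (1 / (1 + ρ ^ 2))) ^ 2 := fun y hy => by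
      rw [← Real.rpow_two (y ^ (1 / (1 + ρ ^ 2))), ← Real.rpow_mul hy]; congr 1; ring
    have h3 : cubeAverage (fun x => noise ρ (res 0 true g) x * noise ρ (res 0 false g) x) ≤
        cubeAverage (res 0 true g) ^ (1 / (1 + ρ ^ 2)) *
          cubeAverage (res 0 false g) ^ (1 / (1 + ρ ^ 2)) := by
      refine le_of_sq_le_sq ((avg_mul_sq_le _ _).trans ?_)
        (mul_nonneg (Real.rpow_nonneg at' _) (Real.rpow_nonneg af _))
      rw [mul_pow, ← e _ at', ← e _ af]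
      exact mul_le_mul ht hf (avg_nonneg fun x => sq_nonneg _) (Real.rpow_nonneg at' _)
    have e1 : cubeAverage (fun x => noise ρ g x ^ 2) =
        (1 + ρ ^ 2) / 4 * (cubeAverage (fun x => noise ρ (res 0 true g) x ^ 2) +
          cubeAverage (fun x => noise ρ (res 0 false g) x ^ 2)) + (1 - ρ ^ 2) / 2 *
          cubeAverage (fun x => noise ρ (res 0 true g) x * noise ρ (res 0 false g) x) := by
      rw [avg_split 0, ← avg_add, ← avg_add, ← avg_div, ← avg_mul, ← avg_mul, ← avg_add]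
      congr 1
      funext x
      show (res 0 true (noise ρ g) x ^ 2 + res 0 false (noise ρ g) x ^ 2) / 2 = _
      rw [noise_res, noise_res, Bool.not_true, Bool.not_false]
      ring
    rw [e1, avg_split 0 g]
    exact (add_le_add (mul_le_mul_of_nonneg_left (add_le_add ht hf) (by positivity))
      (mul_le_mul_of_nonneg_left h3 hq)).trans h2

end Crest.Agent.R307
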