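import Crest.Agent.R307.AA

set_option autoImplicit false
set_option maxRecDepth 100000
set_option linter.unusedVariables false

namespace Crest.Agent.R307.HG
open Crest.Agent.R307.AA

noncomputable section

theorem k0 : |2 ^ 48 * (1 : ℝ) - (((4722366764344621924352 : ℕ) : ℝ) - 2 ^ 72)| ≤ ((0 : ℕ) : ℝ) := by norm_num [abs_le]
theorem k1 : |2 ^ 48 * (9 / 10 : ℝ) - (((4722366736197124253286 : ℕ) : ℝ) - 2 ^ 72)| ≤ ((1 : ℕ) : ℝ) := by norm_num [abs_le]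
theorem k2 : |2 ^ 48 * (19 / 10 : ℝ) - (((4722367017672100963942 : ℕ) : ℝ) - 2 ^ 72)| ≤ ((1 : ℕ) : ℝ) := by norm_num [abs_le]
theorem k3 : |2 ^ 48 * (1 / 10 : ℝ) - (((4722366511017142884761 : ℕ) : ℝ) - 2 ^ 72)| ≤ ((1 : ℕ) : ℝ) := by norm_num [abs_le]
theorem k4 : |2 ^ 48 * (9 / 5 : ℝ) - (((4722366989524603292876 : ℕ) : ℝ) - 2 ^ 72)| ≤ ((1 : ℕ) : ℝ) := by norm_num [abs_le]
theorem k5 : |2 ^ 48 * (-9 / 10 : ℝ) - (((4722366229542166174105 : ℕ) : ℝ) - 2 ^ 72)| ≤ ((1 : ℕ) : ℝ) := by norm_num [abs_le]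
theorem k6 : |2 ^ 48 * (1 / 4 : ℝ) - (((4722366553238389391360 : ℕ) : ℝ) - 2 ^ 72)| ≤ ((0 : ℕ) : ℝ) := by norm_num [abs_le]
theorem k7 : (1 / 2 : ℝ) = val 4722366623607133569024 := by norm_num [val]
theorem k8 : (2 : ℝ) = val 4722367045819598635008 := by norm_num [val]
theorem k9 : |2 ^ 48 * (2 : ℝ) - (((4722367045819598635008 : ℕ) : ℝ) - 2 ^ 72)| ≤ ((0 : ℕ) : ℝ) := by norm_num [abs_le]
theorem k10 : |2 ^ 48 * (-1 : ℝ) - (((4722366201394668503040 : ℕ) : ℝ) - 2 ^ 72)| ≤ ((0 : ℕ) : ℝ) := by norm_num [abs_le]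
theorem k11 : (-1 / 2 : ℝ) = val 4722366342132156858368 := by norm_num [val]
def a_B9 (gs ps : ℕ) (z389 z359 z372 z375 z338 z356 : AF) : Bool :=
  normK z356 fun z398 =>
  mulK z359 z398 fun z376 =>
  addK z338 z376 fun z377 =>
  normK z377 fun z399 =>
  mulK z375 z399 fun z378 =>
  addK z372 z378 fun z379 =>
  subK z389 z379 fun z390 =>
  posK z390 <|
  true

def a_R9 (gs ps : ℕ) (z389 z359 z372 z375 z338 z356 : ℝ) : Prop :=
  letR z356 fun z398 =>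
  letR (z359 * z398) fun z376 =>
  letR (z338 + z376) fun z377 =>
  letR z377 fun z399 =>
  letR (z375 * z399) fun z378 =>
  letR (z372 + z378) fun z379 =>
  letR (z389 - z379) fun z390 =>
  posR z390 <|
  True

theorem a_S9 {ε : Fin 4 → ℝ} (gs : ℕ) (hε : ∀ i, |ε i| ≤ 1) (ps : ℕ) (z389 z359 z372 z375 z338 z356 : AF) (t389 t359 t372 t375 t338 t356 : ℝ)
    (g389 : Rel ε z389 t389) (g359 : Rel ε z359 t359) (g372 : Rel ε z372 t372) (g375 : Rel ε z375 t375) (g338 : Rel ε z338 t338) (g356 : Rel ε z356 t356) :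
    a_B9 gs ps z389 z359 z372 z375 z338 z356 = true → a_R9 gs ps t389 t359 t372 t375 t338 t356 := by
  delta a_B9 a_R9
  exact normS g356 fun z398 t398 g398 =>
  mulS hε g359 g398 fun z376 t376 g376 =>
  addS g338 g376 fun z377 t377 g377 =>
  normS g377 fun z399 t399 g399 =>
  mulS hε g375 g399 fun z378 t378 g378 =>
  addS g372 g378 fun z379 t379 g379 =>
  subS g389 g379 fun z390 t390 g390 =>
  posS hε g390 <|
  fun _ => trivial

def a_B8 (gs ps : ℕ) (z394 z389 z37 z395 z83 z359 z89 z268 z281 z282 z372 z375 z338 z249 z250 z255 z258 z352 : AF) : Bool :=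
  rsubK z268 4722366764344621924352 0 fun z269 =>
  sqrtK z269 fun z270 =>
  addcK z270 4722366764344621924352 0 fun z271 =>
  smulK z271 4722366623607133569024 fun z272 =>
  sqrtK z272 fun z273 =>
  invK z270 fun z275 =>
  mulK z273 z275 fun z284 =>
  addK z281 z273 fun z295 =>
  sqrK z295 fun z298 =>
  mulK z83 z282 fun z294 =>
  invK z273 fun z274 =>
  addK z294 z274 fun z296 =>
  smulK z296 4722366623607133569024 fun z297 =>
  sqrK z297 fun z299 =>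
  mulK z268 z299 fun z300 =>
  subK z298 z300 fun z301 =>
  invK z301 fun z302 =>
  mulK z295 z302 fun z303 =>
  mulK z284 z303 fun z307 =>
  mulK z274 z275 fun z283 =>
  smulK z283 4722366342132156858368 fun z285 =>
  mulK z297 z302 fun z304 =>
  mulK z268 z304 fun z305 =>
  mulK z285 z305 fun z308 =>
  subK z307 z308 fun z309 =>
  mulK z309 z303 fun z313 =>
  mulK z285 z303 fun z310 =>
  mulK z284 z304 fun z311 =>
  subK z310 z311 fun z312 =>
  mulK z312 z305 fun z314 =>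
  subK z313 z314 fun z315 =>
  mulK z37 z315 fun z353 =>
  subK z352 z353 fun z354 =>
  mulK z394 z83 fun z318 =>
  mulK z89 z318 fun z321 =>
  mulK z395 z321 fun z322 =>
  mulK z258 z249 fun z265 =>
  mulK z255 z250 fun z266 =>
  subK z265 z266 fun z267 =>
  mulK z322 z267 fun z355 =>
  addK z354 z355 fun z356 =>
  a_B9 gs ps z389 z359 z372 z375 z338 z356

def a_R8 (gs ps : ℕ) (z394 z389 z37 z395 z83 z359 z89 z268 z281 z282 z372 z375 z338 z249 z250 z255 z258 z352 : ℝ) : Prop :=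
  letR ((1 : ℝ) - z268) fun z269 =>
  letR (√z269) fun z270 =>
  letR (z270 + (1 : ℝ)) fun z271 =>
  letR ((1 / 2 : ℝ) * z271) fun z272 =>
  letR (√z272) fun z273 =>
  invR z270 fun z275 =>
  letR (z273 * z275) fun z284 =>
  letR (z281 + z273) fun z295 =>
  letR (z295 ^ 2) fun z298 =>
  letR (z83 * z282) fun z294 =>
  invR z273 fun z274 =>
  letR (z294 + z274) fun z296 =>
  letR ((1 / 2 : ℝ) * z296) fun z297 =>
  letR (z297 ^ 2) fun z299 =>
  letR (z268 * z299) fun z300 =>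
  letR (z298 - z300) fun z301 =>
  invR z301 fun z302 =>
  letR (z295 * z302) fun z303 =>
  letR (z284 * z303) fun z307 =>
  letR (z274 * z275) fun z283 =>
  letR ((-1 / 2 : ℝ) * z283) fun z285 =>
  letR (z297 * z302) fun z304 =>
  letR (z268 * z304) fun z305 =>
  letR (z285 * z305) fun z308 =>
  letR (z307 - z308) fun z309 =>
  letR (z309 * z303) fun z313 =>
  letR (z285 * z303) fun z310 =>
  letR (z284 * z304) fun z311 =>
  letR (z310 - z311) fun z312 =>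
  letR (z312 * z305) fun z314 =>
  letR (z313 - z314) fun z315 =>
  letR (z37 * z315) fun z353 =>
  letR (z352 - z353) fun z354 =>
  letR (z394 * z83) fun z318 =>
  letR (z89 * z318) fun z321 =>
  letR (z395 * z321) fun z322 =>
  letR (z258 * z249) fun z265 =>
  letR (z255 * z250) fun z266 =>
  letR (z265 - z266) fun z267 =>
  letR (z322 * z267) fun z355 =>
  letR (z354 + z355) fun z356 =>
  a_R9 gs ps z389 z359 z372 z375 z338 z356

theorem a_S8 {ε : Fin 4 → ℝ} (gs : ℕ) (hε : ∀ i, |ε i| ≤ 1) (ps : ℕ) (z394 z389 z37 z395 z83 z359 z89 z268 z281 z282 z372 z375 z338 z249 z250 z255 z258 z352 : AF) (t394 t389 t37 t395 t83 t359 t89 t268 t281 t282 t372 t375 t338 t249 t250 t255 t258 t352 : ℝ)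
    (g394 : Rel ε z394 t394) (g389 : Rel ε z389 t389) (g37 : Rel ε z37 t37) (g395 : Rel ε z395 t395) (g83 : Rel ε z83 t83) (g359 : Rel ε z359 t359) (g89 : Rel ε z89 t89) (g268 : Rel ε z268 t268) (g281 : Rel ε z281 t281) (g282 : Rel ε z282 t282) (g372 : Rel ε z372 t372) (g375 : Rel ε z375 t375) (g338 : Rel ε z338 t338) (g249 : Rel ε z249 t249) (g250 : Rel ε z250 t250) (g255 : Rel ε z255 t255) (g258 : Rel ε z258 t258) (g352 : Rel ε z352 t352) :
    a_B8 gs ps z394 z389 z37 z395 z83 z359 z89 z268 z281 z282 z372 z375 z338 z249 z250 z255 z258 z352 = true → a_R8 gs ps t394 t389 t37 t395 t83 t359 t89 t268 t281 t282 t372 t375 t338 t249 t250 t255 t258 t352 := by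
  delta a_B8 a_R8
  exact rsubS g268 k0 fun z269 t269 g269 =>
  sqrtS hε g269 fun z270 t270 g270 =>
  addcS g270 k0 fun z271 t271 g271 =>
  smulS hε g271 k7 fun z272 t272 g272 =>
  sqrtS hε g272 fun z273 t273 g273 =>
  invS hε g270 fun z275 t275 g275 =>
  mulS hε g273 g275 fun z284 t284 g284 =>
  addS g281 g273 fun z295 t295 g295 =>
  sqrS hε g295 fun z298 t298 g298 =>
  mulS hε g83 g282 fun z294 t294 g294 =>
  invS hε g273 fun z274 t274 g274 =>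
  addS g294 g274 fun z296 t296 g296 =>
  smulS hε g296 k7 fun z297 t297 g297 =>
  sqrS hε g297 fun z299 t299 g299 =>
  mulS hε g268 g299 fun z300 t300 g300 =>
  subS g298 g300 fun z301 t301 g301 =>
  invS hε g301 fun z302 t302 g302 =>
  mulS hε g295 g302 fun z303 t303 g303 =>
  mulS hε g284 g303 fun z307 t307 g307 =>
  mulS hε g274 g275 fun z283 t283 g283 =>
  smulS hε g283 k11 fun z285 t285 g285 =>
  mulS hε g297 g302 fun z304 t304 g304 =>
  mulS hε g268 g304 fun z305 t305 g305 =>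
  mulS hε g285 g305 fun z308 t308 g308 =>
  subS g307 g308 fun z309 t309 g309 =>
  mulS hε g309 g303 fun z313 t313 g313 =>
  mulS hε g285 g303 fun z310 t310 g310 =>
  mulS hε g284 g304 fun z311 t311 g311 =>
  subS g310 g311 fun z312 t312 g312 =>
  mulS hε g312 g305 fun z314 t314 g314 =>
  subS g313 g314 fun z315 t315 g315 =>
  mulS hε g37 g315 fun z353 t353 g353 =>
  subS g352 g353 fun z354 t354 g354 =>
  mulS hε g394 g83 fun z318 t318 g318 =>
  mulS hε g89 g318 fun z321 t321 g321 =>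
  mulS hε g395 g321 fun z322 t322 g322 =>
  mulS hε g258 g249 fun z265 t265 g265 =>
  mulS hε g255 g250 fun z266 t266 g266 =>
  subS g265 g266 fun z267 t267 g267 =>
  mulS hε g322 g267 fun z355 t355 g355 =>
  addS g354 g355 fun z356 t356 g356 =>
  a_S9 gs hε ps z389 z359 z372 z375 z338 z356 t389 t359 t372 t375 t338 t356 g389 g359 g372 g375 g338 g356

def a_B7 (gs ps : ℕ) (z82 z394 z389 z37 z395 z83 z120 z359 z89 z91 z268 z281 z282 z372 z375 z338 : AF) : Bool :=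
  rsubK z91 4722366764344621924352 0 fun z215 =>
  sqrtK z215 fun z216 =>
  addcK z216 4722366764344621924352 0 fun z217 =>
  smulK z217 4722366623607133569024 fun z218 =>
  sqrtK z218 fun z219 =>
  invK z216 fun z221 =>
  mulK z219 z221 fun z230 =>
  mulK z91 z120 fun z222 =>
  rsubK z222 4722366764344621924352 0 fun z223 =>
  sqrtK z223 fun z224 =>
  addcK z224 4722366764344621924352 0 fun z225 =>
  smulK z225 4722366623607133569024 fun z226 =>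
  sqrtK z226 fun z227 =>
  addK z227 z219 fun z241 =>
  sqrK z241 fun z244 =>
  invK z227 fun z228 =>
  mulK z83 z228 fun z240 =>
  invK z219 fun z220 =>
  addK z240 z220 fun z242 =>
  smulK z242 4722366623607133569024 fun z243 =>
  sqrK z243 fun z245 =>
  mulK z91 z245 fun z246 =>
  subK z244 z246 fun z247 =>
  invK z247 fun z248 =>
  mulK z241 z248 fun z249 =>
  mulK z230 z249 fun z253 =>
  mulK z220 z221 fun z229 =>
  smulK z229 4722366342132156858368 fun z231 =>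
  mulK z243 z248 fun z250 =>
  mulK z91 z250 fun z251 =>
  mulK z231 z251 fun z254 =>
  subK z253 z254 fun z255 =>
  mulK z255 z249 fun z259 =>
  mulK z231 z249 fun z256 =>
  mulK z230 z250 fun z257 =>
  subK z256 z257 fun z258 =>
  mulK z258 z251 fun z260 =>
  subK z259 z260 fun z261 =>
  mulK z82 z261 fun z352 =>
  a_B8 gs ps z394 z389 z37 z395 z83 z359 z89 z268 z281 z282 z372 z375 z338 z249 z250 z255 z258 z352

def a_R7 (gs ps : ℕ) (z82 z394 z389 z37 z395 z83 z120 z359 z89 z91 z268 z281 z282 z372 z375 z338 : ℝ) : Prop :=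
  letR ((1 : ℝ) - z91) fun z215 =>
  letR (√z215) fun z216 =>
  letR (z216 + (1 : ℝ)) fun z217 =>
  letR ((1 / 2 : ℝ) * z217) fun z218 =>
  letR (√z218) fun z219 =>
  invR z216 fun z221 =>
  letR (z219 * z221) fun z230 =>
  letR (z91 * z120) fun z222 =>
  letR ((1 : ℝ) - z222) fun z223 =>
  letR (√z223) fun z224 =>
  letR (z224 + (1 : ℝ)) fun z225 =>
  letR ((1 / 2 : ℝ) * z225) fun z226 =>
  letR (√z226) fun z227 =>
  letR (z227 + z219) fun z241 =>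
  letR (z241 ^ 2) fun z244 =>
  invR z227 fun z228 =>
  letR (z83 * z228) fun z240 =>
  invR z219 fun z220 =>
  letR (z240 + z220) fun z242 =>
  letR ((1 / 2 : ℝ) * z242) fun z243 =>
  letR (z243 ^ 2) fun z245 =>
  letR (z91 * z245) fun z246 =>
  letR (z244 - z246) fun z247 =>
  invR z247 fun z248 =>
  letR (z241 * z248) fun z249 =>
  letR (z230 * z249) fun z253 =>
  letR (z220 * z221) fun z229 =>
  letR ((-1 / 2 : ℝ) * z229) fun z231 =>
  letR (z243 * z248) fun z250 =>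
  letR (z91 * z250) fun z251 =>
  letR (z231 * z251) fun z254 =>
  letR (z253 - z254) fun z255 =>
  letR (z255 * z249) fun z259 =>
  letR (z231 * z249) fun z256 =>
  letR (z230 * z250) fun z257 =>
  letR (z256 - z257) fun z258 =>
  letR (z258 * z251) fun z260 =>
  letR (z259 - z260) fun z261 =>
  letR (z82 * z261) fun z352 =>
  a_R8 gs ps z394 z389 z37 z395 z83 z359 z89 z268 z281 z282 z372 z375 z338 z249 z250 z255 z258 z352

theorem a_S7 {ε : Fin 4 → ℝ} (gs : ℕ) (hε : ∀ i, |ε i| ≤ 1) (ps : ℕ) (z82 z394 z389 z37 z395 z83 z120 z359 z89 z91 z268 z281 z282 z372 z375 z338 : AF) (t82 t394 t389 t37 t395 t83 t120 t359 t89 t91 t268 t281 t282 t372 t375 t338 : ℝ)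
    (g82 : Rel ε z82 t82) (g394 : Rel ε z394 t394) (g389 : Rel ε z389 t389) (g37 : Rel ε z37 t37) (g395 : Rel ε z395 t395) (g83 : Rel ε z83 t83) (g120 : Rel ε z120 t120) (g359 : Rel ε z359 t359) (g89 : Rel ε z89 t89) (g91 : Rel ε z91 t91) (g268 : Rel ε z268 t268) (g281 : Rel ε z281 t281) (g282 : Rel ε z282 t282) (g372 : Rel ε z372 t372) (g375 : Rel ε z375 t375) (g338 : Rel ε z338 t338) :
    a_B7 gs ps z82 z394 z389 z37 z395 z83 z120 z359 z89 z91 z268 z281 z282 z372 z375 z338 = true → a_R7 gs ps t82 t394 t389 t37 t395 t83 t120 t359 t89 t91 t268 t281 t282 t372 t375 t338 := by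
  delta a_B7 a_R7
  exact rsubS g91 k0 fun z215 t215 g215 =>
  sqrtS hε g215 fun z216 t216 g216 =>
  addcS g216 k0 fun z217 t217 g217 =>
  smulS hε g217 k7 fun z218 t218 g218 =>
  sqrtS hε g218 fun z219 t219 g219 =>
  invS hε g216 fun z221 t221 g221 =>
  mulS hε g219 g221 fun z230 t230 g230 =>
  mulS hε g91 g120 fun z222 t222 g222 =>
  rsubS g222 k0 fun z223 t223 g223 =>
  sqrtS hε g223 fun z224 t224 g224 =>
  addcS g224 k0 fun z225 t225 g225 =>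
  smulS hε g225 k7 fun z226 t226 g226 =>
  sqrtS hε g226 fun z227 t227 g227 =>
  addS g227 g219 fun z241 t241 g241 =>
  sqrS hε g241 fun z244 t244 g244 =>
  invS hε g227 fun z228 t228 g228 =>
  mulS hε g83 g228 fun z240 t240 g240 =>
  invS hε g219 fun z220 t220 g220 =>
  addS g240 g220 fun z242 t242 g242 =>
  smulS hε g242 k7 fun z243 t243 g243 =>
  sqrS hε g243 fun z245 t245 g245 =>
  mulS hε g91 g245 fun z246 t246 g246 =>
  subS g244 g246 fun z247 t247 g247 =>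
  invS hε g247 fun z248 t248 g248 =>
  mulS hε g241 g248 fun z249 t249 g249 =>
  mulS hε g230 g249 fun z253 t253 g253 =>
  mulS hε g220 g221 fun z229 t229 g229 =>
  smulS hε g229 k11 fun z231 t231 g231 =>
  mulS hε g243 g248 fun z250 t250 g250 =>
  mulS hε g91 g250 fun z251 t251 g251 =>
  mulS hε g231 g251 fun z254 t254 g254 =>
  subS g253 g254 fun z255 t255 g255 =>
  mulS hε g255 g249 fun z259 t259 g259 =>
  mulS hε g231 g249 fun z256 t256 g256 =>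
  mulS hε g230 g250 fun z257 t257 g257 =>
  subS g256 g257 fun z258 t258 g258 =>
  mulS hε g258 g251 fun z260 t260 g260 =>
  subS g259 g260 fun z261 t261 g261 =>
  mulS hε g82 g261 fun z352 t352 g352 =>
  a_S8 gs hε ps z394 z389 z37 z395 z83 z359 z89 z268 z281 z282 z372 z375 z338 z249 z250 z255 z258 z352 t394 t389 t37 t395 t83 t359 t89 t268 t281 t282 t372 t375 t338 t249 t250 t255 t258 t352 g394 g389 g37 g395 g83 g359 g89 g268 g281 g282 g372 g375 g338 g249 g250 g255 g258 g352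

def a_B6 (gs ps : ℕ) (z392 z82 z394 z389 z37 z395 z167 z83 z120 z180 z181 z359 z89 z91 z268 z281 z282 z372 z375 z397 z149 z154 z157 z334 : AF) : Bool :=
  rsubK z167 4722366764344621924352 0 fun z168 =>
  sqrtK z168 fun z169 =>
  addcK z169 4722366764344621924352 0 fun z170 =>
  smulK z170 4722366623607133569024 fun z171 =>
  sqrtK z171 fun z172 =>
  invK z169 fun z174 =>
  mulK z172 z174 fun z183 =>
  addK z180 z172 fun z194 =>
  sqrK z194 fun z197 =>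
  mulK z83 z181 fun z193 =>
  invK z172 fun z173 =>
  addK z193 z173 fun z195 =>
  smulK z195 4722366623607133569024 fun z196 =>
  sqrK z196 fun z198 =>
  mulK z167 z198 fun z199 =>
  subK z197 z199 fun z200 =>
  invK z200 fun z201 =>
  mulK z194 z201 fun z202 =>
  mulK z183 z202 fun z206 =>
  mulK z173 z174 fun z182 =>
  smulK z182 4722366342132156858368 fun z184 =>
  mulK z196 z201 fun z203 =>
  mulK z167 z203 fun z204 =>
  mulK z184 z204 fun z207 =>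
  subK z206 z207 fun z208 =>
  mulK z208 z202 fun z212 =>
  mulK z184 z202 fun z209 =>
  mulK z183 z203 fun z210 =>
  subK z209 z210 fun z211 =>
  mulK z211 z204 fun z213 =>
  subK z212 z213 fun z214 =>
  mulK z37 z214 fun z335 =>
  subK z334 z335 fun z336 =>
  mulK z392 z83 fun z316 =>
  mulK z395 z316 fun z320 =>
  mulK z157 z397 fun z164 =>
  mulK z154 z149 fun z165 =>
  subK z164 z165 fun z166 =>
  mulK z320 z166 fun z337 =>
  addK z336 z337 fun z338 =>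
  a_B7 gs ps z82 z394 z389 z37 z395 z83 z120 z359 z89 z91 z268 z281 z282 z372 z375 z338

def a_R6 (gs ps : ℕ) (z392 z82 z394 z389 z37 z395 z167 z83 z120 z180 z181 z359 z89 z91 z268 z281 z282 z372 z375 z397 z149 z154 z157 z334 : ℝ) : Prop :=
  letR ((1 : ℝ) - z167) fun z168 =>
  letR (√z168) fun z169 =>
  letR (z169 + (1 : ℝ)) fun z170 =>
  letR ((1 / 2 : ℝ) * z170) fun z171 =>
  letR (√z171) fun z172 =>
  invR z169 fun z174 =>
  letR (z172 * z174) fun z183 =>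
  letR (z180 + z172) fun z194 =>
  letR (z194 ^ 2) fun z197 =>
  letR (z83 * z181) fun z193 =>
  invR z172 fun z173 =>
  letR (z193 + z173) fun z195 =>
  letR ((1 / 2 : ℝ) * z195) fun z196 =>
  letR (z196 ^ 2) fun z198 =>
  letR (z167 * z198) fun z199 =>
  letR (z197 - z199) fun z200 =>
  invR z200 fun z201 =>
  letR (z194 * z201) fun z202 =>
  letR (z183 * z202) fun z206 =>
  letR (z173 * z174) fun z182 =>
  letR ((-1 / 2 : ℝ) * z182) fun z184 =>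
  letR (z196 * z201) fun z203 =>
  letR (z167 * z203) fun z204 =>
  letR (z184 * z204) fun z207 =>
  letR (z206 - z207) fun z208 =>
  letR (z208 * z202) fun z212 =>
  letR (z184 * z202) fun z209 =>
  letR (z183 * z203) fun z210 =>
  letR (z209 - z210) fun z211 =>
  letR (z211 * z204) fun z213 =>
  letR (z212 - z213) fun z214 =>
  letR (z37 * z214) fun z335 =>
  letR (z334 - z335) fun z336 =>
  letR (z392 * z83) fun z316 =>
  letR (z395 * z316) fun z320 =>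
  letR (z157 * z397) fun z164 =>
  letR (z154 * z149) fun z165 =>
  letR (z164 - z165) fun z166 =>
  letR (z320 * z166) fun z337 =>
  letR (z336 + z337) fun z338 =>
  a_R7 gs ps z82 z394 z389 z37 z395 z83 z120 z359 z89 z91 z268 z281 z282 z372 z375 z338

theorem a_S6 {ε : Fin 4 → ℝ} (gs : ℕ) (hε : ∀ i, |ε i| ≤ 1) (ps : ℕ) (z392 z82 z394 z389 z37 z395 z167 z83 z120 z180 z181 z359 z89 z91 z268 z281 z282 z372 z375 z397 z149 z154 z157 z334 : AF) (t392 t82 t394 t389 t37 t395 t167 t83 t120 t180 t181 t359 t89 t91 t268 t281 t282 t372 t375 t397 t149 t154 t157 t334 : ℝ)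
    (g392 : Rel ε z392 t392) (g82 : Rel ε z82 t82) (g394 : Rel ε z394 t394) (g389 : Rel ε z389 t389) (g37 : Rel ε z37 t37) (g395 : Rel ε z395 t395) (g167 : Rel ε z167 t167) (g83 : Rel ε z83 t83) (g120 : Rel ε z120 t120) (g180 : Rel ε z180 t180) (g181 : Rel ε z181 t181) (g359 : Rel ε z359 t359) (g89 : Rel ε z89 t89) (g91 : Rel ε z91 t91) (g268 : Rel ε z268 t268) (g281 : Rel ε z281 t281) (g282 : Rel ε z282 t282) (g372 : Rel ε z372 t372) (g375 : Rel ε z375 t375) (g397 : Rel ε z397 t397) (g149 : Rel ε z149 t149) (g154 : Rel ε z154 t154) (g157 : Rel ε z157 t157) (g334 : Rel ε z334 t334) :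
    a_B6 gs ps z392 z82 z394 z389 z37 z395 z167 z83 z120 z180 z181 z359 z89 z91 z268 z281 z282 z372 z375 z397 z149 z154 z157 z334 = true → a_R6 gs ps t392 t82 t394 t389 t37 t395 t167 t83 t120 t180 t181 t359 t89 t91 t268 t281 t282 t372 t375 t397 t149 t154 t157 t334 := by
  delta a_B6 a_R6
  exact rsubS g167 k0 fun z168 t168 g168 =>
  sqrtS hε g168 fun z169 t169 g169 =>
  addcS g169 k0 fun z170 t170 g170 =>
  smulS hε g170 k7 fun z171 t171 g171 =>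
  sqrtS hε g171 fun z172 t172 g172 =>
  invS hε g169 fun z174 t174 g174 =>
  mulS hε g172 g174 fun z183 t183 g183 =>
  addS g180 g172 fun z194 t194 g194 =>
  sqrS hε g194 fun z197 t197 g197 =>
  mulS hε g83 g181 fun z193 t193 g193 =>
  invS hε g172 fun z173 t173 g173 =>
  addS g193 g173 fun z195 t195 g195 =>
  smulS hε g195 k7 fun z196 t196 g196 =>
  sqrS hε g196 fun z198 t198 g198 =>
  mulS hε g167 g198 fun z199 t199 g199 =>
  subS g197 g199 fun z200 t200 g200 =>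
  invS hε g200 fun z201 t201 g201 =>
  mulS hε g194 g201 fun z202 t202 g202 =>
  mulS hε g183 g202 fun z206 t206 g206 =>
  mulS hε g173 g174 fun z182 t182 g182 =>
  smulS hε g182 k11 fun z184 t184 g184 =>
  mulS hε g196 g201 fun z203 t203 g203 =>
  mulS hε g167 g203 fun z204 t204 g204 =>
  mulS hε g184 g204 fun z207 t207 g207 =>
  subS g206 g207 fun z208 t208 g208 =>
  mulS hε g208 g202 fun z212 t212 g212 =>
  mulS hε g184 g202 fun z209 t209 g209 =>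
  mulS hε g183 g203 fun z210 t210 g210 =>
  subS g209 g210 fun z211 t211 g211 =>
  mulS hε g211 g204 fun z213 t213 g213 =>
  subS g212 g213 fun z214 t214 g214 =>
  mulS hε g37 g214 fun z335 t335 g335 =>
  subS g334 g335 fun z336 t336 g336 =>
  mulS hε g392 g83 fun z316 t316 g316 =>
  mulS hε g395 g316 fun z320 t320 g320 =>
  mulS hε g157 g397 fun z164 t164 g164 =>
  mulS hε g154 g149 fun z165 t165 g165 =>
  subS g164 g165 fun z166 t166 g166 =>
  mulS hε g320 g166 fun z337 t337 g337 =>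
  addS g336 g337 fun z338 t338 g338 =>
  a_S7 gs hε ps z82 z394 z389 z37 z395 z83 z120 z359 z89 z91 z268 z281 z282 z372 z375 z338 t82 t394 t389 t37 t395 t83 t120 t359 t89 t91 t268 t281 t282 t372 t375 t338 g82 g394 g389 g37 g395 g83 g120 g359 g89 g91 g268 g281 g282 g372 g375 g338

def a_B5 (gs ps : ℕ) (z71 z392 z82 z394 z389 z37 z395 z167 z83 z120 z180 z181 z359 z89 z91 z268 z281 z282 z372 z375 : AF) : Bool :=
  rsubK z395 4722366764344621924352 0 fun z113 =>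
  sqrtK z113 fun z114 =>
  addcK z114 4722366764344621924352 0 fun z115 =>
  smulK z115 4722366623607133569024 fun z116 =>
  sqrtK z116 fun z117 =>
  invK z114 fun z119 =>
  mulK z117 z119 fun z129 =>
  mulK z395 z120 fun z121 =>
  rsubK z121 4722366764344621924352 0 fun z122 =>
  sqrtK z122 fun z123 =>
  addcK z123 4722366764344621924352 0 fun z124 =>
  smulK z124 4722366623607133569024 fun z125 =>
  sqrtK z125 fun z126 =>
  addK z126 z117 fun z140 =>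
  sqrK z140 fun z143 =>
  invK z126 fun z127 =>
  mulK z83 z127 fun z139 =>
  invK z117 fun z118 =>
  addK z139 z118 fun z141 =>
  smulK z141 4722366623607133569024 fun z142 =>
  sqrK z142 fun z144 =>
  mulK z395 z144 fun z145 =>
  subK z143 z145 fun z146 =>
  invK z146 fun z147 =>
  mulK z140 z147 fun z148 =>
  normK z148 fun z397 =>
  mulK z129 z397 fun z152 =>
  mulK z118 z119 fun z128 =>
  smulK z128 4722366342132156858368 fun z130 =>
  mulK z142 z147 fun z149 =>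
  mulK z395 z149 fun z150 =>
  mulK z130 z150 fun z153 =>
  subK z152 z153 fun z154 =>
  mulK z154 z397 fun z158 =>
  mulK z130 z397 fun z155 =>
  mulK z129 z149 fun z156 =>
  subK z155 z156 fun z157 =>
  mulK z157 z150 fun z159 =>
  subK z158 z159 fun z160 =>
  mulK z71 z160 fun z334 =>
  a_B6 gs ps z392 z82 z394 z389 z37 z395 z167 z83 z120 z180 z181 z359 z89 z91 z268 z281 z282 z372 z375 z397 z149 z154 z157 z334

def a_R5 (gs ps : ℕ) (z71 z392 z82 z394 z389 z37 z395 z167 z83 z120 z180 z181 z359 z89 z91 z268 z281 z282 z372 z375 : ℝ) : Prop :=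
  letR ((1 : ℝ) - z395) fun z113 =>
  letR (√z113) fun z114 =>
  letR (z114 + (1 : ℝ)) fun z115 =>
  letR ((1 / 2 : ℝ) * z115) fun z116 =>
  letR (√z116) fun z117 =>
  invR z114 fun z119 =>
  letR (z117 * z119) fun z129 =>
  letR (z395 * z120) fun z121 =>
  letR ((1 : ℝ) - z121) fun z122 =>
  letR (√z122) fun z123 =>
  letR (z123 + (1 : ℝ)) fun z124 =>
  letR ((1 / 2 : ℝ) * z124) fun z125 =>
  letR (√z125) fun z126 =>
  letR (z126 + z117) fun z140 =>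
  letR (z140 ^ 2) fun z143 =>
  invR z126 fun z127 =>
  letR (z83 * z127) fun z139 =>
  invR z117 fun z118 =>
  letR (z139 + z118) fun z141 =>
  letR ((1 / 2 : ℝ) * z141) fun z142 =>
  letR (z142 ^ 2) fun z144 =>
  letR (z395 * z144) fun z145 =>
  letR (z143 - z145) fun z146 =>
  invR z146 fun z147 =>
  letR (z140 * z147) fun z148 =>
  letR z148 fun z397 =>
  letR (z129 * z397) fun z152 =>
  letR (z118 * z119) fun z128 =>
  letR ((-1 / 2 : ℝ) * z128) fun z130 =>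
  letR (z142 * z147) fun z149 =>
  letR (z395 * z149) fun z150 =>
  letR (z130 * z150) fun z153 =>
  letR (z152 - z153) fun z154 =>
  letR (z154 * z397) fun z158 =>
  letR (z130 * z397) fun z155 =>
  letR (z129 * z149) fun z156 =>
  letR (z155 - z156) fun z157 =>
  letR (z157 * z150) fun z159 =>
  letR (z158 - z159) fun z160 =>
  letR (z71 * z160) fun z334 =>
  a_R6 gs ps z392 z82 z394 z389 z37 z395 z167 z83 z120 z180 z181 z359 z89 z91 z268 z281 z282 z372 z375 z397 z149 z154 z157 z334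

theorem a_S5 {ε : Fin 4 → ℝ} (gs : ℕ) (hε : ∀ i, |ε i| ≤ 1) (ps : ℕ) (z71 z392 z82 z394 z389 z37 z395 z167 z83 z120 z180 z181 z359 z89 z91 z268 z281 z282 z372 z375 : AF) (t71 t392 t82 t394 t389 t37 t395 t167 t83 t120 t180 t181 t359 t89 t91 t268 t281 t282 t372 t375 : ℝ)
    (g71 : Rel ε z71 t71) (g392 : Rel ε z392 t392) (g82 : Rel ε z82 t82) (g394 : Rel ε z394 t394) (g389 : Rel ε z389 t389) (g37 : Rel ε z37 t37) (g395 : Rel ε z395 t395) (g167 : Rel ε z167 t167) (g83 : Rel ε z83 t83) (g120 : Rel ε z120 t120) (g180 : Rel ε z180 t180) (g181 : Rel ε z181 t181) (g359 : Rel ε z359 t359) (g89 : Rel ε z89 t89) (g91 : Rel ε z91 t91) (g268 : Rel ε z268 t268) (g281 : Rel ε z281 t281) (g282 : Rel ε z282 t282) (g372 : Rel ε z372 t372) (g375 : Rel ε z375 t375) :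
    a_B5 gs ps z71 z392 z82 z394 z389 z37 z395 z167 z83 z120 z180 z181 z359 z89 z91 z268 z281 z282 z372 z375 = true → a_R5 gs ps t71 t392 t82 t394 t389 t37 t395 t167 t83 t120 t180 t181 t359 t89 t91 t268 t281 t282 t372 t375 := by
  delta a_B5 a_R5
  exact rsubS g395 k0 fun z113 t113 g113 =>
  sqrtS hε g113 fun z114 t114 g114 =>
  addcS g114 k0 fun z115 t115 g115 =>
  smulS hε g115 k7 fun z116 t116 g116 =>
  sqrtS hε g116 fun z117 t117 g117 =>
  invS hε g114 fun z119 t119 g119 =>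
  mulS hε g117 g119 fun z129 t129 g129 =>
  mulS hε g395 g120 fun z121 t121 g121 =>
  rsubS g121 k0 fun z122 t122 g122 =>
  sqrtS hε g122 fun z123 t123 g123 =>
  addcS g123 k0 fun z124 t124 g124 =>
  smulS hε g124 k7 fun z125 t125 g125 =>
  sqrtS hε g125 fun z126 t126 g126 =>
  addS g126 g117 fun z140 t140 g140 =>
  sqrS hε g140 fun z143 t143 g143 =>
  invS hε g126 fun z127 t127 g127 =>
  mulS hε g83 g127 fun z139 t139 g139 =>
  invS hε g117 fun z118 t118 g118 =>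
  addS g139 g118 fun z141 t141 g141 =>
  smulS hε g141 k7 fun z142 t142 g142 =>
  sqrS hε g142 fun z144 t144 g144 =>
  mulS hε g395 g144 fun z145 t145 g145 =>
  subS g143 g145 fun z146 t146 g146 =>
  invS hε g146 fun z147 t147 g147 =>
  mulS hε g140 g147 fun z148 t148 g148 =>
  normS g148 fun z397 t397 g397 =>
  mulS hε g129 g397 fun z152 t152 g152 =>
  mulS hε g118 g119 fun z128 t128 g128 =>
  smulS hε g128 k11 fun z130 t130 g130 =>
  mulS hε g142 g147 fun z149 t149 g149 =>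
  mulS hε g395 g149 fun z150 t150 g150 =>
  mulS hε g130 g150 fun z153 t153 g153 =>
  subS g152 g153 fun z154 t154 g154 =>
  mulS hε g154 g397 fun z158 t158 g158 =>
  mulS hε g130 g397 fun z155 t155 g155 =>
  mulS hε g129 g149 fun z156 t156 g156 =>
  subS g155 g156 fun z157 t157 g157 =>
  mulS hε g157 g150 fun z159 t159 g159 =>
  subS g158 g159 fun z160 t160 g160 =>
  mulS hε g71 g160 fun z334 t334 g334 =>
  a_S6 gs hε ps z392 z82 z394 z389 z37 z395 z167 z83 z120 z180 z181 z359 z89 z91 z268 z281 z282 z372 z375 z397 z149 z154 z157 z334 t392 t82 t394 t389 t37 t395 t167 t83 t120 t180 t181 t359 t89 t91 t268 t281 t282 t372 t375 t397 t149 t154 t157 t334 g392 g82 g394 g389 g37 g395 g167 g83 g120 g180 g181 g359 g89 g91 g268 g281 g282 g372 g375 g397 g149 g154 g157 g334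

def a_B4 (gs ps : ℕ) (z38 z71 z392 z82 z394 z389 z37 z84 z395 z167 z83 z120 z180 z181 z364 z93 : AF) : Bool :=
  rsubK z38 4722366764344621924352 0 fun z86 =>
  invK z86 fun z87 =>
  mulK z93 z87 fun z357 =>
  sqrtK z86 fun z88 =>
  invK z88 fun z358 =>
  mulK z357 z358 fun z359 =>
  mulK z38 z87 fun z89 =>
  sqrK z89 fun z90 =>
  mulK z90 z395 fun z91 =>
  mulK z37 z91 fun z268 =>
  mulK z268 z120 fun z276 =>
  rsubK z276 4722366764344621924352 0 fun z277 =>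
  sqrtK z277 fun z278 =>
  addcK z278 4722366764344621924352 0 fun z279 =>
  smulK z279 4722366623607133569024 fun z280 =>
  sqrtK z280 fun z281 =>
  invK z281 fun z282 =>
  sqrK z282 fun z365 =>
  smulK z281 4722367045819598635008 fun z366 =>
  addcK z366 4722367045819598635008 0 fun z367 =>
  invK z367 fun z368 =>
  mulK z365 z368 fun z369 =>
  mulK z359 z369 fun z370 =>
  addK z364 z370 fun z371 =>
  mulK z37 z371 fun z372 =>
  addcK z83 4722366201394668503040 0 fun z373 =>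
  sqrK z373 fun z374 =>
  mulK z374 z84 fun z375 =>
  a_B5 gs ps z71 z392 z82 z394 z389 z37 z395 z167 z83 z120 z180 z181 z359 z89 z91 z268 z281 z282 z372 z375

def a_R4 (gs ps : ℕ) (z38 z71 z392 z82 z394 z389 z37 z84 z395 z167 z83 z120 z180 z181 z364 z93 : ℝ) : Prop :=
  letR ((1 : ℝ) - z38) fun z86 =>
  invR z86 fun z87 =>
  letR (z93 * z87) fun z357 =>
  letR (√z86) fun z88 =>
  invR z88 fun z358 =>
  letR (z357 * z358) fun z359 =>
  letR (z38 * z87) fun z89 =>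
  letR (z89 ^ 2) fun z90 =>
  letR (z90 * z395) fun z91 =>
  letR (z37 * z91) fun z268 =>
  letR (z268 * z120) fun z276 =>
  letR ((1 : ℝ) - z276) fun z277 =>
  letR (√z277) fun z278 =>
  letR (z278 + (1 : ℝ)) fun z279 =>
  letR ((1 / 2 : ℝ) * z279) fun z280 =>
  letR (√z280) fun z281 =>
  invR z281 fun z282 =>
  letR (z282 ^ 2) fun z365 =>
  letR ((2 : ℝ) * z281) fun z366 =>
  letR (z366 + (2 : ℝ)) fun z367 =>
  invR z367 fun z368 =>
  letR (z365 * z368) fun z369 =>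
  letR (z359 * z369) fun z370 =>
  letR (z364 + z370) fun z371 =>
  letR (z37 * z371) fun z372 =>
  letR (z83 + (-1 : ℝ)) fun z373 =>
  letR (z373 ^ 2) fun z374 =>
  letR (z374 * z84) fun z375 =>
  a_R5 gs ps z71 z392 z82 z394 z389 z37 z395 z167 z83 z120 z180 z181 z359 z89 z91 z268 z281 z282 z372 z375

theorem a_S4 {ε : Fin 4 → ℝ} (gs : ℕ) (hε : ∀ i, |ε i| ≤ 1) (ps : ℕ) (z38 z71 z392 z82 z394 z389 z37 z84 z395 z167 z83 z120 z180 z181 z364 z93 : AF) (t38 t71 t392 t82 t394 t389 t37 t84 t395 t167 t83 t120 t180 t181 t364 t93 : ℝ)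
    (g38 : Rel ε z38 t38) (g71 : Rel ε z71 t71) (g392 : Rel ε z392 t392) (g82 : Rel ε z82 t82) (g394 : Rel ε z394 t394) (g389 : Rel ε z389 t389) (g37 : Rel ε z37 t37) (g84 : Rel ε z84 t84) (g395 : Rel ε z395 t395) (g167 : Rel ε z167 t167) (g83 : Rel ε z83 t83) (g120 : Rel ε z120 t120) (g180 : Rel ε z180 t180) (g181 : Rel ε z181 t181) (g364 : Rel ε z364 t364) (g93 : Rel ε z93 t93) :
    a_B4 gs ps z38 z71 z392 z82 z394 z389 z37 z84 z395 z167 z83 z120 z180 z181 z364 z93 = true → a_R4 gs ps t38 t71 t392 t82 t394 t389 t37 t84 t395 t167 t83 t120 t180 t181 t364 t93 := by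
  delta a_B4 a_R4
  exact rsubS g38 k0 fun z86 t86 g86 =>
  invS hε g86 fun z87 t87 g87 =>
  mulS hε g93 g87 fun z357 t357 g357 =>
  sqrtS hε g86 fun z88 t88 g88 =>
  invS hε g88 fun z358 t358 g358 =>
  mulS hε g357 g358 fun z359 t359 g359 =>
  mulS hε g38 g87 fun z89 t89 g89 =>
  sqrS hε g89 fun z90 t90 g90 =>
  mulS hε g90 g395 fun z91 t91 g91 =>
  mulS hε g37 g91 fun z268 t268 g268 =>
  mulS hε g268 g120 fun z276 t276 g276 =>
  rsubS g276 k0 fun z277 t277 g277 =>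
  sqrtS hε g277 fun z278 t278 g278 =>
  addcS g278 k0 fun z279 t279 g279 =>
  smulS hε g279 k7 fun z280 t280 g280 =>
  sqrtS hε g280 fun z281 t281 g281 =>
  invS hε g281 fun z282 t282 g282 =>
  sqrS hε g282 fun z365 t365 g365 =>
  smulS hε g281 k8 fun z366 t366 g366 =>
  addcS g366 k9 fun z367 t367 g367 =>
  invS hε g367 fun z368 t368 g368 =>
  mulS hε g365 g368 fun z369 t369 g369 =>
  mulS hε g359 g369 fun z370 t370 g370 =>
  addS g364 g370 fun z371 t371 g371 =>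
  mulS hε g37 g371 fun z372 t372 g372 =>
  addcS g83 k10 fun z373 t373 g373 =>
  sqrS hε g373 fun z374 t374 g374 =>
  mulS hε g374 g84 fun z375 t375 g375 =>
  a_S5 gs hε ps z71 z392 z82 z394 z389 z37 z395 z167 z83 z120 z180 z181 z359 z89 z91 z268 z281 z282 z372 z375 t71 t392 t82 t394 t389 t37 t395 t167 t83 t120 t180 t181 t359 t89 t91 t268 t281 t282 t372 t375 g71 g392 g82 g394 g389 g37 g395 g167 g83 g120 g180 g181 g359 g89 g91 g268 g281 g282 g372 g375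

def a_B3 (gs ps : ℕ) (x0 x1 z38 z45 z44 z71 z392 z82 z394 z389 : AF) : Bool :=
  parK gs 0 fun z2 =>
  sqrK z2 fun z37 =>
  parK gs 7 fun z9 =>
  parK gs 8 fun z10 =>
  mulK z10 x0 fun z32 =>
  addK z9 z32 fun z33 =>
  parK gs 9 fun z11 =>
  mulK z11 x1 fun z34 =>
  addK z33 z34 fun z35 =>
  rsubK z35 4722366764344621924352 0 fun z36 =>
  invK z36 fun z84 =>
  mulK x1 z84 fun z85 =>
  normK z85 fun z395 =>
  mulK z37 z395 fun z167 =>
  sqrtK z36 fun z83 =>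
  sqrK z83 fun z120 =>
  mulK z167 z120 fun z175 =>
  rsubK z175 4722366764344621924352 0 fun z176 =>
  sqrtK z176 fun z177 =>
  addcK z177 4722366764344621924352 0 fun z178 =>
  smulK z178 4722366623607133569024 fun z179 =>
  sqrtK z179 fun z180 =>
  invK z180 fun z181 =>
  sqrK z181 fun z360 =>
  smulK z180 4722367045819598635008 fun z361 =>
  addcK z361 4722367045819598635008 0 fun z362 =>
  invK z362 fun z363 =>
  mulK z360 z363 fun z364 =>
  mulK z44 x0 fun z92 =>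
  mulK z92 z45 fun z93 =>
  a_B4 gs ps z38 z71 z392 z82 z394 z389 z37 z84 z395 z167 z83 z120 z180 z181 z364 z93

def a_R3 (gs ps : ℕ) (sg W z38 z45 z44 z71 z392 z82 z394 z389 : ℝ) : Prop :=
  letR (parV gs 0) fun z2 =>
  letR (z2 ^ 2) fun z37 =>
  letR (parV gs 7) fun z9 =>
  letR (parV gs 8) fun z10 =>
  letR (z10 * sg) fun z32 =>
  letR (z9 + z32) fun z33 =>
  letR (parV gs 9) fun z11 =>
  letR (z11 * W) fun z34 =>
  letR (z33 + z34) fun z35 =>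
  letR ((1 : ℝ) - z35) fun z36 =>
  invR z36 fun z84 =>
  letR (W * z84) fun z85 =>
  letR z85 fun z395 =>
  letR (z37 * z395) fun z167 =>
  letR (√z36) fun z83 =>
  letR (z83 ^ 2) fun z120 =>
  letR (z167 * z120) fun z175 =>
  letR ((1 : ℝ) - z175) fun z176 =>
  letR (√z176) fun z177 =>
  letR (z177 + (1 : ℝ)) fun z178 =>
  letR ((1 / 2 : ℝ) * z178) fun z179 =>
  letR (√z179) fun z180 =>
  invR z180 fun z181 =>
  letR (z181 ^ 2) fun z360 =>
  letR ((2 : ℝ) * z180) fun z361 =>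
  letR (z361 + (2 : ℝ)) fun z362 =>
  invR z362 fun z363 =>
  letR (z360 * z363) fun z364 =>
  letR (z44 * sg) fun z92 =>
  letR (z92 * z45) fun z93 =>
  a_R4 gs ps z38 z71 z392 z82 z394 z389 z37 z84 z395 z167 z83 z120 z180 z181 z364 z93

theorem a_S3 {ε : Fin 4 → ℝ} (gs : ℕ) (hε : ∀ i, |ε i| ≤ 1) (ps : ℕ) (x0 x1 z38 z45 z44 z71 z392 z82 z394 z389 : AF) (sg W t38 t45 t44 t71 t392 t82 t394 t389 : ℝ)
    (h0 : Rel ε x0 sg) (h1 : Rel ε x1 W) (g38 : Rel ε z38 t38) (g45 : Rel ε z45 t45) (g44 : Rel ε z44 t44) (g71 : Rel ε z71 t71) (g392 : Rel ε z392 t392) (g82 : Rel ε z82 t82) (g394 : Rel ε z394 t394) (g389 : Rel ε z389 t389) :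
    a_B3 gs ps x0 x1 z38 z45 z44 z71 z392 z82 z394 z389 = true → a_R3 gs ps sg W t38 t45 t44 t71 t392 t82 t394 t389 := by
  delta a_B3 a_R3
  exact parS fun z2 t2 g2 =>
  sqrS hε g2 fun z37 t37 g37 =>
  parS fun z9 t9 g9 =>
  parS fun z10 t10 g10 =>
  mulS hε g10 h0 fun z32 t32 g32 =>
  addS g9 g32 fun z33 t33 g33 =>
  parS fun z11 t11 g11 =>
  mulS hε g11 h1 fun z34 t34 g34 =>
  addS g33 g34 fun z35 t35 g35 =>
  rsubS g35 k0 fun z36 t36 g36 =>
  invS hε g36 fun z84 t84 g84 =>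
  mulS hε h1 g84 fun z85 t85 g85 =>
  normS g85 fun z395 t395 g395 =>
  mulS hε g37 g395 fun z167 t167 g167 =>
  sqrtS hε g36 fun z83 t83 g83 =>
  sqrS hε g83 fun z120 t120 g120 =>
  mulS hε g167 g120 fun z175 t175 g175 =>
  rsubS g175 k0 fun z176 t176 g176 =>
  sqrtS hε g176 fun z177 t177 g177 =>
  addcS g177 k0 fun z178 t178 g178 =>
  smulS hε g178 k7 fun z179 t179 g179 =>
  sqrtS hε g179 fun z180 t180 g180 =>
  invS hε g180 fun z181 t181 g181 =>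
  sqrS hε g181 fun z360 t360 g360 =>
  smulS hε g180 k8 fun z361 t361 g361 =>
  addcS g361 k9 fun z362 t362 g362 =>
  invS hε g362 fun z363 t363 g363 =>
  mulS hε g360 g363 fun z364 t364 g364 =>
  mulS hε g44 h0 fun z92 t92 g92 =>
  mulS hε g92 g45 fun z93 t93 g93 =>
  a_S4 gs hε ps z38 z71 z392 z82 z394 z389 z37 z84 z395 z167 z83 z120 z180 z181 z364 z93 t38 t71 t392 t82 t394 t389 t37 t84 t395 t167 t83 t120 t180 t181 t364 t93 g38 g71 g392 g82 g394 g389 g37 g84 g395 g167 g83 g120 g180 g181 g364 g93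

def a_B2 (gs ps : ℕ) (x0 x1 z38 z45 z44 z80 z71 z396 z392 z73 z74 : AF) : Bool :=
  subK z73 z74 fun z75 =>
  normK z75 fun z393 =>
  mulK x1 z393 fun z81 =>
  addcK z81 4722366764344621924352 0 fun z82 =>
  normK z80 fun z394 =>
  mulK z396 z394 fun z105 =>
  addK z82 z105 fun z106 =>
  parK gs 14 fun z16 =>
  subK z106 z16 fun z107 =>
  posK z107 <|
  parK gs 15 fun z17 =>
  subK z82 z17 fun z108 =>
  posK z108 <|
  sqrK z108 fun z109 =>
  sqrK z394 fun z110 =>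
  mulK x1 z110 fun z111 =>
  subK z109 z111 fun z112 =>
  posK z112 <|
  parK gs 16 fun z18 =>
  parK gs 17 fun z19 =>
  parK gs 19 fun z21 =>
  mulK z21 x0 fun z380 =>
  addK z19 z380 fun z381 =>
  parK gs 20 fun z22 =>
  mulK z22 x1 fun z382 =>
  addK z381 z382 fun z383 =>
  mulK x0 z383 fun z384 =>
  addK z18 z384 fun z385 =>
  parK gs 18 fun z20 =>
  parK gs 21 fun z23 =>
  mulK z23 x1 fun z386 =>
  addK z20 z386 fun z387 =>
  mulK x1 z387 fun z388 =>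
  addK z385 z388 fun z389 =>
  a_B3 gs ps x0 x1 z38 z45 z44 z71 z392 z82 z394 z389

def a_R2 (gs ps : ℕ) (sg W z38 z45 z44 z80 z71 z396 z392 z73 z74 : ℝ) : Prop :=
  letR (z73 - z74) fun z75 =>
  letR z75 fun z393 =>
  letR (W * z393) fun z81 =>
  letR (z81 + (1 : ℝ)) fun z82 =>
  letR z80 fun z394 =>
  letR (z396 * z394) fun z105 =>
  letR (z82 + z105) fun z106 =>
  letR (parV gs 14) fun z16 =>
  letR (z106 - z16) fun z107 =>
  posR z107 <|
  letR (parV gs 15) fun z17 =>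
  letR (z82 - z17) fun z108 =>
  posR z108 <|
  letR (z108 ^ 2) fun z109 =>
  letR (z394 ^ 2) fun z110 =>
  letR (W * z110) fun z111 =>
  letR (z109 - z111) fun z112 =>
  posR z112 <|
  letR (parV gs 16) fun z18 =>
  letR (parV gs 17) fun z19 =>
  letR (parV gs 19) fun z21 =>
  letR (z21 * sg) fun z380 =>
  letR (z19 + z380) fun z381 =>
  letR (parV gs 20) fun z22 =>
  letR (z22 * W) fun z382 =>
  letR (z381 + z382) fun z383 =>
  letR (sg * z383) fun z384 =>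
  letR (z18 + z384) fun z385 =>
  letR (parV gs 18) fun z20 =>
  letR (parV gs 21) fun z23 =>
  letR (z23 * W) fun z386 =>
  letR (z20 + z386) fun z387 =>
  letR (W * z387) fun z388 =>
  letR (z385 + z388) fun z389 =>
  a_R3 gs ps sg W z38 z45 z44 z71 z392 z82 z394 z389

theorem a_S2 {ε : Fin 4 → ℝ} (gs : ℕ) (hε : ∀ i, |ε i| ≤ 1) (ps : ℕ) (x0 x1 z38 z45 z44 z80 z71 z396 z392 z73 z74 : AF) (sg W t38 t45 t44 t80 t71 t396 t392 t73 t74 : ℝ)
    (h0 : Rel ε x0 sg) (h1 : Rel ε x1 W) (g38 : Rel ε z38 t38) (g45 : Rel ε z45 t45) (g44 : Rel ε z44 t44) (g80 : Rel ε z80 t80) (g71 : Rel ε z71 t71) (g396 : Rel ε z396 t396) (g392 : Rel ε z392 t392) (g73 : Rel ε z73 t73) (g74 : Rel ε z74 t74) :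
    a_B2 gs ps x0 x1 z38 z45 z44 z80 z71 z396 z392 z73 z74 = true → a_R2 gs ps sg W t38 t45 t44 t80 t71 t396 t392 t73 t74 := by
  delta a_B2 a_R2
  exact subS g73 g74 fun z75 t75 g75 =>
  normS g75 fun z393 t393 g393 =>
  mulS hε h1 g393 fun z81 t81 g81 =>
  addcS g81 k0 fun z82 t82 g82 =>
  normS g80 fun z394 t394 g394 =>
  mulS hε g396 g394 fun z105 t105 g105 =>
  addS g82 g105 fun z106 t106 g106 =>
  parS fun z16 t16 g16 =>
  subS g106 g16 fun z107 t107 g107 =>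
  posS hε g107 <|
  parS fun z17 t17 g17 =>
  subS g82 g17 fun z108 t108 g108 =>
  posS hε g108 <|
  sqrS hε g108 fun z109 t109 g109 =>
  sqrS hε g394 fun z110 t110 g110 =>
  mulS hε h1 g110 fun z111 t111 g111 =>
  subS g109 g111 fun z112 t112 g112 =>
  posS hε g112 <|
  parS fun z18 t18 g18 =>
  parS fun z19 t19 g19 =>
  parS fun z21 t21 g21 =>
  mulS hε g21 h0 fun z380 t380 g380 =>
  addS g19 g380 fun z381 t381 g381 =>
  parS fun z22 t22 g22 =>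
  mulS hε g22 h1 fun z382 t382 g382 =>
  addS g381 g382 fun z383 t383 g383 =>
  mulS hε h0 g383 fun z384 t384 g384 =>
  addS g18 g384 fun z385 t385 g385 =>
  parS fun z20 t20 g20 =>
  parS fun z23 t23 g23 =>
  mulS hε g23 h1 fun z386 t386 g386 =>
  addS g20 g386 fun z387 t387 g387 =>
  mulS hε h1 g387 fun z388 t388 g388 =>
  addS g385 g388 fun z389 t389 g389 =>
  a_S3 gs hε ps x0 x1 z38 z45 z44 z71 z392 z82 z394 z389 sg W t38 t45 t44 t71 t392 t82 t394 t389 h0 h1 g38 g45 g44 g71 g392 g82 g394 g389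

def a_B1 (gs ps : ℕ) (x0 x1 z31 z60 z38 z45 z49 z50 z27 z69 z44 : AF) : Bool :=
  invK z44 fun z46 =>
  mulK z38 z46 fun z51 =>
  mulK (cst 4722366989524603292876 1) z38 fun z53 =>
  addcK z53 4722366511017142884761 1 fun z54 =>
  mulK z51 z54 fun z55 =>
  mulK z60 z55 fun z76 =>
  mulK z38 z51 fun z56 =>
  mulK (cst 4722366229542166174105 1) z56 fun z58 =>
  mulK x1 z58 fun z77 =>
  addcK z77 4722366764344621924352 0 fun z78 =>
  mulK z27 z78 fun z79 =>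
  subK z76 z79 fun z80 =>
  posK z80 <|
  mulK z60 z49 fun z61 =>
  addK z31 z61 fun z62 =>
  mulK z27 z50 fun z63 =>
  addK z62 z63 fun z64 =>
  normK z64 fun z391 =>
  mulK x1 z391 fun z70 =>
  addcK z70 4722366764344621924352 0 fun z71 =>
  addcK x1 4722366553238389391360 0 fun z94 =>
  invK z94 fun z95 =>
  mulK x1 z95 fun z96 =>
  normK z96 fun z396 =>
  normK z69 fun z392 =>
  mulK z396 z392 fun z97 =>
  addK z71 z97 fun z98 =>
  parK gs 12 fun z14 =>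
  subK z98 z14 fun z99 =>
  posK z99 <|
  parK gs 13 fun z15 =>
  subK z71 z15 fun z100 =>
  posK z100 <|
  sqrK z100 fun z101 =>
  sqrK z392 fun z102 =>
  mulK x1 z102 fun z103 =>
  subK z101 z103 fun z104 =>
  posK z104 <|
  mulK z60 z58 fun z72 =>
  addK z31 z72 fun z73 =>
  mulK z27 z55 fun z74 =>
  a_B2 gs ps x0 x1 z38 z45 z44 z80 z71 z396 z392 z73 z74

def a_R1 (gs ps : ℕ) (sg W z31 z60 z38 z45 z49 z50 z27 z69 z44 : ℝ) : Prop :=
  invR z44 fun z46 =>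
  letR (z38 * z46) fun z51 =>
  letR ((9 / 5 : ℝ) * z38) fun z53 =>
  letR (z53 + (1 / 10 : ℝ)) fun z54 =>
  letR (z51 * z54) fun z55 =>
  letR (z60 * z55) fun z76 =>
  letR (z38 * z51) fun z56 =>
  letR ((-9 / 10 : ℝ) * z56) fun z58 =>
  letR (W * z58) fun z77 =>
  letR (z77 + (1 : ℝ)) fun z78 =>
  letR (z27 * z78) fun z79 =>
  letR (z76 - z79) fun z80 =>
  posR z80 <|
  letR (z60 * z49) fun z61 =>
  letR (z31 + z61) fun z62 =>
  letR (z27 * z50) fun z63 =>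
  letR (z62 + z63) fun z64 =>
  letR z64 fun z391 =>
  letR (W * z391) fun z70 =>
  letR (z70 + (1 : ℝ)) fun z71 =>
  letR (W + (1 / 4 : ℝ)) fun z94 =>
  invR z94 fun z95 =>
  letR (W * z95) fun z96 =>
  letR z96 fun z396 =>
  letR z69 fun z392 =>
  letR (z396 * z392) fun z97 =>
  letR (z71 + z97) fun z98 =>
  letR (parV gs 12) fun z14 =>
  letR (z98 - z14) fun z99 =>
  posR z99 <|
  letR (parV gs 13) fun z15 =>
  letR (z71 - z15) fun z100 =>
  posR z100 <|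
  letR (z100 ^ 2) fun z101 =>
  letR (z392 ^ 2) fun z102 =>
  letR (W * z102) fun z103 =>
  letR (z101 - z103) fun z104 =>
  posR z104 <|
  letR (z60 * z58) fun z72 =>
  letR (z31 + z72) fun z73 =>
  letR (z27 * z55) fun z74 =>
  a_R2 gs ps sg W z38 z45 z44 z80 z71 z396 z392 z73 z74

theorem a_S1 {ε : Fin 4 → ℝ} (gs : ℕ) (hε : ∀ i, |ε i| ≤ 1) (ps : ℕ) (x0 x1 z31 z60 z38 z45 z49 z50 z27 z69 z44 : AF) (sg W t31 t60 t38 t45 t49 t50 t27 t69 t44 : ℝ)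
    (h0 : Rel ε x0 sg) (h1 : Rel ε x1 W) (g31 : Rel ε z31 t31) (g60 : Rel ε z60 t60) (g38 : Rel ε z38 t38) (g45 : Rel ε z45 t45) (g49 : Rel ε z49 t49) (g50 : Rel ε z50 t50) (g27 : Rel ε z27 t27) (g69 : Rel ε z69 t69) (g44 : Rel ε z44 t44) :
    a_B1 gs ps x0 x1 z31 z60 z38 z45 z49 z50 z27 z69 z44 = true → a_R1 gs ps sg W t31 t60 t38 t45 t49 t50 t27 t69 t44 := by
  delta a_B1 a_R1
  exact invS hε g44 fun z46 t46 g46 =>
  mulS hε g38 g46 fun z51 t51 g51 =>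
  mulS hε (cst_rel k4) g38 fun z53 t53 g53 =>
  addcS g53 k3 fun z54 t54 g54 =>
  mulS hε g51 g54 fun z55 t55 g55 =>
  mulS hε g60 g55 fun z76 t76 g76 =>
  mulS hε g38 g51 fun z56 t56 g56 =>
  mulS hε (cst_rel k5) g56 fun z58 t58 g58 =>
  mulS hε h1 g58 fun z77 t77 g77 =>
  addcS g77 k0 fun z78 t78 g78 =>
  mulS hε g27 g78 fun z79 t79 g79 =>
  subS g76 g79 fun z80 t80 g80 =>
  posS hε g80 <|
  mulS hε g60 g49 fun z61 t61 g61 =>
  addS g31 g61 fun z62 t62 g62 =>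
  mulS hε g27 g50 fun z63 t63 g63 =>
  addS g62 g63 fun z64 t64 g64 =>
  normS g64 fun z391 t391 g391 =>
  mulS hε h1 g391 fun z70 t70 g70 =>
  addcS g70 k0 fun z71 t71 g71 =>
  addcS h1 k6 fun z94 t94 g94 =>
  invS hε g94 fun z95 t95 g95 =>
  mulS hε h1 g95 fun z96 t96 g96 =>
  normS g96 fun z396 t396 g396 =>
  normS g69 fun z392 t392 g392 =>
  mulS hε g396 g392 fun z97 t97 g97 =>
  addS g71 g97 fun z98 t98 g98 =>
  parS fun z14 t14 g14 =>
  subS g98 g14 fun z99 t99 g99 =>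
  posS hε g99 <|
  parS fun z15 t15 g15 =>
  subS g71 g15 fun z100 t100 g100 =>
  posS hε g100 <|
  sqrS hε g100 fun z101 t101 g101 =>
  sqrS hε g392 fun z102 t102 g102 =>
  mulS hε h1 g102 fun z103 t103 g103 =>
  subS g101 g103 fun z104 t104 g104 =>
  posS hε g104 <|
  mulS hε g60 g58 fun z72 t72 g72 =>
  addS g31 g72 fun z73 t73 g73 =>
  mulS hε g27 g55 fun z74 t74 g74 =>
  a_S2 gs hε ps x0 x1 z38 z45 z44 z80 z71 z396 z392 z73 z74 sg W t38 t45 t44 t80 t71 t396 t392 t73 t74 h0 h1 g38 g45 g44 g80 g71 g396 g392 g73 g74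

def a_B (gs ps : ℕ) (x0 x1 x2 x3 : AF) : Bool :=
  parK gs 4 fun z6 =>
  parK gs 5 fun z7 =>
  mulK z7 x0 fun z28 =>
  addK z6 z28 fun z29 =>
  parK gs 6 fun z8 =>
  mulK z8 x1 fun z30 =>
  addK z29 z30 fun z31 =>
  mulK x1 z31 fun z59 =>
  addcK z59 4722366764344621924352 0 fun z60 =>
  sqrK x0 fun z38 =>
  mulK (cst 4722366736197124253286 1) z38 fun z40 =>
  rsubK z40 4722367017672100963942 1 fun z41 =>
  invK z41 fun z45 =>
  mulK (cst 4722367017672100963942 1) z45 fun z48 =>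
  rsubK z48 4722366764344621924352 0 fun z49 =>
  addcK z49 4722366764344621924352 0 fun z50 =>
  mulK z60 z50 fun z65 =>
  parK gs 1 fun z3 =>
  parK gs 2 fun z4 =>
  mulK z4 x0 fun z24 =>
  addK z3 z24 fun z25 =>
  parK gs 3 fun z5 =>
  mulK z5 x1 fun z26 =>
  addK z25 z26 fun z27 =>
  mulK x1 z49 fun z66 =>
  addcK z66 4722366764344621924352 0 fun z67 =>
  mulK z27 z67 fun z68 =>
  addK z65 z68 fun z69 =>
  posK z69 <|
  addcK z40 4722366511017142884761 1 fun z42 =>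
  mulK z38 z42 fun z43 =>
  rsubK z43 4722366764344621924352 0 fun z44 =>
  a_B1 gs ps x0 x1 z31 z60 z38 z45 z49 z50 z27 z69 z44

def a_R (gs ps : ℕ) (sg W u2 u3 : ℝ) : Prop :=
  letR (parV gs 4) fun z6 =>
  letR (parV gs 5) fun z7 =>
  letR (z7 * sg) fun z28 =>
  letR (z6 + z28) fun z29 =>
  letR (parV gs 6) fun z8 =>
  letR (z8 * W) fun z30 =>
  letR (z29 + z30) fun z31 =>
  letR (W * z31) fun z59 =>
  letR (z59 + (1 : ℝ)) fun z60 =>
  letR (sg ^ 2) fun z38 =>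
  letR ((9 / 10 : ℝ) * z38) fun z40 =>
  letR ((19 / 10 : ℝ) - z40) fun z41 =>
  invR z41 fun z45 =>
  letR ((19 / 10 : ℝ) * z45) fun z48 =>
  letR ((1 : ℝ) - z48) fun z49 =>
  letR (z49 + (1 : ℝ)) fun z50 =>
  letR (z60 * z50) fun z65 =>
  letR (parV gs 1) fun z3 =>
  letR (parV gs 2) fun z4 =>
  letR (z4 * sg) fun z24 =>
  letR (z3 + z24) fun z25 =>
  letR (parV gs 3) fun z5 =>
  letR (z5 * W) fun z26 =>
  letR (z25 + z26) fun z27 =>
  letR (W * z49) fun z66 =>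
  letR (z66 + (1 : ℝ)) fun z67 =>
  letR (z27 * z67) fun z68 =>
  letR (z65 + z68) fun z69 =>
  posR z69 <|
  letR (z40 + (1 / 10 : ℝ)) fun z42 =>
  letR (z38 * z42) fun z43 =>
  letR ((1 : ℝ) - z43) fun z44 =>
  a_R1 gs ps sg W z31 z60 z38 z45 z49 z50 z27 z69 z44

theorem a_S {ε : Fin 4 → ℝ} (gs : ℕ) (hε : ∀ i, |ε i| ≤ 1) (ps : ℕ) (x0 x1 x2 x3 : AF) (sg W u2 u3 : ℝ)
    (h0 : Rel ε x0 sg) (h1 : Rel ε x1 W) (h2 : Rel ε x2 u2) (h3 : Rel ε x3 u3) :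
    a_B gs ps x0 x1 x2 x3 = true → a_R gs ps sg W u2 u3 := by
  delta a_B a_R
  exact parS fun z6 t6 g6 =>
  parS fun z7 t7 g7 =>
  mulS hε g7 h0 fun z28 t28 g28 =>
  addS g6 g28 fun z29 t29 g29 =>
  parS fun z8 t8 g8 =>
  mulS hε g8 h1 fun z30 t30 g30 =>
  addS g29 g30 fun z31 t31 g31 =>
  mulS hε h1 g31 fun z59 t59 g59 =>
  addcS g59 k0 fun z60 t60 g60 =>
  sqrS hε h0 fun z38 t38 g38 =>
  mulS hε (cst_rel k1) g38 fun z40 t40 g40 =>
  rsubS g40 k2 fun z41 t41 g41 =>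
  invS hε g41 fun z45 t45 g45 =>
  mulS hε (cst_rel k2) g45 fun z48 t48 g48 =>
  rsubS g48 k0 fun z49 t49 g49 =>
  addcS g49 k0 fun z50 t50 g50 =>
  mulS hε g60 g50 fun z65 t65 g65 =>
  parS fun z3 t3 g3 =>
  parS fun z4 t4 g4 =>
  mulS hε g4 h0 fun z24 t24 g24 =>
  addS g3 g24 fun z25 t25 g25 =>
  parS fun z5 t5 g5 =>
  mulS hε g5 h1 fun z26 t26 g26 =>
  addS g25 g26 fun z27 t27 g27 =>
  mulS hε h1 g49 fun z66 t66 g66 =>
  addcS g66 k0 fun z67 t67 g67 =>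
  mulS hε g27 g67 fun z68 t68 g68 =>
  addS g65 g68 fun z69 t69 g69 =>
  posS hε g69 <|
  addcS g40 k3 fun z42 t42 g42 =>
  mulS hε g38 g42 fun z43 t43 g43 =>
  rsubS g43 k0 fun z44 t44 g44 =>
  a_S1 gs hε ps x0 x1 z31 z60 z38 z45 z49 z50 z27 z69 z44 sg W t31 t60 t38 t45 t49 t50 t27 t69 t44 h0 h1 g31 g60 g38 g45 g49 g50 g27 g69 g44

/- obtain ⟨n, nW, al, a9, uh, iu, uE, uO, m, lo, w, iw, aw, wO, wE, tO, lE, le, ol, la, tE, te, ta, r, ik2, kk2, Z, Zr, ik, qq1, Cs2, X2, iX2, Th, bc, ibc, sb, Ts, th, t2, Zt, Ztr, Cs4, X4, iX4, C1, R1, iC1, ie1, Cs1, X1, Se1, iX1, qX1, iR1, So1, iD1, Ie1, hR1, io1, In1, ZI1, Je1, Jo1, ge1, C2, R2, iC2, ie2, Se2, qX2, iR2, So2, iD2, Ie2, hR2, io2, In2, ZI2, Je2, Jo2, ge2, lo1, Zl, go1, Cu, C3, R3, iC3, ie3, Cs3, X3, Se3, iX3, qX3, iR3, So3, iD3, Ie3, hR3, io3, In3, ZI3, Je3, Jo3, ge3, C4, R4, iC4, ie4, Se4, qX4, iR4, So4, iD4, Ie4, hR4, io4, In4, ZI4, Je4, Jo4,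 ge4, tO1, tt, Ztt, go3, Cw, Gm, h_n, h_nW, h_al, h_a9, h_uh, p_iu, h_iu, h_uE, h_uO, h_m, h_lo, c0, h_w, p_iw, h_iw, h_aw, h_wO, h_wE, h_tO, c1, h_lE, h_le, p_22, h_ol, c2, h_la, c3, c4, h_tE, h_te, c5, h_ta, c6, c7, h_r, h_ik2, p_kk2, h_kk2, h_Z, h_Zr, h_ik, h_qq1, h_Cs2, h_X2, p_iX2, h_iX2, p_46, h_Th, h_bc, p_ibc, h_ibc, h_sb, p_sb, h_Ts, h_th, h_t2, h_Zt, h_Ztr, h_Cs4, h_X4, p_iX4, h_iX4, p_62, h_C1, h_R1, p_iC1, h_iC1, h_ie1, h_Cs1, h_X1, h_Se1, p_iX1, h_iX1, h_qX1, p_iR1, h_iR1, h_So1, p_iD1, h_iD1, h_Ie1, h_hR1, h_io1, h_In1, h_ZI1, h_Je1, h_Jo1, h_ge1, h_C2, h_R2, p_iC2, h_iC2, h_ie2, h_Se2, h_qX2, p_iR2, h_iR2, h_So2, p_iD2, h_iD2, h_Ie2, h_hR2, h_io2, h_In2, h_ZI2, h_Je2, h_Jo2, h_ge2, h_lo1, h_Zl, h_go1, h_Cu, h_C3, h_R3, p_iC3, h_iC3, h_ie3, h_Cs3, h_X3, h_Se3, p_iX3, h_iX3, h_qX3, p_iR3, h_iR3, h_So3, p_iD3, h_iD3, h_Ie3, h_hR3, h_io3, h_In3, h_ZI3, h_Je3, h_Jo3, h_ge3, h_C4,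 h_R4, p_iC4, h_iC4, h_ie4, h_Se4, h_qX4, p_iR4, h_iR4, h_So4, p_iD4, h_iD4, h_Ie4, h_hR4, h_io4, h_In4, h_ZI4, h_Je4, h_Jo4, h_ge4, h_tO1, h_tt, h_Ztt, h_go3, h_Cw, h_Gm, c8⟩ := h -/
def a_Spec (rho m0 m1 m2 n0 n1 n2 k0 k1 k2 ku kw A0 A1 B0 B1 g0 g1 g2 g3 g4 g5 sg W : ℝ) : Prop :=
  ∃ n nW al a9 uh iu uE uO m lo w iw aw wO wE tO lE le ol la tE te ta r ik2 kk2 Z Zr ik qq1 Cs2 X2 iX2 Th bc ibc sb Ts th t2 Zt Ztr Cs4 X4 iX4 C1 R1 iC1 ie1 Cs1 X1 Se1 iX1 qX1 iR1 So1 iD1 Ie1 hR1 io1 In1 ZI1 Je1 Jo1 ge1 C2 R2 iC2 ie2 Se2 qX2 iR2 So2 iD2 Ie2 hR2 io2 In2 ZI2 Je2 Jo2 ge2 lo1 Zl go1 Cu C3 R3 iC3 ie3 Cs3 X3 Se3 iX3 qX3 iR3 So3 iD3 Ie3 hR3 io3 In3 ZI3 Je3 Jo3 ge3 C4 R4 iC4 ie4 Se4 qX4 iR4 So4 iD4 Ie4 hR4 io4 In4 ZI4 Je4 Jo4 ge4 tO1 tt Ztt go3 Cw Gm : ℝ,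
    n = ((n0 + (n1 * sg)) + (n2 * W)) ∧
    nW = ((W * n) + (1 : ℝ)) ∧
    al = (sg ^ 2) ∧
    a9 = ((9 / 10 : ℝ) * al) ∧
    uh = ((19 / 10 : ℝ) - a9) ∧
    0 < uh ∧
    iu = (uh⁻¹) ∧
    uE = ((1 : ℝ) - ((19 / 10 : ℝ) * iu)) ∧
    uO = (uE + (1 : ℝ)) ∧
    m = ((m0 + (m1 * sg)) + (m2 * W)) ∧
    lo = ((nW * uO) + (m * ((W * uE) + (1 : ℝ)))) ∧
    0 ≤ lo ∧
    w = ((1 : ℝ) - (al * (a9 + (1 / 10 : ℝ)))) ∧
    0 < w ∧
    iw = (w⁻¹) ∧
    aw = (al * iw) ∧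
    wO = (aw * (((9 / 5 : ℝ) * al) + (1 / 10 : ℝ))) ∧
    wE = ((-9 / 10 : ℝ) * (al * aw)) ∧
    tO = ((nW * wO) - (m * ((W * wE) + (1 : ℝ)))) ∧
    0 ≤ tO ∧
    lE = ((n + (nW * uE)) + (m * uO)) ∧
    le = ((W * lE) + (1 : ℝ)) ∧
    0 < (W + (1 / 4 : ℝ)) ∧
    ol = (W * ((W + (1 / 4 : ℝ))⁻¹)) ∧
    0 ≤ ((le + (ol * lo)) - A0) ∧
    la = (le - A1) ∧
    0 ≤ la ∧
    0 ≤ ((la ^ 2) - (W * (lo ^ 2))) ∧
    tE = ((n + (nW * wE)) - (m * wO)) ∧
    te = ((W * tE) + (1 : ℝ)) ∧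
    0 ≤ ((te + (ol * tO)) - B0) ∧
    ta = (te - B1) ∧
    0 ≤ ta ∧
    0 ≤ ((ta ^ 2) - (W * (tO ^ 2))) ∧
    r = (rho ^ 2) ∧
    ik2 = ((1 : ℝ) - ((k0 + (k1 * sg)) + (k2 * W))) ∧
    0 < ik2 ∧
    kk2 = (ik2⁻¹) ∧
    Z = (W * kk2) ∧
    Zr = (r * Z) ∧
    ik = (√ik2) ∧
    qq1 = (ik ^ 2) ∧
    Cs2 = (√((1 : ℝ) - (Zr * qq1))) ∧
    X2 = (√((1 / 2 : ℝ) * (Cs2 + (1 : ℝ)))) ∧
    0 < X2 ∧
    iX2 = (X2⁻¹) ∧
    0 < (((2 : ℝ) * X2) + (2 : ℝ)) ∧
    Th = ((w * sg) * iu) ∧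
    bc = ((1 : ℝ) - al) ∧
    0 < bc ∧
    ibc = (bc⁻¹) ∧
    sb = (√bc) ∧
    0 < sb ∧
    Ts = ((Th * ibc) * (sb⁻¹)) ∧
    th = (al * ibc) ∧
    t2 = (th ^ 2) ∧
    Zt = (t2 * Z) ∧
    Ztr = (r * Zt) ∧
    Cs4 = (√((1 : ℝ) - (Ztr * qq1))) ∧
    X4 = (√((1 / 2 : ℝ) * (Cs4 + (1 : ℝ)))) ∧
    0 < X4 ∧
    iX4 = (X4⁻¹) ∧
    0 < (((2 : ℝ) * X4) + (2 : ℝ)) ∧
    C1 = (√((1 : ℝ) - Z)) ∧
    R1 = (√((1 / 2 : ℝ) * (C1 + (1 : ℝ)))) ∧
    0 < C1 ∧
    iC1 = (C1⁻¹) ∧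
    ie1 = (R1 * iC1) ∧
    Cs1 = (√((1 : ℝ) - (Z * qq1))) ∧
    X1 = (√((1 / 2 : ℝ) * (Cs1 + (1 : ℝ)))) ∧
    Se1 = (X1 + R1) ∧
    0 < X1 ∧
    iX1 = (X1⁻¹) ∧
    qX1 = (ik * iX1) ∧
    0 < R1 ∧
    iR1 = (R1⁻¹) ∧
    So1 = ((1 / 2 : ℝ) * (qX1 + iR1)) ∧
    0 < ((Se1 ^ 2) - (Z * (So1 ^ 2))) ∧
    iD1 = (((Se1 ^ 2) - (Z * (So1 ^ 2)))⁻¹) ∧
    Ie1 = (Se1 * iD1) ∧
    hR1 = (iR1 * iC1) ∧
    io1 = ((-1 / 2 : ℝ) * hR1) ∧
    In1 = (So1 * iD1) ∧
    ZI1 = (Z * In1) ∧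
    Je1 = ((ie1 * Ie1) - (io1 * ZI1)) ∧
    Jo1 = ((io1 * Ie1) - (ie1 * In1)) ∧
    ge1 = ((Je1 * Ie1) - (Jo1 * ZI1)) ∧
    C2 = (√((1 : ℝ) - Zr)) ∧
    R2 = (√((1 / 2 : ℝ) * (C2 + (1 : ℝ)))) ∧
    0 < C2 ∧
    iC2 = (C2⁻¹) ∧
    ie2 = (R2 * iC2) ∧
    Se2 = (X2 + R2) ∧
    qX2 = (ik * iX2) ∧
    0 < R2 ∧
    iR2 = (R2⁻¹) ∧
    So2 = ((1 / 2 : ℝ) * (qX2 + iR2)) ∧
    0 < ((Se2 ^ 2) - (Zr * (So2 ^ 2))) ∧
    iD2 = (((Se2 ^ 2) - (Zr * (So2 ^ 2)))⁻¹) ∧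
    Ie2 = (Se2 * iD2) ∧
    hR2 = (iR2 * iC2) ∧
    io2 = ((-1 / 2 : ℝ) * hR2) ∧
    In2 = (So2 * iD2) ∧
    ZI2 = (Zr * In2) ∧
    Je2 = ((ie2 * Ie2) - (io2 * ZI2)) ∧
    Jo2 = ((io2 * Ie2) - (ie2 * In2)) ∧
    ge2 = ((Je2 * Ie2) - (Jo2 * ZI2)) ∧
    lo1 = (lo * ik) ∧
    Zl = (Z * lo1) ∧
    go1 = ((Jo1 * Ie1) - (Je1 * In1)) ∧
    Cu = (((le * ge1) - (r * ge2)) + (Zl * go1)) ∧
    C3 = (√((1 : ℝ) - Zt)) ∧
    R3 = (√((1 / 2 : ℝ) * (C3 + (1 : ℝ)))) ∧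
    0 < C3 ∧
    iC3 = (C3⁻¹) ∧
    ie3 = (R3 * iC3) ∧
    Cs3 = (√((1 : ℝ) - (Zt * qq1))) ∧
    X3 = (√((1 / 2 : ℝ) * (Cs3 + (1 : ℝ)))) ∧
    Se3 = (X3 + R3) ∧
    0 < X3 ∧
    iX3 = (X3⁻¹) ∧
    qX3 = (ik * iX3) ∧
    0 < R3 ∧
    iR3 = (R3⁻¹) ∧
    So3 = ((1 / 2 : ℝ) * (qX3 + iR3)) ∧
    0 < ((Se3 ^ 2) - (Zt * (So3 ^ 2))) ∧
    iD3 = (((Se3 ^ 2) - (Zt * (So3 ^ 2)))⁻¹) ∧
    Ie3 = (Se3 * iD3) ∧
    hR3 = (iR3 * iC3) ∧
    io3 = ((-1 / 2 : ℝ) * hR3) ∧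
    In3 = (So3 * iD3) ∧
    ZI3 = (Zt * In3) ∧
    Je3 = ((ie3 * Ie3) - (io3 * ZI3)) ∧
    Jo3 = ((io3 * Ie3) - (ie3 * In3)) ∧
    ge3 = ((Je3 * Ie3) - (Jo3 * ZI3)) ∧
    C4 = (√((1 : ℝ) - Ztr)) ∧
    R4 = (√((1 / 2 : ℝ) * (C4 + (1 : ℝ)))) ∧
    0 < C4 ∧
    iC4 = (C4⁻¹) ∧
    ie4 = (R4 * iC4) ∧
    Se4 = (X4 + R4) ∧
    qX4 = (ik * iX4) ∧
    0 < R4 ∧
    iR4 = (R4⁻¹) ∧
    So4 = ((1 / 2 : ℝ) * (qX4 + iR4)) ∧
    0 < ((Se4 ^ 2) - (Ztr * (So4 ^ 2))) ∧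
    iD4 = (((Se4 ^ 2) - (Ztr * (So4 ^ 2)))⁻¹) ∧
    Ie4 = (Se4 * iD4) ∧
    hR4 = (iR4 * iC4) ∧
    io4 = ((-1 / 2 : ℝ) * hR4) ∧
    In4 = (So4 * iD4) ∧
    ZI4 = (Ztr * In4) ∧
    Je4 = ((ie4 * Ie4) - (io4 * ZI4)) ∧
    Jo4 = ((io4 * Ie4) - (ie4 * In4)) ∧
    ge4 = ((Je4 * Ie4) - (Jo4 * ZI4)) ∧
    tO1 = (tO * ik) ∧
    tt = (th * tO1) ∧
    Ztt = (Z * tt) ∧
    go3 = ((Jo3 * Ie3) - (Je3 * In3)) ∧
    Cw = (((te * ge3) - (r * ge4)) + (Ztt * go3)) ∧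
    Gm = ((r * (((iX2 ^ 2) * ((((2 : ℝ) * X2) + (2 : ℝ))⁻¹)) + (Ts * ((iX4 ^ 2) * ((((2 : ℝ) * X4) + (2 : ℝ))⁻¹))))) + ((((ik + (-1 : ℝ)) ^ 2) * kk2) * (Cu + (Ts * Cw)))) ∧
    0 ≤ (((g0 + (sg * ((g1 + (g3 * sg)) + (g4 * W)))) + (W * (g2 + (g5 * W)))) - Gm)

theorem a_E {gs ps : ℕ} {sg W u2 u3 : ℝ} (h : a_R gs ps sg W u2 u3) : a_Spec (parV gs 0) (parV gs 1) (parV gs 2) (parV gs 3) (parV gs 4) (parV gs 5) (parV gs 6) (parV gs 7) (parV gs 8) (parV gs 9) (parV gs 10) (parV gs 11) (parV gs 12) (parV gs 13) (parV gs 14) (parV gs 15) (parV gs 16) (parV gs 17) (parV gs 18) (parV gs 19) (parV gs 20) (parV gs 21) sg W := by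
  delta a_R at h
  exact letR_in h fun h =>
  letR_in h fun h =>
  letR_in h fun h =>
  letR_in h fun h =>
  letR_in h fun h =>
  letR_in h fun h =>
  letR_ex h fun n q1 h =>
  letR_in h fun h =>
  letR_ex h fun nW q2 h =>
  letR_ex h fun al q3 h =>
  letR_ex h fun a9 q4 h =>
  letR_ex h fun uh q5 h =>
  invR_ex h fun q6 h =>
  letR_ex h fun iu q7 h =>
  letR_in h fun h =>
  letR_ex h fun uE q8 h =>
  letR_ex h fun uO q9 h =>
  letR_in h fun h =>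
  letR_in h fun h =>
  letR_in h fun h =>
  letR_in h fun h =>
  letR_in h fun h =>
  letR_in h fun h =>
  letR_in h fun h =>
  letR_ex h fun m q10 h =>
  letR_in h fun h =>
  letR_in h fun h =>
  letR_in h fun h =>
  letR_ex h fun lo q11 h =>
  posR_ex h fun q12 h =>
  letR_in h fun h =>
  letR_in h fun h =>
  letR_ex h fun w q13 h =>
  (by delta a_R1 at h; exact
  invR_ex h fun q14 h =>
  letR_ex h fun iw q15 h =>
  letR_ex h fun aw q16 h =>
  letR_in h fun h =>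
  letR_in h fun h =>
  letR_ex h fun wO q17 h =>
  letR_in h fun h =>
  letR_in h fun h =>
  letR_ex h fun wE q18 h =>
  letR_in h fun h =>
  letR_in h fun h =>
  letR_in h fun h =>
  letR_ex h fun tO q19 h =>
  posR_ex h fun q20 h =>
  letR_in h fun h =>
  letR_in h fun h =>
  letR_in h fun h =>
  letR_ex h fun lE q21 h =>
  letR_in h fun h =>
  letR_in h fun h =>
  letR_ex h fun le q22 h =>
  letR_in h fun h =>
  invR_ex h fun q23 h =>
  letR_in h fun h =>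
  letR_ex h fun ol q24 h =>
  letR_in h fun h =>
  letR_in h fun h =>
  letR_in h fun h =>
  letR_in h fun h =>
  letR_in h fun h =>
  letR_in h fun h =>
  posR_ex h fun q25 h =>
  letR_in h fun h =>
  letR_ex h fun la q26 h =>
  posR_ex h fun q27 h =>
  letR_in h fun h =>
  letR_in h fun h =>
  letR_in h fun h =>
  letR_in h fun h =>
  posR_ex h fun q28 h =>
  letR_in h fun h =>
  letR_in h fun h =>
  letR_in h fun h =>
  (by delta a_R2 at h; exact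
  letR_ex h fun tE q29 h =>
  letR_in h fun h =>
  letR_in h fun h =>
  letR_ex h fun te q30 h =>
  letR_in h fun h =>
  letR_in h fun h =>
  letR_in h fun h =>
  letR_in h fun h =>
  letR_in h fun h =>
  posR_ex h fun q31 h =>
  letR_in h fun h =>
  letR_ex h fun ta q32 h =>
  posR_ex h fun q33 h =>
  letR_in h fun h =>
  letR_in h fun h =>
  letR_in h fun h =>
  letR_in h fun h =>
  posR_ex h fun q34 h =>
  letR_in h fun h =>
  letR_in h fun h =>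
  letR_in h fun h =>
  letR_in h fun h =>
  letR_in h fun h =>
  letR_in h fun h =>
  letR_in h fun h =>
  letR_in h fun h =>
  letR_in h fun h =>
  letR_in h fun h =>
  letR_in h fun h =>
  letR_in h fun h =>
  letR_in h fun h =>
  letR_in h fun h =>
  letR_in h fun h =>
  letR_in h fun h =>
  (by delta a_R3 at h; exact
  letR_in h fun h =>
  letR_ex h fun r q35 h =>
  letR_in h fun h =>
  letR_in h fun h =>
  letR_in h fun h =>
  letR_in h fun h =>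
  letR_in h fun h =>
  letR_in h fun h =>
  letR_in h fun h =>
  letR_ex h fun ik2 q36 h =>
  invR_ex h fun q37 h =>
  letR_ex h fun kk2 q38 h =>
  letR_ex h fun Z q39 h =>
  letR_in h fun h =>
  letR_ex h fun Zr q40 h =>
  letR_ex h fun ik q41 h =>
  letR_ex h fun qq1 q42 h =>
  letR_in h fun h =>
  letR_in h fun h =>
  letR_ex h fun Cs2 q43 h =>
  letR_in h fun h =>
  letR_in h fun h =>
  letR_ex h fun X2 q44 h =>
  invR_ex h fun q45 h =>
  letR_ex h fun iX2 q46 h =>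
  letR_in h fun h =>
  letR_in h fun h =>
  letR_in h fun h =>
  invR_ex h fun q47 h =>
  letR_in h fun h =>
  letR_in h fun h =>
  letR_in h fun h =>
  letR_ex h fun Th q48 h =>
  (by delta a_R4 at h; exact
  letR_ex h fun bc q49 h =>
  invR_ex h fun q50 h =>
  letR_ex h fun ibc q51 h =>
  letR_in h fun h =>
  letR_ex h fun sb q52 h =>
  invR_ex h fun q53 h =>
  letR_in h fun h =>
  letR_ex h fun Ts q54 h =>
  letR_ex h fun th q55 h =>
  letR_ex h fun t2 q56 h =>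
  letR_ex h fun Zt q57 h =>
  letR_ex h fun Ztr q58 h =>
  letR_in h fun h =>
  letR_in h fun h =>
  letR_ex h fun Cs4 q59 h =>
  letR_in h fun h =>
  letR_in h fun h =>
  letR_ex h fun X4 q60 h =>
  invR_ex h fun q61 h =>
  letR_ex h fun iX4 q62 h =>
  letR_in h fun h =>
  letR_in h fun h =>
  letR_in h fun h =>
  invR_ex h fun q63 h =>
  letR_in h fun h =>
  letR_in h fun h =>
  letR_in h fun h =>
  letR_in h fun h =>
  letR_in h fun h =>
  letR_in h fun h =>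
  letR_in h fun h =>
  letR_in h fun h =>
  (by delta a_R5 at h; exact
  letR_in h fun h =>
  letR_ex h fun C1 q64 h =>
  letR_in h fun h =>
  letR_in h fun h =>
  letR_ex h fun R1 q65 h =>
  invR_ex h fun q66 h =>
  letR_ex h fun iC1 q67 h =>
  letR_ex h fun ie1 q68 h =>
  letR_in h fun h =>
  letR_in h fun h =>
  letR_ex h fun Cs1 q69 h =>
  letR_in h fun h =>
  letR_in h fun h =>
  letR_ex h fun X1 q70 h =>
  letR_ex h fun Se1 q71 h =>
  letR_in h fun h =>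
  invR_ex h fun q72 h =>
  letR_ex h fun iX1 q73 h =>
  letR_ex h fun qX1 q74 h =>
  invR_ex h fun q75 h =>
  letR_ex h fun iR1 q76 h =>
  letR_in h fun h =>
  letR_ex h fun So1 q77 h =>
  letR_in h fun h =>
  letR_in h fun h =>
  letR_in h fun h =>
  invR_ex h fun q78 h =>
  letR_ex h fun iD1 q79 h =>
  letR_ex h fun Ie1 q80 h =>
  letR_in h fun h =>
  letR_in h fun h =>
  letR_ex h fun hR1 q81 h =>
  letR_ex h fun io1 q82 h =>
  letR_ex h fun In1 q83 h =>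
  letR_ex h fun ZI1 q84 h =>
  letR_in h fun h =>
  letR_ex h fun Je1 q85 h =>
  letR_in h fun h =>
  letR_in h fun h =>
  letR_in h fun h =>
  letR_ex h fun Jo1 q86 h =>
  letR_in h fun h =>
  letR_ex h fun ge1 q87 h =>
  letR_in h fun h =>
  (by delta a_R6 at h; exact
  letR_in h fun h =>
  letR_ex h fun C2 q88 h =>
  letR_in h fun h =>
  letR_in h fun h =>
  letR_ex h fun R2 q89 h =>
  invR_ex h fun q90 h =>
  letR_ex h fun iC2 q91 h =>
  letR_ex h fun ie2 q92 h =>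
  letR_ex h fun Se2 q93 h =>
  letR_in h fun h =>
  letR_ex h fun qX2 q94 h =>
  invR_ex h fun q95 h =>
  letR_ex h fun iR2 q96 h =>
  letR_in h fun h =>
  letR_ex h fun So2 q97 h =>
  letR_in h fun h =>
  letR_in h fun h =>
  letR_in h fun h =>
  invR_ex h fun q98 h =>
  letR_ex h fun iD2 q99 h =>
  letR_ex h fun Ie2 q100 h =>
  letR_in h fun h =>
  letR_ex h fun hR2 q101 h =>
  letR_ex h fun io2 q102 h =>
  letR_ex h fun In2 q103 h =>
  letR_ex h fun ZI2 q104 h =>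
  letR_in h fun h =>
  letR_ex h fun Je2 q105 h =>
  letR_in h fun h =>
  letR_in h fun h =>
  letR_in h fun h =>
  letR_ex h fun Jo2 q106 h =>
  letR_in h fun h =>
  letR_ex h fun ge2 q107 h =>
  letR_in h fun h =>
  letR_in h fun h =>
  letR_ex h fun lo1 q108 h =>
  letR_ex h fun Zl q109 h =>
  letR_in h fun h =>
  letR_in h fun h =>
  letR_ex h fun go1 q110 h =>
  letR_in h fun h =>
  letR_ex h fun Cu q111 h =>
  (by delta a_R7 at h; exact
  letR_in h fun h =>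
  letR_ex h fun C3 q112 h =>
  letR_in h fun h =>
  letR_in h fun h =>
  letR_ex h fun R3 q113 h =>
  invR_ex h fun q114 h =>
  letR_ex h fun iC3 q115 h =>
  letR_ex h fun ie3 q116 h =>
  letR_in h fun h =>
  letR_in h fun h =>
  letR_ex h fun Cs3 q117 h =>
  letR_in h fun h =>
  letR_in h fun h =>
  letR_ex h fun X3 q118 h =>
  letR_ex h fun Se3 q119 h =>
  letR_in h fun h =>
  invR_ex h fun q120 h =>
  letR_ex h fun iX3 q121 h =>
  letR_ex h fun qX3 q122 h =>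
  invR_ex h fun q123 h =>
  letR_ex h fun iR3 q124 h =>
  letR_in h fun h =>
  letR_ex h fun So3 q125 h =>
  letR_in h fun h =>
  letR_in h fun h =>
  letR_in h fun h =>
  invR_ex h fun q126 h =>
  letR_ex h fun iD3 q127 h =>
  letR_ex h fun Ie3 q128 h =>
  letR_in h fun h =>
  letR_ex h fun hR3 q129 h =>
  letR_ex h fun io3 q130 h =>
  letR_ex h fun In3 q131 h =>
  letR_ex h fun ZI3 q132 h =>
  letR_in h fun h =>
  letR_ex h fun Je3 q133 h =>
  letR_in h fun h =>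
  letR_in h fun h =>
  letR_in h fun h =>
  letR_ex h fun Jo3 q134 h =>
  letR_in h fun h =>
  letR_ex h fun ge3 q135 h =>
  letR_in h fun h =>
  (by delta a_R8 at h; exact
  letR_in h fun h =>
  letR_ex h fun C4 q136 h =>
  letR_in h fun h =>
  letR_in h fun h =>
  letR_ex h fun R4 q137 h =>
  invR_ex h fun q138 h =>
  letR_ex h fun iC4 q139 h =>
  letR_ex h fun ie4 q140 h =>
  letR_ex h fun Se4 q141 h =>
  letR_in h fun h =>
  letR_ex h fun qX4 q142 h =>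
  invR_ex h fun q143 h =>
  letR_ex h fun iR4 q144 h =>
  letR_in h fun h =>
  letR_ex h fun So4 q145 h =>
  letR_in h fun h =>
  letR_in h fun h =>
  letR_in h fun h =>
  invR_ex h fun q146 h =>
  letR_ex h fun iD4 q147 h =>
  letR_ex h fun Ie4 q148 h =>
  letR_in h fun h =>
  letR_ex h fun hR4 q149 h =>
  letR_ex h fun io4 q150 h =>
  letR_ex h fun In4 q151 h =>
  letR_ex h fun ZI4 q152 h =>
  letR_in h fun h =>
  letR_ex h fun Je4 q153 h =>
  letR_in h fun h =>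
  letR_in h fun h =>
  letR_in h fun h =>
  letR_ex h fun Jo4 q154 h =>
  letR_in h fun h =>
  letR_ex h fun ge4 q155 h =>
  letR_in h fun h =>
  letR_in h fun h =>
  letR_ex h fun tO1 q156 h =>
  letR_ex h fun tt q157 h =>
  letR_ex h fun Ztt q158 h =>
  letR_in h fun h =>
  letR_in h fun h =>
  letR_ex h fun go3 q159 h =>
  letR_in h fun h =>
  letR_ex h fun Cw q160 h =>
  (by delta a_R9 at h; exact
  letR_in h fun h =>
  letR_in h fun h =>
  letR_in h fun h =>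
  letR_in h fun h =>
  letR_in h fun h =>
  letR_ex h fun Gm q161 h =>
  letR_in h fun h =>
  posR_ex h fun q162 h =>
  ⟨n, nW, al, a9, uh, iu, uE, uO, m, lo, w, iw, aw, wO, wE, tO, lE, le, ol, la, tE, te, ta, r, ik2, kk2, Z, Zr, ik, qq1, Cs2, X2, iX2, Th, bc, ibc, sb, Ts, th, t2, Zt, Ztr, Cs4, X4, iX4, C1, R1, iC1, ie1, Cs1, X1, Se1, iX1, qX1, iR1, So1, iD1, Ie1, hR1, io1, In1, ZI1, Je1, Jo1, ge1, C2, R2, iC2, ie2, Se2, qX2, iR2, So2, iD2, Ie2, hR2, io2, In2, ZI2, Je2, Jo2, ge2, lo1, Zl, go1, Cu, C3, R3, iC3, ie3, Cs3, X3, Se3, iX3, qX3, iR3, So3, iD3, Ie3, hR3, io3, In3, ZI3, Je3, Jo3, ge3, C4, R4, iC4, ie4, Se4, qX4, iR4, So4, iD4, Ie4, hR4, io4, In4, ZI4, Je4, Jo4, ge4, tO1, tt, Ztt, go3, Cw, Gm, q1, q2, q3, q4, q5, q6, q7, q8, q9, q10, q11, q12, q13, q14, q15, q16, q17, q18, q19, q20, q21, q22, q23, q24, q25, q26, q27, q28, q29, q30, q31, q32, q33, q34, q35, q36, q37, q38, q39, q40,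 q41, q42, q43, q44, q45, q46, q47, q48, q49, q50, q51, q52, q53, q54, q55, q56, q57, q58, q59, q60, q61, q62, q63, q64, q65, q66, q67, q68, q69, q70, q71, q72, q73, q74, q75, q76, q77, q78, q79, q80, q81, q82, q83, q84, q85, q86, q87, q88, q89, q90, q91, q92, q93, q94, q95, q96, q97, q98, q99, q100, q101, q102, q103, q104, q105, q106, q107, q108, q109, q110, q111, q112, q113, q114, q115, q116, q117, q118, q119, q120, q121, q122, q123, q124, q125, q126, q127, q128, q129, q130, q131, q132, q133, q134, q135, q136, q137, q138, q139, q140, q141, q142, q143, q144, q145, q146, q147, q148, q149, q150, q151, q152, q153, q154, q155, q156, q157, q158, q159, q160, q161, q162⟩)))))))))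

theorem k12 : |2 ^ 48 * (-1 / 16 : ℝ) - (((4722366465277459169280 : ℕ) : ℝ) - 2 ^ 72)| ≤ ((0 : ℕ) : ℝ) := by norm_num [abs_le]
theorem k13 : |2 ^ 48 * (-1 / 16384 : ℝ) - (((4722366482852465344512 : ℕ) : ℝ) - 2 ^ 72)| ≤ ((0 : ℕ) : ℝ) := by norm_num [abs_le]
def x_B (gs ps : ℕ) (x0 x1 x2 x3 : AF) : Bool :=
  sqrK x0 fun z24 =>
  sqrK z24 fun z25 =>
  mulK x1 z25 fun z26 =>
  addcK z26 4722366465277459169280 0 fun z27 =>
  addcK z27 4722366482852465344512 0 fun z28 =>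
  posK z28 <|
  true

def x_R (gs ps : ℕ) (sg W u2 u3 : ℝ) : Prop :=
  letR (sg ^ 2) fun z24 =>
  letR (z24 ^ 2) fun z25 =>
  letR (W * z25) fun z26 =>
  letR (z26 + (-1 / 16 : ℝ)) fun z27 =>
  letR (z27 + (-1 / 16384 : ℝ)) fun z28 =>
  posR z28 <|
  True

theorem x_S {ε : Fin 4 → ℝ} (gs : ℕ) (hε : ∀ i, |ε i| ≤ 1) (ps : ℕ) (x0 x1 x2 x3 : AF) (sg W u2 u3 : ℝ)
    (h0 : Rel ε x0 sg) (h1 : Rel ε x1 W) (h2 : Rel ε x2 u2) (h3 : Rel ε x3 u3) :
    x_B gs ps x0 x1 x2 x3 = true → x_R gs ps sg W u2 u3 := by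
  delta x_B x_R
  exact sqrS hε h0 fun z24 t24 g24 =>
  sqrS hε g24 fun z25 t25 g25 =>
  mulS hε h1 g25 fun z26 t26 g26 =>
  addcS g26 k12 fun z27 t27 g27 =>
  addcS g27 k13 fun z28 t28 g28 =>
  posS hε g28 <|
  fun _ => trivial

/- obtain ⟨c0⟩ := h -/
def x_Spec (rho m0 m1 m2 n0 n1 n2 k0 k1 k2 ku kw A0 A1 B0 B1 g0 g1 g2 g3 g4 g5 sg W : ℝ) : Prop :=
  0 ≤ (((W * ((sg ^ 2) ^ 2)) + (-1 / 16 : ℝ)) + (-1 / 16384 : ℝ))

theorem x_E {gs ps : ℕ} {sg W u2 u3 : ℝ} (h : x_R gs ps sg W u2 u3) : x_Spec (parV gs 0) (parV gs 1) (parV gs 2) (parV gs 3) (parV gs 4) (parV gs 5) (parV gs 6) (parV gs 7) (parV gs 8) (parV gs 9) (parV gs 10) (parV gs 11) (parV gs 12) (parV gs 13) (parV gs 14) (parV gs 15) (parV gs 16) (parV gs 17) (parV gs 18) (parV gs 19) (parV gs 20) (parV gs 21) sg W := by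
  delta x_R at h
  exact letR_in h fun h =>
  letR_in h fun h =>
  letR_in h fun h =>
  letR_in h fun h =>
  letR_in h fun h =>
  posR_ex h fun q1 h =>
  q1

def PB (gs : ℕ) : Prog := fun j ps x0 x1 x2 x3 =>
  Nat.rec (motive := fun _ => Bool) (a_B gs ps x0 x1 x2 x3) (fun j _ => x_B gs ps x0 x1 x2 x3) j

def PR (gs : ℕ) : ℕ → ℕ → ℝ → ℝ → ℝ → ℝ → Prop := fun j ps sg W u2 u3 =>
  Nat.rec (motive := fun _ => Prop) (a_R gs ps sg W u2 u3) (fun j _ => x_R gs ps sg W u2 u3) j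

theorem PS (gs : ℕ) : Sound (PB gs) (PR gs) := fun _ hε j => match j with
  | 0 => a_S gs hε
  | _ + 1 => x_S gs hε

theorem PE {j gs ps : ℕ} {sg W u2 u3 : ℝ} : PR gs j ps sg W u2 u3 → a_Spec (parV gs 0) (parV gs 1) (parV gs 2) (parV gs 3) (parV gs 4) (parV gs 5) (parV gs 6) (parV gs 7) (parV gs 8) (parV gs 9) (parV gs 10) (parV gs 11) (parV gs 12) (parV gs 13) (parV gs 14) (parV gs 15) (parV gs 16) (parV gs 17) (parV gs 18) (parV gs 19) (parV gs 20) (parV gs 21) sg W ∨ x_Spec (parV gs 0) (parV gs 1) (parV gs 2) (parV gs 3) (parV gs 4) (parV gs 5) (parV gs 6) (parV gs 7) (parV gs 8) (parV gs 9) (parV gs 10) (parV gs 11) (parV gs 12) (parV gs 13) (parV gs 14) (parV gs 15) (parV gs 16) (parV gs 17) (parV gs 18) (parV gs 19) (parV gs 20) (parV gs 21) sg W := match j with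
  | 0 => fun h => Or.inl (@a_E gs ps sg W u2 u3 h)
  | _ + 1 => fun h => Or.inr (@x_E gs ps sg W u2 u3 h)

theorem of_good {gs l0 h0 l1 h1 l2 h2 l3 h3 : ℕ} (h : Good (PR gs) l0 h0 l1 h1 l2 h2 l3 h3) {sg W u2 u3 : ℝ}
    (hb : InBox l0 h0 l1 h1 l2 h2 l3 h3 sg W u2 u3) : a_Spec (parV gs 0) (parV gs 1) (parV gs 2) (parV gs 3) (parV gs 4) (parV gs 5) (parV gs 6) (parV gs 7) (parV gs 8) (parV gs 9) (parV gs 10) (parV gs 11) (parV gs 12) (parV gs 13) (parV gs 14) (parV gs 15) (parV gs 16) (parV gs 17) (parV gs 18) (parV gs 19) (parV gs 20) (parV gs 21) sg W ∨ x_Spec (parV gs 0) (parV gs 1) (parV gs 2) (parV gs 3) (parV gs 4) (parV gs 5) (parV gs 6) (parV gs 7) (parV gs 8) (parV gs 9) (parV gs 10) (parV gs 11) (parV gs 12) (parV gs 13) (parV gs 14) (parV gs 15) (parV gs 16) (parV gs 17) (parV gs 18) (parV gs 19) (parV gs 20) (parV gs 21) sg W := by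
  obtain ⟨j, ps, h⟩ := h sg W u2 u3 hb
  exact PE h

def l0 : Tree := Tree.leaf 0
def l1 : Tree := Tree.leaf 1

end

end Crest.Agent.R307.HG
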