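import Crest.Agent.R307.HGP
import Crest.Agent.R307.HGs

set_option autoImplicit false
set_option maxRecDepth 100000
set_option linter.unusedVariables false

namespace Crest.Agent.R307.HG
open Crest.Agent.R307.AA

open Tree

theorem c0 : Good (PR (sh G0 0)) 4722366518054017302528 4722366533447180091392 4722366482869645213696 4722366496888418467840 4722366482869645213696 4722366482869645213696 4722366482869645213696 4722366482869645213696 :=
  run_sound (PS _) (s1 l0 l0) 0 _ _ _ _ _ _ _ _ (by decide +kernel)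

theorem c1 : Good (PR (sh G0 1)) 4722366518054017302528 4722366533447180091392 4722366482869645213696 4722366496888418467840 4722366482869645213696 4722366482869645213696 4722366482869645213696 4722366482869645213696 :=
  run_sound (PS _) (s1 (s1 (s0 (s1 (s0 (s1 l0 l0) l0) l0) (s0 l0 l0)) (s0 l0 (s0 l0 l0))) (s1 (s0 (s0 l0 l0) l0) (s0 l0 l0))) 0 _ _ _ _ _ _ _ _ (by decide +kernel)

theorem c2 : Good (PR (sh G0 2)) 4722366518054017302528 4722366533447180091392 4722366482869645213696 4722366496888418467840 4722366482869645213696 4722366482869645213696 4722366482869645213696 4722366482869645213696 :=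
  run_sound (PS _) (s1 (s1 (s0 (s1 (s0 (s1 (s0 (s1 l0 l0) l0) (s0 (s0 l0 l0) l0)) (s1 (s0 l0 l0) (s0 l0 l0))) (s0 (s1 (s0 (s0 l0 l0) l0) (s0 l0 l0)) (s1 (s0 l0 l0) (s0 l0 l0)))) (s1 (s0 (s0 (s0 l0 l0) (s0 l0 l0)) (s0 (s0 l0 l0) l0)) (s0 (s0 (s0 l0 l0) (s0 l0 l0)) (s0 (s0 l0 l0) l0)))) (s0 (s1 (s0 (s1 (s0 l0 l0) (s0 l0 l0)) (s0 (s0 l0 l0) (s0 l0 l0))) (s0 (s1 (s0 l0 l0) (s0 l0 l0)) (s0 (s0 l0 l0) (s0 l0 l0)))) (s0 (s1 (s0 (s0 l0 l0) (s0 l0 l0)) (s0 (s0 l0 l0) (s0 l0 l0))) (s1 (s0 l0 l0) (s0 l0 l0))))) (s1 (s0 (s1 (s0 (s0 (s1 l0 l0) (s0 l0 l0)) (s0 (s0 l0 l0) (s0 l0 l0))) (s0 (s0 (s0 l0 l0) (s0 l0 l0)) (s0 (s0 l0 l0) (s0 l0 l0)))) (s0 (s1 (s0 (s0 l0 l0) l0) (s0 (s0 l0 l0) l0)) (s1 (s0 l0 l0) (s0 l0 l0)))) (s0 (s0 (s1 (s0 (s0 l0 l0) (s0 l0 l0)) (s0 (s0 l0 l0) (s0 l0 l0))) (s1 (s0 (s0 l0 l0) (s0 l0 l0)) (s0 (s0 l0 l0) (s0 l0 l0)))) (s0 (s1 (s0 (s0 l0 l0) l0) (s0 (s0 l0 l0) l0)) (s1 (s0 l0 l0)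 (s0 l0 l0)))))) 0 _ _ _ _ _ _ _ _ (by decide +kernel)

theorem c3 : Good (PR (sh G0 3)) 4722366518054017302528 4722366533447180091392 4722366482869645213696 4722366496888418467840 4722366482869645213696 4722366482869645213696 4722366482869645213696 4722366482869645213696 :=
  run_sound (PS _) (s1 (s1 (s1 (s0 (s0 l0 l0) (s1 l0 l0)) (s0 (s1 l0 l0) (s1 l0 l0))) (s1 (s0 (s1 l0 l0) (s1 l0 l0)) (s0 (s1 l0 l0) (s1 l0 l0)))) (s1 (s1 (s0 (s1 l0 l0) (s1 l0 l0)) (s0 (s1 l0 l0) (s1 l0 l0))) (s1 (s0 (s1 l0 l0) (s1 l0 l0)) (s0 (s1 l0 (s0 l0 l0)) (s1 (s0 l0 l0) (s0 l0 (s1 l0 (s0 l0 l0)))))))) 0 _ _ _ _ _ _ _ _ (by decide +kernel)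

theorem c4 : Good (PR (sh G1 0)) 4722366518054017302528 4722366533447180091392 4722366496888418467840 4722366516679627767808 4722366482869645213696 4722366482869645213696 4722366482869645213696 4722366482869645213696 :=
  run_sound (PS _) (s1 l0 l0) 0 _ _ _ _ _ _ _ _ (by decide +kernel)

theorem c5 : Good (PR (sh G1 1)) 4722366518054017302528 4722366533447180091392 4722366496888418467840 4722366516679627767808 4722366482869645213696 4722366482869645213696 4722366482869645213696 4722366482869645213696 :=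
  run_sound (PS _) (s1 (s0 (s1 (s0 (s1 (s0 l0 l0) l0) l0) (s0 l0 l0)) (s1 (s0 l0 l0) (s0 l0 l0))) (s0 (s1 (s0 l0 l0) (s0 l0 l0)) (s1 (s0 l0 l0) (s0 l0 l0)))) 0 _ _ _ _ _ _ _ _ (by decide +kernel)

theorem c6 : Good (PR (sh G1 2)) 4722366518054017302528 4722366533447180091392 4722366496888418467840 4722366516679627767808 4722366482869645213696 4722366482869645213696 4722366482869645213696 4722366482869645213696 :=
  run_sound (PS _) (s1 (s1 (s1 (s1 (s0 l0 l0) (s0 l0 l0)) (s1 (s0 l0 l0) (s0 l0 l0))) (s1 (s1 (s0 l0 l0) (s0 l0 l0)) (s1 (s0 l0 l0) (s0 l0 l0)))) (s1 (s1 (s1 (s0 l0 l0) (s0 l0 l0)) (s1 (s0 l0 l0) (s0 l0 l0))) (s1 (s1 (s0 l0 l0) (s0 l0 l0)) (s1 (s0 l0 l0) (s0 l0 l0))))) 0 _ _ _ _ _ _ _ _ (by decide +kernel)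

theorem c7 : Good (PR (sh G1 3)) 4722366518054017302528 4722366533447180091392 4722366496888418467840 4722366516679627767808 4722366482869645213696 4722366482869645213696 4722366482869645213696 4722366482869645213696 :=
  run_sound (PS _) (s1 (s1 (s1 (s1 (s0 (s0 l0 l0) (s1 l0 l0)) (s0 (s0 l0 l0) (s1 l0 l0))) (s1 (s0 (s1 l0 l0) (s1 l0 l0)) (s0 (s1 l0 l0) (s1 l0 l0)))) (s1 (s1 (s0 (s1 l0 l0) (s1 l0 l0)) (s0 (s1 l0 l0) (s1 l0 l0))) (s1 (s0 (s1 l0 l0) (s1 l0 l0)) (s0 (s1 l0 l0) (s1 l0 l0))))) (s1 (s1 (s1 (s0 (s1 l0 l0) (s1 l0 l0)) (s0 (s1 l0 l0) (s0 l0 l0))) (s1 (s0 (s1 l0 l0) (s0 l0 l0)) (s0 (s0 l0 l0) (s0 l0 l0)))) (s1 (s1 (s0 (s0 l0 l0) (s1 l0 l0)) (s0 (s0 l0 l0) (s1 l0 l0))) (s1 (s0 (s1 l0 l0) (s1 l0 (s0 l0 l0))) (s0 (s1 l0 (s0 l0 l0)) (s1 (s0 l0 l0) (s0 l0 l0))))))) 0 _ _ _ _ _ _ _ _ (by decide +kernel)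

theorem c8 : Good (PR (sh G2 0)) 4722366518054017302528 4722366533447180091392 4722366516679627767808 4722366539219616137216 4722366482869645213696 4722366482869645213696 4722366482869645213696 4722366482869645213696 :=
  run_sound (PS _) l0 0 _ _ _ _ _ _ _ _ (by decide +kernel)

theorem c9 : Good (PR (sh G2 1)) 4722366518054017302528 4722366533447180091392 4722366516679627767808 4722366539219616137216 4722366482869645213696 4722366482869645213696 4722366482869645213696 4722366482869645213696 :=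
  run_sound (PS _) (s1 (s1 (s0 (s1 (s0 (s1 l0 l0) l0) (s0 l0 l0)) (s1 l0 l0)) (s0 (s1 l0 l0) (s1 (s0 l0 l0) (s0 l0 l0)))) (s1 (s0 (s1 l0 l0) (s1 l0 l0)) (s0 (s0 l0 l0) (s0 l0 l0)))) 0 _ _ _ _ _ _ _ _ (by decide +kernel)

theorem c10 : Good (PR (sh G2 2)) 4722366518054017302528 4722366533447180091392 4722366516679627767808 4722366539219616137216 4722366482869645213696 4722366482869645213696 4722366482869645213696 4722366482869645213696 :=
  run_sound (PS _) (s1 (s1 (s1 (s0 l0 l0) (s0 l0 l0)) (s1 (s0 (s0 l0 l0) (s0 l0 l0)) (s0 (s0 l0 l0) (s0 l0 l0)))) (s1 (s1 (s0 (s0 l0 l0) (s0 l0 l0)) (s0 (s0 l0 l0) (s0 l0 l0))) (s1 (s0 (s0 l0 l0) (s0 l0 l0)) (s0 (s1 l0 l0) (s1 l0 (s0 l0 l0)))))) 0 _ _ _ _ _ _ _ _ (by decide +kernel)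

theorem c11 : Good (PR (sh G2 3)) 4722366518054017302528 4722366533447180091392 4722366516679627767808 4722366539219616137216 4722366482869645213696 4722366482869645213696 4722366482869645213696 4722366482869645213696 :=
  run_sound (PS _) (s1 (s1 (s1 (s1 (s0 (s1 (s0 l0 l0) (s0 l0 l0)) (s1 (s0 l0 l0) (s0 l0 l0))) (s0 (s1 (s0 l0 l0) (s0 l0 l0)) (s1 (s0 l0 l0) (s0 l0 l0)))) (s1 (s0 (s1 (s0 l0 l0) (s0 l0 l0)) (s1 (s0 l0 l0) (s0 l0 l0))) (s0 (s1 (s0 l0 l0) (s0 l0 l0)) (s0 (s0 l0 l0) (s0 l0 l0))))) (s1 (s1 (s0 (s1 (s0 l0 l0) (s0 l0 l0)) (s0 (s0 l0 l0) (s0 l0 l0))) (s0 (s0 (s0 l0 l0) (s0 l0 l0)) (s0 (s0 l0 l0) (s0 l0 l0)))) (s0 (s1 (s0 (s0 l0 l0) (s0 l0 l0)) (s0 (s0 l0 l0) (s0 l0 l0))) (s1 (s0 (s0 l0 l0) (s0 l0 l0)) (s0 (s0 l0 l0) (s0 l0 l0)))))) (s1 (s1 (s0 (s1 (s0 (s0 l0 l0) (s0 l0 l0)) (s0 (s0 l0 l0) (s0 l0 l0))) (s1 (s0 (s0 l0 l0) (s0 l0 l0)) (s0 (s0 l0 l0) (s0 l0 l0)))) (s0 (s1 (s0 (s0 l0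 l0) (s0 l0 l0)) (s0 (s0 l0 l0) (s0 l0 l0))) (s1 (s0 (s0 l0 l0) (s0 l0 l0)) (s0 (s0 l0 l0) (s0 l0 l0))))) (s1 (s0 (s1 (s0 (s0 l0 l0) (s0 l0 l0)) (s0 (s0 l0 l0) (s0 l0 l0))) (s1 (s0 (s0 l0 l0) (s0 l0 l0)) (s0 (s0 l0 l0) (s1 l0 l0)))) (s0 (s1 (s0 (s0 l0 l0) (s0 l0 l0)) (s0 (s0 l0 l0) (s0 l0 l0))) (s1 (s0 (s0 l0 l0) (s1 l0 l0)) (s0 (s0 l0 l0) (s1 l0 l0))))))) 0 _ _ _ _ _ _ _ _ (by decide +kernel)

theorem c12 : Good (PR (sh G3 0)) 4722366518054017302528 4722366533447180091392 4722366539219616137216 4722366564508383576064 4722366482869645213696 4722366482869645213696 4722366482869645213696 4722366482869645213696 :=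
  run_sound (PS _) (s1 l0 l0) 0 _ _ _ _ _ _ _ _ (by decide +kernel)

theorem c13 : Good (PR (sh G3 1)) 4722366518054017302528 4722366533447180091392 4722366539219616137216 4722366564508383576064 4722366482869645213696 4722366482869645213696 4722366482869645213696 4722366482869645213696 :=
  run_sound (PS _) (s1 (s1 (s1 (s0 l0 l0) l0) (s1 l0 l0)) (s1 (s1 l0 l0) (s1 l0 l0))) 0 _ _ _ _ _ _ _ _ (by decide +kernel)

theorem c14 : Good (PR (sh G3 2)) 4722366518054017302528 4722366533447180091392 4722366539219616137216 4722366564508383576064 4722366482869645213696 4722366482869645213696 4722366482869645213696 4722366482869645213696 :=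
  run_sound (PS _) (s1 (s1 (s1 (s0 (s0 (s1 (s0 l0 l0) l0) (s0 l0 l0)) (s0 l0 l0)) (s0 (s0 (s0 l0 l0) l0) (s0 l0 l0))) (s0 (s1 (s0 l0 l0) (s0 l0 l0)) (s1 (s0 l0 l0) (s0 l0 l0)))) (s1 (s0 (s1 (s0 l0 l0) (s0 l0 l0)) (s1 (s0 l0 l0) (s0 l0 l0))) (s0 (s1 (s0 l0 l0) (s0 l0 l0)) (s1 (s0 l0 l0) (s0 l0 l0))))) 0 _ _ _ _ _ _ _ _ (by decide +kernel)

theorem c15 : Good (PR (sh G3 3)) 4722366518054017302528 4722366533447180091392 4722366539219616137216 4722366564508383576064 4722366482869645213696 4722366482869645213696 4722366482869645213696 4722366482869645213696 :=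
  run_sound (PS _) (s1 (s1 (s1 (s1 (s1 l0 l0) (s0 l0 l0)) (s1 (s0 l0 l0) (s0 l0 l0))) (s1 (s1 (s0 l0 l0) (s0 l0 l0)) (s1 (s0 l0 l0) (s0 l0 l0)))) (s1 (s1 (s1 (s0 l0 l0) (s0 l0 l0)) (s1 (s0 l0 l0) (s0 l0 l0))) (s1 (s1 l0 l0) (s1 l0 l0)))) 0 _ _ _ _ _ _ _ _ (by decide +kernel)

theorem c16 : Good (PR (sh G4 0)) 4722366518054017302528 4722366533447180091392 4722366564508383576064 4722366592820807991296 4722366482869645213696 4722366482869645213696 4722366482869645213696 4722366482869645213696 :=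
  run_sound (PS _) (s1 l0 l0) 0 _ _ _ _ _ _ _ _ (by decide +kernel)

theorem c17 : Good (PR (sh G4 1)) 4722366518054017302528 4722366533447180091392 4722366564508383576064 4722366592820807991296 4722366482869645213696 4722366482869645213696 4722366482869645213696 4722366482869645213696 :=
  run_sound (PS _) (s1 (s0 (s1 (s0 (s1 (s0 (s1 l0 l0) l0) l0) l0) (s0 l0 l0)) (s1 (s0 l0 l0) l0)) (s0 (s1 (s0 l0 l0) l0) (s1 l0 l0))) 0 _ _ _ _ _ _ _ _ (by decide +kernel)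

theorem c18 : Good (PR (sh G4 2)) 4722366518054017302528 4722366533447180091392 4722366564508383576064 4722366592820807991296 4722366482869645213696 4722366482869645213696 4722366482869645213696 4722366482869645213696 :=
  run_sound (PS _) (s1 (s1 (s1 (s1 l0 l0) (s1 l0 l0)) (s1 (s1 l0 l0) (s1 l0 l0))) (s1 (s1 (s1 l0 l0) (s1 l0 l0)) (s1 (s1 l0 l0) (s0 l0 l0)))) 0 _ _ _ _ _ _ _ _ (by decide +kernel)

theorem c19 : Good (PR (sh G4 3)) 4722366518054017302528 4722366533447180091392 4722366564508383576064 4722366592820807991296 4722366482869645213696 4722366482869645213696 4722366482869645213696 4722366482869645213696 :=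
  run_sound (PS _) (s1 (s1 (s1 (s1 (s0 l0 l0) (s0 l0 l0)) (s1 l0 l0)) (s1 (s1 l0 l0) (s1 l0 l0))) (s1 (s1 (s1 l0 l0) (s1 l0 l0)) (s1 (s0 l0 l0) (s0 l0 l0)))) 0 _ _ _ _ _ _ _ _ (by decide +kernel)

theorem c20 : Good (PR (sh G5 0)) 4722366533447180091392 4722366553238389391360 4722366482869645213696 4722366496888418467840 4722366482869645213696 4722366482869645213696 4722366482869645213696 4722366482869645213696 :=
  run_sound (PS _) l0 0 _ _ _ _ _ _ _ _ (by decide +kernel)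

theorem c21 : Good (PR (sh G5 1)) 4722366533447180091392 4722366553238389391360 4722366482869645213696 4722366496888418467840 4722366482869645213696 4722366482869645213696 4722366482869645213696 4722366482869645213696 :=
  run_sound (PS _) (s1 (s0 (s1 (s0 (s1 (s0 (s1 l0 l0) l0) l0) l0) (s0 l0 l0)) (s1 (s0 l0 l0) (s0 l0 l0))) (s0 (s1 (s0 l0 l0) (s0 l0 l0)) (s1 l0 (s0 l0 l0)))) 0 _ _ _ _ _ _ _ _ (by decide +kernel)

theorem c22 : Good (PR (sh G5 2)) 4722366533447180091392 4722366553238389391360 4722366482869645213696 4722366496888418467840 4722366482869645213696 4722366482869645213696 4722366482869645213696 4722366482869645213696 :=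
  run_sound (PS _) (s1 (s1 (s1 (s0 l0 l0) (s0 l0 l0)) (s1 (s0 l0 l0) (s0 l0 l0))) (s1 (s1 (s0 l0 l0) (s0 l0 l0)) (s1 (s0 l0 l0) (s0 l0 l0)))) 0 _ _ _ _ _ _ _ _ (by decide +kernel)

theorem c23 : Good (PR (sh G5 3)) 4722366533447180091392 4722366553238389391360 4722366482869645213696 4722366496888418467840 4722366482869645213696 4722366482869645213696 4722366482869645213696 4722366482869645213696 :=
  run_sound (PS _) (s1 (s1 (s1 (s0 (s1 l0 l0) (s1 l0 l0)) (s0 (s1 l0 l0) (s1 l0 l0))) (s1 (s0 (s1 l0 (s0 l0 l0)) (s1 (s0 l0 l0) (s0 l0 l0))) (s0 (s1 (s0 l0 l0) (s0 l0 l0)) (s1 (s0 l0 l0) (s0 l0 l0))))) (s1 (s1 (s0 (s1 (s0 l0 l0) (s0 l0 l0)) (s1 (s0 l0 l0) l0)) (s0 (s1 (s0 l0 l0) (s0 l0 l0)) (s1 l0 l0))) (s1 (s0 (s1 (s0 l0 l0) (s0 l0 l0)) (s1 (s0 l0 l0) (s0 l0 l0))) (s0 (s1 (s0 l0 l0) (s0 l0 l0)) (s1 (s0 l0 l0) (s0 l0 (s1 l0 l0))))))) 0 _ _ _ _ _ _ _ _ (by decide +kernel)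

theorem c24 : Good (PR (sh G6 0)) 4722366533447180091392 4722366553238389391360 4722366496888418467840 4722366516679627767808 4722366482869645213696 4722366482869645213696 4722366482869645213696 4722366482869645213696 :=
  run_sound (PS _) (s1 l0 l0) 0 _ _ _ _ _ _ _ _ (by decide +kernel)

theorem c25 : Good (PR (sh G6 1)) 4722366533447180091392 4722366553238389391360 4722366496888418467840 4722366516679627767808 4722366482869645213696 4722366482869645213696 4722366482869645213696 4722366482869645213696 :=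
  run_sound (PS _) (s1 (s0 (s1 (s0 (s1 l0 l0) l0) (s0 l0 l0)) (s1 (s0 l0 l0) (s0 l0 l0))) (s0 (s1 (s0 l0 l0) (s0 l0 l0)) (s1 (s0 l0 l0) (s0 l0 l0)))) 0 _ _ _ _ _ _ _ _ (by decide +kernel)

theorem c26 : Good (PR (sh G6 2)) 4722366533447180091392 4722366553238389391360 4722366496888418467840 4722366516679627767808 4722366482869645213696 4722366482869645213696 4722366482869645213696 4722366482869645213696 :=
  run_sound (PS _) (s1 (s1 (s0 (s1 (s0 l0 l0) (s0 l0 l0)) (s1 (s0 l0 (s0 l0 l0)) (s0 l0 (s0 l0 l0)))) (s0 (s1 (s0 l0 l0) (s0 l0 l0)) (s1 (s0 l0 (s0 l0 l0)) (s0 (s0 l0 l0) (s0 l0 l0))))) (s1 (s0 (s1 (s0 l0 l0) (s0 l0 l0)) (s1 (s0 (s0 l0 l0) (s0 l0 l0)) (s0 (s0 l0 l0) (s0 l0 l0)))) (s0 (s1 (s0 l0 l0) (s0 l0 (s0 l0 l0))) (s1 (s0 (s0 l0 l0) (s0 l0 l0)) (s0 (s0 l0 l0) (s1 l0 l0)))))) 0 _ _ _ _ _ _ _ _ (by decide +kernel)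

theorem c27 : Good (PR (sh G6 3)) 4722366533447180091392 4722366553238389391360 4722366496888418467840 4722366516679627767808 4722366482869645213696 4722366482869645213696 4722366482869645213696 4722366482869645213696 :=
  run_sound (PS _) (s1 (s1 (s1 (s0 (s1 l0 (s0 l0 l0)) (s1 (s0 l0 l0) (s0 l0 l0))) (s0 (s1 (s0 l0 l0) (s0 l0 l0)) (s1 (s0 l0 l0) (s0 l0 l0)))) (s1 (s0 (s1 (s0 l0 l0) (s0 l0 l0)) (s1 (s0 l0 l0) (s0 l0 l0))) (s0 (s1 (s0 l0 l0) (s0 l0 l0)) (s1 (s0 l0 l0) (s0 l0 l0))))) (s1 (s1 (s0 (s1 (s0 l0 l0) (s0 l0 l0)) (s1 (s0 l0 l0) (s0 l0 l0))) (s0 (s1 (s0 l0 l0) (s0 l0 l0)) (s1 (s0 l0 l0) (s0 l0 l0)))) (s1 (s0 (s1 (s0 l0 l0) (s0 l0 l0)) (s1 (s0 l0 l0) (s0 l0 l0))) (s0 (s1 (s0 l0 l0) (s0 l0 l0)) (s1 (s0 l0 (s0 l0 l0)) (s0 (s0 l0 l0) (s1 l0 (s0 l0 l0)))))))) 0 _ _ _ _ _ _ _ _ (by decide +kernel)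

theorem c28 : Good (PR (sh G7 0)) 4722366533447180091392 4722366553238389391360 4722366516679627767808 4722366539219616137216 4722366482869645213696 4722366482869645213696 4722366482869645213696 4722366482869645213696 :=
  run_sound (PS _) l0 0 _ _ _ _ _ _ _ _ (by decide +kernel)

theorem c29 : Good (PR (sh G7 1)) 4722366533447180091392 4722366553238389391360 4722366516679627767808 4722366539219616137216 4722366482869645213696 4722366482869645213696 4722366482869645213696 4722366482869645213696 :=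
  run_sound (PS _) (s1 (s1 (s0 (s1 (s0 l0 l0) l0) (s1 l0 l0)) (s0 (s0 l0 l0) (s1 l0 l0))) (s1 (s0 (s0 l0 l0) (s0 l0 l0)) (s0 (s0 l0 l0) (s0 l0 l0)))) 0 _ _ _ _ _ _ _ _ (by decide +kernel)

theorem c30 : Good (PR (sh G7 2)) 4722366533447180091392 4722366553238389391360 4722366516679627767808 4722366539219616137216 4722366482869645213696 4722366482869645213696 4722366482869645213696 4722366482869645213696 :=
  run_sound (PS _) (s1 (s1 (s1 (s0 (s0 l0 l0) l0) (s0 (s0 l0 l0) (s0 l0 l0))) (s1 (s0 (s0 l0 l0) (s0 l0 l0)) (s0 (s0 l0 l0) (s0 l0 l0)))) (s1 (s1 (s0 (s0 l0 l0) (s0 l0 l0)) (s0 (s0 l0 l0) (s0 l0 l0))) (s1 (s0 (s0 l0 l0) (s0 l0 l0)) (s0 (s0 l0 l0) (s0 l0 l0))))) 0 _ _ _ _ _ _ _ _ (by decide +kernel)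

theorem c31 : Good (PR (sh G7 3)) 4722366533447180091392 4722366553238389391360 4722366516679627767808 4722366539219616137216 4722366482869645213696 4722366482869645213696 4722366482869645213696 4722366482869645213696 :=
  run_sound (PS _) (s1 (s1 (s1 (s0 (s1 (s0 l0 l0) (s0 l0 l0)) (s1 (s0 l0 l0) (s0 l0 l0))) (s0 (s1 (s0 l0 l0) (s0 l0 l0)) (s1 (s0 l0 l0) (s0 l0 l0)))) (s1 (s0 (s1 (s0 l0 l0) (s0 l0 l0)) (s1 (s0 l0 l0) (s0 l0 l0))) (s0 (s1 (s0 l0 l0) (s0 l0 l0)) (s1 (s0 l0 l0) (s0 l0 l0))))) (s1 (s1 (s0 (s1 (s0 l0 l0) (s0 l0 l0)) (s1 (s0 l0 l0) (s0 l0 l0))) (s0 (s1 (s0 l0 l0) (s0 l0 l0)) (s1 (s0 l0 l0) (s0 l0 l0)))) (s1 (s0 (s1 (s0 l0 l0) (s0 l0 l0)) (s1 (s0 l0 l0) (s0 l0 l0))) (s0 (s1 (s0 l0 l0) (s0 l0 l0)) (s1 (s0 l0 (s0 l0 l0)) (s0 (s0 l0 l0) (s1 l0 l0))))))) 0 _ _ _ _ _ _ _ _ (by decide +kernel)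

theorem c32 : Good (PR (sh G8 0)) 4722366533447180091392 4722366553238389391360 4722366539219616137216 4722366564508383576064 4722366482869645213696 4722366482869645213696 4722366482869645213696 4722366482869645213696 :=
  run_sound (PS _) (s0 l0 l0) 0 _ _ _ _ _ _ _ _ (by decide +kernel)

theorem c33 : Good (PR (sh G8 1)) 4722366533447180091392 4722366553238389391360 4722366539219616137216 4722366564508383576064 4722366482869645213696 4722366482869645213696 4722366482869645213696 4722366482869645213696 :=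
  run_sound (PS _) (s1 (s1 (s0 (s1 (s0 l0 l0) l0) (s0 l0 l0)) (s0 (s0 l0 l0) (s0 l0 l0))) (s1 (s0 (s0 l0 l0) (s0 l0 l0)) (s0 (s0 l0 l0) (s0 l0 l0)))) 0 _ _ _ _ _ _ _ _ (by decide +kernel)

theorem c34 : Good (PR (sh G8 2)) 4722366533447180091392 4722366553238389391360 4722366539219616137216 4722366564508383576064 4722366482869645213696 4722366482869645213696 4722366482869645213696 4722366482869645213696 :=
  run_sound (PS _) (s1 (s1 (s0 (s1 l0 l0) (s1 l0 (s0 l0 l0))) (s0 (s1 (s0 l0 l0) (s0 l0 l0)) (s1 (s0 l0 l0) (s0 l0 l0)))) (s1 (s0 (s1 (s0 l0 l0) (s0 l0 l0)) (s1 (s0 l0 l0) (s0 l0 l0))) (s0 (s1 (s0 l0 l0) (s0 l0 l0)) (s1 (s0 l0 l0) (s0 (s0 l0 l0) (s1 l0 l0)))))) 0 _ _ _ _ _ _ _ _ (by decide +kernel)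

theorem c35 : Good (PR (sh G8 3)) 4722366533447180091392 4722366553238389391360 4722366539219616137216 4722366564508383576064 4722366482869645213696 4722366482869645213696 4722366482869645213696 4722366482869645213696 :=
  run_sound (PS _) (s1 (s1 (s1 (s1 (s0 l0 l0) (s0 l0 l0)) (s1 (s0 l0 l0) (s0 l0 l0))) (s1 (s1 (s0 l0 l0) (s0 l0 l0)) (s1 (s0 l0 l0) (s0 l0 l0)))) (s1 (s1 (s1 (s0 l0 l0) (s0 l0 l0)) (s1 (s0 l0 l0) (s0 l0 l0))) (s1 (s1 (s0 l0 l0) (s0 l0 l0)) (s1 (s0 l0 l0) (s0 l0 l0))))) 0 _ _ _ _ _ _ _ _ (by decide +kernel)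

theorem c36 : Good (PR (sh G9 0)) 4722366533447180091392 4722366553238389391360 4722366564508383576064 4722366592820807991296 4722366482869645213696 4722366482869645213696 4722366482869645213696 4722366482869645213696 :=
  run_sound (PS _) (s1 l0 l0) 0 _ _ _ _ _ _ _ _ (by decide +kernel)

theorem c37 : Good (PR (sh G9 1)) 4722366533447180091392 4722366553238389391360 4722366564508383576064 4722366592820807991296 4722366482869645213696 4722366482869645213696 4722366482869645213696 4722366482869645213696 :=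
  run_sound (PS _) (s0 (s1 (s0 (s1 (s0 (s1 (s0 (s1 l0 l0) l0) l0) l0) (s0 l0 l0)) (s1 l0 l0)) (s0 (s1 l0 l0) (s1 l0 l0))) (s1 (s0 (s1 l0 l0) l0) (s0 l0 l0))) 0 _ _ _ _ _ _ _ _ (by decide +kernel)

theorem c38 : Good (PR (sh G9 2)) 4722366533447180091392 4722366553238389391360 4722366564508383576064 4722366592820807991296 4722366482869645213696 4722366482869645213696 4722366482869645213696 4722366482869645213696 :=
  run_sound (PS _) (s1 (s1 (s1 (s0 l0 l0) (s0 l0 l0)) (s1 (s0 l0 l0) (s0 l0 l0))) (s1 (s1 (s0 l0 l0) (s0 l0 l0)) (s1 (s0 l0 l0) (s0 l0 l0)))) 0 _ _ _ _ _ _ _ _ (by decide +kernel)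

theorem c39 : Good (PR (sh G9 3)) 4722366533447180091392 4722366553238389391360 4722366564508383576064 4722366592820807991296 4722366482869645213696 4722366482869645213696 4722366482869645213696 4722366482869645213696 :=
  run_sound (PS _) (s1 (s1 (s1 (s1 l0 l0) (s1 l0 l0)) (s1 (s1 l0 l0) (s0 l0 l0))) (s1 (s1 (s0 l0 l0) (s0 l0 l0)) (s1 (s0 l0 l0) (s0 l0 l0)))) 0 _ _ _ _ _ _ _ _ (by decide +kernel)

theorem c40 : Good (PR (sh G10 0)) 4722366553238389391360 4722366575778377760768 4722366482869645213696 4722366496888418467840 4722366482869645213696 4722366482869645213696 4722366482869645213696 4722366482869645213696 :=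
  run_sound (PS _) l0 0 _ _ _ _ _ _ _ _ (by decide +kernel)

theorem c41 : Good (PR (sh G10 1)) 4722366553238389391360 4722366575778377760768 4722366482869645213696 4722366496888418467840 4722366482869645213696 4722366482869645213696 4722366482869645213696 4722366482869645213696 :=
  run_sound (PS _) (s1 (s0 (s1 (s0 (s1 (s0 l0 l0) l0) l0) (s0 l0 l0)) (s1 (s0 l0 l0) (s0 l0 l0))) (s0 (s1 (s0 l0 l0) (s0 l0 l0)) (s1 (s0 l0 l0) (s0 l0 l0)))) 0 _ _ _ _ _ _ _ _ (by decide +kernel)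

theorem c42 : Good (PR (sh G10 2)) 4722366553238389391360 4722366575778377760768 4722366482869645213696 4722366496888418467840 4722366482869645213696 4722366482869645213696 4722366482869645213696 4722366482869645213696 :=
  run_sound (PS _) (s1 (s0 (s0 (s1 (s0 l0 l0) (s0 l0 l0)) (s1 (s0 l0 l0) (s0 l0 l0))) (s1 (s0 (s0 l0 l0) (s1 (s0 l0 l0) (s0 l0 l0))) (s0 (s0 l0 l0) (s1 (s0 l0 l0) (s0 l0 l0))))) (s0 (s0 (s1 (s0 l0 l0) (s0 l0 l0)) (s1 (s0 l0 l0) (s0 l0 l0))) (s1 (s0 (s0 l0 l0) (s0 l0 (s0 l0 l0))) (s0 (s0 l0 l0) (s0 l0 (s0 l0 l0)))))) 0 _ _ _ _ _ _ _ _ (by decide +kernel)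

theorem c43 : Good (PR (sh G10 3)) 4722366553238389391360 4722366575778377760768 4722366482869645213696 4722366496888418467840 4722366482869645213696 4722366482869645213696 4722366482869645213696 4722366482869645213696 :=
  run_sound (PS _) (s1 (s1 (s1 (s0 (s1 l0 l0) (s1 (s0 l0 l0) (s0 l0 l0))) (s0 (s1 l0 (s0 l0 l0)) (s1 (s0 l0 l0) (s0 l0 l0)))) (s1 (s0 (s1 (s0 l0 l0) (s0 l0 l0)) (s1 (s0 l0 l0) (s0 l0 l0))) (s0 (s1 (s0 l0 l0) (s0 l0 l0)) (s1 (s0 l0 l0) (s0 l0 l0))))) (s1 (s1 (s0 (s1 (s0 l0 l0) (s0 l0 l0)) (s1 (s0 l0 l0) (s0 l0 l0))) (s0 (s1 (s0 l0 l0) (s0 l0 l0)) (s1 (s0 l0 l0) (s0 l0 l0)))) (s1 (s0 (s1 (s0 l0 l0) (s0 l0 l0)) (s1 (s0 l0 l0) (s0 l0 l0))) (s0 (s1 (s0 l0 l0) (s0 l0 l0)) (s1 (s0 l0 l0) (s0 l0 (s0 l0 l0))))))) 0 _ _ _ _ _ _ _ _ (by decide +kernel)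

theorem c44 : Good (PR (sh G11 0)) 4722366553238389391360 4722366575778377760768 4722366496888418467840 4722366516679627767808 4722366482869645213696 4722366482869645213696 4722366482869645213696 4722366482869645213696 :=
  run_sound (PS _) l0 0 _ _ _ _ _ _ _ _ (by decide +kernel)

theorem c45 : Good (PR (sh G11 1)) 4722366553238389391360 4722366575778377760768 4722366496888418467840 4722366516679627767808 4722366482869645213696 4722366482869645213696 4722366482869645213696 4722366482869645213696 :=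
  run_sound (PS _) (s1 (s1 (s0 (s1 (s0 l0 l0) l0) (s0 l0 l0)) (s0 (s0 l0 l0) (s0 l0 l0))) (s1 (s0 (s0 l0 l0) (s0 l0 l0)) (s0 (s0 l0 l0) (s0 l0 l0)))) 0 _ _ _ _ _ _ _ _ (by decide +kernel)

theorem c46 : Good (PR (sh G11 2)) 4722366553238389391360 4722366575778377760768 4722366496888418467840 4722366516679627767808 4722366482869645213696 4722366482869645213696 4722366482869645213696 4722366482869645213696 :=
  run_sound (PS _) (s1 (s1 (s0 (s1 (s0 l0 l0) (s0 l0 l0)) (s1 (s0 l0 l0) (s0 l0 l0))) (s0 (s1 (s0 l0 l0) (s0 l0 l0)) (s1 (s0 l0 l0) (s0 l0 l0)))) (s1 (s0 (s1 (s0 l0 l0) (s0 l0 l0)) (s1 (s0 l0 l0) (s0 l0 l0))) (s0 (s1 (s0 l0 l0) (s0 l0 l0)) (s1 (s0 l0 l0) (s0 l0 l0))))) 0 _ _ _ _ _ _ _ _ (by decide +kernel)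

theorem c47 : Good (PR (sh G11 3)) 4722366553238389391360 4722366575778377760768 4722366496888418467840 4722366516679627767808 4722366482869645213696 4722366482869645213696 4722366482869645213696 4722366482869645213696 :=
  run_sound (PS _) (s1 (s1 (s1 (s0 (s0 l0 l0) (s0 l0 l0)) (s0 (s0 l0 l0) (s1 l0 l0))) (s1 (s0 (s1 l0 l0) (s1 l0 l0)) (s0 (s1 l0 l0) (s1 l0 l0)))) (s1 (s1 (s0 (s1 l0 l0) (s1 l0 l0)) (s0 (s0 l0 l0) (s1 l0 l0))) (s1 (s0 (s1 l0 l0) (s1 l0 l0)) (s0 (s1 (s0 l0 l0) (s0 (s1 l0 l0) l0)) (s1 l0 l0))))) 0 _ _ _ _ _ _ _ _ (by decide +kernel)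

theorem c48 : Good (PR (sh G12 0)) 4722366553238389391360 4722366575778377760768 4722366516679627767808 4722366539219616137216 4722366482869645213696 4722366482869645213696 4722366482869645213696 4722366482869645213696 :=
  run_sound (PS _) (s0 l0 l0) 0 _ _ _ _ _ _ _ _ (by decide +kernel)

theorem c49 : Good (PR (sh G12 1)) 4722366553238389391360 4722366575778377760768 4722366516679627767808 4722366539219616137216 4722366482869645213696 4722366482869645213696 4722366482869645213696 4722366482869645213696 :=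
  run_sound (PS _) (s1 (s1 (s0 l0 l0) (s0 l0 l0)) (s1 (s0 l0 l0) (s0 l0 l0))) 0 _ _ _ _ _ _ _ _ (by decide +kernel)

theorem c50 : Good (PR (sh G12 2)) 4722366553238389391360 4722366575778377760768 4722366516679627767808 4722366539219616137216 4722366482869645213696 4722366482869645213696 4722366482869645213696 4722366482869645213696 :=
  run_sound (PS _) (s1 (s0 (s1 (s0 (s1 l0 l0) (s1 l0 l0)) (s0 (s1 l0 l0) (s1 l0 l0))) (s1 (s0 (s1 l0 (s0 l0 l0)) (s1 (s0 l0 l0) (s0 l0 l0))) (s0 (s1 (s0 l0 l0) (s0 l0 l0)) (s1 (s0 l0 l0) (s0 l0 l0))))) (s0 (s1 (s0 (s1 l0 l0) (s1 l0 l0)) (s0 (s1 l0 l0) (s1 l0 l0))) (s1 (s0 (s1 (s0 l0 l0) (s0 l0 l0)) (s1 (s0 l0 l0) (s0 l0 l0))) (s0 (s1 (s0 l0 l0) (s0 l0 l0)) (s1 (s0 l0 l0) (s0 l0 l0)))))) 0 _ _ _ _ _ _ _ _ (by decide +kernel)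

theorem c51 : Good (PR (sh G12 3)) 4722366553238389391360 4722366575778377760768 4722366516679627767808 4722366539219616137216 4722366482869645213696 4722366482869645213696 4722366482869645213696 4722366482869645213696 :=
  run_sound (PS _) (s1 (s1 (s1 (s0 (s0 l0 l0) (s0 l0 l0)) (s0 (s1 l0 l0) (s1 l0 l0))) (s1 (s0 (s1 l0 l0) (s1 l0 l0)) (s0 (s1 l0 l0) (s1 l0 l0)))) (s1 (s1 (s0 (s1 l0 l0) (s1 l0 l0)) (s0 (s1 l0 l0) (s1 l0 l0))) (s1 (s0 (s1 l0 l0) (s1 l0 l0)) (s1 (s0 l0 l0) (s0 (s1 l0 (s0 l0 l0)) (s0 l0 l0)))))) 0 _ _ _ _ _ _ _ _ (by decide +kernel)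

theorem c52 : Good (PR (sh G13 0)) 4722366553238389391360 4722366575778377760768 4722366539219616137216 4722366564508383576064 4722366482869645213696 4722366482869645213696 4722366482869645213696 4722366482869645213696 :=
  run_sound (PS _) l0 0 _ _ _ _ _ _ _ _ (by decide +kernel)

theorem c53 : Good (PR (sh G13 1)) 4722366553238389391360 4722366575778377760768 4722366539219616137216 4722366564508383576064 4722366482869645213696 4722366482869645213696 4722366482869645213696 4722366482869645213696 :=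
  run_sound (PS _) (s1 (s1 (s0 (s1 l0 l0) (s0 l0 l0)) (s0 (s0 l0 l0) (s0 l0 l0))) (s1 (s0 (s0 l0 l0) l0) (s0 l0 l0))) 0 _ _ _ _ _ _ _ _ (by decide +kernel)

theorem c54 : Good (PR (sh G13 2)) 4722366553238389391360 4722366575778377760768 4722366539219616137216 4722366564508383576064 4722366482869645213696 4722366482869645213696 4722366482869645213696 4722366482869645213696 :=
  run_sound (PS _) (s1 (s1 (s0 (s1 l0 l0) (s1 l0 l0)) (s0 (s1 l0 l0) (s1 l0 l0))) (s1 (s0 (s1 l0 l0) (s1 l0 l0)) (s0 (s1 l0 l0) (s1 l0 l0)))) 0 _ _ _ _ _ _ _ _ (by decide +kernel)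

theorem c55 : Good (PR (sh G13 3)) 4722366553238389391360 4722366575778377760768 4722366539219616137216 4722366564508383576064 4722366482869645213696 4722366482869645213696 4722366482869645213696 4722366482869645213696 :=
  run_sound (PS _) (s1 (s1 (s1 (s0 (s1 (s0 l0 l0) l0) (s1 (s0 l0 l0) (s0 l0 l0))) (s0 (s1 l0 (s0 l0 l0)) (s1 (s0 l0 l0) (s0 l0 l0)))) (s1 (s0 (s1 (s0 l0 l0) (s0 l0 l0)) (s1 (s0 l0 l0) (s0 l0 l0))) (s0 (s1 l0 l0) (s1 (s0 l0 l0) (s0 l0 l0))))) (s1 (s1 (s0 (s1 l0 l0) (s1 (s0 l0 l0) (s0 l0 l0))) (s0 (s1 l0 l0) (s1 (s0 l0 l0) (s0 l0 l0)))) (s1 (s0 (s1 l0 l0) (s1 (s0 l0 l0) (s0 l0 l0))) (s0 (s1 l0 l0) (s1 (s0 l0 l0) (s0 l0 l0)))))) 0 _ _ _ _ _ _ _ _ (by decide +kernel)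

theorem c56 : Good (PR (sh G14 0)) 4722366553238389391360 4722366575778377760768 4722366564508383576064 4722366592820807991296 4722366482869645213696 4722366482869645213696 4722366482869645213696 4722366482869645213696 :=
  run_sound (PS _) (s1 l0 l0) 0 _ _ _ _ _ _ _ _ (by decide +kernel)

theorem c57 : Good (PR (sh G14 1)) 4722366553238389391360 4722366575778377760768 4722366564508383576064 4722366592820807991296 4722366482869645213696 4722366482869645213696 4722366482869645213696 4722366482869645213696 :=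
  run_sound (PS _) (s0 (s1 (s0 (s1 (s0 l0 l0) (s0 l0 l0)) (s1 l0 l0)) (s0 (s1 (s0 l0 l0) (s0 l0 l0)) (s1 l0 l0))) (s0 (s1 (s1 l0 l0) (s1 l0 l0)) (s1 l0 l0))) 0 _ _ _ _ _ _ _ _ (by decide +kernel)

theorem c58 : Good (PR (sh G14 2)) 4722366553238389391360 4722366575778377760768 4722366564508383576064 4722366592820807991296 4722366482869645213696 4722366482869645213696 4722366482869645213696 4722366482869645213696 :=
  run_sound (PS _) (s1 (s0 (s1 (s0 l0 (s0 l0 l0)) (s0 (s0 l0 l0) (s0 l0 l0))) (s1 (s0 (s0 l0 l0) (s1 l0 l0)) (s0 (s1 l0 l0) (s1 l0 l0)))) (s0 (s1 (s0 (s0 l0 l0) (s1 l0 l0)) (s0 (s1 l0 l0) (s1 l0 l0))) (s1 (s0 (s1 l0 l0) (s1 l0 l0)) (s0 (s1 l0 l0) (s1 (s0 l0 l0) (s0 l0 (s0 l0 l0))))))) 0 _ _ _ _ _ _ _ _ (by decide +kernel)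

theorem c59 : Good (PR (sh G14 3)) 4722366553238389391360 4722366575778377760768 4722366564508383576064 4722366592820807991296 4722366482869645213696 4722366482869645213696 4722366482869645213696 4722366482869645213696 :=
  run_sound (PS _) (s1 (s1 (s1 (s1 (s0 l0 l0) (s0 l0 l0)) (s0 (s0 l0 l0) (s0 l0 l0))) (s1 (s0 (s0 l0 l0) (s0 l0 l0)) (s0 l0 l0))) (s1 (s1 (s0 l0 l0) (s0 l0 l0)) (s1 (s0 l0 l0) (s0 l0 l0)))) 0 _ _ _ _ _ _ _ _ (by decide +kernel)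

theorem c60 : Good (PR (sh G15 0)) 4722366575778377760768 4722366601067145199616 4722366482869645213696 4722366496888418467840 4722366482869645213696 4722366482869645213696 4722366482869645213696 4722366482869645213696 :=
  run_sound (PS _) l0 0 _ _ _ _ _ _ _ _ (by decide +kernel)

theorem c61 : Good (PR (sh G15 1)) 4722366575778377760768 4722366601067145199616 4722366482869645213696 4722366496888418467840 4722366482869645213696 4722366482869645213696 4722366482869645213696 4722366482869645213696 :=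
  run_sound (PS _) (s0 (s1 (s0 (s1 (s0 l0 l0) l0) (s0 l0 l0)) (s0 (s0 l0 l0) (s0 l0 l0))) (s1 (s0 (s0 l0 l0) (s0 l0 l0)) (s0 (s0 l0 l0) (s0 l0 l0)))) 0 _ _ _ _ _ _ _ _ (by decide +kernel)

theorem c62 : Good (PR (sh G15 2)) 4722366575778377760768 4722366601067145199616 4722366482869645213696 4722366496888418467840 4722366482869645213696 4722366482869645213696 4722366482869645213696 4722366482869645213696 :=
  run_sound (PS _) (s1 (s1 (s0 (s1 (s0 l0 l0) (s0 l0 l0)) (s0 (s1 l0 l0) (s1 l0 l0))) (s0 (s1 (s0 l0 l0) (s0 l0 l0)) (s0 (s0 l0 l0) (s0 l0 l0)))) (s0 (s1 (s1 (s0 l0 l0) (s0 l0 l0)) (s1 (s0 l0 l0) (s0 l0 l0))) (s1 (s0 (s0 l0 l0) (s0 l0 l0)) (s0 (s0 l0 l0) (s0 l0 l0))))) 0 _ _ _ _ _ _ _ _ (by decide +kernel)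

theorem c63 : Good (PR (sh G15 3)) 4722366575778377760768 4722366601067145199616 4722366482869645213696 4722366496888418467840 4722366482869645213696 4722366482869645213696 4722366482869645213696 4722366482869645213696 :=
  run_sound (PS _) (s1 (s1 (s0 (s1 (s0 (s0 l0 l0) (s0 l0 l0)) (s0 (s0 l0 l0) (s0 l0 l0))) (s1 (s0 (s0 l0 l0) l0) (s0 (s0 l0 l0) (s0 l0 l0)))) (s0 (s1 (s0 (s0 l0 l0) (s0 l0 l0)) (s0 (s0 l0 l0) (s0 l0 l0))) (s1 (s0 (s0 l0 l0) (s0 l0 l0)) (s0 (s0 l0 l0) (s0 l0 l0))))) (s1 (s0 (s1 (s0 (s0 l0 l0) (s0 l0 l0)) (s0 (s0 l0 l0) (s0 l0 l0))) (s1 (s0 (s0 l0 l0) (s0 l0 l0)) (s0 (s0 l0 l0) (s0 l0 l0)))) (s0 (s1 (s0 (s1 l0 l0) (s0 l0 l0)) (s0 (s1 l0 l0) (s0 l0 l0))) (s1 (s0 (s0 l0 l0) (s0 l0 l0)) (s0 (s0 l0 l0) (s0 l0 l0)))))) 0 _ _ _ _ _ _ _ _ (by decide +kernel)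

theorem c64 : Good (PR (sh G16 0)) 4722366575778377760768 4722366601067145199616 4722366496888418467840 4722366516679627767808 4722366482869645213696 4722366482869645213696 4722366482869645213696 4722366482869645213696 :=
  run_sound (PS _) (s0 l0 l0) 0 _ _ _ _ _ _ _ _ (by decide +kernel)

theorem c65 : Good (PR (sh G16 1)) 4722366575778377760768 4722366601067145199616 4722366496888418467840 4722366516679627767808 4722366482869645213696 4722366482869645213696 4722366482869645213696 4722366482869645213696 :=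
  run_sound (PS _) (s0 (s1 (s0 (s1 (s0 l0 l0) l0) (s0 l0 l0)) (s0 (s0 l0 l0) (s0 l0 l0))) (s1 (s0 (s0 l0 l0) (s0 l0 l0)) (s0 (s0 l0 l0) (s0 l0 l0)))) 0 _ _ _ _ _ _ _ _ (by decide +kernel)

theorem c66 : Good (PR (sh G16 2)) 4722366575778377760768 4722366601067145199616 4722366496888418467840 4722366516679627767808 4722366482869645213696 4722366482869645213696 4722366482869645213696 4722366482869645213696 :=
  run_sound (PS _) (s1 (s0 (s1 (s0 (s0 l0 l0) (s0 l0 l0)) (s0 (s0 l0 l0) (s0 l0 l0))) (s1 (s0 (s0 l0 l0) (s1 l0 l0)) (s0 (s0 l0 l0) (s1 l0 l0)))) (s0 (s1 (s0 (s0 l0 l0) (s0 l0 l0)) (s0 (s0 l0 l0) (s0 l0 l0))) (s1 (s0 (s0 l0 l0) (s1 l0 l0)) (s0 (s1 l0 l0) (s1 l0 l0))))) 0 _ _ _ _ _ _ _ _ (by decide +kernel)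

theorem c67 : Good (PR (sh G16 3)) 4722366575778377760768 4722366601067145199616 4722366496888418467840 4722366516679627767808 4722366482869645213696 4722366482869645213696 4722366482869645213696 4722366482869645213696 :=
  run_sound (PS _) (s1 (s1 (s1 (s0 (s1 (s0 l0 l0) (s0 l0 l0)) (s0 (s1 l0 l0) (s1 l0 l0))) (s0 (s1 (s0 l0 l0) (s0 l0 l0)) (s0 (s1 l0 l0) (s1 l0 l0)))) (s0 (s1 (s0 (s1 l0 l0) (s1 l0 l0)) (s0 (s1 l0 l0) (s1 l0 l0))) (s1 (s0 (s1 l0 l0) (s1 l0 l0)) (s0 (s1 l0 l0) (s1 l0 l0))))) (s1 (s0 (s1 (s0 (s1 l0 l0) (s1 l0 l0)) (s0 (s1 l0 l0) (s1 l0 l0))) (s1 (s0 (s1 l0 l0) (s1 l0 l0)) (s0 (s1 l0 l0) (s1 l0 l0)))) (s0 (s1 (s0 (s1 l0 (s0 l0 l0)) (s1 l0 l0)) (s0 (s1 (s0 l0 l0) (s0 l0 l0)) (s1 l0 l0))) (s1 (s0 (s1 l0 l0) (s1 l0 l0)) (s0 (s1 l0 l0) (s1 l0 l0)))))) 0 _ _ _ _ _ _ _ _ (by decide +kernel)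

theorem c68 : Good (PR (sh G17 0)) 4722366575778377760768 4722366601067145199616 4722366516679627767808 4722366539219616137216 4722366482869645213696 4722366482869645213696 4722366482869645213696 4722366482869645213696 :=
  run_sound (PS _) (s0 l0 l0) 0 _ _ _ _ _ _ _ _ (by decide +kernel)

theorem c69 : Good (PR (sh G17 1)) 4722366575778377760768 4722366601067145199616 4722366516679627767808 4722366539219616137216 4722366482869645213696 4722366482869645213696 4722366482869645213696 4722366482869645213696 :=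
  run_sound (PS _) (s1 (s0 (s1 (s0 l0 l0) (s0 l0 l0)) (s1 (s0 l0 l0) (s0 l0 l0))) (s0 (s1 (s0 l0 l0) (s0 l0 l0)) (s1 (s0 l0 l0) (s0 l0 l0)))) 0 _ _ _ _ _ _ _ _ (by decide +kernel)

theorem c70 : Good (PR (sh G17 2)) 4722366575778377760768 4722366601067145199616 4722366516679627767808 4722366539219616137216 4722366482869645213696 4722366482869645213696 4722366482869645213696 4722366482869645213696 :=
  run_sound (PS _) (s1 (s1 (s0 (s1 (s0 l0 l0) (s0 l0 l0)) (s1 (s0 l0 l0) (s0 l0 l0))) (s0 (s1 (s0 l0 l0) (s0 l0 l0)) (s1 (s0 l0 l0) (s0 l0 l0)))) (s1 (s0 (s1 (s0 l0 l0) (s0 l0 l0)) (s1 (s0 l0 l0) (s0 l0 l0))) (s0 (s1 (s0 l0 l0) (s0 l0 l0)) (s1 (s0 l0 l0) (s0 l0 l0))))) 0 _ _ _ _ _ _ _ _ (by decide +kernel)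

theorem c71 : Good (PR (sh G17 3)) 4722366575778377760768 4722366601067145199616 4722366516679627767808 4722366539219616137216 4722366482869645213696 4722366482869645213696 4722366482869645213696 4722366482869645213696 :=
  run_sound (PS _) (s1 (s1 (s0 (s1 (s0 (s1 l0 l0) (s1 l0 l0)) (s0 (s1 l0 l0) (s1 l0 l0))) (s1 (s0 (s1 l0 l0) (s0 l0 l0)) (s0 (s1 l0 l0) (s0 l0 l0)))) (s0 (s1 (s0 (s1 l0 l0) (s1 l0 l0)) (s0 (s1 l0 l0) (s1 l0 l0))) (s1 (s0 (s1 l0 l0) (s1 l0 l0)) (s0 (s1 l0 l0) (s1 l0 l0))))) (s1 (s0 (s1 (s0 (s1 l0 l0) (s1 l0 l0)) (s0 (s1 l0 l0) (s1 l0 l0))) (s1 (s0 (s1 l0 l0) (s1 l0 l0)) (s0 (s1 l0 l0) (s1 l0 l0)))) (s0 (s1 (s0 (s1 l0 l0) (s1 l0 l0)) (s0 (s1 (s0 l0 l0) (s0 l0 l0)) (s1 l0 l0))) (s1 (s0 (s1 l0 l0) (s1 l0 l0)) (s0 (s1 l0 l0) (s1 l0 l0)))))) 0 _ _ _ _ _ _ _ _ (by decide +kernel)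

theorem c72 : Good (PR (sh G18 0)) 4722366575778377760768 4722366601067145199616 4722366539219616137216 4722366564508383576064 4722366482869645213696 4722366482869645213696 4722366482869645213696 4722366482869645213696 :=
  run_sound (PS _) (s0 l0 l0) 0 _ _ _ _ _ _ _ _ (by decide +kernel)

theorem c73 : Good (PR (sh G18 1)) 4722366575778377760768 4722366601067145199616 4722366539219616137216 4722366564508383576064 4722366482869645213696 4722366482869645213696 4722366482869645213696 4722366482869645213696 :=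
  run_sound (PS _) (s1 (s1 (s0 (s0 l0 l0) (s0 l0 l0)) (s0 l0 l0)) (s1 (s0 l0 l0) (s0 l0 l0))) 0 _ _ _ _ _ _ _ _ (by decide +kernel)

theorem c74 : Good (PR (sh G18 2)) 4722366575778377760768 4722366601067145199616 4722366539219616137216 4722366564508383576064 4722366482869645213696 4722366482869645213696 4722366482869645213696 4722366482869645213696 :=
  run_sound (PS _) (s1 (s1 (s0 (s1 (s0 l0 l0) (s0 l0 l0)) (s1 (s0 l0 l0) (s0 l0 l0))) (s0 (s1 (s0 l0 l0) (s0 l0 l0)) (s1 (s0 l0 l0) (s0 l0 l0)))) (s1 (s0 (s1 l0 l0) (s1 l0 l0)) (s0 (s1 l0 l0) (s1 l0 l0)))) 0 _ _ _ _ _ _ _ _ (by decide +kernel)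

theorem c75 : Good (PR (sh G18 3)) 4722366575778377760768 4722366601067145199616 4722366539219616137216 4722366564508383576064 4722366482869645213696 4722366482869645213696 4722366482869645213696 4722366482869645213696 :=
  run_sound (PS _) (s1 (s1 (s0 (s1 (s0 (s1 (s0 l0 l0) (s0 l0 l0)) (s1 (s0 l0 l0) (s0 l0 l0))) (s0 (s1 (s0 l0 l0) (s0 l0 l0)) (s1 (s0 l0 l0) (s0 l0 l0)))) (s1 (s0 (s1 (s0 l0 l0) (s0 l0 l0)) (s1 (s0 l0 l0) (s0 l0 l0))) (s0 (s1 (s0 l0 l0) (s0 l0 l0)) (s1 (s0 l0 l0) (s0 l0 l0))))) (s0 (s1 (s0 (s1 (s0 l0 l0) (s0 l0 l0)) (s1 (s0 l0 l0) (s0 l0 l0))) (s0 (s1 (s0 l0 l0) (s0 l0 l0)) (s1 (s0 l0 l0) (s0 l0 l0)))) (s1 (s0 (s1 (s0 l0 l0) (s0 l0 l0)) (s1 (s0 l0 l0) (s0 l0 l0))) (s0 (s1 (s0 l0 l0) (s0 l0 l0)) (s1 (s0 l0 l0) (s0 l0 l0)))))) (s1 (s0 (s1 (s0 (s1 (s0 l0 l0) (s0 l0 l0)) (s1 (s0 l0 l0) (s0 l0 l0))) (s0 (s1 (s0 l0 l0) (s0 l0 l0)) (s1 (s0 l0 l0) (s0 l0 l0)))) (s1 (s0 (s1 (s0 l0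 l0) (s0 l0 l0)) (s1 (s0 l0 l0) (s0 l0 l0))) (s0 (s1 (s0 l0 l0) (s0 l0 l0)) (s1 (s0 l0 l0) (s0 l0 l0))))) (s0 (s1 (s0 (s1 (s0 l0 l0) (s0 l0 l0)) (s1 (s0 l0 l0) (s0 l0 l0))) (s0 (s1 (s0 l0 l0) (s0 l0 l0)) (s1 (s0 l0 l0) (s0 l0 l0)))) (s1 (s0 (s1 (s0 l0 l0) (s0 l0 l0)) (s1 (s0 l0 l0) (s0 l0 l0))) (s0 (s1 (s0 l0 l0) (s0 l0 l0)) (s1 (s0 l0 l0) (s0 l0 l0))))))) 0 _ _ _ _ _ _ _ _ (by decide +kernel)

theorem c76 : Good (PR (sh G19 0)) 4722366575778377760768 4722366601067145199616 4722366564508383576064 4722366592820807991296 4722366482869645213696 4722366482869645213696 4722366482869645213696 4722366482869645213696 :=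
  run_sound (PS _) (s0 l0 l0) 0 _ _ _ _ _ _ _ _ (by decide +kernel)

theorem c77 : Good (PR (sh G19 1)) 4722366575778377760768 4722366601067145199616 4722366564508383576064 4722366592820807991296 4722366482869645213696 4722366482869645213696 4722366482869645213696 4722366482869645213696 :=
  run_sound (PS _) (s0 (s1 (s0 (s1 (s0 l0 l0) (s0 l0 l0)) (s1 l0 l0)) (s0 (s1 l0 l0) (s1 l0 l0))) (s0 (s1 (s1 l0 l0) (s1 l0 l0)) (s1 l0 l0))) 0 _ _ _ _ _ _ _ _ (by decide +kernel)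

theorem c78 : Good (PR (sh G19 2)) 4722366575778377760768 4722366601067145199616 4722366564508383576064 4722366592820807991296 4722366482869645213696 4722366482869645213696 4722366482869645213696 4722366482869645213696 :=
  run_sound (PS _) (s1 (s0 (s1 (s0 (s1 l0 l0) (s1 l0 l0)) (s0 (s1 l0 l0) (s1 l0 l0))) (s1 (s0 (s0 l0 l0) (s0 l0 l0)) (s0 (s1 l0 l0) (s0 l0 l0)))) (s0 (s1 (s0 (s1 l0 (s0 l0 l0)) (s1 l0 l0)) (s0 (s1 (s0 l0 l0) (s0 (s0 l0 l0) l0)) (s1 l0 l0))) (s1 (s0 (s1 l0 l0) (s0 l0 l0)) (s0 (s1 l0 l0) (s1 l0 l0))))) 0 _ _ _ _ _ _ _ _ (by decide +kernel)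

theorem c79 : Good (PR (sh G19 3)) 4722366575778377760768 4722366601067145199616 4722366564508383576064 4722366592820807991296 4722366482869645213696 4722366482869645213696 4722366482869645213696 4722366482869645213696 :=
  run_sound (PS _) (s1 (s1 (s1 (s0 (s1 l0 l0) (s1 l0 l0)) (s0 (s0 l0 l0) (s0 l0 l0))) (s1 (s0 (s0 l0 l0) (s0 l0 l0)) (s0 (s0 l0 l0) (s0 l0 l0)))) (s1 (s1 (s0 (s0 l0 l0) (s0 l0 l0)) (s0 (s0 l0 l0) (s0 l0 l0))) (s1 (s0 l0 (s0 l0 l0)) (s0 l0 l0)))) 0 _ _ _ _ _ _ _ _ (by decide +kernel)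

theorem c80 : Good (PR (sh G20 0)) 4722366601067145199616 4722366626355912638464 4722366482869645213696 4722366496888418467840 4722366482869645213696 4722366482869645213696 4722366482869645213696 4722366482869645213696 :=
  run_sound (PS _) l0 0 _ _ _ _ _ _ _ _ (by decide +kernel)

theorem c81 : Good (PR (sh G20 1)) 4722366601067145199616 4722366626355912638464 4722366482869645213696 4722366496888418467840 4722366482869645213696 4722366482869645213696 4722366482869645213696 4722366482869645213696 :=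
  run_sound (PS _) (s1 (s0 (s1 (s0 (s1 (s0 l0 l0) l0) l0) (s0 l0 l0)) (s1 (s0 l0 l0) (s0 l0 l0))) (s0 (s1 (s0 l0 l0) (s0 l0 l0)) (s1 (s0 l0 l0) (s0 l0 l0)))) 0 _ _ _ _ _ _ _ _ (by decide +kernel)

theorem c82 : Good (PR (sh G20 2)) 4722366601067145199616 4722366626355912638464 4722366482869645213696 4722366496888418467840 4722366482869645213696 4722366482869645213696 4722366482869645213696 4722366482869645213696 :=
  run_sound (PS _) (s1 (s0 (s1 (s0 (s0 l0 l0) (s0 l0 l0)) (s0 (s0 l0 l0) l0)) (s0 (s1 l0 l0) (s1 l0 l0))) (s0 (s1 (s0 (s0 l0 l0) l0) (s0 (s0 l0 l0) l0)) (s0 (s1 l0 l0) (s1 l0 l0)))) 0 _ _ _ _ _ _ _ _ (by decide +kernel)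

end Crest.Agent.R307.HG
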