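import Crest.Agent.R307.HGP
import Crest.Agent.R307.HGs

set_option autoImplicit false
set_option maxRecDepth 100000
set_option linter.unusedVariables false

namespace Crest.Agent.R307.HG
open Crest.Agent.R307.AA

open Tree

theorem c83 : Good (PR (sh G20 3)) 4722366601067145199616 4722366626355912638464 4722366482869645213696 4722366496888418467840 4722366482869645213696 4722366482869645213696 4722366482869645213696 4722366482869645213696 :=
  run_sound (PS _) (s1 (s1 (s0 (s1 (s0 l0 l0) (s0 l0 l0)) (s1 (s0 l0 (s0 l0 l0)) (s0 (s0 l0 l0) (s0 l0 l0)))) (s0 (s1 (s0 l0 l0) (s0 l0 l0)) (s1 (s0 (s0 l0 l0) (s0 l0 l0)) (s0 (s0 l0 l0) (s0 l0 l0))))) (s1 (s0 (s1 (s0 l0 l0) (s0 l0 l0)) (s1 (s0 (s0 l0 l0) (s0 l0 l0)) (s0 (s0 l0 l0) (s0 l0 l0)))) (s0 (s1 (s0 (s0 l0 l0) (s0 l0 l0)) (s0 (s0 l0 l0) (s0 l0 l0))) (s1 (s0 (s0 l0 l0) (s0 l0 l0)) (s0 (s0 l0 l0) (s0 l0 l0)))))) 0 _ _ _ _ _ _ _ _ (by decide +kernel)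

theorem c84 : Good (PR (sh G21 0)) 4722366601067145199616 4722366626355912638464 4722366496888418467840 4722366516679627767808 4722366482869645213696 4722366482869645213696 4722366482869645213696 4722366482869645213696 :=
  run_sound (PS _) l0 0 _ _ _ _ _ _ _ _ (by decide +kernel)

theorem c85 : Good (PR (sh G21 1)) 4722366601067145199616 4722366626355912638464 4722366496888418467840 4722366516679627767808 4722366482869645213696 4722366482869645213696 4722366482869645213696 4722366482869645213696 :=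
  run_sound (PS _) (s1 (s0 (s1 (s0 (s1 l0 l0) l0) (s0 l0 l0)) (s1 (s0 l0 l0) (s0 l0 l0))) (s0 (s1 (s0 l0 l0) (s0 l0 l0)) (s1 (s0 l0 l0) (s0 l0 l0)))) 0 _ _ _ _ _ _ _ _ (by decide +kernel)

theorem c86 : Good (PR (sh G21 2)) 4722366601067145199616 4722366626355912638464 4722366496888418467840 4722366516679627767808 4722366482869645213696 4722366482869645213696 4722366482869645213696 4722366482869645213696 :=
  run_sound (PS _) (s1 (s0 (s1 (s0 (s0 l0 l0) (s0 l0 l0)) (s0 (s0 l0 l0) (s0 l0 l0))) (s1 (s0 (s0 l0 l0) (s0 l0 l0)) (s0 (s0 l0 l0) (s0 l0 l0)))) (s0 (s1 (s0 (s0 l0 l0) (s0 l0 l0)) (s0 (s0 l0 l0) (s0 l0 l0))) (s1 (s0 (s0 l0 l0) (s0 l0 l0)) (s0 (s0 l0 l0) (s0 l0 l0))))) 0 _ _ _ _ _ _ _ _ (by decide +kernel)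

theorem c87 : Good (PR (sh G21 3)) 4722366601067145199616 4722366626355912638464 4722366496888418467840 4722366516679627767808 4722366482869645213696 4722366482869645213696 4722366482869645213696 4722366482869645213696 :=
  run_sound (PS _) (s1 (s1 (s0 (s1 (s0 (s1 l0 l0) (s1 l0 l0)) (s0 (s1 l0 l0) (s1 l0 l0))) (s1 (s0 (s1 l0 l0) (s1 l0 l0)) (s0 (s1 l0 l0) (s1 l0 l0)))) (s0 (s1 (s0 (s1 l0 l0) (s1 l0 l0)) (s0 (s1 l0 l0) (s1 l0 l0))) (s1 (s0 (s0 l0 l0) (s1 l0 l0)) (s0 (s0 l0 l0) (s1 l0 l0))))) (s1 (s0 (s1 (s0 (s1 l0 l0) (s1 l0 l0)) (s0 (s1 l0 l0) (s1 l0 l0))) (s1 (s0 (s0 l0 l0) (s1 l0 l0)) (s0 (s0 l0 l0) (s1 l0 l0)))) (s0 (s1 (s0 (s1 l0 l0) (s1 l0 l0)) (s0 (s1 l0 l0) (s1 l0 l0))) (s1 (s0 (s0 l0 l0) (s1 l0 l0)) (s0 (s0 l0 l0) (s1 l0 l0)))))) 0 _ _ _ _ _ _ _ _ (by decide +kernel)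

theorem c88 : Good (PR (sh G22 0)) 4722366601067145199616 4722366626355912638464 4722366516679627767808 4722366539219616137216 4722366482869645213696 4722366482869645213696 4722366482869645213696 4722366482869645213696 :=
  run_sound (PS _) (s0 l0 l0) 0 _ _ _ _ _ _ _ _ (by decide +kernel)

theorem c89 : Good (PR (sh G22 1)) 4722366601067145199616 4722366626355912638464 4722366516679627767808 4722366539219616137216 4722366482869645213696 4722366482869645213696 4722366482869645213696 4722366482869645213696 :=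
  run_sound (PS _) (s0 (s0 (s1 (s0 (s1 l0 l0) l0) (s0 l0 l0)) (s1 (s0 l0 l0) (s0 l0 l0))) (s0 (s1 (s0 l0 l0) (s0 l0 l0)) (s1 l0 l0))) 0 _ _ _ _ _ _ _ _ (by decide +kernel)

theorem c90 : Good (PR (sh G22 2)) 4722366601067145199616 4722366626355912638464 4722366516679627767808 4722366539219616137216 4722366482869645213696 4722366482869645213696 4722366482869645213696 4722366482869645213696 :=
  run_sound (PS _) (s1 (s0 (s1 (s0 (s0 l0 l0) (s0 l0 l0)) (s0 (s1 l0 l0) (s0 l0 l0))) (s1 (s0 (s0 l0 l0) (s0 l0 l0)) (s0 (s0 l0 l0) (s0 l0 l0)))) (s0 (s1 (s0 (s1 l0 l0) (s0 l0 l0)) (s0 (s1 l0 l0) (s0 l0 l0))) (s1 (s0 (s0 l0 l0) (s0 l0 l0)) (s0 (s0 l0 l0) (s0 l0 l0))))) 0 _ _ _ _ _ _ _ _ (by decide +kernel)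

theorem c91 : Good (PR (sh G22 3)) 4722366601067145199616 4722366626355912638464 4722366516679627767808 4722366539219616137216 4722366482869645213696 4722366482869645213696 4722366482869645213696 4722366482869645213696 :=
  run_sound (PS _) (s1 (s1 (s0 (s1 (s0 (s1 l0 l0) (s0 l0 l0)) (s0 (s1 l0 l0) (s1 l0 l0))) (s1 (s0 (s0 l0 l0) (s1 l0 l0)) (s0 (s0 l0 l0) (s1 l0 l0)))) (s0 (s1 (s0 (s1 l0 l0) (s1 l0 l0)) (s0 (s1 l0 l0) (s1 l0 l0))) (s1 (s0 (s0 l0 l0) (s0 l0 l0)) (s0 (s0 l0 l0) (s0 l0 l0))))) (s1 (s0 (s1 (s0 (s1 l0 l0) (s1 l0 l0)) (s0 (s1 l0 l0) (s1 l0 l0))) (s1 (s0 (s0 l0 l0) (s0 l0 l0)) (s0 (s0 l0 l0) (s0 l0 l0)))) (s0 (s1 (s0 (s1 l0 l0) (s1 l0 l0)) (s0 (s1 l0 l0) (s1 l0 l0))) (s1 (s0 (s1 l0 l0) (s1 l0 l0)) (s0 (s1 l0 l0) (s1 l0 l0)))))) 0 _ _ _ _ _ _ _ _ (by decide +kernel)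

theorem c92 : Good (PR (sh G23 0)) 4722366601067145199616 4722366626355912638464 4722366539219616137216 4722366564508383576064 4722366482869645213696 4722366482869645213696 4722366482869645213696 4722366482869645213696 :=
  run_sound (PS _) (s0 l0 l0) 0 _ _ _ _ _ _ _ _ (by decide +kernel)

theorem c93 : Good (PR (sh G23 1)) 4722366601067145199616 4722366626355912638464 4722366539219616137216 4722366564508383576064 4722366482869645213696 4722366482869645213696 4722366482869645213696 4722366482869645213696 :=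
  run_sound (PS _) (s0 (s1 (s0 (s1 l0 l0) (s1 l0 l0)) (s0 (s1 l0 l0) (s0 l0 l0))) (s1 (s0 (s1 l0 l0) (s0 l0 l0)) (s0 (s0 l0 l0) (s0 l0 l0)))) 0 _ _ _ _ _ _ _ _ (by decide +kernel)

theorem c94 : Good (PR (sh G23 2)) 4722366601067145199616 4722366626355912638464 4722366539219616137216 4722366564508383576064 4722366482869645213696 4722366482869645213696 4722366482869645213696 4722366482869645213696 :=
  run_sound (PS _) (s1 (s0 (s1 (s0 (s1 l0 l0) (s1 l0 l0)) (s0 (s1 l0 l0) (s1 l0 l0))) (s1 (s0 (s1 l0 l0) (s0 l0 l0)) (s0 (s0 l0 l0) (s0 l0 l0)))) (s0 (s1 (s0 (s1 l0 l0) (s1 l0 l0)) (s0 (s1 l0 l0) (s1 l0 l0))) (s1 (s0 (s0 l0 l0) (s0 l0 l0)) (s0 (s0 l0 l0) (s0 l0 l0))))) 0 _ _ _ _ _ _ _ _ (by decide +kernel)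

theorem c95 : Good (PR (sh G23 3)) 4722366601067145199616 4722366626355912638464 4722366539219616137216 4722366564508383576064 4722366482869645213696 4722366482869645213696 4722366482869645213696 4722366482869645213696 :=
  run_sound (PS _) (s1 (s1 (s0 (s1 (s0 (s1 l0 l0) (s1 l0 l0)) (s0 (s1 l0 l0) (s1 l0 l0))) (s1 (s0 (s0 l0 l0) (s0 l0 l0)) (s0 (s0 l0 l0) (s0 l0 l0)))) (s0 (s1 (s0 (s1 l0 l0) (s1 l0 l0)) (s0 (s1 l0 l0) (s1 l0 l0))) (s1 (s0 (s0 l0 l0) (s0 l0 l0)) (s0 (s1 l0 l0) (s0 l0 l0))))) (s1 (s0 (s1 (s0 (s1 l0 l0) (s1 l0 l0)) (s0 (s1 l0 l0) (s1 l0 l0))) (s1 (s0 (s1 l0 l0) (s1 l0 l0)) (s0 (s1 l0 l0) (s1 l0 l0)))) (s0 (s1 (s0 (s1 l0 l0) (s1 l0 l0)) (s0 (s1 l0 l0) (s1 l0 l0))) (s1 (s0 (s1 l0 l0) (s1 l0 l0)) (s0 (s1 l0 l0) (s1 l0 l0)))))) 0 _ _ _ _ _ _ _ _ (by decide +kernel)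

theorem c96 : Good (PR (sh G24 0)) 4722366601067145199616 4722366626355912638464 4722366564508383576064 4722366592820807991296 4722366482869645213696 4722366482869645213696 4722366482869645213696 4722366482869645213696 :=
  run_sound (PS _) (s0 l0 l0) 0 _ _ _ _ _ _ _ _ (by decide +kernel)

theorem c97 : Good (PR (sh G24 1)) 4722366601067145199616 4722366626355912638464 4722366564508383576064 4722366592820807991296 4722366482869645213696 4722366482869645213696 4722366482869645213696 4722366482869645213696 :=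
  run_sound (PS _) (s1 (s0 (s1 (s0 l0 l0) l0) (s1 (s0 l0 l0) (s0 l0 l0))) (s0 (s1 l0 l0) (s1 l0 l0))) 0 _ _ _ _ _ _ _ _ (by decide +kernel)

theorem c98 : Good (PR (sh G24 2)) 4722366601067145199616 4722366626355912638464 4722366564508383576064 4722366592820807991296 4722366482869645213696 4722366482869645213696 4722366482869645213696 4722366482869645213696 :=
  run_sound (PS _) (s1 (s1 (s0 (s1 (s0 l0 l0) (s0 l0 l0)) (s1 (s0 l0 l0) (s0 l0 l0))) (s0 (s1 (s0 l0 l0) (s0 l0 l0)) (s1 (s0 l0 l0) (s0 l0 l0)))) (s1 (s0 (s1 (s0 l0 l0) (s0 l0 l0)) (s1 (s0 l0 l0) (s0 l0 l0))) (s0 (s1 l0 l0) (s0 (s0 l0 l0) (s0 l0 l0))))) 0 _ _ _ _ _ _ _ _ (by decide +kernel)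

theorem c99 : Good (PR (sh G24 3)) 4722366601067145199616 4722366626355912638464 4722366564508383576064 4722366592820807991296 4722366482869645213696 4722366482869645213696 4722366482869645213696 4722366482869645213696 :=
  run_sound (PS _) (s1 (s1 (s0 (s1 (s0 l0 l0) (s0 l0 l0)) (s1 (s0 l0 (s0 l0 l0)) (s0 l0 l0))) (s0 (s1 (s0 l0 l0) (s0 l0 l0)) (s1 (s0 l0 l0) (s0 l0 l0)))) (s1 (s0 (s1 (s0 l0 l0) (s0 l0 l0)) (s1 (s0 l0 l0) (s0 l0 l0))) (s0 (s1 (s0 l0 l0) (s0 l0 l0)) (s1 (s0 l0 l0) (s0 l0 l0))))) 0 _ _ _ _ _ _ _ _ (by decide +kernel)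

theorem c100 : Good (PR (sh G25 0)) 4722366626355912638464 4722366651644680077312 4722366482869645213696 4722366496888418467840 4722366482869645213696 4722366482869645213696 4722366482869645213696 4722366482869645213696 :=
  run_sound (PS _) (s1 l0 l0) 0 _ _ _ _ _ _ _ _ (by decide +kernel)

theorem c101 : Good (PR (sh G25 1)) 4722366626355912638464 4722366651644680077312 4722366482869645213696 4722366496888418467840 4722366482869645213696 4722366482869645213696 4722366482869645213696 4722366482869645213696 :=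
  run_sound (PS _) (s0 (s0 (s1 (s0 (s1 l0 l0) l0) (s0 l0 l0)) (s1 (s0 l0 l0) (s0 l0 l0))) (s0 (s0 (s1 l0 l0) (s1 l0 l0)) (s0 l0 l0))) 0 _ _ _ _ _ _ _ _ (by decide +kernel)

theorem c102 : Good (PR (sh G25 2)) 4722366626355912638464 4722366651644680077312 4722366482869645213696 4722366496888418467840 4722366482869645213696 4722366482869645213696 4722366482869645213696 4722366482869645213696 :=
  run_sound (PS _) (s0 (s1 (s0 (s0 l0 l0) (s0 l0 l0)) (s0 (s0 l0 l0) (s0 l0 l0))) (s1 (s0 (s0 l0 l0) (s0 l0 l0)) (s0 (s0 l0 l0) (s0 l0 l0)))) 0 _ _ _ _ _ _ _ _ (by decide +kernel)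

theorem c103 : Good (PR (sh G25 3)) 4722366626355912638464 4722366651644680077312 4722366482869645213696 4722366496888418467840 4722366482869645213696 4722366482869645213696 4722366482869645213696 4722366482869645213696 :=
  run_sound (PS _) (s1 (s0 (s1 (s0 (s1 (s0 l0 l0) (s0 l0 l0)) (s1 (s0 l0 l0) (s0 l0 l0))) (s0 (s1 (s0 l0 l0) (s0 l0 l0)) (s1 (s0 l0 l0) (s0 l0 l0)))) (s1 (s0 (s1 (s0 l0 l0) (s0 l0 l0)) (s1 (s0 l0 l0) (s0 l0 l0))) (s0 (s1 (s0 l0 l0) (s0 l0 l0)) (s1 (s0 l0 l0) (s0 l0 l0))))) (s0 (s1 (s0 (s1 (s0 l0 l0) (s0 l0 l0)) (s1 (s0 l0 l0) (s0 l0 l0))) (s0 (s1 (s0 l0 l0) (s0 l0 l0)) (s1 (s0 l0 l0) (s0 l0 l0)))) (s1 (s0 (s1 (s0 l0 l0) (s0 l0 l0)) (s1 (s0 l0 l0) (s0 l0 l0))) (s0 (s1 (s0 l0 l0) (s0 l0 l0)) (s1 (s0 l0 l0) (s0 l0 l0)))))) 0 _ _ _ _ _ _ _ _ (by decide +kernel)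

theorem c104 : Good (PR (sh G26 0)) 4722366626355912638464 4722366651644680077312 4722366496888418467840 4722366516679627767808 4722366482869645213696 4722366482869645213696 4722366482869645213696 4722366482869645213696 :=
  run_sound (PS _) (s0 l0 l0) 0 _ _ _ _ _ _ _ _ (by decide +kernel)

theorem c105 : Good (PR (sh G26 1)) 4722366626355912638464 4722366651644680077312 4722366496888418467840 4722366516679627767808 4722366482869645213696 4722366482869645213696 4722366482869645213696 4722366482869645213696 :=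
  run_sound (PS _) (s0 (s0 (s0 (s1 l0 l0) l0) (s0 l0 l0)) (s0 (s0 l0 l0) (s0 l0 l0))) 0 _ _ _ _ _ _ _ _ (by decide +kernel)

theorem c106 : Good (PR (sh G26 2)) 4722366626355912638464 4722366651644680077312 4722366496888418467840 4722366516679627767808 4722366482869645213696 4722366482869645213696 4722366482869645213696 4722366482869645213696 :=
  run_sound (PS _) (s0 (s1 (s1 (s0 l0 l0) (s0 l0 l0)) (s1 (s0 l0 l0) (s0 l0 l0))) (s1 (s0 (s1 l0 l0) (s1 l0 l0)) (s0 (s1 l0 l0) (s1 (s0 l0 l0) (s0 l0 l0))))) 0 _ _ _ _ _ _ _ _ (by decide +kernel)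

theorem c107 : Good (PR (sh G26 3)) 4722366626355912638464 4722366651644680077312 4722366496888418467840 4722366516679627767808 4722366482869645213696 4722366482869645213696 4722366482869645213696 4722366482869645213696 :=
  run_sound (PS _) (s1 (s0 (s1 (s1 (s0 (s0 l0 l0) (s0 l0 l0)) (s0 (s0 l0 l0) (s0 l0 l0))) (s1 (s0 (s0 l0 l0) (s0 l0 l0)) (s0 (s0 l0 l0) (s0 l0 l0)))) (s1 (s0 (s1 (s0 l0 l0) (s0 l0 l0)) (s1 (s0 l0 l0) (s0 l0 l0))) (s0 (s1 (s0 l0 l0) (s0 l0 l0)) (s1 (s0 l0 l0) (s0 l0 l0))))) (s0 (s1 (s1 (s0 (s0 l0 l0) (s0 l0 l0)) (s0 (s0 l0 l0) (s0 l0 l0))) (s1 (s0 (s0 l0 l0) (s0 l0 l0)) (s0 (s0 l0 l0) (s0 l0 l0)))) (s1 (s0 (s1 (s0 l0 l0) (s0 l0 l0)) (s1 (s0 l0 l0) (s0 l0 l0))) (s0 (s1 (s0 l0 l0) (s0 l0 l0)) (s1 (s0 l0 l0) (s0 l0 l0)))))) 0 _ _ _ _ _ _ _ _ (by decide +kernel)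

theorem c108 : Good (PR (sh G27 0)) 4722366626355912638464 4722366651644680077312 4722366516679627767808 4722366539219616137216 4722366482869645213696 4722366482869645213696 4722366482869645213696 4722366482869645213696 :=
  run_sound (PS _) (s0 l0 l0) 0 _ _ _ _ _ _ _ _ (by decide +kernel)

theorem c109 : Good (PR (sh G27 1)) 4722366626355912638464 4722366651644680077312 4722366516679627767808 4722366539219616137216 4722366482869645213696 4722366482869645213696 4722366482869645213696 4722366482869645213696 :=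
  run_sound (PS _) (s0 (s1 (s0 (s1 (s0 l0 l0) l0) (s1 l0 l0)) (s0 (s1 l0 l0) (s1 l0 l0))) (s1 (s0 (s1 l0 l0) (s1 l0 l0)) (s0 (s0 l0 l0) (s0 l0 l0)))) 0 _ _ _ _ _ _ _ _ (by decide +kernel)

theorem c110 : Good (PR (sh G27 2)) 4722366626355912638464 4722366651644680077312 4722366516679627767808 4722366539219616137216 4722366482869645213696 4722366482869645213696 4722366482869645213696 4722366482869645213696 :=
  run_sound (PS _) (s1 (s0 (s1 (s0 (s0 l0 l0) (s0 l0 l0)) (s0 (s0 l0 l0) (s0 l0 l0))) (s1 (s0 (s0 l0 l0) (s0 l0 l0)) (s0 (s0 l0 l0) (s0 l0 l0)))) (s0 (s1 (s0 (s0 l0 l0) (s0 l0 l0)) (s0 l0 l0)) (s1 (s0 (s0 l0 l0) (s0 l0 l0)) (s0 l0 (s0 l0 l0))))) 0 _ _ _ _ _ _ _ _ (by decide +kernel)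

theorem c111 : Good (PR (sh G27 3)) 4722366626355912638464 4722366651644680077312 4722366516679627767808 4722366539219616137216 4722366482869645213696 4722366482869645213696 4722366482869645213696 4722366482869645213696 :=
  run_sound (PS _) (s1 (s1 (s0 (s1 (s0 (s0 l0 l0) (s0 l0 l0)) (s0 (s0 l0 l0) (s0 l0 l0))) (s0 (s1 (s0 l0 l0) (s0 l0 l0)) (s1 (s0 l0 l0) (s0 l0 l0)))) (s0 (s1 (s0 (s0 l0 l0) (s0 l0 l0)) (s0 (s0 l0 l0) (s0 l0 l0))) (s0 (s1 (s0 l0 l0) (s0 l0 l0)) (s1 (s0 l0 l0) (s0 l0 l0))))) (s1 (s0 (s1 (s0 (s0 l0 l0) (s0 l0 l0)) (s0 (s0 l0 l0) (s0 l0 l0))) (s0 (s1 (s0 l0 l0) (s0 l0 l0)) (s1 (s0 l0 l0) (s0 l0 l0)))) (s0 (s1 (s0 (s0 l0 l0) (s0 l0 l0)) (s0 (s0 l0 l0) (s0 l0 l0))) (s0 (s1 (s0 l0 l0) (s0 l0 l0)) (s1 (s0 l0 l0) (s0 l0 l0)))))) 0 _ _ _ _ _ _ _ _ (by decide +kernel)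

theorem c112 : Good (PR (sh G28 0)) 4722366626355912638464 4722366651644680077312 4722366539219616137216 4722366564508383576064 4722366482869645213696 4722366482869645213696 4722366482869645213696 4722366482869645213696 :=
  run_sound (PS _) (s0 l0 l0) 0 _ _ _ _ _ _ _ _ (by decide +kernel)

theorem c113 : Good (PR (sh G28 1)) 4722366626355912638464 4722366651644680077312 4722366539219616137216 4722366564508383576064 4722366482869645213696 4722366482869645213696 4722366482869645213696 4722366482869645213696 :=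
  run_sound (PS _) (s0 (s0 (s1 (s0 l0 l0) (s0 l0 l0)) (s1 (s0 l0 l0) l0)) (s0 (s1 l0 l0) (s1 l0 l0))) 0 _ _ _ _ _ _ _ _ (by decide +kernel)

theorem c114 : Good (PR (sh G28 2)) 4722366626355912638464 4722366651644680077312 4722366539219616137216 4722366564508383576064 4722366482869645213696 4722366482869645213696 4722366482869645213696 4722366482869645213696 :=
  run_sound (PS _) (s1 (s0 (s1 (s0 (s0 l0 l0) (s0 l0 l0)) (s0 (s0 l0 l0) (s0 l0 l0))) (s1 (s0 (s0 l0 l0) (s0 l0 l0)) (s0 (s0 l0 l0) (s0 l0 l0)))) (s0 (s1 (s0 (s0 l0 l0) (s0 l0 l0)) (s0 (s0 l0 l0) (s0 l0 l0))) (s0 (s1 (s0 l0 l0) (s0 l0 l0)) (s1 (s0 l0 l0) (s0 l0 l0))))) 0 _ _ _ _ _ _ _ _ (by decide +kernel)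

theorem c115 : Good (PR (sh G28 3)) 4722366626355912638464 4722366651644680077312 4722366539219616137216 4722366564508383576064 4722366482869645213696 4722366482869645213696 4722366482869645213696 4722366482869645213696 :=
  run_sound (PS _) (s1 (s1 (s0 (s1 (s0 l0 (s0 l0 l0)) (s0 l0 (s0 l0 l0))) (s0 (s1 (s0 l0 l0) (s0 l0 l0)) (s1 (s0 l0 l0) (s0 l0 l0)))) (s0 (s1 (s0 l0 (s0 l0 l0)) (s0 l0 (s0 l0 l0))) (s0 (s1 (s0 l0 l0) (s0 l0 l0)) (s1 (s0 l0 l0) (s0 l0 l0))))) (s1 (s0 (s1 (s0 l0 (s0 l0 l0)) (s0 l0 l0)) (s0 (s1 (s0 l0 l0) (s0 l0 l0)) (s1 (s0 l0 l0) (s0 l0 l0)))) (s0 (s1 (s0 l0 l0) (s0 l0 l0)) (s0 (s1 (s0 l0 l0) (s0 l0 l0)) (s1 (s0 l0 l0) (s0 l0 l0)))))) 0 _ _ _ _ _ _ _ _ (by decide +kernel)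

theorem c116 : Good (PR (sh G29 0)) 4722366626355912638464 4722366651644680077312 4722366564508383576064 4722366592820807991296 4722366482869645213696 4722366482869645213696 4722366482869645213696 4722366482869645213696 :=
  run_sound (PS _) (s0 (s1 l0 l0) l0) 0 _ _ _ _ _ _ _ _ (by decide +kernel)

theorem c117 : Good (PR (sh G29 1)) 4722366626355912638464 4722366651644680077312 4722366564508383576064 4722366592820807991296 4722366482869645213696 4722366482869645213696 4722366482869645213696 4722366482869645213696 :=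
  run_sound (PS _) (s0 (s1 (s0 (s1 l0 l0) (s1 l0 l0)) (s0 l0 l0)) (s1 (s0 (s1 l0 l0) (s1 l0 l0)) (s0 l0 l0))) 0 _ _ _ _ _ _ _ _ (by decide +kernel)

theorem c118 : Good (PR (sh G29 2)) 4722366626355912638464 4722366651644680077312 4722366564508383576064 4722366592820807991296 4722366482869645213696 4722366482869645213696 4722366482869645213696 4722366482869645213696 :=
  run_sound (PS _) (s1 (s0 (s1 (s0 (s0 l0 l0) (s0 l0 l0)) (s0 (s0 l0 l0) (s0 l0 l0))) (s1 (s0 (s0 l0 l0) (s1 l0 l0)) (s0 (s0 l0 l0) (s0 l0 l0)))) (s0 (s1 (s0 (s0 l0 l0) (s0 l0 l0)) (s0 (s0 l0 l0) (s0 l0 l0))) (s1 (s0 (s0 l0 l0) (s0 l0 l0)) (s0 (s0 l0 l0) (s0 l0 l0))))) 0 _ _ _ _ _ _ _ _ (by decide +kernel)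

theorem c119 : Good (PR (sh G29 3)) 4722366626355912638464 4722366651644680077312 4722366564508383576064 4722366592820807991296 4722366482869645213696 4722366482869645213696 4722366482869645213696 4722366482869645213696 :=
  run_sound (PS _) (s1 (s1 (s0 (s1 (s0 l0 l0) (s0 l0 l0)) (s1 (s0 l0 (s0 l0 l0)) (s0 l0 (s0 l0 l0)))) (s0 (s1 (s0 l0 l0) (s0 l0 l0)) (s0 (s1 l0 l0) (s1 (s0 l0 l0) (s0 l0 l0))))) (s1 (s0 (s1 (s0 l0 l0) (s0 l0 l0)) (s0 (s1 l0 l0) (s1 (s0 l0 l0) l0))) (s0 (s1 (s0 l0 l0) (s0 l0 l0)) (s0 (s1 l0 l0) (s1 l0 l0))))) 0 _ _ _ _ _ _ _ _ (by decide +kernel)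

theorem c120 : Good (PR (sh G30 0)) 4722366651644680077312 4722366668687110307840 4722366482869645213696 4722366496888418467840 4722366482869645213696 4722366482869645213696 4722366482869645213696 4722366482869645213696 :=
  run_sound (PS _) (s1 l0 l0) 0 _ _ _ _ _ _ _ _ (by decide +kernel)

theorem c121 : Good (PR (sh G30 1)) 4722366651644680077312 4722366668687110307840 4722366482869645213696 4722366496888418467840 4722366482869645213696 4722366482869645213696 4722366482869645213696 4722366482869645213696 :=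
  run_sound (PS _) (s0 (s0 (s0 (s1 l0 l0) l0) (s0 l0 l0)) (s0 (s0 l0 l0) (s0 l0 l0))) 0 _ _ _ _ _ _ _ _ (by decide +kernel)

theorem c122 : Good (PR (sh G30 2)) 4722366651644680077312 4722366668687110307840 4722366482869645213696 4722366496888418467840 4722366482869645213696 4722366482869645213696 4722366482869645213696 4722366482869645213696 :=
  run_sound (PS _) (s0 (s1 (s0 (s1 l0 l0) (s1 l0 l0)) (s0 (s1 l0 l0) (s1 l0 l0))) (s1 (s0 (s1 l0 l0) (s1 l0 l0)) (s0 (s0 l0 l0) (s0 l0 l0)))) 0 _ _ _ _ _ _ _ _ (by decide +kernel)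

theorem c123 : Good (PR (sh G30 3)) 4722366651644680077312 4722366668687110307840 4722366482869645213696 4722366496888418467840 4722366482869645213696 4722366482869645213696 4722366482869645213696 4722366482869645213696 :=
  run_sound (PS _) (s1 (s0 (s1 (s0 (s1 l0 l0) (s1 l0 l0)) (s0 (s1 l0 l0) (s1 (s0 l0 l0) (s0 l0 l0)))) (s1 (s0 (s1 (s0 l0 l0) (s0 l0 l0)) (s1 (s0 l0 l0) (s0 l0 l0))) (s0 (s1 (s0 l0 l0) (s0 l0 l0)) (s1 (s0 l0 l0) (s0 l0 l0))))) (s0 (s1 (s0 (s1 l0 l0) (s1 (s0 l0 l0) (s0 l0 l0))) (s0 (s1 l0 l0) (s1 (s0 l0 l0) (s0 l0 l0)))) (s1 (s0 (s1 (s0 l0 l0) (s0 l0 l0)) (s1 (s0 l0 l0) (s0 l0 l0))) (s0 (s1 (s0 l0 l0) (s0 l0 l0)) (s1 (s0 l0 l0) (s0 l0 l0)))))) 0 _ _ _ _ _ _ _ _ (by decide +kernel)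

theorem c124 : Good (PR (sh G31 0)) 4722366651644680077312 4722366668687110307840 4722366496888418467840 4722366516679627767808 4722366482869645213696 4722366482869645213696 4722366482869645213696 4722366482869645213696 :=
  run_sound (PS _) (s0 l0 l0) 0 _ _ _ _ _ _ _ _ (by decide +kernel)

theorem c125 : Good (PR (sh G31 1)) 4722366651644680077312 4722366668687110307840 4722366496888418467840 4722366516679627767808 4722366482869645213696 4722366482869645213696 4722366482869645213696 4722366482869645213696 :=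
  run_sound (PS _) (s1 (s0 (s1 (s0 l0 l0) (s0 l0 l0)) (s1 (s0 l0 l0) (s0 l0 l0))) (s0 (s1 (s0 l0 l0) (s0 l0 l0)) (s1 (s0 l0 l0) (s0 l0 l0)))) 0 _ _ _ _ _ _ _ _ (by decide +kernel)

theorem c126 : Good (PR (sh G31 2)) 4722366651644680077312 4722366668687110307840 4722366496888418467840 4722366516679627767808 4722366482869645213696 4722366482869645213696 4722366482869645213696 4722366482869645213696 :=
  run_sound (PS _) (s0 (s1 (s0 (s1 l0 l0) (s1 l0 l0)) (s0 (s1 l0 l0) (s1 l0 l0))) (s1 (s0 (s1 l0 l0) (s1 l0 l0)) (s0 (s1 l0 l0) (s1 l0 l0)))) 0 _ _ _ _ _ _ _ _ (by decide +kernel)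

theorem c127 : Good (PR (sh G31 3)) 4722366651644680077312 4722366668687110307840 4722366496888418467840 4722366516679627767808 4722366482869645213696 4722366482869645213696 4722366482869645213696 4722366482869645213696 :=
  run_sound (PS _) (s1 (s0 (s1 (s0 (s1 l0 l0) (s1 (s0 l0 l0) (s0 l0 l0))) (s0 (s1 (s0 l0 l0) (s0 l0 l0)) (s1 (s0 l0 l0) (s0 l0 l0)))) (s1 (s0 (s1 (s0 l0 l0) (s0 l0 l0)) (s1 (s0 l0 l0) (s0 l0 l0))) (s0 (s1 (s0 l0 l0) (s0 l0 l0)) (s1 (s0 l0 l0) (s0 l0 l0))))) (s0 (s1 (s0 (s1 (s0 l0 l0) (s0 l0 l0)) (s1 (s0 l0 l0) (s0 l0 l0))) (s0 (s1 (s0 l0 l0) (s0 l0 l0)) (s1 (s0 l0 l0) (s0 l0 l0)))) (s1 (s0 (s1 (s0 l0 l0) (s0 l0 l0)) (s1 (s0 l0 l0) (s0 l0 l0))) (s0 (s1 (s0 l0 l0) (s0 l0 l0)) (s1 (s0 l0 (s0 l0 l0)) (s0 l0 (s0 l0 l0))))))) 0 _ _ _ _ _ _ _ _ (by decide +kernel)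

theorem c128 : Good (PR (sh G32 0)) 4722366651644680077312 4722366668687110307840 4722366516679627767808 4722366539219616137216 4722366482869645213696 4722366482869645213696 4722366482869645213696 4722366482869645213696 :=
  run_sound (PS _) (s0 l0 l0) 0 _ _ _ _ _ _ _ _ (by decide +kernel)

theorem c129 : Good (PR (sh G32 1)) 4722366651644680077312 4722366668687110307840 4722366516679627767808 4722366539219616137216 4722366482869645213696 4722366482869645213696 4722366482869645213696 4722366482869645213696 :=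
  run_sound (PS _) (s0 (s0 (s1 (s1 l0 l0) l0) (s1 l0 l0)) (s0 (s1 l0 l0) (s1 l0 l0))) 0 _ _ _ _ _ _ _ _ (by decide +kernel)

theorem c130 : Good (PR (sh G32 2)) 4722366651644680077312 4722366668687110307840 4722366516679627767808 4722366539219616137216 4722366482869645213696 4722366482869645213696 4722366482869645213696 4722366482869645213696 :=
  run_sound (PS _) (s0 (s1 (s0 (s1 l0 l0) (s1 l0 l0)) (s0 (s1 l0 l0) (s1 l0 l0))) (s1 (s0 (s1 l0 l0) (s1 l0 (s0 l0 l0))) (s0 (s1 l0 l0) (s1 (s0 l0 l0) (s0 l0 l0))))) 0 _ _ _ _ _ _ _ _ (by decide +kernel)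

theorem c131 : Good (PR (sh G32 3)) 4722366651644680077312 4722366668687110307840 4722366516679627767808 4722366539219616137216 4722366482869645213696 4722366482869645213696 4722366482869645213696 4722366482869645213696 :=
  run_sound (PS _) (s1 (s0 (s1 (s0 (s1 l0 l0) (s1 l0 l0)) (s0 (s1 l0 l0) (s1 (s0 l0 l0) (s0 l0 l0)))) (s1 (s0 (s1 (s0 l0 l0) (s0 l0 l0)) (s1 (s0 l0 l0) (s0 l0 l0))) (s0 (s1 (s0 l0 l0) (s0 l0 l0)) (s1 (s0 l0 l0) (s0 l0 l0))))) (s0 (s1 (s0 (s1 l0 l0) (s1 (s0 l0 l0) (s0 l0 l0))) (s0 (s1 l0 (s0 l0 l0)) (s1 (s0 l0 l0) (s0 l0 l0)))) (s1 (s0 (s1 (s0 l0 l0) (s0 l0 l0)) (s1 (s0 l0 l0) (s0 l0 l0))) (s0 (s1 (s0 l0 l0) (s0 l0 l0)) (s1 (s0 l0 l0) (s0 l0 (s0 l0 l0))))))) 0 _ _ _ _ _ _ _ _ (by decide +kernel)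

theorem c132 : Good (PR (sh G33 0)) 4722366651644680077312 4722366668687110307840 4722366539219616137216 4722366564508383576064 4722366482869645213696 4722366482869645213696 4722366482869645213696 4722366482869645213696 :=
  run_sound (PS _) (s0 l0 l0) 0 _ _ _ _ _ _ _ _ (by decide +kernel)

theorem c133 : Good (PR (sh G33 1)) 4722366651644680077312 4722366668687110307840 4722366539219616137216 4722366564508383576064 4722366482869645213696 4722366482869645213696 4722366482869645213696 4722366482869645213696 :=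
  run_sound (PS _) (s0 (s1 (s0 (s1 l0 l0) (s1 l0 l0)) (s0 (s1 l0 l0) l0)) (s1 (s0 (s1 l0 l0) (s1 l0 l0)) (s0 l0 l0))) 0 _ _ _ _ _ _ _ _ (by decide +kernel)

theorem c134 : Good (PR (sh G33 2)) 4722366651644680077312 4722366668687110307840 4722366539219616137216 4722366564508383576064 4722366482869645213696 4722366482869645213696 4722366482869645213696 4722366482869645213696 :=
  run_sound (PS _) (s0 (s1 (s1 (s0 l0 l0) (s0 l0 l0)) (s1 (s0 l0 l0) (s0 l0 l0))) (s1 (s0 (s1 (s0 l0 l0) (s0 l0 l0)) (s1 (s0 l0 l0) (s0 l0 l0))) (s0 (s1 (s0 l0 l0) (s0 l0 l0)) (s1 (s0 l0 l0) (s0 l0 l0))))) 0 _ _ _ _ _ _ _ _ (by decide +kernel)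

theorem c135 : Good (PR (sh G33 3)) 4722366651644680077312 4722366668687110307840 4722366539219616137216 4722366564508383576064 4722366482869645213696 4722366482869645213696 4722366482869645213696 4722366482869645213696 :=
  run_sound (PS _) (s1 (s0 (s1 (s0 (s1 (s0 l0 l0) (s0 l0 l0)) (s1 (s0 l0 l0) (s0 l0 l0))) (s0 (s1 (s0 l0 l0) (s0 l0 l0)) (s1 (s0 l0 l0) (s0 l0 l0)))) (s1 (s0 (s1 (s0 l0 l0) (s0 l0 l0)) (s1 (s0 l0 l0) (s0 l0 l0))) (s0 (s1 (s0 l0 l0) (s0 l0 l0)) (s1 (s0 l0 l0) (s0 l0 l0))))) (s0 (s1 (s0 (s1 (s0 l0 l0) (s0 l0 l0)) (s1 (s0 l0 l0) (s0 l0 l0))) (s0 (s1 (s0 l0 l0) (s0 l0 l0)) (s1 (s0 l0 l0) (s0 l0 l0)))) (s1 (s0 (s1 (s0 l0 l0) (s0 l0 l0)) (s1 (s0 l0 l0) (s0 l0 l0))) (s0 (s1 (s0 l0 l0) (s0 l0 l0)) (s1 (s0 l0 (s0 l0 l0)) (s0 l0 (s0 l0 l0))))))) 0 _ _ _ _ _ _ _ _ (by decide +kernel)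

theorem c136 : Good (PR (sh G34 0)) 4722366651644680077312 4722366668687110307840 4722366564508383576064 4722366592820807991296 4722366482869645213696 4722366482869645213696 4722366482869645213696 4722366482869645213696 :=
  run_sound (PS _) (s0 l0 (s1 l0 (s0 l0 (s1 (s0 l0 (s1 l0 l1)) l1)))) 0 _ _ _ _ _ _ _ _ (by decide +kernel)

theorem c137 : Good (PR (sh G34 1)) 4722366651644680077312 4722366668687110307840 4722366564508383576064 4722366592820807991296 4722366482869645213696 4722366482869645213696 4722366482869645213696 4722366482869645213696 :=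
  run_sound (PS _) (s0 (s0 l0 l0) (s0 l0 (s1 l0 (s1 (s0 l0 (s1 l0 l1)) l1)))) 0 _ _ _ _ _ _ _ _ (by decide +kernel)

theorem c138 : Good (PR (sh G34 2)) 4722366651644680077312 4722366668687110307840 4722366564508383576064 4722366592820807991296 4722366482869645213696 4722366482869645213696 4722366482869645213696 4722366482869645213696 :=
  run_sound (PS _) (s1 (s0 (s1 (s0 l0 l0) (s0 l0 l0)) (s0 (s1 (s0 l0 l0) (s0 l0 l0)) (s1 (s0 l0 l0) (s0 l0 l0)))) (s0 (s1 (s0 l0 l0) (s0 l0 l0)) (s0 (s1 (s0 l0 l0) (s0 l0 l0)) (s1 (s0 l0 (s1 l0 l1)) l1)))) 0 _ _ _ _ _ _ _ _ (by decide +kernel)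

theorem c139 : Good (PR (sh G34 3)) 4722366651644680077312 4722366668687110307840 4722366564508383576064 4722366592820807991296 4722366482869645213696 4722366482869645213696 4722366482869645213696 4722366482869645213696 :=
  run_sound (PS _) (s1 (s0 (s1 (s0 (s1 l0 l0) (s1 (s0 l0 l0) (s0 l0 l0))) (s0 (s1 l0 l0) (s1 (s0 l0 l0) (s0 l0 l0)))) (s1 (s0 (s1 (s0 l0 l0) (s0 l0 l0)) (s1 (s0 l0 l0) (s0 l0 l0))) (s0 (s1 (s0 l0 l0) (s0 l0 l0)) (s1 (s0 l0 l0) (s0 l0 l0))))) (s0 (s1 (s0 (s1 l0 l0) (s1 l0 l0)) (s0 (s1 l0 l0) (s1 l0 l0))) (s1 (s0 (s1 (s0 l0 l0) (s0 l0 l0)) (s1 (s0 l0 l0) (s0 l0 l1))) (s0 (s1 (s0 l0 l0) (s0 l0 l0)) l1)))) 0 _ _ _ _ _ _ _ _ (by decide +kernel)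

theorem c140 : Good (PR (sh G35 0)) 4722366668687110307840 4722366681915609579520 4722366482869645213696 4722366496888418467840 4722366482869645213696 4722366482869645213696 4722366482869645213696 4722366482869645213696 :=
  run_sound (PS _) (s1 l0 l0) 0 _ _ _ _ _ _ _ _ (by decide +kernel)

theorem c141 : Good (PR (sh G35 1)) 4722366668687110307840 4722366681915609579520 4722366482869645213696 4722366496888418467840 4722366482869645213696 4722366482869645213696 4722366482869645213696 4722366482869645213696 :=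
  run_sound (PS _) (s0 (s0 (s1 (s0 l0 l0) (s1 l0 l0)) (s1 l0 l0)) (s0 (s1 l0 l0) (s1 l0 l0))) 0 _ _ _ _ _ _ _ _ (by decide +kernel)

theorem c142 : Good (PR (sh G35 2)) 4722366668687110307840 4722366681915609579520 4722366482869645213696 4722366496888418467840 4722366482869645213696 4722366482869645213696 4722366482869645213696 4722366482869645213696 :=
  run_sound (PS _) (s0 (s1 (s0 l0 (s1 l0 l0)) (s0 l0 (s1 l0 l0))) (s1 (s0 (s1 l0 l0) (s1 l0 l0)) (s0 (s1 l0 l0) (s1 l0 l0)))) 0 _ _ _ _ _ _ _ _ (by decide +kernel)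

theorem c143 : Good (PR (sh G35 3)) 4722366668687110307840 4722366681915609579520 4722366482869645213696 4722366496888418467840 4722366482869645213696 4722366482869645213696 4722366482869645213696 4722366482869645213696 :=
  run_sound (PS _) (s1 (s0 (s1 (s0 (s1 l0 (s0 l0 l0)) (s1 (s0 l0 l0) (s0 l0 l0))) (s0 (s1 (s0 l0 l0) (s0 l0 l0)) (s1 (s0 l0 l0) (s0 l0 l0)))) (s1 (s0 (s1 (s0 l0 l0) (s0 l0 l0)) (s1 (s0 l0 l0) (s0 l0 l0))) (s0 (s1 (s0 l0 l0) (s0 l0 l0)) (s1 (s0 l0 l0) (s0 l0 l0))))) (s0 (s1 (s0 (s1 (s0 l0 l0) (s0 l0 l0)) (s1 (s0 l0 l0) (s0 l0 l0))) (s0 (s1 (s0 l0 l0) (s0 l0 l0)) (s1 (s0 l0 l0) (s0 l0 l0)))) (s1 (s0 (s1 (s0 l0 l0) (s0 l0 l0)) (s1 (s0 l0 l0) (s0 l0 (s0 l0 l0)))) (s0 (s1 (s0 l0 l0) (s0 l0 l0)) (s1 (s0 l0 (s0 l0 l0)) (s0 l0 (s0 l0 l0))))))) 0 _ _ _ _ _ _ _ _ (by decide +kernel)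

theorem c144 : Good (PR (sh G36 0)) 4722366668687110307840 4722366681915609579520 4722366496888418467840 4722366516679627767808 4722366482869645213696 4722366482869645213696 4722366482869645213696 4722366482869645213696 :=
  run_sound (PS _) (s0 (s1 l0 l0) l0) 0 _ _ _ _ _ _ _ _ (by decide +kernel)

theorem c145 : Good (PR (sh G36 1)) 4722366668687110307840 4722366681915609579520 4722366496888418467840 4722366516679627767808 4722366482869645213696 4722366482869645213696 4722366482869645213696 4722366482869645213696 :=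
  run_sound (PS _) (s0 (s1 (s0 (s1 (s0 l0 l0) l0) (s1 l0 l0)) (s0 (s1 l0 l0) (s1 l0 l0))) (s1 (s0 (s1 l0 l0) (s1 l0 l0)) (s0 (s1 l0 l0) (s1 l0 l0)))) 0 _ _ _ _ _ _ _ _ (by decide +kernel)

theorem c146 : Good (PR (sh G36 2)) 4722366668687110307840 4722366681915609579520 4722366496888418467840 4722366516679627767808 4722366482869645213696 4722366482869645213696 4722366482869645213696 4722366482869645213696 :=
  run_sound (PS _) (s0 (s1 (s0 (s1 l0 l0) (s1 l0 l0)) (s0 (s1 l0 l0) (s1 l0 l0))) (s1 (s0 (s1 l0 l0) (s1 l0 (s0 l0 l0))) (s0 (s1 l0 l0) (s1 (s0 l0 l0) (s0 l0 l0))))) 0 _ _ _ _ _ _ _ _ (by decide +kernel)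

theorem c147 : Good (PR (sh G36 3)) 4722366668687110307840 4722366681915609579520 4722366496888418467840 4722366516679627767808 4722366482869645213696 4722366482869645213696 4722366482869645213696 4722366482869645213696 :=
  run_sound (PS _) (s1 (s0 (s1 (s0 (s1 (s0 l0 l0) (s0 l0 l0)) (s1 (s0 l0 l0) (s0 l0 l0))) (s0 (s1 (s0 l0 l0) (s0 l0 l0)) (s1 (s0 l0 l0) (s0 l0 l0)))) (s1 (s0 (s1 (s0 l0 l0) (s0 l0 l0)) (s1 (s0 l0 l0) (s0 l0 l0))) (s0 (s1 (s0 l0 l0) (s0 l0 l0)) (s1 (s0 l0 (s0 l0 l0)) (s0 l0 (s0 l0 l0)))))) (s0 (s1 (s0 (s1 (s0 l0 l0) (s0 l0 l0)) (s1 (s0 l0 l0) (s0 l0 l0))) (s0 (s1 (s0 l0 l0) (s0 l0 l0)) (s1 (s0 l0 l0) (s0 l0 l0)))) (s1 (s0 (s1 (s0 l0 l0) (s0 l0 l0)) (s1 (s0 l0 (s0 l0 l0)) (s0 l0 (s0 l0 l0)))) (s0 (s1 (s0 l0 l0) (s0 l0 l0)) (s1 (s0 l0 (s0 l0 l0)) (s0 l0 (s1 l0 l0))))))) 0 _ _ _ _ _ _ _ _ (by decide +kernel)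

theorem c148 : Good (PR (sh G37 0)) 4722366668687110307840 4722366681915609579520 4722366516679627767808 4722366539219616137216 4722366482869645213696 4722366482869645213696 4722366482869645213696 4722366482869645213696 :=
  run_sound (PS _) (s0 l0 l0) 0 _ _ _ _ _ _ _ _ (by decide +kernel)

theorem c149 : Good (PR (sh G37 1)) 4722366668687110307840 4722366681915609579520 4722366516679627767808 4722366539219616137216 4722366482869645213696 4722366482869645213696 4722366482869645213696 4722366482869645213696 :=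
  run_sound (PS _) (s0 (s0 (s1 (s1 l0 l0) l0) (s1 l0 l0)) (s0 (s1 l0 l0) (s1 l0 l0))) 0 _ _ _ _ _ _ _ _ (by decide +kernel)

theorem c150 : Good (PR (sh G37 2)) 4722366668687110307840 4722366681915609579520 4722366516679627767808 4722366539219616137216 4722366482869645213696 4722366482869645213696 4722366482869645213696 4722366482869645213696 :=
  run_sound (PS _) (s0 (s1 (s0 (s1 l0 l0) (s1 l0 l0)) (s0 (s1 l0 l0) (s1 l0 l0))) (s1 (s0 (s1 (s0 l0 l0) (s0 l0 l0)) (s1 (s0 l0 l0) (s0 l0 l0))) (s0 (s1 (s0 l0 l0) (s0 l0 l0)) (s1 (s0 l0 l0) (s0 l0 l0))))) 0 _ _ _ _ _ _ _ _ (by decide +kernel)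

theorem c151 : Good (PR (sh G37 3)) 4722366668687110307840 4722366681915609579520 4722366516679627767808 4722366539219616137216 4722366482869645213696 4722366482869645213696 4722366482869645213696 4722366482869645213696 :=
  run_sound (PS _) (s1 (s0 (s1 (s0 (s1 (s0 l0 l0) (s0 l0 l0)) (s1 (s0 l0 l0) (s0 l0 l0))) (s0 (s1 (s0 l0 l0) (s0 l0 l0)) (s1 (s0 l0 l0) (s0 l0 l0)))) (s1 (s0 (s1 (s0 l0 l0) (s0 l0 l0)) (s1 (s0 l0 l0) (s0 l0 (s0 l0 l0)))) (s0 (s1 (s0 l0 l0) (s0 l0 l0)) (s1 (s0 l0 (s0 l0 l0)) (s0 l0 (s0 l0 l0)))))) (s0 (s1 (s0 (s1 (s0 l0 l0) (s0 l0 l0)) (s1 (s0 l0 l0) (s0 l0 l0))) (s0 (s1 (s0 l0 l0) (s0 l0 l0)) (s1 (s0 l0 l0) (s0 l0 l0)))) (s1 (s0 (s1 (s0 l0 l0) (s0 l0 l0)) (s0 (s1 l0 l0) (s1 (s0 l0 l0) (s0 l0 l0)))) (s0 (s0 (s1 l0 l0) (s1 l0 l0)) (s0 (s1 l0 l0) (s1 (s0 l0 (s1 l0 l0)) (s0 l0 (s1 l0 l0)))))))) 0 _ _ _ _ _ _ _ _ (by decide +kernel)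

theorem c152 : Good (PR (sh G38 0)) 4722366668687110307840 4722366681915609579520 4722366539219616137216 4722366564508383576064 4722366482869645213696 4722366482869645213696 4722366482869645213696 4722366482869645213696 :=
  run_sound (PS _) (s0 l0 (s1 l0 (s0 l0 (s1 (s0 l0 (s1 l0 (s0 l0 l1))) (s0 (s1 l0 l1) l1))))) 0 _ _ _ _ _ _ _ _ (by decide +kernel)

theorem c153 : Good (PR (sh G38 1)) 4722366668687110307840 4722366681915609579520 4722366539219616137216 4722366564508383576064 4722366482869645213696 4722366482869645213696 4722366482869645213696 4722366482869645213696 :=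
  run_sound (PS _) (s0 (s0 (s1 l0 l0) l0) (s0 l0 (s1 l0 (s1 (s0 l0 (s1 l0 (s0 l0 l1))) (s0 (s1 l0 l1) l1))))) 0 _ _ _ _ _ _ _ _ (by decide +kernel)

theorem c154 : Good (PR (sh G38 2)) 4722366668687110307840 4722366681915609579520 4722366539219616137216 4722366564508383576064 4722366482869645213696 4722366482869645213696 4722366482869645213696 4722366482869645213696 :=
  run_sound (PS _) (s0 (s1 (s0 (s1 (s0 l0 l0) (s0 l0 l0)) (s1 (s0 l0 l0) (s0 l0 l0))) (s0 (s1 (s0 l0 l0) (s0 l0 l0)) (s1 (s0 l0 l0) (s0 l0 l0)))) (s1 (s0 (s1 (s0 l0 l0) (s0 l0 l0)) (s1 (s0 l0 l0) (s0 l0 l0))) (s0 (s1 (s0 l0 l0) (s0 l0 l0)) (s1 (s0 l0 (s1 l0 (s0 l0 l1))) (s0 (s1 l0 l1) l1))))) 0 _ _ _ _ _ _ _ _ (by decide +kernel)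

theorem c155 : Good (PR (sh G38 3)) 4722366668687110307840 4722366681915609579520 4722366539219616137216 4722366564508383576064 4722366482869645213696 4722366482869645213696 4722366482869645213696 4722366482869645213696 :=
  run_sound (PS _) (s1 (s0 (s1 (s0 (s1 (s0 l0 l0) (s0 l0 l0)) (s1 (s0 l0 l0) (s0 l0 l0))) (s0 (s1 (s0 l0 l0) (s0 l0 l0)) (s1 (s0 l0 l0) (s0 l0 l0)))) (s0 (s1 (s0 (s1 l0 l0) (s1 l0 l0)) (s0 (s1 l0 l0) (s1 l0 l0))) (s1 (s0 (s1 l0 l0) (s1 (s0 l0 l0) (s0 l0 l0))) (s0 (s1 l0 (s0 l0 l0)) (s1 (s0 l0 l0) (s0 l0 l0)))))) (s0 (s1 (s0 (s1 (s0 l0 l0) (s0 l0 l0)) (s1 (s0 l0 l0) (s0 l0 l0))) (s0 (s1 (s0 l0 l0) (s0 l0 l0)) (s0 (s1 l0 l0) (s1 l0 l0)))) (s0 (s1 (s0 (s1 l0 l0) (s1 l0 l0)) (s0 (s1 l0 l0) (s1 l0 l0))) (s1 (s0 (s1 (s0 l0 l0) (s0 l0 l0)) (s1 (s0 l0 l0) (s0 l0 l1))) (s0 (s1 (s0 l0 l0) l1) l1))))) 0 _ _ _ _ _ _ _ _ (by decide +kernel)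

theorem c156 : Good (PR (sh G39 0)) 4722366668687110307840 4722366681915609579520 4722366564508383576064 4722366592820807991296 4722366482869645213696 4722366482869645213696 4722366482869645213696 4722366482869645213696 :=
  run_sound (PS _) (s1 (s0 (s0 l0 (s1 l0 l1)) (s1 l1 l1)) l1) 0 _ _ _ _ _ _ _ _ (by decide +kernel)

theorem c157 : Good (PR (sh G39 1)) 4722366668687110307840 4722366681915609579520 4722366564508383576064 4722366592820807991296 4722366482869645213696 4722366482869645213696 4722366482869645213696 4722366482869645213696 :=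
  run_sound (PS _) (s1 (s0 (s0 l0 (s1 l0 l1)) (s1 l1 l1)) l1) 0 _ _ _ _ _ _ _ _ (by decide +kernel)

theorem c158 : Good (PR (sh G39 2)) 4722366668687110307840 4722366681915609579520 4722366564508383576064 4722366592820807991296 4722366482869645213696 4722366482869645213696 4722366482869645213696 4722366482869645213696 :=
  run_sound (PS _) (s1 (s0 (s0 (s1 (s1 l0 l0) (s1 l0 l0)) (s1 (s1 l0 l0) l1)) (s1 l1 l1)) l1) 0 _ _ _ _ _ _ _ _ (by decide +kernel)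

theorem c159 : Good (PR (sh G39 3)) 4722366668687110307840 4722366681915609579520 4722366564508383576064 4722366592820807991296 4722366482869645213696 4722366482869645213696 4722366482869645213696 4722366482869645213696 :=
  run_sound (PS _) (s1 (s0 (s1 (s0 (s1 (s0 l0 l0) (s0 l0 l0)) (s1 (s0 l0 (s1 l0 l0)) (s0 (s1 l0 l0) l1))) (s0 (s1 (s0 l0 (s1 l0 l0)) (s0 (s1 l0 l0) l1)) l1)) (s1 l1 l1)) l1) 0 _ _ _ _ _ _ _ _ (by decide +kernel)

end Crest.Agent.R307.HG
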