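import Crest.Agent.R307.AA

set_option autoImplicit false
set_option maxRecDepth 100000
set_option linter.unusedVariables false

namespace Crest.Agent.R307.HK
open Crest.Agent.R307.AA

noncomputable section

theorem k0 : |2 ^ 48 * (2 : ℝ) - (((4722367045819598635008 : ℕ) : ℝ) - 2 ^ 72)| ≤ ((0 : ℕ) : ℝ) := by norm_num [abs_le]
theorem k1 : |2 ^ 48 * (1 : ℝ) - (((4722366764344621924352 : ℕ) : ℝ) - 2 ^ 72)| ≤ ((0 : ℕ) : ℝ) := by norm_num [abs_le]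
def a_B1 (gs ps : ℕ) (z24 z32 z42 : AF) : Bool :=
  parK gs 15 fun z16 =>
  parK gs 14 fun z15 =>
  mulK z15 z32 fun z55 =>
  subK z55 z42 fun z56 =>
  parK gs 11 fun z12 =>
  subK z56 z12 fun z57 =>
  normK z57 fun z58 =>
  mulK z24 z58 fun z59 =>
  addK z16 z59 fun z60 =>
  posK z60 <|
  mulK z16 z32 fun z61 =>
  subK z61 z42 fun z62 =>
  subK z62 z12 fun z63 =>
  normK z63 fun z64 =>
  mulK z24 z64 fun z65 =>
  addK z15 z65 fun z66 =>
  posK z66 <|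
  true

def a_R1 (gs ps : ℕ) (z24 z32 z42 : ℝ) : Prop :=
  letR (parV gs 15) fun z16 =>
  letR (parV gs 14) fun z15 =>
  letR (z15 * z32) fun z55 =>
  letR (z55 - z42) fun z56 =>
  letR (parV gs 11) fun z12 =>
  letR (z56 - z12) fun z57 =>
  letR z57 fun z58 =>
  letR (z24 * z58) fun z59 =>
  letR (z16 + z59) fun z60 =>
  posR z60 <|
  letR (z16 * z32) fun z61 =>
  letR (z61 - z42) fun z62 =>
  letR (z62 - z12) fun z63 =>
  letR z63 fun z64 =>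
  letR (z24 * z64) fun z65 =>
  letR (z15 + z65) fun z66 =>
  posR z66 <|
  True

theorem a_S1 {ε : Fin 4 → ℝ} (gs : ℕ) (hε : ∀ i, |ε i| ≤ 1) (ps : ℕ) (z24 z32 z42 : AF) (t24 t32 t42 : ℝ)
    (g24 : Rel ε z24 t24) (g32 : Rel ε z32 t32) (g42 : Rel ε z42 t42) :
    a_B1 gs ps z24 z32 z42 = true → a_R1 gs ps t24 t32 t42 := by
  delta a_B1 a_R1
  exact parS fun z16 t16 g16 =>
  parS fun z15 t15 g15 =>
  mulS hε g15 g32 fun z55 t55 g55 =>
  subS g55 g42 fun z56 t56 g56 =>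
  parS fun z12 t12 g12 =>
  subS g56 g12 fun z57 t57 g57 =>
  normS g57 fun z58 t58 g58 =>
  mulS hε g24 g58 fun z59 t59 g59 =>
  addS g16 g59 fun z60 t60 g60 =>
  posS hε g60 <|
  mulS hε g16 g32 fun z61 t61 g61 =>
  subS g61 g42 fun z62 t62 g62 =>
  subS g62 g12 fun z63 t63 g63 =>
  normS g63 fun z64 t64 g64 =>
  mulS hε g24 g64 fun z65 t65 g65 =>
  addS g15 g65 fun z66 t66 g66 =>
  posS hε g66 <|
  fun _ => trivial

def a_B (gs ps : ℕ) (x0 x1 x2 x3 : AF) : Bool :=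
  parK gs 13 fun z14 =>
  sqrK x0 fun z23 =>
  mulK z23 x0 fun z24 =>
  parK gs 12 fun z13 =>
  rsubK z23 4722367045819598635008 0 fun z25 =>
  sqrtK z25 fun z30 =>
  mulK z25 z30 fun z31 =>
  invK z31 fun z32 =>
  mulK z13 z32 fun z43 =>
  parK gs 0 fun z1 =>
  sqrK z1 fun z33 =>
  rsubK z23 4722366764344621924352 0 fun z26 =>
  mulK z1 z26 fun z27 =>
  addcK z27 4722366764344621924352 0 fun z28 =>
  sqrtK z28 fun z34 =>
  mulK z28 z34 fun z35 =>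
  invK z35 fun z36 =>
  rsubK z27 4722366764344621924352 0 fun z29 =>
  sqrtK z29 fun z37 =>
  mulK z29 z37 fun z38 =>
  invK z38 fun z39 =>
  addK z36 z39 fun z40 =>
  normK z40 fun z41 =>
  mulK z33 z41 fun z42 =>
  subK z43 z42 fun z44 =>
  parK gs 10 fun z11 =>
  subK z44 z11 fun z45 =>
  normK z45 fun z46 =>
  mulK z24 z46 fun z47 =>
  addK z14 z47 fun z48 =>
  posK z48 <|
  mulK z14 z32 fun z49 =>
  subK z49 z42 fun z50 =>
  subK z50 z11 fun z51 =>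
  normK z51 fun z52 =>
  mulK z24 z52 fun z53 =>
  addK z13 z53 fun z54 =>
  posK z54 <|
  a_B1 gs ps z24 z32 z42

def a_R (gs ps : ℕ) (s u1 u2 u3 : ℝ) : Prop :=
  letR (parV gs 13) fun z14 =>
  letR (s ^ 2) fun z23 =>
  letR (z23 * s) fun z24 =>
  letR (parV gs 12) fun z13 =>
  letR ((2 : ℝ) - z23) fun z25 =>
  letR (√z25) fun z30 =>
  letR (z25 * z30) fun z31 =>
  invR z31 fun z32 =>
  letR (z13 * z32) fun z43 =>
  letR (parV gs 0) fun z1 =>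
  letR (z1 ^ 2) fun z33 =>
  letR ((1 : ℝ) - z23) fun z26 =>
  letR (z1 * z26) fun z27 =>
  letR (z27 + (1 : ℝ)) fun z28 =>
  letR (√z28) fun z34 =>
  letR (z28 * z34) fun z35 =>
  invR z35 fun z36 =>
  letR ((1 : ℝ) - z27) fun z29 =>
  letR (√z29) fun z37 =>
  letR (z29 * z37) fun z38 =>
  invR z38 fun z39 =>
  letR (z36 + z39) fun z40 =>
  letR z40 fun z41 =>
  letR (z33 * z41) fun z42 =>
  letR (z43 - z42) fun z44 =>
  letR (parV gs 10) fun z11 =>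
  letR (z44 - z11) fun z45 =>
  letR z45 fun z46 =>
  letR (z24 * z46) fun z47 =>
  letR (z14 + z47) fun z48 =>
  posR z48 <|
  letR (z14 * z32) fun z49 =>
  letR (z49 - z42) fun z50 =>
  letR (z50 - z11) fun z51 =>
  letR z51 fun z52 =>
  letR (z24 * z52) fun z53 =>
  letR (z13 + z53) fun z54 =>
  posR z54 <|
  a_R1 gs ps z24 z32 z42

theorem a_S {ε : Fin 4 → ℝ} (gs : ℕ) (hε : ∀ i, |ε i| ≤ 1) (ps : ℕ) (x0 x1 x2 x3 : AF) (s u1 u2 u3 : ℝ)
    (h0 : Rel ε x0 s) (h1 : Rel ε x1 u1) (h2 : Rel ε x2 u2) (h3 : Rel ε x3 u3) :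
    a_B gs ps x0 x1 x2 x3 = true → a_R gs ps s u1 u2 u3 := by
  delta a_B a_R
  exact parS fun z14 t14 g14 =>
  sqrS hε h0 fun z23 t23 g23 =>
  mulS hε g23 h0 fun z24 t24 g24 =>
  parS fun z13 t13 g13 =>
  rsubS g23 k0 fun z25 t25 g25 =>
  sqrtS hε g25 fun z30 t30 g30 =>
  mulS hε g25 g30 fun z31 t31 g31 =>
  invS hε g31 fun z32 t32 g32 =>
  mulS hε g13 g32 fun z43 t43 g43 =>
  parS fun z1 t1 g1 =>
  sqrS hε g1 fun z33 t33 g33 =>
  rsubS g23 k1 fun z26 t26 g26 =>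
  mulS hε g1 g26 fun z27 t27 g27 =>
  addcS g27 k1 fun z28 t28 g28 =>
  sqrtS hε g28 fun z34 t34 g34 =>
  mulS hε g28 g34 fun z35 t35 g35 =>
  invS hε g35 fun z36 t36 g36 =>
  rsubS g27 k1 fun z29 t29 g29 =>
  sqrtS hε g29 fun z37 t37 g37 =>
  mulS hε g29 g37 fun z38 t38 g38 =>
  invS hε g38 fun z39 t39 g39 =>
  addS g36 g39 fun z40 t40 g40 =>
  normS g40 fun z41 t41 g41 =>
  mulS hε g33 g41 fun z42 t42 g42 =>
  subS g43 g42 fun z44 t44 g44 =>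
  parS fun z11 t11 g11 =>
  subS g44 g11 fun z45 t45 g45 =>
  normS g45 fun z46 t46 g46 =>
  mulS hε g24 g46 fun z47 t47 g47 =>
  addS g14 g47 fun z48 t48 g48 =>
  posS hε g48 <|
  mulS hε g14 g32 fun z49 t49 g49 =>
  subS g49 g42 fun z50 t50 g50 =>
  subS g50 g11 fun z51 t51 g51 =>
  normS g51 fun z52 t52 g52 =>
  mulS hε g24 g52 fun z53 t53 g53 =>
  addS g13 g53 fun z54 t54 g54 =>
  posS hε g54 <|
  a_S1 gs hε ps z24 z32 z42 t24 t32 t42 g24 g32 g42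

/- obtain ⟨s2, T, c, i2, ry, a, b, M, h_s2, h_T, h_c, p_i2, h_i2, h_ry, h_a, p_7, h_b, p_9, h_M, c0, c1, c2, c3⟩ := h -/
def a_Spec (rho m0 m1 m2 n0 n1 n2 k0 k1 k2 ku kw A0 A1 B0 B1 g0 g1 g2 g3 g4 g5 s : ℝ) : Prop :=
  ∃ s2 T c i2 ry a b M : ℝ,
    s2 = (s ^ 2) ∧
    T = (s2 * s) ∧
    c = ((2 : ℝ) - s2) ∧
    0 < (c * (√c)) ∧
    i2 = ((c * (√c))⁻¹) ∧
    ry = (rho * ((1 : ℝ) - s2)) ∧
    a = (ry + (1 : ℝ)) ∧
    0 < (a * (√a)) ∧
    b = ((1 : ℝ) - ry) ∧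
    0 < (b * (√b)) ∧
    M = ((rho ^ 2) * (((a * (√a))⁻¹) + ((b * (√b))⁻¹))) ∧
    0 ≤ (A1 + (T * (((A0 * i2) - M) - ku))) ∧
    0 ≤ (A0 + (T * (((A1 * i2) - M) - ku))) ∧
    0 ≤ (B1 + (T * (((B0 * i2) - M) - kw))) ∧
    0 ≤ (B0 + (T * (((B1 * i2) - M) - kw)))

theorem a_E {gs ps : ℕ} {s u1 u2 u3 : ℝ} (h : a_R gs ps s u1 u2 u3) : a_Spec (parV gs 0) (parV gs 1) (parV gs 2) (parV gs 3) (parV gs 4) (parV gs 5) (parV gs 6) (parV gs 7) (parV gs 8) (parV gs 9) (parV gs 10) (parV gs 11) (parV gs 12) (parV gs 13) (parV gs 14) (parV gs 15) (parV gs 16) (parV gs 17) (parV gs 18) (parV gs 19) (parV gs 20) (parV gs 21) s := by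
  delta a_R at h
  exact letR_in h fun h =>
  letR_ex h fun s2 q1 h =>
  letR_ex h fun T q2 h =>
  letR_in h fun h =>
  letR_ex h fun c q3 h =>
  letR_in h fun h =>
  letR_in h fun h =>
  invR_ex h fun q4 h =>
  letR_ex h fun i2 q5 h =>
  letR_in h fun h =>
  letR_in h fun h =>
  letR_in h fun h =>
  letR_in h fun h =>
  letR_ex h fun ry q6 h =>
  letR_ex h fun a q7 h =>
  letR_in h fun h =>
  letR_in h fun h =>
  invR_ex h fun q8 h =>
  letR_in h fun h =>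
  letR_ex h fun b q9 h =>
  letR_in h fun h =>
  letR_in h fun h =>
  invR_ex h fun q10 h =>
  letR_in h fun h =>
  letR_in h fun h =>
  letR_in h fun h =>
  letR_ex h fun M q11 h =>
  letR_in h fun h =>
  letR_in h fun h =>
  letR_in h fun h =>
  letR_in h fun h =>
  letR_in h fun h =>
  letR_in h fun h =>
  posR_ex h fun q12 h =>
  letR_in h fun h =>
  letR_in h fun h =>
  letR_in h fun h =>
  letR_in h fun h =>
  letR_in h fun h =>
  letR_in h fun h =>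
  posR_ex h fun q13 h =>
  (by delta a_R1 at h; exact
  letR_in h fun h =>
  letR_in h fun h =>
  letR_in h fun h =>
  letR_in h fun h =>
  letR_in h fun h =>
  letR_in h fun h =>
  letR_in h fun h =>
  letR_in h fun h =>
  letR_in h fun h =>
  posR_ex h fun q14 h =>
  letR_in h fun h =>
  letR_in h fun h =>
  letR_in h fun h =>
  letR_in h fun h =>
  letR_in h fun h =>
  letR_in h fun h =>
  posR_ex h fun q15 h =>
  ⟨s2, T, c, i2, ry, a, b, M, q1, q2, q3, q4, q5, q6, q7, q8, q9, q10, q11, q12, q13, q14, q15⟩)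

def PB (gs : ℕ) : Prog := fun j ps x0 x1 x2 x3 =>
  a_B gs ps x0 x1 x2 x3

def PR (gs : ℕ) : ℕ → ℕ → ℝ → ℝ → ℝ → ℝ → Prop := fun j ps s u1 u2 u3 =>
  a_R gs ps s u1 u2 u3

theorem PS (gs : ℕ) : Sound (PB gs) (PR gs) := fun _ hε j => match j with
  | _ => a_S gs hε

theorem PE {j gs ps : ℕ} {s u1 u2 u3 : ℝ} : PR gs j ps s u1 u2 u3 → a_Spec (parV gs 0) (parV gs 1) (parV gs 2) (parV gs 3) (parV gs 4) (parV gs 5) (parV gs 6) (parV gs 7) (parV gs 8) (parV gs 9) (parV gs 10) (parV gs 11) (parV gs 12) (parV gs 13) (parV gs 14) (parV gs 15) (parV gs 16) (parV gs 17) (parV gs 18) (parV gs 19) (parV gs 20) (parV gs 21) s := match j with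
  | _ => fun h => @a_E gs ps s u1 u2 u3 h

theorem of_good {gs l0 h0 l1 h1 l2 h2 l3 h3 : ℕ} (h : Good (PR gs) l0 h0 l1 h1 l2 h2 l3 h3) {s u1 u2 u3 : ℝ}
    (hb : InBox l0 h0 l1 h1 l2 h2 l3 h3 s u1 u2 u3) : a_Spec (parV gs 0) (parV gs 1) (parV gs 2) (parV gs 3) (parV gs 4) (parV gs 5) (parV gs 6) (parV gs 7) (parV gs 8) (parV gs 9) (parV gs 10) (parV gs 11) (parV gs 12) (parV gs 13) (parV gs 14) (parV gs 15) (parV gs 16) (parV gs 17) (parV gs 18) (parV gs 19) (parV gs 20) (parV gs 21) s := by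
  obtain ⟨j, ps, h⟩ := h s u1 u2 u3 hb
  exact PE h

def l0 : Tree := Tree.leaf 0

end

end Crest.Agent.R307.HK
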