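import Crest.Agent.R307.HPair
import Crest.Agent.R307.HBa
import Crest.Agent.R307.HGP
import Crest.Agent.R307.HKP

/-! Row 307: ranges of the weights, the moduli of convexity, the value of the affine part. -/

set_option autoImplicit false

namespace Crest.Agent.R307

theorem HGm_exE {p : ℝ → Prop} {c : Prop} (h : ∃ x, p x) (f : ∀ x, p x → c) : c := h.elim f

theorem HGm_andE {a b c : Prop} (h : a ∧ b) (f : a → b → c) : c := f h.1 h.2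

lemma HGm_KS {rho A A' k s s2 T c i2 ry a b M : ℝ} (h_s2 : s2 = s ^ 2) (h_T : T = s2 * s) (h_c : c = 2 - s2)
    (h_i2 : i2 = (c * √c)⁻¹) (h_ry : ry = rho * (1 - s2)) (h_a : a = ry + 1) (h_b : b = 1 - ry)
    (h_M : M = rho ^ 2 * ((a * √a)⁻¹ + (b * √b)⁻¹)) (c0 : 0 ≤ A + T * ((A' * i2 - M) - k)) :
    0 ≤ A + s ^ 3 * (A' / ((2 - s ^ 2) * √(2 - s ^ 2))
      - rho ^ 2 * (1 / ((1 + rho * (1 - s ^ 2)) * √(1 + rho * (1 - s ^ 2)))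
        + 1 / ((1 - rho * (1 - s ^ 2)) * √(1 - rho * (1 - s ^ 2)))) - k) := by
  have ha : a = 1 + rho * (1 - s ^ 2) := by rw [h_a, h_ry, h_s2]; ring
  have hb : b = 1 - rho * (1 - s ^ 2) := by rw [h_b, h_ry, h_s2]
  have hc : c = 2 - s ^ 2 := by rw [h_c, h_s2]
  have hT : T = s ^ 3 := by rw [h_T, h_s2]; ring
  rw [← ha, ← hb, ← hc, ← hT, one_div, one_div, ← h_M, div_eq_mul_inv, ← h_i2]
  exact c0

lemma HGm_ol {ω : ℝ} (hω : 0 ≤ ω) : ω ^ 2 * (ω ^ 2 + 1 / 4)⁻¹ ≤ ω := by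
  rw [← div_eq_mul_inv, div_le_iff₀ (by positivity)]
  nlinarith [mul_nonneg hω (sq_nonneg (ω - 1 / 2))]

lemma HGm_la {ω lo la : ℝ} (hω : 0 ≤ ω) (hlo : 0 ≤ lo) (hla : 0 ≤ la) (h : 0 ≤ la ^ 2 - ω ^ 2 * lo ^ 2) : ω * lo ≤ la :=
  (pow_le_pow_iff_left₀ (mul_nonneg hω hlo) hla two_ne_zero).1 (by rw [mul_pow]; linarith)

lemma HGm_two {Y C X iX ζ : ℝ} (hZ : ζ ^ 2 = Y) (h1 : Y ≤ 1) (hC : C = √(1 - Y)) (hX : X = √(1 / 2 * (C + 1)))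
    (hi : iX = X⁻¹) : √(1 + ζ) + √(1 - ζ) = 2 - Y * (iX ^ 2 * (2 * X + 2)⁻¹) := by
  obtain ⟨hp, ha, hb, hc⟩ := sqrt_pair hZ h1 hC hX
  obtain ⟨-, hd, -, -⟩ := sqrt_pair (ζ := -ζ) (by rw [neg_sq]; exact hZ) h1 hC hX
  rw [sub_eq_add_neg, ha, hd, hi]
  have hY : Y = 2 * X ^ 2 * (2 - 2 * X ^ 2) := by
    have : C = 2 * X ^ 2 - 1 := by linarith
    rw [this] at hc
    linear_combination hc
  rw [hY]
  have : 0 < 2 * X + 2 := by linarith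
  field_simp
  ring

lemma HGm_psi {σ sb th ρ ω : ℝ} (hσ : 0 < σ) (hsb : 0 < sb) (hs : σ ^ 2 + sb ^ 2 = 1) (hth : th * sb ^ 2 = σ ^ 2) (F G : ℝ) :
    (psiH (σ ^ 2) (σ ^ 2 + ρ * (σ ^ 2 * ω)) + psiH (σ ^ 2) (σ ^ 2 - ρ * (σ ^ 2 * ω)) - F = 2 * psiH (σ ^ 2) (σ ^ 2) - G) =
    (uf (σ ^ 2) * σ * (√(1 + ρ * ω) + √(1 - ρ * ω)) + uf (1 - σ ^ 2) * sb * (√(1 + ρ * th * ω) + √(1 - ρ * th * ω)) - F =
      2 * (uf (σ ^ 2) * σ + uf (1 - σ ^ 2) * sb) - G) := by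
  unfold psiH
  have e1 : σ ^ 2 + ρ * (σ ^ 2 * ω) = σ ^ 2 * (1 + ρ * ω) := by ring
  have e2 : σ ^ 2 - ρ * (σ ^ 2 * ω) = σ ^ 2 * (1 - ρ * ω) := by ring
  have e3 : 1 - (σ ^ 2 + ρ * (σ ^ 2 * ω)) = sb ^ 2 * (1 - ρ * th * ω) := by linear_combination (-1) * hs + ρ * ω * hth
  have e4 : 1 - (σ ^ 2 - ρ * (σ ^ 2 * ω)) = sb ^ 2 * (1 + ρ * th * ω) := by linear_combination (-1) * hs - ρ * ω * hth
  have e5 : √(1 - σ ^ 2) = sb := by rw [show 1 - σ ^ 2 = sb ^ 2 by linarith]; exact Real.sqrt_sq hsb.le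
  rw [e3, e4, e1, e2, e5, Real.sqrt_mul (sq_nonneg σ), Real.sqrt_mul (sq_nonneg σ), Real.sqrt_mul (sq_nonneg sb),
    Real.sqrt_mul (sq_nonneg sb), Real.sqrt_sq hσ.le, Real.sqrt_sq hsb.le]
  congr 1
  ring

/-- `Kap_of_KS` twice; nonnegativity from `s = 0`. -/
theorem HK_main {rho m0 m1 m2 n0 n1 n2 k0 k1 k2 ku kw A0 A1 B0 B1 g0 g1 g2 g3 g4 g5 : ℝ}
    (h : ∀ s : ℝ, 0 ≤ s → s ≤ 1 → HK.a_Spec rho m0 m1 m2 n0 n1 n2 k0 k1 k2 ku kw A0 A1 B0 B1 g0 g1 g2 g3 g4 g5 s) :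
    Kap rho A0 A1 ku ∧ Kap rho B0 B1 kw ∧ 0 ≤ A0 ∧ 0 ≤ A1 := by
  refine ⟨Kap_of_KS ?_ ?_, Kap_of_KS ?_ ?_, ?_, ?_⟩
  · intro s hs0 hs1
    obtain ⟨s2, T, c, i2, ry, a, b, M, h_s2, h_T, h_c, p_i2, h_i2, h_ry, h_a, p_7, h_b, p_9, h_M, c0, c1, c2, c3⟩ := h s hs0 hs1
    exact HGm_KS h_s2 h_T h_c h_i2 h_ry h_a h_b h_M c0
  · intro s hs0 hs1
    obtain ⟨s2, T, c, i2, ry, a, b, M, h_s2, h_T, h_c, p_i2, h_i2, h_ry, h_a, p_7, h_b, p_9, h_M, c0, c1, c2, c3⟩ := h s hs0 hs1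
    exact HGm_KS h_s2 h_T h_c h_i2 h_ry h_a h_b h_M c1
  · intro s hs0 hs1
    obtain ⟨s2, T, c, i2, ry, a, b, M, h_s2, h_T, h_c, p_i2, h_i2, h_ry, h_a, p_7, h_b, p_9, h_M, c0, c1, c2, c3⟩ := h s hs0 hs1
    exact HGm_KS h_s2 h_T h_c h_i2 h_ry h_a h_b h_M c2
  · intro s hs0 hs1
    obtain ⟨s2, T, c, i2, ry, a, b, M, h_s2, h_T, h_c, p_i2, h_i2, h_ry, h_a, p_7, h_b, p_9, h_M, c0, c1, c2, c3⟩ := h s hs0 hs1
    exact HGm_KS h_s2 h_T h_c h_i2 h_ry h_a h_b h_M c3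
  · obtain ⟨s2, T, c, i2, ry, a, b, M, h_s2, h_T, h_c, p_i2, h_i2, h_ry, h_a, p_7, h_b, p_9, h_M, c0, c1, c2, c3⟩ :=
      h 0 le_rfl zero_le_one
    rw [h_T, mul_zero, zero_mul, add_zero] at c1
    exact c1
  · obtain ⟨s2, T, c, i2, ry, a, b, M, h_s2, h_T, h_c, p_i2, h_i2, h_ry, h_a, p_7, h_b, p_9, h_M, c0, c1, c2, c3⟩ :=
      h 0 le_rfl zero_le_one
    rw [h_T, mul_zero, zero_mul, add_zero] at c0
    exact c0

/-- `coef_of`; `ol = W / (W + 1/4) ≤ ω` because `(ω - 1/2)² ≥ 0`; `ω lo ≤ la` from `la² ≥ W lo²`, `la ≥ 0`.  `0 < C1` gives `z² = Z < 1`.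
For the last part take `Γ = Gm`: `FB_pairs` with `τ = τ' = 1`, `q = qt = ik` (`z ik = ω`; `Z qq1 = W < 1` gives the positivity of the `Cs`), so
`FBv (α + δ) (α - δ) = u σ W (ik - 1)² kk2 (Cu + Ts Cw)` (`w sb th² = u σ Ts`), and `sqrt_pair` with `ζ = ± ρ ω` resp. `± ρ th ω` gives
`√(1 + ζ) + √(1 - ζ) - 2 = 2 (X - 1) = - ζ² / (2 X² (1 + X))`. -/
theorem HG_main {rho m0 m1 m2 n0 n1 n2 k0 k1 k2 ku kw A0 A1 B0 B1 g0 g1 g2 g3 g4 g5 σ ω : ℝ} (h0 : 0 ≤ rho) (h1 : rho < 1)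
    (hσ : 0 < σ) (hσ2 : σ ^ 2 ≤ 1 / 2) (hω : 0 ≤ ω) (hω1 : ω < 1)
    (h : HG.a_Spec rho m0 m1 m2 n0 n1 n2 k0 k1 k2 ku kw A0 A1 B0 B1 g0 g1 g2 g3 g4 g5 σ (ω ^ 2)) :
    ω / √(1 - af3 k0 k1 k2 σ (ω ^ 2)) < 1 ∧
    A0 ≤ muv (af3 m0 m1 m2 σ (ω ^ 2)) (af3 n0 n1 n2 σ (ω ^ 2)) ω * uf (σ ^ 2 + σ ^ 2 * ω) / uf (σ ^ 2) ∧
    A1 ≤ muv (af3 m0 m1 m2 σ (ω ^ 2)) (af3 n0 n1 n2 σ (ω ^ 2)) (-ω) * uf (σ ^ 2 - σ ^ 2 * ω) / uf (σ ^ 2) ∧
    B0 ≤ muv (af3 m0 m1 m2 σ (ω ^ 2)) (af3 n0 n1 n2 σ (ω ^ 2)) (-ω) * uf (1 - (σ ^ 2 - σ ^ 2 * ω)) / uf (1 - σ ^ 2) ∧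
    B1 ≤ muv (af3 m0 m1 m2 σ (ω ^ 2)) (af3 n0 n1 n2 σ (ω ^ 2)) ω * uf (1 - (σ ^ 2 + σ ^ 2 * ω)) / uf (1 - σ ^ 2) ∧
    ∃ Γ : ℝ, Γ ≤ gam6 g0 g1 g2 g3 g4 g5 σ (ω ^ 2) ∧ (rho = 0 → k0 = 0 → k1 = 0 → k2 = 0 → Γ = 0) ∧
      psiH (σ ^ 2) (σ ^ 2 + rho * (σ ^ 2 * ω)) + psiH (σ ^ 2) (σ ^ 2 - rho * (σ ^ 2 * ω))
        - FBv rho (af3 m0 m1 m2 σ (ω ^ 2)) (af3 n0 n1 n2 σ (ω ^ 2)) (1 - af3 k0 k1 k2 σ (ω ^ 2)) σ ω
            (σ ^ 2 + σ ^ 2 * ω) (σ ^ 2 - σ ^ 2 * ω) =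
        2 * psiH (σ ^ 2) (σ ^ 2) - uf (σ ^ 2) * σ * ω ^ 2 * Γ := by
  delta HG.a_Spec at h
  refine HGm_exE h fun n h => HGm_exE h fun nW h => HGm_exE h fun al h => HGm_exE h fun a9 h => HGm_exE h fun uh h =>
    HGm_exE h fun iu h => HGm_exE h fun uE h => HGm_exE h fun uO h => HGm_exE h fun m h => HGm_exE h fun lo h =>
    HGm_exE h fun w h => HGm_exE h fun iw h => HGm_exE h fun aw h => HGm_exE h fun wO h => HGm_exE h fun wE h =>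
    HGm_exE h fun tO h => HGm_exE h fun lE h => HGm_exE h fun le h => HGm_exE h fun ol h => HGm_exE h fun la h => ?_
  refine HGm_exE h fun tE h => HGm_exE h fun te h => HGm_exE h fun ta h => HGm_exE h fun r h => HGm_exE h fun ik2 h =>
    HGm_exE h fun kk2 h => HGm_exE h fun Z h => HGm_exE h fun Zr h => HGm_exE h fun ik h => HGm_exE h fun qq1 h =>
    HGm_exE h fun Cs2 h => HGm_exE h fun X2 h => HGm_exE h fun iX2 h => HGm_exE h fun Th h => HGm_exE h fun bc h =>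
    HGm_exE h fun ibc h => HGm_exE h fun sb h => HGm_exE h fun Ts h => HGm_exE h fun th h => HGm_exE h fun t2 h => ?_
  refine HGm_exE h fun Zt h => HGm_exE h fun Ztr h => HGm_exE h fun Cs4 h => HGm_exE h fun X4 h => HGm_exE h fun iX4 h =>
    HGm_exE h fun C1 h => HGm_exE h fun R1 h => HGm_exE h fun iC1 h => HGm_exE h fun ie1 h => HGm_exE h fun Cs1 h =>
    HGm_exE h fun X1 h => HGm_exE h fun Se1 h => HGm_exE h fun iX1 h => HGm_exE h fun qX1 h => HGm_exE h fun iR1 h =>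
    HGm_exE h fun So1 h => HGm_exE h fun iD1 h => HGm_exE h fun Ie1 h => HGm_exE h fun hR1 h => HGm_exE h fun io1 h => ?_
  refine HGm_exE h fun In1 h => HGm_exE h fun ZI1 h => HGm_exE h fun Je1 h => HGm_exE h fun Jo1 h => HGm_exE h fun ge1 h =>
    HGm_exE h fun C2 h => HGm_exE h fun R2 h => HGm_exE h fun iC2 h => HGm_exE h fun ie2 h => HGm_exE h fun Se2 h =>
    HGm_exE h fun qX2 h => HGm_exE h fun iR2 h => HGm_exE h fun So2 h => HGm_exE h fun iD2 h => HGm_exE h fun Ie2 h =>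
    HGm_exE h fun hR2 h => HGm_exE h fun io2 h => HGm_exE h fun In2 h => HGm_exE h fun ZI2 h => HGm_exE h fun Je2 h => ?_
  refine HGm_exE h fun Jo2 h => HGm_exE h fun ge2 h => HGm_exE h fun lo1 h => HGm_exE h fun Zl h => HGm_exE h fun go1 h =>
    HGm_exE h fun Cu h => HGm_exE h fun C3 h => HGm_exE h fun R3 h => HGm_exE h fun iC3 h => HGm_exE h fun ie3 h =>
    HGm_exE h fun Cs3 h => HGm_exE h fun X3 h => HGm_exE h fun Se3 h => HGm_exE h fun iX3 h => HGm_exE h fun qX3 h =>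
    HGm_exE h fun iR3 h => HGm_exE h fun So3 h => HGm_exE h fun iD3 h => HGm_exE h fun Ie3 h => HGm_exE h fun hR3 h => ?_
  refine HGm_exE h fun io3 h => HGm_exE h fun In3 h => HGm_exE h fun ZI3 h => HGm_exE h fun Je3 h => HGm_exE h fun Jo3 h =>
    HGm_exE h fun ge3 h => HGm_exE h fun C4 h => HGm_exE h fun R4 h => HGm_exE h fun iC4 h => HGm_exE h fun ie4 h =>
    HGm_exE h fun Se4 h => HGm_exE h fun qX4 h => HGm_exE h fun iR4 h => HGm_exE h fun So4 h => HGm_exE h fun iD4 h =>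
    HGm_exE h fun Ie4 h => HGm_exE h fun hR4 h => HGm_exE h fun io4 h => HGm_exE h fun In4 h => HGm_exE h fun ZI4 h => ?_
  refine HGm_exE h fun Je4 h => HGm_exE h fun Jo4 h => HGm_exE h fun ge4 h => HGm_exE h fun tO1 h => HGm_exE h fun tt h =>
    HGm_exE h fun Ztt h => HGm_exE h fun go3 h => HGm_exE h fun Cw h => HGm_exE h fun Gm h => HGm_andE h fun h_n h =>
    HGm_andE h fun h_nW h => HGm_andE h fun h_al h => HGm_andE h fun h_a9 h => HGm_andE h fun h_uh h => HGm_andE h fun p_iu h =>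
    HGm_andE h fun h_iu h => HGm_andE h fun h_uE h => HGm_andE h fun h_uO h => HGm_andE h fun h_m h => HGm_andE h fun h_lo h => ?_
  refine HGm_andE h fun c0 h => HGm_andE h fun h_w h => HGm_andE h fun p_iw h => HGm_andE h fun h_iw h => HGm_andE h fun h_aw h =>
    HGm_andE h fun h_wO h => HGm_andE h fun h_wE h => HGm_andE h fun h_tO h => HGm_andE h fun c1 h => HGm_andE h fun h_lE h =>
    HGm_andE h fun h_le h => HGm_andE h fun p_22 h => HGm_andE h fun h_ol h => HGm_andE h fun c2 h => HGm_andE h fun h_la h =>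
    HGm_andE h fun c3 h => HGm_andE h fun c4 h => HGm_andE h fun h_tE h => HGm_andE h fun h_te h => HGm_andE h fun c5 h => ?_
  refine HGm_andE h fun h_ta h => HGm_andE h fun c6 h => HGm_andE h fun c7 h => HGm_andE h fun h_r h => HGm_andE h fun h_ik2 h =>
    HGm_andE h fun p_kk2 h => HGm_andE h fun h_kk2 h => HGm_andE h fun h_Z h => HGm_andE h fun h_Zr h => HGm_andE h fun h_ik h =>
    HGm_andE h fun h_qq1 h => HGm_andE h fun h_Cs2 h => HGm_andE h fun h_X2 h => HGm_andE h fun p_iX2 h =>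
    HGm_andE h fun h_iX2 h => HGm_andE h fun p_46 h => HGm_andE h fun h_Th h => HGm_andE h fun h_bc h => HGm_andE h fun p_ibc h =>
    HGm_andE h fun h_ibc h => ?_
  refine HGm_andE h fun h_sb h => HGm_andE h fun p_sb h => HGm_andE h fun h_Ts h => HGm_andE h fun h_th h =>
    HGm_andE h fun h_t2 h => HGm_andE h fun h_Zt h => HGm_andE h fun h_Ztr h => HGm_andE h fun h_Cs4 h => HGm_andE h fun h_X4 h =>
    HGm_andE h fun p_iX4 h => HGm_andE h fun h_iX4 h => HGm_andE h fun p_62 h => HGm_andE h fun h_C1 h => HGm_andE h fun h_R1 h =>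
    HGm_andE h fun p_iC1 h => HGm_andE h fun h_iC1 h => HGm_andE h fun h_ie1 h => HGm_andE h fun h_Cs1 h =>
    HGm_andE h fun h_X1 h => HGm_andE h fun h_Se1 h => ?_
  refine HGm_andE h fun p_iX1 h => HGm_andE h fun h_iX1 h => HGm_andE h fun h_qX1 h => HGm_andE h fun p_iR1 h =>
    HGm_andE h fun h_iR1 h => HGm_andE h fun h_So1 h => HGm_andE h fun p_iD1 h => HGm_andE h fun h_iD1 h =>
    HGm_andE h fun h_Ie1 h => HGm_andE h fun h_hR1 h => HGm_andE h fun h_io1 h => HGm_andE h fun h_In1 h =>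
    HGm_andE h fun h_ZI1 h => HGm_andE h fun h_Je1 h => HGm_andE h fun h_Jo1 h => HGm_andE h fun h_ge1 h =>
    HGm_andE h fun h_C2 h => HGm_andE h fun h_R2 h => HGm_andE h fun p_iC2 h => HGm_andE h fun h_iC2 h => ?_
  refine HGm_andE h fun h_ie2 h => HGm_andE h fun h_Se2 h => HGm_andE h fun h_qX2 h => HGm_andE h fun p_iR2 h =>
    HGm_andE h fun h_iR2 h => HGm_andE h fun h_So2 h => HGm_andE h fun p_iD2 h => HGm_andE h fun h_iD2 h =>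
    HGm_andE h fun h_Ie2 h => HGm_andE h fun h_hR2 h => HGm_andE h fun h_io2 h => HGm_andE h fun h_In2 h =>
    HGm_andE h fun h_ZI2 h => HGm_andE h fun h_Je2 h => HGm_andE h fun h_Jo2 h => HGm_andE h fun h_ge2 h =>
    HGm_andE h fun h_lo1 h => HGm_andE h fun h_Zl h => HGm_andE h fun h_go1 h => HGm_andE h fun h_Cu h => ?_
  refine HGm_andE h fun h_C3 h => HGm_andE h fun h_R3 h => HGm_andE h fun p_iC3 h => HGm_andE h fun h_iC3 h =>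
    HGm_andE h fun h_ie3 h => HGm_andE h fun h_Cs3 h => HGm_andE h fun h_X3 h => HGm_andE h fun h_Se3 h =>
    HGm_andE h fun p_iX3 h => HGm_andE h fun h_iX3 h => HGm_andE h fun h_qX3 h => HGm_andE h fun p_iR3 h =>
    HGm_andE h fun h_iR3 h => HGm_andE h fun h_So3 h => HGm_andE h fun p_iD3 h => HGm_andE h fun h_iD3 h =>
    HGm_andE h fun h_Ie3 h => HGm_andE h fun h_hR3 h => HGm_andE h fun h_io3 h => HGm_andE h fun h_In3 h => ?_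
  refine HGm_andE h fun h_ZI3 h => HGm_andE h fun h_Je3 h => HGm_andE h fun h_Jo3 h => HGm_andE h fun h_ge3 h =>
    HGm_andE h fun h_C4 h => HGm_andE h fun h_R4 h => HGm_andE h fun p_iC4 h => HGm_andE h fun h_iC4 h => HGm_andE h fun h_ie4 h =>
    HGm_andE h fun h_Se4 h => HGm_andE h fun h_qX4 h => HGm_andE h fun p_iR4 h => HGm_andE h fun h_iR4 h =>
    HGm_andE h fun h_So4 h => HGm_andE h fun p_iD4 h => HGm_andE h fun h_iD4 h => HGm_andE h fun h_Ie4 h =>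
    HGm_andE h fun h_hR4 h => HGm_andE h fun h_io4 h => HGm_andE h fun h_In4 h => ?_
  refine HGm_andE h fun h_ZI4 h => HGm_andE h fun h_Je4 h => HGm_andE h fun h_Jo4 h => HGm_andE h fun h_ge4 h =>
    HGm_andE h fun h_tO1 h => HGm_andE h fun h_tt h => HGm_andE h fun h_Ztt h => HGm_andE h fun h_go3 h => HGm_andE h fun h_Cw h =>
    HGm_andE h fun h_Gm c8 => ?_
  have em : af3 m0 m1 m2 σ (ω ^ 2) = m := by rw [h_m]; rfl
  have en : af3 n0 n1 n2 σ (ω ^ 2) = n := by rw [h_n]; rfl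
  have ek : 1 - af3 k0 k1 k2 σ (ω ^ 2) = ik2 := by rw [h_ik2]; rfl
  rw [em, en, ek]
  obtain ⟨eu, ew, e0, e1, e2, e3⟩ := coef_of (σ := σ) (ω := ω) (W := ω ^ 2) rfl h_al h_a9 h_uh p_iu h_iu h_w p_iw h_iw h_aw
    h_uE h_uO h_wE h_wO h_nW h_lE h_lo h_le h_tE h_tO h_te
  have hal : 0 < al := by rw [h_al]; exact pow_pos hσ 2
  have hu : 0 < al * uh := mul_pos hal p_iu
  have hik : 0 < ik := by rw [h_ik]; exact Real.sqrt_pos.2 p_kk2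
  have hik2 : ik ^ 2 = ik2 := by rw [h_ik]; exact Real.sq_sqrt p_kk2.le
  have hkk : kk2 * ik2 = 1 := by rw [h_kk2]; exact inv_mul_cancel₀ p_kk2.ne'
  have hol : ol ≤ ω := by rw [h_ol]; exact HGm_ol hω
  have hW1 : ω ^ 2 < 1 := pow_lt_one₀ hω hω1 two_ne_zero
  obtain ⟨z, hz⟩ : ∃ z, z = ω / ik := ⟨_, rfl⟩
  have hzik : z * ik = ω := by rw [hz]; exact div_mul_cancel₀ _ hik.ne'
  have hzZ : z ^ 2 = Z := by
    rw [h_Z, hz, div_pow, hik2, h_kk2, div_eq_mul_inv]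
  have hZW : Z * qq1 = ω ^ 2 := by
    rw [h_qq1, ← hzZ, ← hzik]; ring
  have hsb2 : sb ^ 2 = bc := by rw [h_sb]; exact Real.sq_sqrt p_ibc.le
  have hibc : ibc * bc = 1 := by rw [h_ibc]; exact inv_mul_cancel₀ p_ibc.ne'
  have hs : σ ^ 2 + sb ^ 2 = 1 := by rw [hsb2, h_bc, h_al]; ring
  have hth : th * sb ^ 2 = σ ^ 2 := by
    rw [hsb2, h_th, mul_assoc, hibc, mul_one, h_al]
  have hth0 : 0 ≤ th := by rw [h_th, h_ibc]; exact mul_nonneg hal.le (inv_nonneg.2 p_ibc.le)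
  have hth1 : th ≤ 1 := by
    have : th * sb ^ 2 ≤ 1 * sb ^ 2 := by rw [hth]; linarith only [hs, hσ2]
    exact le_of_mul_le_mul_right this (pow_pos p_sb 2)
  have hr1 : r ≤ 1 := by rw [h_r]; exact pow_le_one₀ h0 h1.le
  have hr0 : 0 ≤ r := by rw [h_r]; exact sq_nonneg _
  have ht1 : t2 ≤ 1 := by rw [h_t2]; exact pow_le_one₀ hth0 hth1
  have ht0 : 0 ≤ t2 := by rw [h_t2]; exact sq_nonneg _
  have hW0 : 0 ≤ ω ^ 2 := sq_nonneg _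
  have y2 : Zr * qq1 = r * ω ^ 2 := by rw [h_Zr, mul_assoc, hZW]
  have y3 : Zt * qq1 = t2 * ω ^ 2 := by rw [h_Zt, mul_assoc, hZW]
  have y4 : Ztr * qq1 = r * (t2 * ω ^ 2) := by rw [h_Ztr, mul_assoc, y3]
  have l2 : r * ω ^ 2 < 1 := lt_of_le_of_lt (mul_le_of_le_one_left hW0 hr1) hW1
  have l3 : t2 * ω ^ 2 < 1 := lt_of_le_of_lt (mul_le_of_le_one_left hW0 ht1) hW1
  have l4 : r * (t2 * ω ^ 2) < 1 := lt_of_le_of_lt (mul_le_of_le_one_left (mul_nonneg ht0 hW0) hr1) l3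
  have pC1 : 0 < Cs1 := by rw [h_Cs1, hZW]; exact Real.sqrt_pos.2 (sub_pos.2 hW1)
  have pC2 : 0 < Cs2 := by rw [h_Cs2, y2]; exact Real.sqrt_pos.2 (sub_pos.2 l2)
  have pC3 : 0 < Cs3 := by rw [h_Cs3, y3]; exact Real.sqrt_pos.2 (sub_pos.2 l3)
  have pC4 : 0 < Cs4 := by rw [h_Cs4, y4]; exact Real.sqrt_pos.2 (sub_pos.2 l4)
  refine ⟨?_, ?_, ?_, ?_, ?_, Gm, ?_, ?_, ?_⟩
  · rw [← h_ik, ← hz]
    have : 0 < 1 - Z := by rw [h_C1] at p_iC1; exact Real.sqrt_pos.1 p_iC1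
    rw [← hzZ] at this
    exact lt_of_not_ge fun hh => absurd (one_le_pow₀ (n := 2) hh) (not_le.2 (sub_pos.1 this))
  · rw [e0, eu, mul_div_cancel_left₀ _ hu.ne']
    have := mul_le_mul_of_nonneg_right hol c0
    linarith only [this, c2]
  · rw [e1, eu, mul_div_cancel_left₀ _ hu.ne']
    have := HGm_la hω c0 c3 c4
    linarith only [this, h_la]
  · rw [e2, ew, mul_div_cancel_left₀ _ p_iw.ne']
    have := mul_le_mul_of_nonneg_right hol c1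
    linarith only [this, c5]
  · rw [e3, ew, mul_div_cancel_left₀ _ p_iw.ne']
    have := HGm_la hω c1 c6 c7
    linarith only [this, h_ta]
  · unfold gam6
    exact sub_nonneg.1 c8
  · intro a0 a1 a2 a3
    have hr : r = 0 := by rw [h_r, a0]; ring
    have hi : ik = 1 := by
      rw [h_ik, h_ik2, a1, a2, a3]; simp
    rw [h_Gm, hr, hi]; ring
  · have P1 := pairF_of h_C1 h_R1 h_iR1 p_iC1 h_iC1 h_hR1 h_io1 h_ie1 h_qq1 h_Cs1 pC1 h_X1 h_iX1 h_qX1 h_So1 h_Se1 h_iD1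
      h_In1 h_Ie1 h_ZI1 h_Je1 h_Jo1
    have P2 := pairF_of h_C2 h_R2 h_iR2 p_iC2 h_iC2 h_hR2 h_io2 h_ie2 h_qq1 h_Cs2 pC2 h_X2 h_iX2 h_qX2 h_So2 h_Se2 h_iD2
      h_In2 h_Ie2 h_ZI2 h_Je2 h_Jo2
    have P3 := pairF_of h_C3 h_R3 h_iR3 p_iC3 h_iC3 h_hR3 h_io3 h_ie3 h_qq1 h_Cs3 pC3 h_X3 h_iX3 h_qX3 h_So3 h_Se3 h_iD3
      h_In3 h_Ie3 h_ZI3 h_Je3 h_Jo3
    have P4 := pairF_of h_C4 h_R4 h_iR4 p_iC4 h_iC4 h_hR4 h_io4 h_ie4 h_qq1 h_Cs4 pC4 h_X4 h_iX4 h_qX4 h_So4 h_Se4 h_iD4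
      h_In4 h_Ie4 h_ZI4 h_Je4 h_Jo4
    rw [← h_ge1, ← h_go1] at P1
    rw [← h_ge2] at P2
    rw [← h_ge3, ← h_go3] at P3
    rw [← h_ge4] at P4
    have hle : le = 1 + Z * (lE * qq1) := by rw [h_le, ← hZW]; ring
    have hte : te = 1 + Z * (tE * qq1) := by rw [h_te, ← hZW]; ring
    have hF := (FB_pairs (ρ := rho) (u := al * uh) (w := w) (τ := 1) (τ' := 1) hσ p_sb hs hth h_t2 h_r hzZ zero_le_one zero_le_one
      (by rw [one_pow, mul_one, mul_one]; exact hs) rfl hle hte h_tt h_Zl h_Ztt P1 (h_Zr ▸ P2) (h_Zt ▸ P3)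
      (h_Zt ▸ h_Ztr ▸ P4)).1
    rw [← h_Cu, ← h_Cw] at hF
    have ea : z * lo1 = ω * lo := by rw [h_lo1, ← hzik]; ring
    have eb : z * tO1 = ω * tO := by rw [h_tO1, ← hzik]; ring
    have ec : σ ^ 2 * 1 ^ 2 * (1 + z * ik) = σ ^ 2 + σ ^ 2 * ω := by rw [hzik]; ring
    have ed : σ ^ 2 * 1 ^ 2 * (1 - z * ik) = σ ^ 2 - σ ^ 2 * ω := by rw [hzik]; ring
    rw [ea, eb, ec, ed, sub_self] at hF
    have hFv : FBv rho m n ik2 σ ω (σ ^ 2 + σ ^ 2 * ω) (σ ^ 2 - σ ^ 2 * ω) =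
        al * uh * σ * Z * ((ik - 1) ^ 2 * Cu) + w * sb * Z * ((th * (ik - 1)) ^ 2 * Cw) := by
      unfold FBv
      rw [e0, e1, e2, e3, eu, ew, ← h_ik, ← hz, hF]
      ring
    have s2 := HGm_two (ζ := rho * ω) (by rw [y2, h_r]; ring) (by rw [y2]; exact l2.le) h_Cs2 h_X2 h_iX2
    have s4 := HGm_two (ζ := rho * th * ω) (by rw [y4, h_r, h_t2]; ring) (by rw [y4]; exact l4.le) h_Cs4 h_X4 h_iX4
    have hTs : w * sb * th ^ 2 = al * uh * σ * Ts := by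
      have hiu : uh * iu = 1 := by rw [h_iu]; exact mul_inv_cancel₀ p_iu.ne'
      have hsi : sb⁻¹ = sb * ibc := by
        rw [h_ibc, ← hsb2, sq, mul_inv, ← mul_assoc, mul_inv_cancel₀ p_sb.ne', one_mul]
      rw [h_Ts, h_Th, hsi, h_th]
      have : al * uh * σ * (w * σ * iu * ibc * (sb * ibc)) = al * σ ^ 2 * (uh * iu) * w * ibc ^ 2 * sb := by ring
      rw [this, hiu, ← h_al]; ring
    rw [hFv, HGm_psi hσ p_sb hs hth, s2, s4, y2, y4, eu, ew, h_Gm, h_Z, h_t2]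
    linear_combination (-(ω ^ 2 * kk2 * (ik - 1) ^ 2 * Cw) - r * ω ^ 2 * (iX4 ^ 2 * (2 * X4 + 2)⁻¹)) * hTs

end Crest.Agent.R307
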