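import Crest.Agent.R307.HStepS
import Crest.Agent.R307.B.HStepB

/-! Row 307: certificate for the induction step of the high-noise bound (numerical core). -/

set_option autoImplicit false

namespace Crest.Agent.R307

theorem hstep {ρ β α δ : ℝ} (h0 : 0 ≤ ρ) (h1 : ρ ≤ 4 / 5) (hβ : 0 ≤ β) (h : ρ ^ 2 + β ^ 2 = 1)
    (hα0 : 1 / 64 ≤ α) (hα : α ≤ 1 / 2) (hδ0 : 0 ≤ δ) (hδ : δ ≤ α) (hδ4 : δ ≤ 1 / 4) :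
    ∃ μ0 μ1 η l0 l1 κ : ℝ, 0 ≤ μ0 ∧ 0 ≤ μ1 ∧ 0 ≤ η ∧
      2 * RH β α ≤ μ0 * RH β (α + δ) + μ1 * RH β (α - δ) + η * (α - δ) ^ (1 / (2 - ρ ^ 2)) +
        l0 * (α + δ) + l1 * (α - δ) + κ ∧
      ∀ a0 a1 : ℝ, 0 ≤ a0 → a0 ≤ 1 → 0 ≤ a1 → a1 ≤ 1 →
        μ0 * psiH (α + δ) a0 + μ1 * psiH (α - δ) a1 + η * √a1 + l0 * a0 + l1 * a1 + κ ≤
          psiH α ((1 + ρ) / 2 * a0 + (1 - ρ) / 2 * a1) + psiH α ((1 - ρ) / 2 * a0 + (1 + ρ) / 2 * a1) := by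
  rcases le_total δ (5 / 8 * α) with c | c
  · exact hstepS h0 h1 hβ h hα0 hα hδ0 c hδ4
  · exact hstepB h0 h1 hβ h hα0 hα hδ0 hδ hδ4 c

end Crest.Agent.R307
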