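import Crest.Agent.R307.HSmall
import Crest.Agent.R307.HStep

/-! Row 307: the high-noise induction. -/

set_option autoImplicit false
open Crest.CubeNoise

namespace Crest.Agent.R307

theorem hi_nonneg {n : ℕ} {g : (Fin n → Bool) → ℝ} (hg : Bo g) (x : Fin n → Bool) : 0 ≤ g x := by
  rcases hg x with h | h <;> rw [h] <;> norm_num

theorem hi_le_one {n : ℕ} {g : (Fin n → Bool) → ℝ} (hg : Bo g) (x : Fin n → Bool) : g x ≤ 1 := by
  rcases hg x with h | h <;> rw [h] <;> norm_num

theorem hi_res {n : ℕ} {g : (Fin (n + 1) → Bool) → ℝ} (hg : Bo g) (i : Fin (n + 1)) (b : Bool) :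
    Bo (res i b g) := fun _ => hg _

theorem hi_wlog {ρ β : ℝ} {n : ℕ}
    (H : ∀ g : (Fin n → Bool) → ℝ, Bo g → cubeAverage g ≤ 1 / 2 →
      RH β (cubeAverage g) ≤ cubeAverage (fun x => psiH (cubeAverage g) (noise ρ g x)))
    (g : (Fin n → Bool) → ℝ) (hg : Bo g) :
    RH β (cubeAverage g) ≤ cubeAverage (fun x => psiH (cubeAverage g) (noise ρ g x)) := by
  rcases le_total (cubeAverage g) (1 / 2) with h | h
  · exact H g hg h
  · have e : cubeAverage (fun x => -1 * g x + 1) = 1 - cubeAverage g := by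
      rw [avg_add, avg_mul, avg_const]
      ring
    have h1 := H (fun x => -1 * g x + 1) (fun x => by
      rcases hg x with h | h <;> simp [h]) (by rw [e]; linarith)
    rw [e] at h1
    have e1 : RH β (1 - cubeAverage g) = RH β (cubeAverage g) := by
      simp only [RH, sub_sub_cancel, mul_comm (1 - cubeAverage g) (cubeAverage g)]
      congr 1
      ring
    have e2 : ∀ x, psiH (1 - cubeAverage g) (noise ρ (fun x => -1 * g x + 1) x) =
        psiH (cubeAverage g) (noise ρ g x) := by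
      intro x
      rw [noise_affine, show -1 * noise ρ g x + 1 = 1 - noise ρ g x by ring]
      simp only [psiH, sub_sub_cancel]
      ring
    rw [e1] at h1
    simpa only [e2] using h1

theorem hi_split {ρ : ℝ} {n : ℕ} (F : ℝ → ℝ) (g : (Fin (n + 1) → Bool) → ℝ) (i : Fin (n + 1))
    (b : Bool) : cubeAverage (fun x => F (noise ρ g x)) = cubeAverage (fun x =>
      F ((1 + ρ) / 2 * noise ρ (res i b g) x + (1 - ρ) / 2 * noise ρ (res i (!b) g) x) +
      F ((1 - ρ) / 2 * noise ρ (res i b g) x + (1 + ρ) / 2 * noise ρ (res i (!b) g) x)) / 2 := by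
  have e : ∀ c, res i c (fun x => F (noise ρ g x)) = fun x =>
      F ((1 + ρ) / 2 * noise ρ (res i c g) x + (1 - ρ) / 2 * noise ρ (res i (!c) g) x) := by
    intro c
    funext x
    rw [← noise_res]
    rfl
  rw [avg_split i, e, e, avg_add]
  cases b
  · simp only [Bool.not_true, Bool.not_false]
    rw [add_comm]
    simp only [add_comm ((1 - ρ) / 2 * _)]
  · simp only [Bool.not_true, Bool.not_false]
    simp only [add_comm ((1 - ρ) / 2 * _)]

theorem hi_step {ρ β : ℝ} (h0 : 0 ≤ ρ) (h1 : ρ ≤ 4 / 5) (hβ : 0 ≤ β) (h : ρ ^ 2 + β ^ 2 = 1)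
    {n : ℕ} (ih : ∀ g : (Fin n → Bool) → ℝ, Bo g →
      RH β (cubeAverage g) ≤ cubeAverage (fun x => psiH (cubeAverage g) (noise ρ g x)))
    (g : (Fin (n + 1) → Bool) → ℝ) (hg : Bo g) (i : Fin (n + 1)) (b : Bool) {δ : ℝ}
    (hα0 : 1 / 64 ≤ cubeAverage g) (hα : cubeAverage g ≤ 1 / 2) (hδ0 : 0 ≤ δ) (hδ4 : δ ≤ 1 / 4)
    (e0 : cubeAverage (res i b g) = cubeAverage g + δ)
    (e1 : cubeAverage (res i (!b) g) = cubeAverage g - δ) :
    RH β (cubeAverage g) ≤ cubeAverage (fun x => psiH (cubeAverage g) (noise ρ g x)) := by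
  have hρ : |ρ| ≤ 1 := abs_le.2 ⟨by linarith, by linarith⟩
  have hδ : δ ≤ cubeAverage g := by
    have := avg_nonneg (hi_nonneg (hi_res hg i (!b)))
    linarith
  obtain ⟨μ0, μ1, η, l0, l1, κ, m0, m1, m2, hA, hB⟩ := hstep h0 h1 hβ h hα0 hα hδ0 hδ hδ4
  have i0 := ih _ (hi_res hg i b)
  have i1 := ih _ (hi_res hg i (!b))
  have i2 := revhc h0 (by linarith) n _ (hi_res hg i (!b))
  rw [e0] at i0
  rw [e1] at i1 i2
  have h2 := avg_mono fun x => hB (noise ρ (res i b g) x) (noise ρ (res i (!b) g) x)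
    (noise_nonneg hρ (hi_nonneg (hi_res hg i b)) x) (noise_le_one hρ (hi_le_one (hi_res hg i b)) x)
    (noise_nonneg hρ (hi_nonneg (hi_res hg i (!b))) x)
    (noise_le_one hρ (hi_le_one (hi_res hg i (!b))) x)
  rw [avg_add, avg_add, avg_add, avg_add, avg_add, avg_mul, avg_mul, avg_mul, avg_mul, avg_mul,
    avg_const] at h2
  have a0 : cubeAverage (fun x => noise ρ (res i b g) x) = cubeAverage g + δ :=
    (avg_noise ρ _).trans e0
  have a1 : cubeAverage (fun x => noise ρ (res i (!b) g) x) = cubeAverage g - δ :=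
    (avg_noise ρ _).trans e1
  rw [a0, a1] at h2
  rw [hi_split (psiH (cubeAverage g)) g i b]
  have b0 := mul_le_mul_of_nonneg_left i0 m0
  have b1 := mul_le_mul_of_nonneg_left i1 m1
  have b2 := mul_le_mul_of_nonneg_left i2 m2
  linarith

theorem hi_dict {ρ β : ℝ} (h0 : 0 ≤ ρ) (h1 : ρ ≤ 4 / 5) (hβ : 0 ≤ β) (h : ρ ^ 2 + β ^ 2 = 1) :
    RH β (1 / 2) ≤ (psiH (1 / 2) ((1 + ρ) / 2) + psiH (1 / 2) ((1 - ρ) / 2)) / 2 := by
  have e1 : 1 - (1 + ρ) / 2 = (1 - ρ) / 2 := by ring
  have e2 : 1 - (1 - ρ) / 2 = (1 + ρ) / 2 := by ring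
  have e3 : (1 : ℝ) - 1 / 2 = 1 / 2 := by norm_num
  have e4 : √((1 / 2 : ℝ) * (1 / 2)) = 1 / 2 := Real.sqrt_mul_self (by norm_num)
  have hu : 0 ≤ uf (1 / 2) := by unfold uf; norm_num
  simp only [RH, psiH, e1, e2, e3, e4]
  have hp : 0 ≤ (1 + ρ) / 2 := by linarith
  have hq : 0 ≤ (1 - ρ) / 2 := by linarith
  have s1 := Real.sq_sqrt hp
  have s2 := Real.sq_sqrt hq
  have s3 : √((1 + ρ) / 2) * √((1 - ρ) / 2) = β / 2 := by
    rw [← Real.sqrt_mul hp, show (1 + ρ) / 2 * ((1 - ρ) / 2) = (β / 2) ^ 2 by nlinarith,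
      Real.sqrt_sq (by positivity)]
  rw [Real.sqrt_le_left (by positivity)]
  refine le_of_eq ?_
  calc _ = uf (1 / 2) ^ 2 * (1 + β) := by ring
    _ = uf (1 / 2) ^ 2 * (√((1 + ρ) / 2) ^ 2 + √((1 - ρ) / 2) ^ 2 +
          2 * (√((1 + ρ) / 2) * √((1 - ρ) / 2))) := by rw [s1, s2, s3]; ring
    _ = _ := by ring

/-- Induction on `n`.  Complement symmetry `g ↦ 1 - g` (`noise_affine`, `psiH (1-α) (1-a) = psiH α a`,
`RH β (1-α) = RH β α`) reduces to `α ≤ 1/2`.  `α ≤ 1/64`: `hsmall` (covers `n = 0` and `g = 0`).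
`n = 1`, `α = 1/2`: a dictator, values `p, q`, `(√p + √q)² = 1 + β`, equality.
`n ≥ 2`: `small_coord` for `2g - 1` gives `i` with `|dl i g| ≤ 1/4`; `|dl i g| ≤ α` since the faces have means
`α ± dl i g ≥ 0`; let `g₀` be the face with the larger mean; `hstep` with `δ = |dl i g|`, `noise_res`, `avg_split`,
the hypothesis for both faces, `revhc` for the smaller face, `avg_noise`. -/
theorem ihH {ρ β : ℝ} (h0 : 0 ≤ ρ) (h1 : ρ ≤ 4 / 5) (hβ : 0 ≤ β) (h : ρ ^ 2 + β ^ 2 = 1)
    (n : ℕ) (g : (Fin n → Bool) → ℝ) (hg : Bo g) :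
    RH β (cubeAverage g) ≤ cubeAverage (fun x => psiH (cubeAverage g) (noise ρ g x)) := by
  induction n with
  | zero =>
    refine hi_wlog (fun g hg hα => hsmall h0 h1 hβ h 0 g hg ?_) g hg
    rw [avg_zero_dim g default] at hα ⊢
    rcases hg default with h | h <;> linarith
  | succ n ih =>
    refine hi_wlog (fun g hg hα => ?_) g hg
    rcases le_total (cubeAverage g) (1 / 64) with hs | hs
    · exact hsmall h0 h1 hβ h _ g hg hs
    rcases n with _ | n
    · have e := avg_split 0 g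
      rw [avg_zero_dim _ default, avg_zero_dim _ default] at e
      have key : ∀ b, res 0 b g default = 1 → res 0 (!b) g default = 0 → cubeAverage g = 1 / 2 →
          RH β (cubeAverage g) ≤ cubeAverage (fun x => psiH (cubeAverage g) (noise ρ g x)) := by
        intro b a1 a2 a3
        rw [hi_split (psiH (cubeAverage g)) g 0 b, avg_zero_dim _ default, noise_zero_dim,
          noise_zero_dim, a1, a2, a3]
        simpa only [mul_one, mul_zero, add_zero] using hi_dict h0 h1 hβ h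
      rcases hi_res hg 0 true default with a | a <;> rcases hi_res hg 0 false default with a' | a'
      · rw [a, a'] at e; linarith
      · exact key false a' a (by rw [e, a, a']; norm_num)
      · exact key true a a' (by rw [e, a, a']; norm_num)
      · rw [a, a'] at e; linarith
    · obtain ⟨i, hi, -⟩ := small_coord (fun x => 2 * g x - 1) (fun x => by
        rcases hg x with h | h <;> rw [h] <;> norm_num)
      have e : dl i (fun x => 2 * g x - 1) = 2 * dl i g := by
        have : ∀ b, cubeAverage (res i b (fun x => 2 * g x - 1)) =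
            2 * cubeAverage (res i b g) - 1 := fun b => by
          rw [← avg_mul, ← avg_const (n := n + 1) 1, ← avg_sub, avg_const]
          rfl
        simp only [dl, this]
        ring
      rw [e, abs_le] at hi
      rcases le_total 0 (dl i g) with hd | hd
      · exact hi_step h0 h1 hβ h ih g hg i true hs hα hd (by linarith [hi.2]) (avg_res_true i g)
          (avg_res_false i g)
      · exact hi_step h0 h1 hβ h ih g hg i false (δ := -dl i g) hs hα (by linarith)
          (by linarith [hi.1]) (by rw [avg_res_false]; ring)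
          (by rw [Bool.not_false, avg_res_true]; ring)

/-- `(E ψ)² ≤ E ψ² = u²α + w²(1-α) + u w E[2√(a(1-a))]`; `y ≤ (√y)²`; for `α ∈ {0,1}` the left side is `β - 1 ≤ 0`. -/
theorem finH {ρ β : ℝ} (h0 : 0 ≤ ρ) (h1 : ρ ≤ 4 / 5) (hβ : 0 ≤ β) (h : ρ ^ 2 + β ^ 2 = 1)
    (n : ℕ) (g : (Fin n → Bool) → ℝ) (hg : Bo g) :
    2 * √(cubeAverage g * (1 - cubeAverage g)) - 1 + β ≤
      cubeAverage (fun x => 2 * √(noise ρ g x * (1 - noise ρ g x))) := by
  have hρ : |ρ| ≤ 1 := abs_le.2 ⟨by linarith, by linarith⟩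
  have H := ihH h0 h1 hβ h n g hg
  have hα0 : 0 ≤ cubeAverage g := avg_nonneg (hi_nonneg hg)
  have hα1 : cubeAverage g ≤ 1 := by
    simpa only [avg_const] using avg_mono (g := fun _ => 1) (hi_le_one hg)
  have hE : 0 ≤ cubeAverage (fun x => 2 * √(noise ρ g x * (1 - noise ρ g x))) :=
    avg_nonneg fun x => by positivity
  have hβ1 : β ≤ 1 := by nlinarith
  rcases hα0.eq_or_lt with e | hα0
  · rw [← e, zero_mul, Real.sqrt_zero]
    linarith
  rcases hα1.eq_or_lt with e | hα1
  · rw [e, sub_self, mul_zero, Real.sqrt_zero]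
    linarith
  have hav := avg_noise ρ g
  generalize cubeAverage g = α at *
  have hu : 0 < uf α := by
    unfold uf
    have := sub_pos.2 hα1
    positivity
  have hw : 0 < uf (1 - α) := by
    unfold uf
    have := sub_pos.2 hα1
    rw [sub_sub_cancel]
    positivity
  have h2 := pow_le_pow_left₀ (Real.sqrt_nonneg _) H 2
  have h3 := Cube_sq_le (fun x => psiH α (noise ρ g x))
  have h4 : ∀ x, psiH α (noise ρ g x) ^ 2 = (uf α ^ 2 - uf (1 - α) ^ 2) * noise ρ g x +
      uf (1 - α) ^ 2 + uf α * uf (1 - α) * (2 * √(noise ρ g x * (1 - noise ρ g x))) := by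
    intro x
    have a0 := noise_nonneg hρ (hi_nonneg hg) x
    have a1 := sub_nonneg.2 (noise_le_one hρ (hi_le_one hg) x)
    rw [Real.sqrt_mul a0, psiH, add_sq, mul_pow, mul_pow, Real.sq_sqrt a0, Real.sq_sqrt a1]
    ring
  simp only [h4] at h3
  rw [avg_add, avg_add, avg_mul, avg_mul, avg_const] at h3
  have h5 : ∀ y : ℝ, y ≤ √y ^ 2 := fun y => by
    rcases le_total 0 y with hy | hy
    · exact (Real.sq_sqrt hy).ge
    · exact hy.trans (sq_nonneg _)
  have h6 := (h5 _).trans (h2.trans h3)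
  have hav' : cubeAverage (fun x => noise ρ g x) = α := hav
  rw [hav'] at h6
  refine le_of_mul_le_mul_left ?_ (mul_pos hu hw)
  linarith

end Crest.Agent.R307
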