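import Crest.Agent.R307.Cube

/-! Row 307, Hellinger statement: definitions.  `g` is the indicator of a set (`Bo g`), `α` its mean,
`a = noise ρ g ∈ [0,1]`, `β = √(1-ρ²)`. -/

set_option autoImplicit false
open Crest.CubeNoise

namespace Crest.Agent.R307

noncomputable section

/-- `{0,1}`-valued -/
def Bo {n : ℕ} (g : (Fin n → Bool) → ℝ) : Prop := ∀ x, g x = 0 ∨ g x = 1

/-- tilt of the high-noise test -/
def uf (α : ℝ) : ℝ := α * (1 + 9 / 10 * (1 - α))

/-- the high-noise test function at level `α` -/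
def psiH (α a : ℝ) : ℝ := uf α * √a + uf (1 - α) * √(1 - a)

/-- the high-noise lower bound -/
def RH (β α : ℝ) : ℝ :=
  √(uf α ^ 2 * α + uf (1 - α) ^ 2 * (1 - α) + uf α * uf (1 - α) * (2 * √(α * (1 - α)) - 1 + β))

/-- the low-noise test function; the second one is `nf (1 - a)` -/
def nf (a : ℝ) : ℝ := √a * √(1 - a) + √a - √(1 - a) + 1 - 2 * a

/-- the low-noise profile in the variable `m = 2α - 1` -/
def Yf (m : ℝ) : ℝ := (1 - m ^ 2) * (1 + m ^ 2 / 4 + m ^ 4 / 10)

end

end Crest.Agent.R307
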