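import Crest.Agent.R307.LStep

/-! Row 307: the low-noise induction.  `N = E nf a`, `P = E nf (1 - a)`, `m = 2α - 1`. -/

set_option autoImplicit false
open Crest.CubeNoise

namespace Crest.Agent.R307

theorem nf_nonneg {a : ℝ} (h0 : 0 ≤ a) (h1 : a ≤ 1) : 0 ≤ nf a := by
  have hx := Real.sqrt_nonneg a
  have hy := Real.sqrt_nonneg (1 - a)
  have ex := Real.sq_sqrt h0
  have ey := Real.sq_sqrt (sub_nonneg.2 h1)
  have hx1 : √a ≤ 1 := Real.sqrt_le_one.2 h1
  unfold nf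
  generalize √a = x at *
  generalize √(1 - a) = y at *
  refine nonneg_of_mul_nonneg_left (b := x + y + 1) ?_ (by positivity)
  have : (x * y + x - y + 1 - 2 * a) * (x + y + 1) = x * y * (1 - x + 3 * y) := by
    linear_combination (2 * y + 1) * ex - (2 * x + 1) * ey
  rw [this]
  exact mul_nonneg (mul_nonneg hx hy) (by linarith)

theorem Yf_nonneg {m : ℝ} (h : |m| ≤ 1) : 0 ≤ Yf m := mul_nonneg (sub_nonneg.2 ((sq_le_one_iff_abs_le_one m).2 h)) (by positivity)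

theorem li_add (a : ℝ) : nf a + nf (1 - a) = 2 * (√a * √(1 - a)) := by
  unfold nf
  rw [sub_sub_cancel]
  ring

theorem li_res {n : ℕ} {g : (Fin (n + 1) → Bool) → ℝ} (hg : Bo g) (i : Fin (n + 1)) (b : Bool) :
    Bo (res i b g) := fun _ => hg _

theorem li_0 {n : ℕ} {g : (Fin n → Bool) → ℝ} (hg : Bo g) (x : Fin n → Bool) : 0 ≤ g x := by
  rcases hg x with e | e <;> rw [e]
  exact zero_le_one

theorem li_1 {n : ℕ} {g : (Fin n → Bool) → ℝ} (hg : Bo g) (x : Fin n → Bool) : g x ≤ 1 := by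
  rcases hg x with e | e <;> rw [e]
  exact zero_le_one

theorem li_a0 {n : ℕ} {g : (Fin n → Bool) → ℝ} (hg : Bo g) : 0 ≤ cubeAverage g :=
  avg_nonneg (li_0 hg)

theorem li_a1 {n : ℕ} {g : (Fin n → Bool) → ℝ} (hg : Bo g) : cubeAverage g ≤ 1 :=
  (avg_mono (li_1 hg)).trans_eq (avg_const 1)

theorem li_Y {n : ℕ} {g : (Fin n → Bool) → ℝ} (hg : Bo g) : 0 ≤ Yf (2 * cubeAverage g - 1) :=
  Yf_nonneg (abs_le.2 ⟨by linarith [li_a0 hg], by linarith [li_a1 hg]⟩)

theorem li_N {n : ℕ} {ρ : ℝ} (hρ : |ρ| ≤ 1) {g : (Fin n → Bool) → ℝ} (hg : Bo g) :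
    0 ≤ cubeAverage (fun x => nf (noise ρ g x)) :=
  avg_nonneg fun x => nf_nonneg (noise_nonneg hρ (li_0 hg) x) (noise_le_one hρ (li_1 hg) x)

theorem li_P {n : ℕ} {ρ : ℝ} (hρ : |ρ| ≤ 1) {g : (Fin n → Bool) → ℝ} (hg : Bo g) :
    0 ≤ cubeAverage (fun x => nf (1 - noise ρ g x)) :=
  avg_nonneg fun x => nf_nonneg (sub_nonneg.2 (noise_le_one hρ (li_1 hg) x))
    (sub_le_self _ (noise_nonneg hρ (li_0 hg) x))

theorem li_split {n : ℕ} (ρ : ℝ) (i : Fin (n + 1)) (b : Bool) (g : (Fin (n + 1) → Bool) → ℝ)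
    (F : ℝ → ℝ) : cubeAverage (fun x => F (noise ρ g x)) = cubeAverage (fun x =>
      F ((1 + ρ) / 2 * noise ρ (res i b g) x + (1 - ρ) / 2 * noise ρ (res i (!b) g) x) +
      F ((1 - ρ) / 2 * noise ρ (res i b g) x + (1 + ρ) / 2 * noise ρ (res i (!b) g) x)) / 2 := by
  have e : ∀ b, res i b (fun x => F (noise ρ g x)) = fun x =>
      F ((1 + ρ) / 2 * noise ρ (res i b g) x + (1 - ρ) / 2 * noise ρ (res i (!b) g) x) :=
    fun b => funext fun x => by rw [← noise_res]; rfl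
  rw [avg_split i, e, e, avg_add]
  cases b <;> simp only [Bool.not_true, Bool.not_false, add_comm]

theorem li_amgm {A1 A2 B c N P : ℝ} (h1 : 0 ≤ A1) (h2 : 0 ≤ A2) (hN : 0 ≤ N) (hP : 0 ≤ P)
    (hB : B ^ 2 ≤ A1 * A2) (hc : (c / 2) ^ 2 ≤ N * P) : c * B ≤ A1 * N + A2 * P := by
  refine (abs_le_of_sq_le_sq' ?_ (by positivity)).2
  have := mul_le_mul hB hc (sq_nonneg _) (mul_nonneg h1 h2)
  nlinarith [sq_nonneg (A1 * N - A2 * P)]

theorem li_prod {c N P : ℝ} (hN : 0 ≤ N) (hP : 0 ≤ P) (hc : 0 ≤ c)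
    (h : ∀ μ : ℝ, 0 < μ → c ≤ μ * N + P / μ) : (c / 2) ^ 2 ≤ N * P := by
  rcases hc.eq_or_lt with rfl | hc
  · simpa using mul_nonneg hN hP
  rcases hN.eq_or_lt with rfl | hN
  · have := h ((P + 1) / c) (by positivity)
    rw [mul_zero, zero_add, le_div_iff₀ (by positivity), mul_div_cancel₀ _ hc.ne'] at this
    linarith
  · have := mul_le_mul_of_nonneg_left (h (c / (2 * N)) (by positivity)) hc.le
    have e : c * (c / (2 * N) * N + P / (c / (2 * N))) = c ^ 2 / 2 + 2 * (N * P) := by field_simp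
    nlinarith

theorem li_step {ρ β μ : ℝ} (h0 : 0 ≤ ρ) (hβ0 : 0 ≤ β) (hβ : β ≤ 3 / 5) (h : ρ ^ 2 + β ^ 2 = 1)
    (hμ : 1 ≤ μ) {n : ℕ} {g0 g1 : (Fin n → Bool) → ℝ} (hg0 : Bo g0) (hg1 : Bo g1)
    (hd0 : cubeAverage g1 ≤ cubeAverage g0) (hd : cubeAverage g0 - cubeAverage g1 ≤ 1 / 2)
    (i0 : (β * Yf (2 * cubeAverage g0 - 1) / 2) ^ 2 ≤
      cubeAverage (fun x => nf (noise ρ g0 x)) * cubeAverage (fun x => nf (1 - noise ρ g0 x)))
    (i1 : (β * Yf (2 * cubeAverage g1 - 1) / 2) ^ 2 ≤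
      cubeAverage (fun x => nf (noise ρ g1 x)) * cubeAverage (fun x => nf (1 - noise ρ g1 x))) :
    2 * β * Yf (cubeAverage g0 + cubeAverage g1 - 1) ≤
      μ * cubeAverage (fun x => nf ((1 + ρ) / 2 * noise ρ g0 x + (1 - ρ) / 2 * noise ρ g1 x) +
        nf ((1 - ρ) / 2 * noise ρ g0 x + (1 + ρ) / 2 * noise ρ g1 x)) +
      cubeAverage (fun x => nf (1 - ((1 + ρ) / 2 * noise ρ g0 x + (1 - ρ) / 2 * noise ρ g1 x)) +
        nf (1 - ((1 - ρ) / 2 * noise ρ g0 x + (1 + ρ) / 2 * noise ρ g1 x))) / μ := by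
  have hρ : |ρ| ≤ 1 := (sq_le_one_iff_abs_le_one ρ).1 (by nlinarith)
  obtain ⟨A1, A2, A3, A4, B0, B1, C, a1, a2, a3, a4, b0, b1, hY, hp⟩ :=
    lstep (m := cubeAverage g0 + cubeAverage g1 - 1) h0 hβ0 hβ h hμ (sub_nonneg.2 hd0) hd
      (by linarith [li_a1 hg0]) (by linarith [li_a0 hg1])
  have k := avg_mono fun x => hp _ _ (noise_nonneg hρ (li_0 hg0) x) (noise_le_one hρ (li_1 hg0) x)
    (noise_nonneg hρ (li_0 hg1) x) (noise_le_one hρ (li_1 hg1) x)
  rw [avg_add, avg_add, avg_add, avg_add, avg_mul, avg_mul, avg_mul, avg_mul, avg_mul, avg_sub,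
    avg_noise, avg_noise, avg_add, avg_mul, avg_div] at k
  have k0 := li_amgm a1 a2 (li_N hρ hg0) (li_P hρ hg0) b0 i0
  have k1 := li_amgm a3 a4 (li_N hρ hg1) (li_P hρ hg1) b1 i1
  rw [show cubeAverage g0 + cubeAverage g1 - 1 + (cubeAverage g0 - cubeAverage g1) =
      2 * cubeAverage g0 - 1 by ring,
    show cubeAverage g0 + cubeAverage g1 - 1 - (cubeAverage g0 - cubeAverage g1) =
      2 * cubeAverage g1 - 1 by ring] at hY
  linarith

/-- Induction on `n`.  `n = 0` and constants: `Yf (±1) = 0`.  `n = 1`, dictator: `N = P = β/2`.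
`n ≥ 2`: it suffices to show `μ N + P/μ ≥ β Y` for all `μ > 0` (then `N P ≥ (βY/2)²`: `μ = √(P/N)`, or `μ → 0, ∞`);
the complement `g ↦ 1 - g` exchanges `N, P` and `μ, 1/μ` (`Yf` is even), so let `μ ≥ 1`; `i` from `small_coord`
for `2g - 1`, `δ = |dl i (2g-1)| = 2|dl i g|`, `g₀` the face with the larger mean, `E (a₀ - a₁) = δ`; average `lstep`:
`2(μN + P/μ) ≥ A1 N₀ + A2 P₀ + A3 N₁ + A4 P₁ + Cδ` and `A1 N₀ + A2 P₀ ≥ 2√(A1 A2 N₀ P₀) ≥ B0 β Y₀`. -/
theorem ihL {ρ β : ℝ} (h0 : 0 ≤ ρ) (hβ0 : 0 ≤ β) (hβ : β ≤ 3 / 5) (h : ρ ^ 2 + β ^ 2 = 1)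
    (n : ℕ) (g : (Fin n → Bool) → ℝ) (hg : Bo g) :
    (β * Yf (2 * cubeAverage g - 1) / 2) ^ 2 ≤
      cubeAverage (fun x => nf (noise ρ g x)) * cubeAverage (fun x => nf (1 - noise ρ g x)) := by
  have hρ : |ρ| ≤ 1 := (sq_le_one_iff_abs_le_one ρ).1 (by nlinarith)
  induction n using Nat.twoStepInduction with
  | zero =>
    rw [noise_zero_dim, avg_zero_dim g default, avg_zero_dim _ default, avg_zero_dim _ default]
    rcases hg default with e | e <;> rw [e] <;> norm_num [Yf, nf]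
  | one =>
    have e := fun F => li_split ρ 0 true g F
    rw [e nf, e fun a => nf (1 - a), avg_split 0 g]
    simp only [noise_zero_dim, avg_zero_dim _ (default : Fin 0 → Bool)]
    have hs : √((1 + ρ) / 2) * √(1 - (1 + ρ) / 2) = β / 2 := by
      rw [← Real.sqrt_mul (by positivity), Real.sqrt_eq_iff_mul_self_eq
        (mul_nonneg (by positivity) (by linarith [(abs_le.1 hρ).2])) (by positivity)]
      linear_combination -h / 4
    have h1 := li_add ((1 + ρ) / 2)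
    have e1 : 1 - (1 + ρ) / 2 = (1 - ρ) / 2 := by ring
    have e2 : 1 - (1 - ρ) / 2 = (1 + ρ) / 2 := by ring
    have e3 : (1 + ρ) / 2 + (1 - ρ) / 2 = 1 := by ring
    have e4 : (1 - ρ) / 2 + (1 + ρ) / 2 = 1 := by ring
    rw [hs, e1] at h1
    rcases li_res hg 0 true default with a | a <;> rcases li_res hg 0 false default with b | b <;>
      simp only [Bool.not_true, a, b, mul_zero, mul_one, add_zero, zero_add, e1, e2, e3, e4]
    · norm_num [Yf, nf]
    · rw [add_comm (nf ((1 - ρ) / 2)), h1]; norm_num [Yf]; linarith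
    · rw [add_comm (nf ((1 - ρ) / 2)), h1]; norm_num [Yf]; linarith
    · norm_num [Yf, nf]
  | more n _ ih =>
    have key : ∀ μ : ℝ, 1 ≤ μ → ∀ g : (Fin (n + 2) → Bool) → ℝ, Bo g →
        β * Yf (2 * cubeAverage g - 1) ≤ μ * cubeAverage (fun x => nf (noise ρ g x)) +
          cubeAverage (fun x => nf (1 - noise ρ g x)) / μ := fun μ hμ g hg => by
      obtain ⟨i, hi, -⟩ := small_coord (fun x => 2 * g x - 1) fun x => by
        rcases hg x with e | e <;> rw [e] <;> norm_num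
      have e0 : ∀ b, cubeAverage (res i b fun x => 2 * g x - 1) = 2 * cubeAverage (res i b g) - 1 :=
        fun b => (avg_sub (fun x => 2 * res i b g x) fun _ => 1).trans (by rw [avg_mul, avg_const])
      rw [dl, e0, e0, abs_le] at hi
      obtain ⟨b, hb1, hb2, hb3⟩ : ∃ b : Bool, cubeAverage (res i (!b) g) ≤ cubeAverage (res i b g) ∧
          cubeAverage (res i b g) - cubeAverage (res i (!b) g) ≤ 1 / 2 ∧
          2 * cubeAverage g - 1 = cubeAverage (res i b g) + cubeAverage (res i (!b) g) - 1 := by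
        rcases le_total (cubeAverage (res i false g)) (cubeAverage (res i true g)) with c | c
        · exact ⟨true, c, by simp only [Bool.not_true]; linarith [hi.2],
            by rw [avg_split i g, Bool.not_true]; ring⟩
        · exact ⟨false, c, by simp only [Bool.not_false]; linarith [hi.1],
            by rw [avg_split i g, Bool.not_false]; ring⟩
      have := li_step h0 hβ0 hβ h hμ (li_res hg i b) (li_res hg i (!b)) hb1 hb2
        (ih _ (li_res hg i b)) (ih _ (li_res hg i (!b)))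
      rw [li_split ρ i b g nf, li_split ρ i b g fun a => nf (1 - a), hb3, div_right_comm]
      linarith
    refine li_prod (li_N hρ hg) (li_P hρ hg) (mul_nonneg hβ0 (li_Y hg)) fun μ hμ => ?_
    rcases le_total 1 μ with c | c
    · exact key μ c g hg
    have := key μ⁻¹ ((one_le_inv₀ hμ).2 c) (fun x => -1 * g x + 1) fun x => by
      rcases hg x with e | e <;> simp [e]
    have e1 : ∀ a : ℝ, -1 * a + 1 = 1 - a := fun a => by ring
    have e2 : Yf (2 * (1 - cubeAverage g) - 1) = Yf (2 * cubeAverage g - 1) := by unfold Yf; ring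
    simp only [noise_affine] at this
    rw [avg_add, avg_mul, avg_const] at this
    simp only [e1, sub_sub_cancel, e2] at this
    rw [div_inv_eq_mul, ← div_eq_inv_mul] at this
    linarith

/-- `nf a + nf (1-a) = 2√(a(1-a))`, `N + P ≥ 2√(N P) ≥ β Y`, and with `M = m²`:
`β (1 - Y) ≤ (3/5)(3M/4 + 3M²/20 + M³/10) ≤ 1 - √(1-M)`. -/
theorem finL {ρ β : ℝ} (h0 : 0 ≤ ρ) (hβ0 : 0 ≤ β) (hβ : β ≤ 3 / 5) (h : ρ ^ 2 + β ^ 2 = 1)
    (n : ℕ) (g : (Fin n → Bool) → ℝ) (hg : Bo g) :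
    2 * √(cubeAverage g * (1 - cubeAverage g)) - 1 + β ≤
      cubeAverage (fun x => 2 * √(noise ρ g x * (1 - noise ρ g x))) := by
  have hρ : |ρ| ≤ 1 := (sq_le_one_iff_abs_le_one ρ).1 (by nlinarith)
  have k := li_amgm zero_le_one zero_le_one (li_N hρ hg) (li_P hρ hg) (B := 1) (by norm_num)
    (ihL h0 hβ0 hβ h n g hg)
  rw [mul_one, one_mul, one_mul, ← avg_add] at k
  have e : (fun x => nf (noise ρ g x) + nf (1 - noise ρ g x)) =
      fun x => 2 * √(noise ρ g x * (1 - noise ρ g x)) := funext fun x => by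
    rw [li_add, Real.sqrt_mul (noise_nonneg hρ (li_0 hg) x)]
  rw [e] at k
  refine le_trans ?_ k
  have a0 := li_a0 hg
  have a1 := li_a1 hg
  generalize cubeAverage g = α at a0 a1
  obtain ⟨M, hM⟩ : ∃ M, M = (2 * α - 1) ^ 2 := ⟨_, rfl⟩
  have M0 : 0 ≤ M := hM ▸ sq_nonneg _
  have M1 : M ≤ 1 := by nlinarith
  have eY : Yf (2 * α - 1) = 1 - (3 * M / 4 + 3 * M ^ 2 / 20 + M ^ 3 / 10) := by
    rw [hM, Yf]; ring
  have M2 : M ^ 2 ≤ M := by nlinarith
  have M3 : M ^ 3 ≤ M := by nlinarith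
  have hs : √(α * (1 - α)) ≤ (1 - 3 / 5 * (3 * M / 4 + 3 * M ^ 2 / 20 + M ^ 3 / 10)) / 2 := by
    refine Real.sqrt_le_iff.2 ⟨by linarith, ?_⟩
    rw [show α * (1 - α) = (1 - M) / 4 by rw [hM]; ring]
    nlinarith [pow_nonneg M0 2, pow_nonneg M0 3, pow_nonneg M0 4, pow_nonneg M0 5, pow_nonneg M0 6]
  have := mul_le_mul_of_nonneg_right hβ
    (show 0 ≤ 3 * M / 4 + 3 * M ^ 2 / 20 + M ^ 3 / 10 by positivity)
  rw [eY]
  linarith

end Crest.Agent.R307
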