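import Crest.Agent.R307.HInd
import Crest.Agent.R307.LInd

/-! Row 307: assembly of the Hellinger statement.  `avg_noise_abs` reduces to `ρ ≥ 0`; `g = (spin f + 1)/2`,
`noise ρ (spin f) = 2a - 1`, `1 - (2a-1)² = 4a(1-a)`; `ρ ≤ 4/5`: `finH`, else `β ≤ 3/5`: `finL`. -/

set_option autoImplicit false
open Crest.CubeNoise

namespace Crest.Agent.R307

theorem hellinger (n : ℕ) (f : (Fin n → Bool) → Bool) (ρ : ℝ) (hρ : |ρ| ≤ 1) :
    Real.sqrt (1 - (cubeAverage (fun x => spin (f x))) ^ 2)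
        - cubeAverage (fun x => Real.sqrt (1 - (noise ρ (fun y => spin (f y)) x) ^ 2))
      ≤ 1 - Real.sqrt (1 - ρ ^ 2) := by
  have e : ∀ a : ℝ, √(1 - (2 * a + -1) ^ 2) = 2 * √(a * (1 - a)) := fun a => by
    rw [show 1 - (2 * a + -1) ^ 2 = 2 ^ 2 * (a * (1 - a)) by ring, Real.sqrt_mul (by norm_num),
      Real.sqrt_sq (by norm_num)]
  obtain ⟨g, hg, eg⟩ : ∃ g : (Fin n → Bool) → ℝ, Bo g ∧ ∀ x, spin (f x) = 2 * g x + -1 :=
    ⟨fun x => if f x then 1 else 0, fun x => by cases hx : f x <;> simp [hx],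
      fun x => by cases hx : f x <;> norm_num [spin, hx]⟩
  have hβ : |ρ| ^ 2 + √(1 - ρ ^ 2) ^ 2 = 1 := by
    rw [Real.sq_sqrt (sub_nonneg.2 ((sq_le_one_iff_abs_le_one ρ).2 hρ)), sq_abs]; ring
  have h0 := Real.sqrt_nonneg (1 - ρ ^ 2)
  rw [avg_noise_abs ρ _ fun a => √(1 - a ^ 2)]
  simp only [eg, noise_affine, avg_add, avg_mul, avg_const, e]
  rw [← avg_mul]
  rcases le_total |ρ| (4 / 5) with c | c
  · linarith [finH (abs_nonneg ρ) c h0 hβ n g hg]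
  · linarith [finL (abs_nonneg ρ) h0 (by nlinarith) hβ n g hg]

end Crest.Agent.R307
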