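import Crest.Agent.R307.HVDefs

/-! Row 307: algebraic identities for `HPair`. -/

set_option autoImplicit false

namespace Crest.Agent.R307

theorem sqrt_pair' {Z C R ζ : ℝ} (hZ : ζ ^ 2 = Z) (h1 : Z ≤ 1) (hC : C = √(1 - Z)) (hR : R = √(1 / 2 * (C + 1))) :
    0 < R ∧ √(1 + ζ) = R + ζ / (2 * R) ∧ 2 * R ^ 2 = 1 + C ∧ C ^ 2 = 1 - Z := by
  have hC0 : 0 ≤ C := hC ▸ Real.sqrt_nonneg _
  have hC2 : C ^ 2 = 1 - Z := by rw [hC, Real.sq_sqrt (by linarith)]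
  have hR0 : 0 < R := by rw [hR]; exact Real.sqrt_pos.2 (by linarith)
  have hR2 : 2 * R ^ 2 = 1 + C := by
    have : R ^ 2 = 1 / 2 * (C + 1) := by rw [hR, Real.sq_sqrt (by linarith)]
    linarith
  refine ⟨hR0, ?_, hR2, hC2⟩
  have hζ : -1 ≤ ζ := by nlinarith
  have h0 : 0 ≤ R + ζ / (2 * R) := by
    have : R + ζ / (2 * R) = (2 * R ^ 2 + ζ) / (2 * R) := by field_simp
    rw [this]
    exact div_nonneg (by linarith) (by positivity)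
  have hsq : (R + ζ / (2 * R)) ^ 2 = 1 + ζ := by
    have h4 : ζ ^ 2 = (1 - C) * (2 * R ^ 2) := by rw [hR2, hZ]; linarith
    field_simp
    linear_combination h4 + 2 * R ^ 2 * hR2
  rw [← hsq, Real.sqrt_sq h0]

theorem HPairA_inv {Z C R ζ : ℝ} (hZ : ζ ^ 2 = Z) (hR : 0 < R) (hC : 0 < C) (h2 : 2 * R ^ 2 = 1 + C)
    (h3 : C ^ 2 = 1 - Z) : (R + ζ / (2 * R)) * (R * C⁻¹ - ζ * (1 / 2 * (R⁻¹ * C⁻¹))) = 1 := by
  have h4 : ζ ^ 2 = (1 - C) * (2 * R ^ 2) := by rw [h2, hZ]; linarith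
  field_simp
  linear_combination (-1) * h4 + 2 * R ^ 2 * h2

theorem pairF_of' {Z q qq C R iR iC hR io ie Cs X iX qX So Se iD In Ie ZI Je Jo : ℝ}
    (h_C : C = √((1 : ℝ) - Z)) (h_R : R = √((1 / 2 : ℝ) * (C + (1 : ℝ)))) (h_iR : iR = R⁻¹) (p_iC : 0 < C) (h_iC : iC = C⁻¹)
    (h_hR : hR = iR * iC) (h_io : io = (-1 / 2 : ℝ) * hR) (h_ie : ie = R * iC) (h_qq : qq = q ^ 2)
    (h_Cs : Cs = √((1 : ℝ) - Z * qq)) (p_iCs : 0 < Cs) (h_X : X = √((1 / 2 : ℝ) * (Cs + (1 : ℝ)))) (h_iX : iX = X⁻¹)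
    (h_qX : qX = q * iX) (h_So : So = (1 / 2 : ℝ) * (qX + iR)) (h_Se : Se = X + R)
    (h_iD : iD = (Se ^ 2 - Z * So ^ 2)⁻¹) (h_In : In = So * iD) (h_Ie : Ie = Se * iD) (h_ZI : ZI = Z * In)
    (h_Je : Je = ie * Ie - io * ZI) (h_Jo : Jo = io * Ie - ie * In) :
    PairF Z q ((hR * iR) * ((1 / 2 : ℝ) - ((4 : ℝ) * R + (4 : ℝ))⁻¹) + q * io) (q * ie + io) (ie - Ie) (io + In)
      (Je * Ie - Jo * ZI) (Jo * Ie - Je * In) ie io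
      (Je * (X * Cs⁻¹) - (Z * Jo) * ((1 / 2 : ℝ) * (qX * Cs⁻¹))) (Jo * (X * Cs⁻¹) - Je * ((1 / 2 : ℝ) * (qX * Cs⁻¹))) := by
  intro ζ hZ
  have hZ1 : Z < 1 := by have := Real.sqrt_pos.1 (h_C ▸ p_iC); linarith
  have hZq1 : Z * qq < 1 := by have := Real.sqrt_pos.1 (h_Cs ▸ p_iCs); linarith
  have hZq : (ζ * q) ^ 2 = Z * qq := by rw [mul_pow, hZ, h_qq]
  have hp1 : 0 < 1 + ζ := by nlinarith
  have hp2 : 0 < 1 + ζ * q := by nlinarith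
  have hm1 : 0 < 1 + -ζ := by nlinarith
  obtain ⟨hR0, hr, hR2, hC2⟩ := sqrt_pair' hZ hZ1.le h_C h_R
  obtain ⟨hX, hx, hX2, hCs2⟩ := sqrt_pair' hZq hZq1.le h_Cs h_X
  obtain ⟨-, hr', -, -⟩ := sqrt_pair' (ζ := -ζ) (by rw [neg_sq, hZ]) hZ1.le h_C h_R
  obtain ⟨-, hx', -, -⟩ := sqrt_pair' (ζ := -(ζ * q)) (by rw [neg_sq, hZq]) hZq1.le h_Cs h_X
  have e1 := HPairA_inv hZ hR0 p_iC hR2 hC2
  have e2 := HPairA_inv hZq hX p_iCs hX2 hCs2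
  have hr0 : 0 < √(1 + ζ) := Real.sqrt_pos.2 hp1
  have hx0 : 0 < √(1 + ζ * q) := Real.sqrt_pos.2 hp2
  have hr2 : √(1 + ζ) ^ 2 = 1 + ζ := Real.sq_sqrt hp1.le
  have hx2 : √(1 + ζ * q) ^ 2 = 1 + ζ * q := Real.sq_sqrt hp2.le
  have hS1 : √(1 + ζ * q) + √(1 + ζ) = Se + ζ * So := by
    rw [hr, hx, h_Se, h_So, h_qX, h_iX, h_iR]
    field_simp
    ring
  have hS2 : 0 < Se - ζ * So := by
    have h5 : √(1 + -(ζ * q)) + √(1 + -ζ) = Se - ζ * So := by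
      rw [hr', hx', h_Se, h_So, h_qX, h_iX, h_iR]
      field_simp
      ring
    rw [← h5]
    exact add_pos_of_nonneg_of_pos (Real.sqrt_nonneg _) (Real.sqrt_pos.2 hm1)
  rw [← hr] at e1
  rw [← hx] at e2
  have hsr : ∀ s : ℝ, 0 < s → √(s ^ 2 * (1 + ζ)) = s * √(1 + ζ) := fun s hs => by
    rw [Real.sqrt_mul (sq_nonneg s), Real.sqrt_sq hs.le]
  have hsx : ∀ s τ : ℝ, 0 < s → 0 ≤ τ → √(s ^ 2 * τ ^ 2 * (1 + ζ * q)) = s * τ * √(1 + ζ * q) :=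
    fun s τ hs hτ => by
      rw [← mul_pow, Real.sqrt_mul (sq_nonneg _), Real.sqrt_sq (mul_nonneg hs.le hτ)]
  generalize √(1 + ζ) = r at *
  generalize √(1 + ζ * q) = x at *
  have hi : ie + ζ * io = r⁻¹ := by
    apply eq_inv_of_mul_eq_one_right
    rw [h_ie, h_io, h_hR, h_iR, h_iC]
    linear_combination e1
  have hxi : X * Cs⁻¹ - ζ * ((1 / 2 : ℝ) * (qX * Cs⁻¹)) = x⁻¹ := by
    apply eq_inv_of_mul_eq_one_right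
    rw [h_qX, h_iX]
    linear_combination e2
  have hI : Ie - ζ * In = (x + r)⁻¹ := by
    apply eq_inv_of_mul_eq_one_right
    have hD : Se ^ 2 - Z * So ^ 2 = (Se + ζ * So) * (Se - ζ * So) := by rw [← hZ]; ring
    have hS3 : 0 < Se + ζ * So := by rw [← hS1]; positivity
    rw [hS1, h_Ie, h_In, h_iD, hD]
    field_simp
  have hie : ie = 1 + Z * ((hR * iR) * ((1 / 2 : ℝ) - ((4 : ℝ) * R + (4 : ℝ))⁻¹)) := by
    have hCR : C = 2 * R ^ 2 - 1 := by linarith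
    have hZR : Z = 4 * R ^ 2 * (1 - R ^ 2) := by
      have : Z = 1 - C ^ 2 := by linarith
      rw [this, hCR]; ring
    have hC' : C ≠ 0 := p_iC.ne'
    rw [h_ie, h_hR, h_iR, h_iC, hZR]
    field_simp
    rw [hCR]
    ring
  have hA : 1 + Z * ((hR * iR) * ((1 / 2 : ℝ) - ((4 : ℝ) * R + (4 : ℝ))⁻¹) + q * io)
      + ζ * (q * ie + io) = x ^ 2 * r⁻¹ := by
    rw [← hi, hx2, mul_add Z, ← add_assoc, ← hie, ← hZ]
    ring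
  have hb : ie - Ie + ζ * (io + In) = r⁻¹ - (x + r)⁻¹ := by
    rw [← hi, ← hI]; ring
  have hJ : Je + ζ * Jo = r⁻¹ * (x + r)⁻¹ := by
    rw [← hi, ← hI, h_Je, h_Jo, h_ZI, ← hZ]; ring
  have hg : Je * Ie - Jo * ZI + ζ * (Jo * Ie - Je * In) = r⁻¹ * (x + r)⁻¹ * (x + r)⁻¹ := by
    rw [← hJ, ← hI, h_ZI, ← hZ]; ring
  have hh : Je * (X * Cs⁻¹) - (Z * Jo) * ((1 / 2 : ℝ) * (qX * Cs⁻¹))
      + ζ * (Jo * (X * Cs⁻¹) - Je * ((1 / 2 : ℝ) * (qX * Cs⁻¹))) = r⁻¹ * (x + r)⁻¹ * x⁻¹ := by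
    rw [← hJ, ← hxi, ← hZ]; ring
  have hy : ζ * (q - 1) = x ^ 2 - r ^ 2 := by rw [hx2, hr2]; ring
  refine ⟨hp1, hp2, fun s τ hs hτ => ?_, fun s τ hs hτ => ?_⟩
  · have h6 : 2 * ζ * (τ - 1) * (q - 1) = 2 * (τ - 1) * (x ^ 2 - r ^ 2) := by rw [← hy]; ring
    have h7 : Z * (q - 1) ^ 2 = (x ^ 2 - r ^ 2) ^ 2 := by rw [← hy, ← hZ]; ring
    rw [Bg, hsr s hs, hsx s τ hs hτ, hA, hb, hg, h6, h7]
    field_simp
    ring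
  · rw [Bg', hsr s hs, hsx s τ hs hτ.le, hi, hh, hy]
    field_simp
    ring

theorem coef_of' {σ ω W al a9 uh iu w iw aw uE uO wE wO m n nW lE lo le tE tO te : ℝ} (hW : W = ω ^ 2)
    (h_al : al = σ ^ 2) (h_a9 : a9 = (9 / 10 : ℝ) * al) (h_uh : uh = (19 / 10 : ℝ) - a9) (p_iu : 0 < uh) (h_iu : iu = uh⁻¹)
    (h_w : w = (1 : ℝ) - al * (a9 + (1 / 10 : ℝ))) (p_iw : 0 < w) (h_iw : iw = w⁻¹) (h_aw : aw = al * iw)
    (h_uE : uE = (1 : ℝ) - (19 / 10 : ℝ) * iu) (h_uO : uO = uE + (1 : ℝ))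
    (h_wE : wE = (-9 / 10 : ℝ) * (al * aw)) (h_wO : wO = aw * ((9 / 5 : ℝ) * al + (1 / 10 : ℝ)))
    (h_nW : nW = W * n + (1 : ℝ)) (h_lE : lE = (n + nW * uE) + m * uO) (h_lo : lo = nW * uO + m * (W * uE + (1 : ℝ)))
    (h_le : le = W * lE + (1 : ℝ)) (h_tE : tE = (n + nW * wE) - m * wO) (h_tO : tO = nW * wO - m * (W * wE + (1 : ℝ)))
    (h_te : te = W * tE + (1 : ℝ)) :
    uf (σ ^ 2) = al * uh ∧ uf (1 - σ ^ 2) = w ∧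
    muv m n ω * uf (σ ^ 2 + σ ^ 2 * ω) = al * uh * (le + ω * lo) ∧
    muv m n (-ω) * uf (σ ^ 2 - σ ^ 2 * ω) = al * uh * (le - ω * lo) ∧
    muv m n (-ω) * uf (1 - (σ ^ 2 - σ ^ 2 * ω)) = w * (te + ω * tO) ∧
    muv m n ω * uf (1 - (σ ^ 2 + σ ^ 2 * ω)) = w * (te - ω * tO) := by
  have h1 : uh * iu = 1 := by rw [h_iu]; exact mul_inv_cancel₀ p_iu.ne'
  have h2 : w * iw = 1 := by rw [h_iw]; exact mul_inv_cancel₀ p_iw.ne'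
  subst hW h_aw h_uE h_uO h_wE h_wO h_nW h_lE h_lo h_le h_tE h_tO h_te
  rw [← h_al]
  subst h_a9
  simp only [uf, muv]
  refine ⟨by rw [h_uh]; ring, by rw [h_w]; ring, ?_, ?_, ?_, ?_⟩
  · linear_combination (-(al * (1 + ω ^ 2 * n + ω * m) * (1 + 2 * ω + ω ^ 2))) * h_uh
      + (al * (1 + ω ^ 2 * n + ω * m) * (19 / 10) * (ω + ω ^ 2)) * h1
  · linear_combination (-(al * (1 + ω ^ 2 * n - ω * m) * (1 - 2 * ω + ω ^ 2))) * h_uh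
      + (al * (1 + ω ^ 2 * n - ω * m) * (19 / 10) * (-ω + ω ^ 2)) * h1
  · linear_combination (-(1 + ω ^ 2 * n - ω * m)) * h_w
      - ((1 + ω ^ 2 * n - ω * m) * (ω ^ 2 * (-9 / 10) * al ^ 2 + ω * al * (9 / 5 * al + 1 / 10))) * h2
  · linear_combination (-(1 + ω ^ 2 * n + ω * m)) * h_w
      - ((1 + ω ^ 2 * n + ω * m) * (ω ^ 2 * (-9 / 10) * al ^ 2 - ω * al * (9 / 5 * al + 1 / 10))) * h2

end Crest.Agent.R307
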