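import Crest.Agent.R307.HVDefs

/-! Row 307: the defect and its derivative at the reference point (proof of `FB_pairs`). -/

set_option autoImplicit false

namespace Crest.Agent.R307

set_option maxHeartbeats 1600000 in
theorem FB_pairs' {ρ r u w σ sb th t2 z Z τ τ' q qt le lE1 lo1 te tE1 tO1 tt Zl Ztt
      AE1 Ao1 be1 bo1 ge1 go1 ie1 io1 he1 ho1 AE2 Ao2 be2 bo2 ge2 go2 ie2 io2 he2 ho2
      AE3 Ao3 be3 bo3 ge3 go3 ie3 io3 he3 ho3 AE4 Ao4 be4 bo4 ge4 go4 ie4 io4 he4 ho4 : ℝ}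
    (hσ : 0 < σ) (hsb : 0 < sb) (hs : σ ^ 2 + sb ^ 2 = 1) (hth : th * sb ^ 2 = σ ^ 2) (ht2 : t2 = th ^ 2) (hr : r = ρ ^ 2)
    (hZ : z ^ 2 = Z) (hτ : 0 ≤ τ) (hτ' : 0 ≤ τ') (hab : σ ^ 2 * τ ^ 2 + sb ^ 2 * τ' ^ 2 = 1) (hq : τ ^ 2 * q = τ' ^ 2 * qt)
    (hle : le = 1 + Z * lE1) (hte : te = 1 + Z * tE1) (htt : tt = th * tO1) (hZl : Zl = Z * lo1) (hZtt : Ztt = Z * tt)
    (P1 : PairF Z q AE1 Ao1 be1 bo1 ge1 go1 ie1 io1 he1 ho1) (P2 : PairF (r * Z) q AE2 Ao2 be2 bo2 ge2 go2 ie2 io2 he2 ho2)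
    (P3 : PairF (t2 * Z) qt AE3 Ao3 be3 bo3 ge3 go3 ie3 io3 he3 ho3)
    (P4 : PairF (r * (t2 * Z)) qt AE4 Ao4 be4 bo4 ge4 go4 ie4 io4 he4 ho4) :
    FB ρ u w (u * (le + z * lo1)) (u * (le - z * lo1) / (2 * (σ * √(1 - z)))) (w * (te - z * tO1)) (w * (te + z * tO1))
        (σ ^ 2 * (1 + z)) (σ * √(1 - z)) (σ ^ 2 * τ ^ 2 * (1 + z * q)) (σ ^ 2 * τ ^ 2 * (1 - z * q)) =
      u * σ * Z * ((τ - 1) ^ 2 * (((lE1 + le * AE1) - r * AE2) + lo1 * Ao1)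
          + 2 * (τ - 1) * (q - 1) * ((le * bo1 - r * bo2) + lo1 * be1) + (q - 1) ^ 2 * ((le * ge1 - r * ge2) + Zl * go1))
      + w * sb * Z * ((τ' - 1) ^ 2 * ((tE1 + t2 * (te * AE3 - r * AE4)) + tt * Ao3)
          + 2 * (τ' - 1) * (th * (qt - 1)) * (th * (te * bo3 - r * bo4) + tO1 * be3)
          + (th * (qt - 1)) ^ 2 * ((te * ge3 - r * ge4) + Ztt * go3)) ∧
    ∀ φ : ℝ, 0 < τ → 0 < τ' → σ * √(1 - z) * φ = σ * τ * √(1 - z * q) →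
      FB' ρ u w (u * (le + z * lo1)) (u * (le - z * lo1) / (2 * (σ * √(1 - z)))) (w * (te - z * tO1)) (w * (te + z * tO1))
        (σ ^ 2 * (1 + z)) (σ * √(1 - z)) (σ ^ 2 * τ ^ 2 * (1 + z * q)) (σ ^ 2 * τ ^ 2 * (1 - z * q)) φ =
      u * z * ((τ - 1) * ((le * io1 - r * io2) + lo1 * ie1) + (q - 1) * ((le * he1 - r * he2) + Zl * ho1)) / (σ * τ)
      + w * z * ((τ' - 1) * (th * (te * io3 - r * io4) + tO1 * ie3)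
          + th * (qt - 1) * ((te * he3 - r * he4) + Ztt * ho3)) / (sb * τ') := by
  obtain ⟨_, _, A1, B1⟩ := P1 z hZ
  obtain ⟨h1z, h1q, A2, B2⟩ := P1 (-z) (by rw [← hZ]; ring)
  obtain ⟨_, _, A3, B3⟩ := P2 (ρ * z) (by rw [hr, ← hZ]; ring)
  obtain ⟨_, _, A4, B4⟩ := P2 (-(ρ * z)) (by rw [hr, ← hZ]; ring)
  obtain ⟨_, _, A5, B5⟩ := P3 (-(th * z)) (by rw [ht2, ← hZ]; ring)
  obtain ⟨_, _, A6, B6⟩ := P3 (th * z) (by rw [ht2, ← hZ]; ring)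
  obtain ⟨_, _, A7, B7⟩ := P4 (-(ρ * (th * z))) (by rw [hr, ht2, ← hZ]; ring)
  obtain ⟨_, _, A8, B8⟩ := P4 (ρ * (th * z)) (by rw [hr, ht2, ← hZ]; ring)
  have h1z' : 0 < 1 - z := by linarith
  have hsq : 0 < √(1 - z) := Real.sqrt_pos.2 h1z'
  have hr1 : (σ * √(1 - z)) ^ 2 = σ ^ 2 * (1 + -z) := by
    rw [mul_pow, Real.sq_sqrt h1z'.le]; ring
  have hr1' : √(σ ^ 2 * (1 + -z)) = σ * √(1 - z) := by
    rw [← hr1, Real.sqrt_sq (by positivity)]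
  have hq' : σ ^ 2 * τ ^ 2 * q = sb ^ 2 * τ' ^ 2 * th * qt := by
    rw [← hth]; linear_combination th * sb ^ 2 * hq
  have e2 : σ ^ 2 * τ ^ 2 * (1 - z * q) = σ ^ 2 * τ ^ 2 * (1 + -z * q) := by ring
  have e3a : (1 + ρ) / 2 * (σ ^ 2 * τ ^ 2 * (1 + z * q)) + (1 - ρ) / 2 * (σ ^ 2 * τ ^ 2 * (1 + -z * q))
      = σ ^ 2 * τ ^ 2 * (1 + ρ * z * q) := by ring
  have e3c : (1 + ρ) / 2 * (σ ^ 2 * (1 + z)) + (1 - ρ) / 2 * (σ ^ 2 * (1 + -z)) = σ ^ 2 * (1 + ρ * z) := by ring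
  have e4a : (1 - ρ) / 2 * (σ ^ 2 * τ ^ 2 * (1 + z * q)) + (1 + ρ) / 2 * (σ ^ 2 * τ ^ 2 * (1 + -z * q))
      = σ ^ 2 * τ ^ 2 * (1 + -(ρ * z) * q) := by ring
  have e4c : (1 - ρ) / 2 * (σ ^ 2 * (1 + z)) + (1 + ρ) / 2 * (σ ^ 2 * (1 + -z)) = σ ^ 2 * (1 + -(ρ * z)) := by ring
  have e5a : 1 - σ ^ 2 * τ ^ 2 * (1 + z * q) = sb ^ 2 * τ' ^ 2 * (1 + -(th * z) * qt) := by
    linear_combination (-1 : ℝ) * hab - z * hq'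
  have e5c : 1 - σ ^ 2 * (1 + z) = sb ^ 2 * (1 + -(th * z)) := by
    linear_combination (-1 : ℝ) * hs + z * hth
  have e6a : 1 - σ ^ 2 * τ ^ 2 * (1 + -z * q) = sb ^ 2 * τ' ^ 2 * (1 + th * z * qt) := by
    linear_combination (-1 : ℝ) * hab + z * hq'
  have e6c : 1 - σ ^ 2 * (1 + -z) = sb ^ 2 * (1 + th * z) := by
    linear_combination (-1 : ℝ) * hs - z * hth
  have e7a : 1 - σ ^ 2 * τ ^ 2 * (1 + ρ * z * q) = sb ^ 2 * τ' ^ 2 * (1 + -(ρ * (th * z)) * qt) := by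
    linear_combination (-1 : ℝ) * hab - ρ * z * hq'
  have e7c : 1 - σ ^ 2 * (1 + ρ * z) = sb ^ 2 * (1 + -(ρ * (th * z))) := by
    linear_combination (-1 : ℝ) * hs + ρ * z * hth
  have e8a : 1 - σ ^ 2 * τ ^ 2 * (1 + -(ρ * z) * q) = sb ^ 2 * τ' ^ 2 * (1 + ρ * (th * z) * qt) := by
    linear_combination (-1 : ℝ) * hab + ρ * z * hq'
  have e8c : 1 - σ ^ 2 * (1 + -(ρ * z)) = sb ^ 2 * (1 + ρ * (th * z)) := by
    linear_combination (-1 : ℝ) * hs - ρ * z * hth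
  constructor
  · have hΛ : u * (le - z * lo1) / (2 * (σ * √(1 - z))) * (√(σ ^ 2 * τ ^ 2 * (1 + -z * q)) - σ * √(1 - z)) ^ 2
        = u * (le - z * lo1) * Bg (σ ^ 2 * τ ^ 2 * (1 + -z * q)) (σ ^ 2 * (1 + -z)) := by
      rw [Bg, hr1']; ring
    rw [FB, hr1, e2, hΛ, e3a, e3c, e4a, e4c, e5a, e5c, e6a, e6c, e7a, e7c, e8a, e8c,
      A1 σ τ hσ hτ, A2 σ τ hσ hτ, A3 σ τ hσ hτ, A4 σ τ hσ hτ, A5 sb τ' hsb hτ', A6 sb τ' hsb hτ',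
      A7 sb τ' hsb hτ', A8 sb τ' hsb hτ']
    subst hZtt hZl htt hte hle hZ hr ht2
    ring
  · intro φ hτ0 hτ0' hφ
    have h1q' : 0 < 1 - z * q := by linarith
    have hsq2 : 0 < √(1 - z * q) := Real.sqrt_pos.2 h1q'
    have ha1 : √(σ ^ 2 * τ ^ 2 * (1 + -z * q)) = σ * √(1 - z) * φ := by
      rw [hφ, show σ ^ 2 * τ ^ 2 * (1 + -z * q) = (σ * τ * √(1 - z * q)) ^ 2 by
        rw [mul_pow, mul_pow, Real.sq_sqrt h1q'.le]; ring, Real.sqrt_sq (by positivity)]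
    have hφ0 : φ ≠ 0 := by
      rintro rfl
      have : 0 < σ * τ * √(1 - z * q) := by positivity
      rw [← hφ] at this; simp at this
    have hΛ : u * (le - z * lo1) / (2 * (σ * √(1 - z))) * (1 - 1 / φ)
        = u * (le - z * lo1) * Bg' (σ ^ 2 * τ ^ 2 * (1 + -z * q)) (σ ^ 2 * (1 + -z)) := by
      rw [Bg', hr1', ha1]; field_simp
    rw [FB', hr1, e2, hΛ, e3a, e3c, e4a, e4c, e5a, e5c, e6a, e6c, e7a, e7c, e8a, e8c,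
      B1 σ τ hσ hτ0, B2 σ τ hσ hτ0, B3 σ τ hσ hτ0, B4 σ τ hσ hτ0, B5 sb τ' hsb hτ0', B6 sb τ' hsb hτ0',
      B7 sb τ' hsb hτ0', B8 sb τ' hsb hτ0']
    subst hZtt hZl htt hte hle hZ hr ht2
    field_simp
    ring

end Crest.Agent.R307
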