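import Crest.Agent.R307.HVDefs
import Crest.Agent.R307.HPairA
import Crest.Agent.R307.HPairB

/-! Row 307: even/odd decomposition of the defect.  The hypotheses are literally the equations of the generated
`a_Spec`s (`HXP`, `HYP`, `HGP`). -/

set_option autoImplicit false

namespace Crest.Agent.R307

/-- `√(1 + ζ) = R + ζ / (2 R)` with `R = √((1 + √(1 - ζ²)) / 2)`: both sides are `≥ 0` (`2 R² = 1 + C ≥ 1 ≥ |ζ|`) and the squares agree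
(`ζ² = (1 - C)(1 + C) = (1 - C) 2 R²`). -/
theorem sqrt_pair {Z C R ζ : ℝ} (hZ : ζ ^ 2 = Z) (h1 : Z ≤ 1) (hC : C = √(1 - Z)) (hR : R = √(1 / 2 * (C + 1))) :
    0 < R ∧ √(1 + ζ) = R + ζ / (2 * R) ∧ 2 * R ^ 2 = 1 + C ∧ C ^ 2 = 1 - Z :=
  sqrt_pair' hZ h1 hC hR

/-- With `r = √(1+ζ) = R + ζ iR / 2`, `x = √(1+ζ q) = X + ζ qX / 2`:  `r (R - ζ iR/2) = C`, so `ι = 1/r = ie + ζ io`;
`(1 + ζ q) ι = 1 + Z AE + ζ Ao` (use `1 - C = Z / (2R²)`, `1 - R = Z / (4 R² (1 + R))`);  `x + r = Se + ζ So`, so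
`I = 1/(x + r) = Ie - ζ In`;  `ι I = Je + ζ Jo`;  `ι I² = ge + ζ go`;  `1/x = xe - ζ xn`;  `ι I / x = he + ζ ho`.
Finally `τ x - r = (τ - 1) x + ζ (q - 1) I`, `x I ι = ι - I`, `Bg = s (τ x - r)² ι / 2`, `Bg' = (τ x - r) / (2 s τ x r)`. -/
theorem pairF_of {Z q qq C R iR iC hR io ie Cs X iX qX So Se iD In Ie ZI Je Jo : ℝ}
    (h_C : C = √((1 : ℝ) - Z)) (h_R : R = √((1 / 2 : ℝ) * (C + (1 : ℝ)))) (h_iR : iR = R⁻¹) (p_iC : 0 < C) (h_iC : iC = C⁻¹)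
    (h_hR : hR = iR * iC) (h_io : io = (-1 / 2 : ℝ) * hR) (h_ie : ie = R * iC) (h_qq : qq = q ^ 2)
    (h_Cs : Cs = √((1 : ℝ) - Z * qq)) (p_iCs : 0 < Cs) (h_X : X = √((1 / 2 : ℝ) * (Cs + (1 : ℝ)))) (h_iX : iX = X⁻¹)
    (h_qX : qX = q * iX) (h_So : So = (1 / 2 : ℝ) * (qX + iR)) (h_Se : Se = X + R)
    (h_iD : iD = (Se ^ 2 - Z * So ^ 2)⁻¹) (h_In : In = So * iD) (h_Ie : Ie = Se * iD) (h_ZI : ZI = Z * In)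
    (h_Je : Je = ie * Ie - io * ZI) (h_Jo : Jo = io * Ie - ie * In) :
    PairF Z q ((hR * iR) * ((1 / 2 : ℝ) - ((4 : ℝ) * R + (4 : ℝ))⁻¹) + q * io) (q * ie + io) (ie - Ie) (io + In)
      (Je * Ie - Jo * ZI) (Jo * Ie - Je * In) ie io
      (Je * (X * Cs⁻¹) - (Z * Jo) * ((1 / 2 : ℝ) * (qX * Cs⁻¹))) (Jo * (X * Cs⁻¹) - Je * ((1 / 2 : ℝ) * (qX * Cs⁻¹))) :=
  pairF_of' h_C h_R h_iR p_iC h_iC h_hR h_io h_ie h_qq h_Cs p_iCs h_X h_iX h_qX h_So h_Se h_iD h_In h_Ie h_ZI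
    h_Je h_Jo

/-- the four weights.  `uf α = α uh`, `uf (1 - α) = w`, `uf (α (1 ± ω)) = uf α (1 + W uE ± ω uO)`,
`uf (1 - α (1 ∓ ω)) = w (1 + W wE ± ω wO)`; all are polynomial identities after clearing `uh`, `w`. -/
theorem coef_of {σ ω W al a9 uh iu w iw aw uE uO wE wO m n nW lE lo le tE tO te : ℝ} (hW : W = ω ^ 2)
    (h_al : al = σ ^ 2) (h_a9 : a9 = (9 / 10 : ℝ) * al) (h_uh : uh = (19 / 10 : ℝ) - a9) (p_iu : 0 < uh) (h_iu : iu = uh⁻¹)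
    (h_w : w = (1 : ℝ) - al * (a9 + (1 / 10 : ℝ))) (p_iw : 0 < w) (h_iw : iw = w⁻¹) (h_aw : aw = al * iw)
    (h_uE : uE = (1 : ℝ) - (19 / 10 : ℝ) * iu) (h_uO : uO = uE + (1 : ℝ))
    (h_wE : wE = (-9 / 10 : ℝ) * (al * aw)) (h_wO : wO = aw * ((9 / 5 : ℝ) * al + (1 / 10 : ℝ)))
    (h_nW : nW = W * n + (1 : ℝ)) (h_lE : lE = (n + nW * uE) + m * uO) (h_lo : lo = nW * uO + m * (W * uE + (1 : ℝ)))
    (h_le : le = W * lE + (1 : ℝ)) (h_tE : tE = (n + nW * wE) - m * wO) (h_tO : tO = nW * wO - m * (W * wE + (1 : ℝ)))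
    (h_te : te = W * tE + (1 : ℝ)) :
    uf (σ ^ 2) = al * uh ∧ uf (1 - σ ^ 2) = w ∧
    muv m n ω * uf (σ ^ 2 + σ ^ 2 * ω) = al * uh * (le + ω * lo) ∧
    muv m n (-ω) * uf (σ ^ 2 - σ ^ 2 * ω) = al * uh * (le - ω * lo) ∧
    muv m n (-ω) * uf (1 - (σ ^ 2 - σ ^ 2 * ω)) = w * (te + ω * tO) ∧
    muv m n ω * uf (1 - (σ ^ 2 + σ ^ 2 * ω)) = w * (te - ω * tO) :=
  coef_of' hW h_al h_a9 h_uh p_iu h_iu h_w p_iw h_iw h_aw h_uE h_uO h_wE h_wO h_nW h_lE h_lo h_le h_tE h_tO h_te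

/-- The defect and its derivative at the reference point `σ² τ² (1 ± z q)`.  Use the four `PairF` at `ζ = ± z`, `± ρ z` (scale `s = σ`,
`τ`, `q`) and at `ζ = ± th z`, `± ρ th z` (scale `sb`, `τ'`, `qt`):  `1 - σ² τ² (1 ∓ z q) = sb² τ'² (1 ± th z qt)`,
`1 - σ² (1 ∓ z) = sb² (1 ± th z)`, the `ρ`-mixtures replace `z` by `± ρ z`;  `Λ (√a1 - r1)² = U1 Bg a1 (r1²)` and
`Λ (1 - 1/φ) = U1 Bg' a1 (r1²)` for `r1 φ = √a1`, `Λ = U1 / (2 r1)`, `r1 = σ √(1 - z) > 0`, `r1² = σ² (1 - z)`. -/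
theorem FB_pairs {ρ r u w σ sb th t2 z Z τ τ' q qt le lE1 lo1 te tE1 tO1 tt Zl Ztt
      AE1 Ao1 be1 bo1 ge1 go1 ie1 io1 he1 ho1 AE2 Ao2 be2 bo2 ge2 go2 ie2 io2 he2 ho2
      AE3 Ao3 be3 bo3 ge3 go3 ie3 io3 he3 ho3 AE4 Ao4 be4 bo4 ge4 go4 ie4 io4 he4 ho4 : ℝ}
    (hσ : 0 < σ) (hsb : 0 < sb) (hs : σ ^ 2 + sb ^ 2 = 1) (hth : th * sb ^ 2 = σ ^ 2) (ht2 : t2 = th ^ 2) (hr : r = ρ ^ 2)
    (hZ : z ^ 2 = Z) (hτ : 0 ≤ τ) (hτ' : 0 ≤ τ') (hab : σ ^ 2 * τ ^ 2 + sb ^ 2 * τ' ^ 2 = 1) (hq : τ ^ 2 * q = τ' ^ 2 * qt)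
    (hle : le = 1 + Z * lE1) (hte : te = 1 + Z * tE1) (htt : tt = th * tO1) (hZl : Zl = Z * lo1) (hZtt : Ztt = Z * tt)
    (P1 : PairF Z q AE1 Ao1 be1 bo1 ge1 go1 ie1 io1 he1 ho1) (P2 : PairF (r * Z) q AE2 Ao2 be2 bo2 ge2 go2 ie2 io2 he2 ho2)
    (P3 : PairF (t2 * Z) qt AE3 Ao3 be3 bo3 ge3 go3 ie3 io3 he3 ho3)
    (P4 : PairF (r * (t2 * Z)) qt AE4 Ao4 be4 bo4 ge4 go4 ie4 io4 he4 ho4) :
    FB ρ u w (u * (le + z * lo1)) (u * (le - z * lo1) / (2 * (σ * √(1 - z)))) (w * (te - z * tO1)) (w * (te + z * tO1))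
        (σ ^ 2 * (1 + z)) (σ * √(1 - z)) (σ ^ 2 * τ ^ 2 * (1 + z * q)) (σ ^ 2 * τ ^ 2 * (1 - z * q)) =
      u * σ * Z * ((τ - 1) ^ 2 * (((lE1 + le * AE1) - r * AE2) + lo1 * Ao1)
          + 2 * (τ - 1) * (q - 1) * ((le * bo1 - r * bo2) + lo1 * be1) + (q - 1) ^ 2 * ((le * ge1 - r * ge2) + Zl * go1))
      + w * sb * Z * ((τ' - 1) ^ 2 * ((tE1 + t2 * (te * AE3 - r * AE4)) + tt * Ao3)
          + 2 * (τ' - 1) * (th * (qt - 1)) * (th * (te * bo3 - r * bo4) + tO1 * be3)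
          + (th * (qt - 1)) ^ 2 * ((te * ge3 - r * ge4) + Ztt * go3)) ∧
    ∀ φ : ℝ, 0 < τ → 0 < τ' → σ * √(1 - z) * φ = σ * τ * √(1 - z * q) →
      FB' ρ u w (u * (le + z * lo1)) (u * (le - z * lo1) / (2 * (σ * √(1 - z)))) (w * (te - z * tO1)) (w * (te + z * tO1))
        (σ ^ 2 * (1 + z)) (σ * √(1 - z)) (σ ^ 2 * τ ^ 2 * (1 + z * q)) (σ ^ 2 * τ ^ 2 * (1 - z * q)) φ =
      u * z * ((τ - 1) * ((le * io1 - r * io2) + lo1 * ie1) + (q - 1) * ((le * he1 - r * he2) + Zl * ho1)) / (σ * τ)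
      + w * z * ((τ' - 1) * (th * (te * io3 - r * io4) + tO1 * ie3)
          + th * (qt - 1) * ((te * he3 - r * he4) + Ztt * ho3)) / (sb * τ') := by
  exact FB_pairs' hσ hsb hs hth ht2 hr hZ hτ hτ' hab hq hle hte htt hZl hZtt P1 P2 P3 P4

end Crest.Agent.R307
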