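import Crest.Agent.R307.AA

/-! Row 307: packed constants of a chain of vertices. -/

set_option autoImplicit false

namespace Crest.Agent.R307
open AA

/-- the constants of vertex `i` (22 slots of 80 bits each) -/
def sh (G i : ℕ) : ℕ := Nat.shiftRight G (Nat.mul 1760 i)

theorem parV_sh (G i j : ℕ) : parV (sh G i) (j + 22) = parV (sh G (i + 1)) j := by
  unfold parV parN sh
  congr 2
  show (G >>> (1760 * i)) >>> (80 * (j + 22)) = (G >>> (1760 * (i + 1))) >>> (80 * j)
  rw [← Nat.shiftRight_add, ← Nat.shiftRight_add]
  congr 1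
  ring

end Crest.Agent.R307
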