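import Crest.Agent.R307.AA

set_option autoImplicit false
set_option maxRecDepth 100000
set_option linter.unusedVariables false

namespace Crest.Agent.R307.HS2
open Crest.Agent.R307.AA

noncomputable section

theorem k0 : |2 ^ 48 * (9 / 10 : ℝ) - (((4722366736197124253286 : ℕ) : ℝ) - 2 ^ 72)| ≤ ((1 : ℕ) : ℝ) := by norm_num [abs_le]
theorem k1 : |2 ^ 48 * (19 / 10 : ℝ) - (((4722367017672100963942 : ℕ) : ℝ) - 2 ^ 72)| ≤ ((1 : ℕ) : ℝ) := by norm_num [abs_le]
theorem k2 : |2 ^ 48 * (1 / 10 : ℝ) - (((4722366511017142884761 : ℕ) : ℝ) - 2 ^ 72)| ≤ ((1 : ℕ) : ℝ) := by norm_num [abs_le]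
theorem k3 : |2 ^ 48 * (1 : ℝ) - (((4722366764344621924352 : ℕ) : ℝ) - 2 ^ 72)| ≤ ((0 : ℕ) : ℝ) := by norm_num [abs_le]
theorem k4 : (1 / 2 : ℝ) = val 4722366623607133569024 := by norm_num [val]
theorem k5 : (4 : ℝ) = val 4722367608769552056320 := by norm_num [val]
theorem k6 : |2 ^ 48 * (4 : ℝ) - (((4722367608769552056320 : ℕ) : ℝ) - 2 ^ 72)| ≤ ((0 : ℕ) : ℝ) := by norm_num [abs_le]
theorem k7 : |2 ^ 48 * (0 : ℝ) - (((4722366482869645213696 : ℕ) : ℝ) - 2 ^ 72)| ≤ ((0 : ℕ) : ℝ) := by norm_num [abs_le]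
theorem k8 : |2 ^ 48 * (-9 / 10 : ℝ) - (((4722366229542166174105 : ℕ) : ℝ) - 2 ^ 72)| ≤ ((1 : ℕ) : ℝ) := by norm_num [abs_le]
theorem k9 : |2 ^ 48 * (9 / 5 : ℝ) - (((4722366989524603292876 : ℕ) : ℝ) - 2 ^ 72)| ≤ ((1 : ℕ) : ℝ) := by norm_num [abs_le]
theorem k10 : (2 : ℝ) = val 4722367045819598635008 := by norm_num [val]
def a_B7 (gs ps : ℕ) (x2 z172 z259 z261 z210 z207 z70 z224 z209 z217 : AF) : Bool :=
  mulK x2 z172 fun z218 =>
  addcK z218 4722366764344621924352 0 fun z219 =>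
  mulK z70 z219 fun z220 =>
  addK z217 z220 fun z221 =>
  mulK z207 z221 fun z225 =>
  subK z209 z225 fun z226 =>
  mulK z209 z226 fun z227 =>
  addK z224 z227 fun z228 =>
  sqrK z210 fun z229 =>
  sqrK z209 fun z230 =>
  mulK x2 z230 fun z231 =>
  subK z229 z231 fun z232 =>
  mulK z207 z232 fun z233 =>
  invK z233 fun z234 =>
  mulK z228 z234 fun z235 =>
  normK z235 fun z274 =>
  mulK z261 z274 fun z262 =>
  addK z259 z262 fun z263 =>
  rsubK z263 4722366482869645213696 0 fun z264 =>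
  posK z264 <|
  true

def a_R7 (gs ps : ℕ) (W z172 z259 z261 z210 z207 z70 z224 z209 z217 : ℝ) : Prop :=
  letR (W * z172) fun z218 =>
  letR (z218 + (1 : ℝ)) fun z219 =>
  letR (z70 * z219) fun z220 =>
  letR (z217 + z220) fun z221 =>
  letR (z207 * z221) fun z225 =>
  letR (z209 - z225) fun z226 =>
  letR (z209 * z226) fun z227 =>
  letR (z224 + z227) fun z228 =>
  letR (z210 ^ 2) fun z229 =>
  letR (z209 ^ 2) fun z230 =>
  letR (W * z230) fun z231 =>
  letR (z229 - z231) fun z232 =>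
  letR (z207 * z232) fun z233 =>
  invR z233 fun z234 =>
  letR (z228 * z234) fun z235 =>
  letR z235 fun z274 =>
  letR (z261 * z274) fun z262 =>
  letR (z259 + z262) fun z263 =>
  letR ((0 : ℝ) - z263) fun z264 =>
  posR z264 <|
  True

theorem a_S7 {ε : Fin 4 → ℝ} (gs : ℕ) (hε : ∀ i, |ε i| ≤ 1) (ps : ℕ) (x2 z172 z259 z261 z210 z207 z70 z224 z209 z217 : AF) (W t172 t259 t261 t210 t207 t70 t224 t209 t217 : ℝ)
    (h2 : Rel ε x2 W) (g172 : Rel ε z172 t172) (g259 : Rel ε z259 t259) (g261 : Rel ε z261 t261) (g210 : Rel ε z210 t210) (g207 : Rel ε z207 t207) (g70 : Rel ε z70 t70) (g224 : Rel ε z224 t224) (g209 : Rel ε z209 t209) (g217 : Rel ε z217 t217) :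
    a_B7 gs ps x2 z172 z259 z261 z210 z207 z70 z224 z209 z217 = true → a_R7 gs ps W t172 t259 t261 t210 t207 t70 t224 t209 t217 := by
  delta a_B7 a_R7
  exact mulS hε h2 g172 fun z218 t218 g218 =>
  addcS g218 k3 fun z219 t219 g219 =>
  mulS hε g70 g219 fun z220 t220 g220 =>
  addS g217 g220 fun z221 t221 g221 =>
  mulS hε g207 g221 fun z225 t225 g225 =>
  subS g209 g225 fun z226 t226 g226 =>
  mulS hε g209 g226 fun z227 t227 g227 =>
  addS g224 g227 fun z228 t228 g228 =>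
  sqrS hε g210 fun z229 t229 g229 =>
  sqrS hε g209 fun z230 t230 g230 =>
  mulS hε h2 g230 fun z231 t231 g231 =>
  subS g229 g231 fun z232 t232 g232 =>
  mulS hε g207 g232 fun z233 t233 g233 =>
  invS hε g233 fun z234 t234 g234 =>
  mulS hε g228 g234 fun z235 t235 g235 =>
  normS g235 fun z274 t274 g274 =>
  mulS hε g261 g274 fun z262 t262 g262 =>
  addS g259 g262 fun z263 t263 g263 =>
  rsubS g263 k7 fun z264 t264 g264 =>
  posS hε g264 <|
  fun _ => trivial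

def a_B6 (gs ps : ℕ) (x1 x2 z163 z271 z172 z272 z175 z187 z54 z259 z261 z198 z210 z194 z207 z77 : AF) : Bool :=
  mulK x2 z77 fun z211 =>
  addcK z211 4722366764344621924352 0 fun z212 =>
  mulK z212 z172 fun z213 =>
  addK z77 z213 fun z214 =>
  parK gs 1 fun z4 =>
  parK gs 2 fun z5 =>
  mulK z5 x1 fun z56 =>
  addK z4 z56 fun z57 =>
  parK gs 3 fun z6 =>
  mulK z6 x2 fun z58 =>
  addK z57 z58 fun z59 =>
  parK gs 23 fun z26 =>
  parK gs 24 fun z27 =>
  mulK z27 x1 fun z64 =>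
  addK z26 z64 fun z65 =>
  parK gs 25 fun z28 =>
  mulK z28 x2 fun z66 =>
  addK z65 z66 fun z67 =>
  subK z67 z59 fun z68 =>
  normK z68 fun z265 =>
  mulK z54 z265 fun z69 =>
  addK z59 z69 fun z70 =>
  mulK z70 z175 fun z215 =>
  addK z214 z215 fun z216 =>
  normK z216 fun z273 =>
  mulK z207 z273 fun z222 =>
  invK z198 fun z199 =>
  mulK z187 z199 fun z200 =>
  smulK z200 4722366623607133569024 fun z201 =>
  sqrK z201 fun z202 =>
  subK z272 z202 fun z203 =>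
  addK z198 z194 fun z204 =>
  invK z204 fun z205 =>
  mulK z203 z205 fun z206 =>
  addK z163 z206 fun z208 =>
  subK z222 z208 fun z223 =>
  mulK z210 z223 fun z224 =>
  addK z271 z201 fun z209 =>
  mulK z212 z175 fun z217 =>
  a_B7 gs ps x2 z172 z259 z261 z210 z207 z70 z224 z209 z217

def a_R6 (gs ps : ℕ) (sg W z163 z271 z172 z272 z175 z187 z54 z259 z261 z198 z210 z194 z207 z77 : ℝ) : Prop :=
  letR (W * z77) fun z211 =>
  letR (z211 + (1 : ℝ)) fun z212 =>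
  letR (z212 * z172) fun z213 =>
  letR (z77 + z213) fun z214 =>
  letR (parV gs 1) fun z4 =>
  letR (parV gs 2) fun z5 =>
  letR (z5 * sg) fun z56 =>
  letR (z4 + z56) fun z57 =>
  letR (parV gs 3) fun z6 =>
  letR (z6 * W) fun z58 =>
  letR (z57 + z58) fun z59 =>
  letR (parV gs 23) fun z26 =>
  letR (parV gs 24) fun z27 =>
  letR (z27 * sg) fun z64 =>
  letR (z26 + z64) fun z65 =>
  letR (parV gs 25) fun z28 =>
  letR (z28 * W) fun z66 =>
  letR (z65 + z66) fun z67 =>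
  letR (z67 - z59) fun z68 =>
  letR z68 fun z265 =>
  letR (z54 * z265) fun z69 =>
  letR (z59 + z69) fun z70 =>
  letR (z70 * z175) fun z215 =>
  letR (z214 + z215) fun z216 =>
  letR z216 fun z273 =>
  letR (z207 * z273) fun z222 =>
  invR z198 fun z199 =>
  letR (z187 * z199) fun z200 =>
  letR ((1 / 2 : ℝ) * z200) fun z201 =>
  letR (z201 ^ 2) fun z202 =>
  letR (z272 - z202) fun z203 =>
  letR (z198 + z194) fun z204 =>
  invR z204 fun z205 =>
  letR (z203 * z205) fun z206 =>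
  letR (z163 + z206) fun z208 =>
  letR (z222 - z208) fun z223 =>
  letR (z210 * z223) fun z224 =>
  letR (z271 + z201) fun z209 =>
  letR (z212 * z175) fun z217 =>
  a_R7 gs ps W z172 z259 z261 z210 z207 z70 z224 z209 z217

theorem a_S6 {ε : Fin 4 → ℝ} (gs : ℕ) (hε : ∀ i, |ε i| ≤ 1) (ps : ℕ) (x1 x2 z163 z271 z172 z272 z175 z187 z54 z259 z261 z198 z210 z194 z207 z77 : AF) (sg W t163 t271 t172 t272 t175 t187 t54 t259 t261 t198 t210 t194 t207 t77 : ℝ)
    (h1 : Rel ε x1 sg) (h2 : Rel ε x2 W) (g163 : Rel ε z163 t163) (g271 : Rel ε z271 t271) (g172 : Rel ε z172 t172) (g272 : Rel ε z272 t272) (g175 : Rel ε z175 t175) (g187 : Rel ε z187 t187) (g54 : Rel ε z54 t54) (g259 : Rel ε z259 t259) (g261 : Rel ε z261 t261) (g198 : Rel ε z198 t198) (g210 : Rel ε z210 t210) (g194 : Rel ε z194 t194) (g207 : Rel ε z207 t207) (g77 : Rel ε z77 t77) :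
    a_B6 gs ps x1 x2 z163 z271 z172 z272 z175 z187 z54 z259 z261 z198 z210 z194 z207 z77 = true → a_R6 gs ps sg W t163 t271 t172 t272 t175 t187 t54 t259 t261 t198 t210 t194 t207 t77 := by
  delta a_B6 a_R6
  exact mulS hε h2 g77 fun z211 t211 g211 =>
  addcS g211 k3 fun z212 t212 g212 =>
  mulS hε g212 g172 fun z213 t213 g213 =>
  addS g77 g213 fun z214 t214 g214 =>
  parS fun z4 t4 g4 =>
  parS fun z5 t5 g5 =>
  mulS hε g5 h1 fun z56 t56 g56 =>
  addS g4 g56 fun z57 t57 g57 =>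
  parS fun z6 t6 g6 =>
  mulS hε g6 h2 fun z58 t58 g58 =>
  addS g57 g58 fun z59 t59 g59 =>
  parS fun z26 t26 g26 =>
  parS fun z27 t27 g27 =>
  mulS hε g27 h1 fun z64 t64 g64 =>
  addS g26 g64 fun z65 t65 g65 =>
  parS fun z28 t28 g28 =>
  mulS hε g28 h2 fun z66 t66 g66 =>
  addS g65 g66 fun z67 t67 g67 =>
  subS g67 g59 fun z68 t68 g68 =>
  normS g68 fun z265 t265 g265 =>
  mulS hε g54 g265 fun z69 t69 g69 =>
  addS g59 g69 fun z70 t70 g70 =>
  mulS hε g70 g175 fun z215 t215 g215 =>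
  addS g214 g215 fun z216 t216 g216 =>
  normS g216 fun z273 t273 g273 =>
  mulS hε g207 g273 fun z222 t222 g222 =>
  invS hε g198 fun z199 t199 g199 =>
  mulS hε g187 g199 fun z200 t200 g200 =>
  smulS hε g200 k4 fun z201 t201 g201 =>
  sqrS hε g201 fun z202 t202 g202 =>
  subS g272 g202 fun z203 t203 g203 =>
  addS g198 g194 fun z204 t204 g204 =>
  invS hε g204 fun z205 t205 g205 =>
  mulS hε g203 g205 fun z206 t206 g206 =>
  addS g163 g206 fun z208 t208 g208 =>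
  subS g222 g208 fun z223 t223 g223 =>
  mulS hε g210 g223 fun z224 t224 g224 =>
  addS g271 g201 fun z209 t209 g209 =>
  mulS hε g212 g175 fun z217 t217 g217 =>
  a_S7 gs hε ps x2 z172 z259 z261 z210 z207 z70 z224 z209 z217 W t172 t259 t261 t210 t207 t70 t224 t209 t217 h2 g172 g259 g261 g210 g207 g70 g224 g209 g217

def a_B5 (gs ps : ℕ) (x1 x2 z270 z177 z163 z168 z271 z172 z272 z189 z175 z187 z193 z54 z259 z261 : AF) : Bool :=
  sqrtK z193 fun z195 =>
  addK z189 z195 fun z196 =>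
  smulK z196 4722366623607133569024 fun z197 =>
  sqrtK z197 fun z198 =>
  addK z168 z198 fun z210 =>
  sqrtK z177 fun z194 =>
  addK z270 z194 fun z207 =>
  parK gs 4 fun z7 =>
  parK gs 5 fun z8 =>
  mulK z8 x1 fun z60 =>
  addK z7 z60 fun z61 =>
  parK gs 6 fun z9 =>
  mulK z9 x2 fun z62 =>
  addK z61 z62 fun z63 =>
  parK gs 26 fun z29 =>
  parK gs 27 fun z30 =>
  mulK z30 x1 fun z71 =>
  addK z29 z71 fun z72 =>
  parK gs 28 fun z31 =>
  mulK z31 x2 fun z73 =>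
  addK z72 z73 fun z74 =>
  subK z74 z63 fun z75 =>
  normK z75 fun z266 =>
  mulK z54 z266 fun z76 =>
  addK z63 z76 fun z77 =>
  a_B6 gs ps x1 x2 z163 z271 z172 z272 z175 z187 z54 z259 z261 z198 z210 z194 z207 z77

def a_R5 (gs ps : ℕ) (sg W z270 z177 z163 z168 z271 z172 z272 z189 z175 z187 z193 z54 z259 z261 : ℝ) : Prop :=
  letR (√z193) fun z195 =>
  letR (z189 + z195) fun z196 =>
  letR ((1 / 2 : ℝ) * z196) fun z197 =>
  letR (√z197) fun z198 =>
  letR (z168 + z198) fun z210 =>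
  letR (√z177) fun z194 =>
  letR (z270 + z194) fun z207 =>
  letR (parV gs 4) fun z7 =>
  letR (parV gs 5) fun z8 =>
  letR (z8 * sg) fun z60 =>
  letR (z7 + z60) fun z61 =>
  letR (parV gs 6) fun z9 =>
  letR (z9 * W) fun z62 =>
  letR (z61 + z62) fun z63 =>
  letR (parV gs 26) fun z29 =>
  letR (parV gs 27) fun z30 =>
  letR (z30 * sg) fun z71 =>
  letR (z29 + z71) fun z72 =>
  letR (parV gs 28) fun z31 =>
  letR (z31 * W) fun z73 =>
  letR (z72 + z73) fun z74 =>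
  letR (z74 - z63) fun z75 =>
  letR z75 fun z266 =>
  letR (z54 * z266) fun z76 =>
  letR (z63 + z76) fun z77 =>
  a_R6 gs ps sg W z163 z271 z172 z272 z175 z187 z54 z259 z261 z198 z210 z194 z207 z77

theorem a_S5 {ε : Fin 4 → ℝ} (gs : ℕ) (hε : ∀ i, |ε i| ≤ 1) (ps : ℕ) (x1 x2 z270 z177 z163 z168 z271 z172 z272 z189 z175 z187 z193 z54 z259 z261 : AF) (sg W t270 t177 t163 t168 t271 t172 t272 t189 t175 t187 t193 t54 t259 t261 : ℝ)
    (h1 : Rel ε x1 sg) (h2 : Rel ε x2 W) (g270 : Rel ε z270 t270) (g177 : Rel ε z177 t177) (g163 : Rel ε z163 t163) (g168 : Rel ε z168 t168) (g271 : Rel ε z271 t271) (g172 : Rel ε z172 t172) (g272 : Rel ε z272 t272) (g189 : Rel ε z189 t189) (g175 : Rel ε z175 t175) (g187 : Rel ε z187 t187) (g193 : Rel ε z193 t193) (g54 : Rel ε z54 t54) (g259 : Rel ε z259 t259) (g261 : Rel ε z261 t261) :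
    a_B5 gs ps x1 x2 z270 z177 z163 z168 z271 z172 z272 z189 z175 z187 z193 z54 z259 z261 = true → a_R5 gs ps sg W t270 t177 t163 t168 t271 t172 t272 t189 t175 t187 t193 t54 t259 t261 := by
  delta a_B5 a_R5
  exact sqrtS hε g193 fun z195 t195 g195 =>
  addS g189 g195 fun z196 t196 g196 =>
  smulS hε g196 k4 fun z197 t197 g197 =>
  sqrtS hε g197 fun z198 t198 g198 =>
  addS g168 g198 fun z210 t210 g210 =>
  sqrtS hε g177 fun z194 t194 g194 =>
  addS g270 g194 fun z207 t207 g207 =>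
  parS fun z7 t7 g7 =>
  parS fun z8 t8 g8 =>
  mulS hε g8 h1 fun z60 t60 g60 =>
  addS g7 g60 fun z61 t61 g61 =>
  parS fun z9 t9 g9 =>
  mulS hε g9 h2 fun z62 t62 g62 =>
  addS g61 g62 fun z63 t63 g63 =>
  parS fun z29 t29 g29 =>
  parS fun z30 t30 g30 =>
  mulS hε g30 h1 fun z71 t71 g71 =>
  addS g29 g71 fun z72 t72 g72 =>
  parS fun z31 t31 g31 =>
  mulS hε g31 h2 fun z73 t73 g73 =>
  addS g72 g73 fun z74 t74 g74 =>
  subS g74 g63 fun z75 t75 g75 =>
  normS g75 fun z266 t266 g266 =>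
  mulS hε g54 g266 fun z76 t76 g76 =>
  addS g63 g76 fun z77 t77 g77 =>
  a_S6 gs hε ps x1 x2 z163 z271 z172 z272 z175 z187 z54 z259 z261 z198 z210 z194 z207 z77 sg W t163 t271 t172 t272 t175 t187 t54 t259 t261 t198 t210 t194 t207 t77 h1 h2 g163 g271 g172 g272 g175 g187 g54 g259 g261 g198 g210 g194 g207 g77

def a_B4 (gs ps : ℕ) (x0 x1 x2 z84 z270 z55 z177 z163 z168 z271 z172 z272 z189 z175 z187 z193 z251 : AF) : Bool :=
  parK gs 18 fun z21 =>
  parK gs 21 fun z24 =>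
  mulK z24 x2 fun z252 =>
  addK z21 z252 fun z253 =>
  mulK x2 z253 fun z254 =>
  addK z251 z254 fun z255 =>
  sqrK x0 fun z49 =>
  rsubK z49 4722366764344621924352 0 fun z50 =>
  parK gs 0 fun z3 =>
  sqrK z3 fun z47 =>
  subK z50 z47 fun z51 =>
  parK gs 22 fun z25 =>
  sqrK z25 fun z48 =>
  subK z48 z47 fun z52 =>
  invK z52 fun z53 =>
  mulK z51 z53 fun z54 =>
  parK gs 38 fun z41 =>
  parK gs 39 fun z42 =>
  parK gs 41 fun z44 =>
  mulK z44 x1 fun z236 =>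
  addK z42 z236 fun z237 =>
  parK gs 42 fun z45 =>
  mulK z45 x2 fun z238 =>
  addK z237 z238 fun z239 =>
  mulK x1 z239 fun z240 =>
  addK z41 z240 fun z241 =>
  parK gs 40 fun z43 =>
  parK gs 43 fun z46 =>
  mulK z46 x2 fun z242 =>
  addK z43 z242 fun z243 =>
  mulK x2 z243 fun z244 =>
  addK z241 z244 fun z245 =>
  subK z245 z255 fun z256 =>
  normK z256 fun z275 =>
  mulK z54 z275 fun z257 =>
  addK z255 z257 fun z258 =>
  normK z258 fun z276 =>
  mulK x1 z276 fun z259 =>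
  smulK z55 4722367045819598635008 fun z260 =>
  mulK z260 z84 fun z261 =>
  a_B5 gs ps x1 x2 z270 z177 z163 z168 z271 z172 z272 z189 z175 z187 z193 z54 z259 z261

def a_R4 (gs ps : ℕ) (be sg W z84 z270 z55 z177 z163 z168 z271 z172 z272 z189 z175 z187 z193 z251 : ℝ) : Prop :=
  letR (parV gs 18) fun z21 =>
  letR (parV gs 21) fun z24 =>
  letR (z24 * W) fun z252 =>
  letR (z21 + z252) fun z253 =>
  letR (W * z253) fun z254 =>
  letR (z251 + z254) fun z255 =>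
  letR (be ^ 2) fun z49 =>
  letR ((1 : ℝ) - z49) fun z50 =>
  letR (parV gs 0) fun z3 =>
  letR (z3 ^ 2) fun z47 =>
  letR (z50 - z47) fun z51 =>
  letR (parV gs 22) fun z25 =>
  letR (z25 ^ 2) fun z48 =>
  letR (z48 - z47) fun z52 =>
  invR z52 fun z53 =>
  letR (z51 * z53) fun z54 =>
  letR (parV gs 38) fun z41 =>
  letR (parV gs 39) fun z42 =>
  letR (parV gs 41) fun z44 =>
  letR (z44 * sg) fun z236 =>
  letR (z42 + z236) fun z237 =>
  letR (parV gs 42) fun z45 =>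
  letR (z45 * W) fun z238 =>
  letR (z237 + z238) fun z239 =>
  letR (sg * z239) fun z240 =>
  letR (z41 + z240) fun z241 =>
  letR (parV gs 40) fun z43 =>
  letR (parV gs 43) fun z46 =>
  letR (z46 * W) fun z242 =>
  letR (z43 + z242) fun z243 =>
  letR (W * z243) fun z244 =>
  letR (z241 + z244) fun z245 =>
  letR (z245 - z255) fun z256 =>
  letR z256 fun z275 =>
  letR (z54 * z275) fun z257 =>
  letR (z255 + z257) fun z258 =>
  letR z258 fun z276 =>
  letR (sg * z276) fun z259 =>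
  letR ((2 : ℝ) * z55) fun z260 =>
  letR (z260 * z84) fun z261 =>
  a_R5 gs ps sg W z270 z177 z163 z168 z271 z172 z272 z189 z175 z187 z193 z54 z259 z261

theorem a_S4 {ε : Fin 4 → ℝ} (gs : ℕ) (hε : ∀ i, |ε i| ≤ 1) (ps : ℕ) (x0 x1 x2 z84 z270 z55 z177 z163 z168 z271 z172 z272 z189 z175 z187 z193 z251 : AF) (be sg W t84 t270 t55 t177 t163 t168 t271 t172 t272 t189 t175 t187 t193 t251 : ℝ)
    (h0 : Rel ε x0 be) (h1 : Rel ε x1 sg) (h2 : Rel ε x2 W) (g84 : Rel ε z84 t84) (g270 : Rel ε z270 t270) (g55 : Rel ε z55 t55) (g177 : Rel ε z177 t177) (g163 : Rel ε z163 t163) (g168 : Rel ε z168 t168) (g271 : Rel ε z271 t271) (g172 : Rel ε z172 t172) (g272 : Rel ε z272 t272) (g189 : Rel ε z189 t189) (g175 : Rel ε z175 t175) (g187 : Rel ε z187 t187) (g193 : Rel ε z193 t193) (g251 : Rel ε z251 t251) :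
    a_B4 gs ps x0 x1 x2 z84 z270 z55 z177 z163 z168 z271 z172 z272 z189 z175 z187 z193 z251 = true → a_R4 gs ps be sg W t84 t270 t55 t177 t163 t168 t271 t172 t272 t189 t175 t187 t193 t251 := by
  delta a_B4 a_R4
  exact parS fun z21 t21 g21 =>
  parS fun z24 t24 g24 =>
  mulS hε g24 h2 fun z252 t252 g252 =>
  addS g21 g252 fun z253 t253 g253 =>
  mulS hε h2 g253 fun z254 t254 g254 =>
  addS g251 g254 fun z255 t255 g255 =>
  sqrS hε h0 fun z49 t49 g49 =>
  rsubS g49 k3 fun z50 t50 g50 =>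
  parS fun z3 t3 g3 =>
  sqrS hε g3 fun z47 t47 g47 =>
  subS g50 g47 fun z51 t51 g51 =>
  parS fun z25 t25 g25 =>
  sqrS hε g25 fun z48 t48 g48 =>
  subS g48 g47 fun z52 t52 g52 =>
  invS hε g52 fun z53 t53 g53 =>
  mulS hε g51 g53 fun z54 t54 g54 =>
  parS fun z41 t41 g41 =>
  parS fun z42 t42 g42 =>
  parS fun z44 t44 g44 =>
  mulS hε g44 h1 fun z236 t236 g236 =>
  addS g42 g236 fun z237 t237 g237 =>
  parS fun z45 t45 g45 =>
  mulS hε g45 h2 fun z238 t238 g238 =>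
  addS g237 g238 fun z239 t239 g239 =>
  mulS hε h1 g239 fun z240 t240 g240 =>
  addS g41 g240 fun z241 t241 g241 =>
  parS fun z43 t43 g43 =>
  parS fun z46 t46 g46 =>
  mulS hε g46 h2 fun z242 t242 g242 =>
  addS g43 g242 fun z243 t243 g243 =>
  mulS hε h2 g243 fun z244 t244 g244 =>
  addS g241 g244 fun z245 t245 g245 =>
  subS g245 g255 fun z256 t256 g256 =>
  normS g256 fun z275 t275 g275 =>
  mulS hε g54 g275 fun z257 t257 g257 =>
  addS g255 g257 fun z258 t258 g258 =>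
  normS g258 fun z276 t276 g276 =>
  mulS hε h1 g276 fun z259 t259 g259 =>
  smulS hε g55 k10 fun z260 t260 g260 =>
  mulS hε g260 g84 fun z261 t261 g261 =>
  a_S5 gs hε ps x1 x2 z270 z177 z163 z168 z271 z172 z272 z189 z175 z187 z193 z54 z259 z261 sg W t270 t177 t163 t168 t271 t172 t272 t189 t175 t187 t193 t54 t259 t261 h1 h2 g270 g177 g163 g168 g271 g172 g272 g189 g175 g187 g193 g54 g259 g261

def a_B3 (gs ps : ℕ) (x0 x1 x2 z84 z270 z55 z159 z177 z90 z95 z163 z168 z141 z152 z271 z181 z170 : AF) : Bool :=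
  mulK z90 z95 fun z171 =>
  subK z170 z171 fun z172 =>
  mulK z159 z172 fun z182 =>
  subK z181 z182 fun z183 =>
  normK z183 fun z272 =>
  mulK x2 z272 fun z188 =>
  addK z177 z188 fun z189 =>
  posK z189 <|
  sqrK z189 fun z190 =>
  smulK z271 4722367045819598635008 fun z184 =>
  mulK z184 z168 fun z185 =>
  mulK z90 z152 fun z173 =>
  mulK z95 z141 fun z174 =>
  subK z173 z174 fun z175 =>
  mulK z159 z175 fun z186 =>
  subK z185 z186 fun z187 =>
  sqrK z187 fun z191 =>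
  mulK x2 z191 fun z192 =>
  subK z190 z192 fun z193 =>
  posK z193 <|
  parK gs 16 fun z19 =>
  parK gs 17 fun z20 =>
  parK gs 19 fun z22 =>
  mulK z22 x1 fun z246 =>
  addK z20 z246 fun z247 =>
  parK gs 20 fun z23 =>
  mulK z23 x2 fun z248 =>
  addK z247 z248 fun z249 =>
  mulK x1 z249 fun z250 =>
  addK z19 z250 fun z251 =>
  a_B4 gs ps x0 x1 x2 z84 z270 z55 z177 z163 z168 z271 z172 z272 z189 z175 z187 z193 z251

def a_R3 (gs ps : ℕ) (be sg W z84 z270 z55 z159 z177 z90 z95 z163 z168 z141 z152 z271 z181 z170 : ℝ) : Prop :=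
  letR (z90 * z95) fun z171 =>
  letR (z170 - z171) fun z172 =>
  letR (z159 * z172) fun z182 =>
  letR (z181 - z182) fun z183 =>
  letR z183 fun z272 =>
  letR (W * z272) fun z188 =>
  letR (z177 + z188) fun z189 =>
  posR z189 <|
  letR (z189 ^ 2) fun z190 =>
  letR ((2 : ℝ) * z271) fun z184 =>
  letR (z184 * z168) fun z185 =>
  letR (z90 * z152) fun z173 =>
  letR (z95 * z141) fun z174 =>
  letR (z173 - z174) fun z175 =>
  letR (z159 * z175) fun z186 =>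
  letR (z185 - z186) fun z187 =>
  letR (z187 ^ 2) fun z191 =>
  letR (W * z191) fun z192 =>
  letR (z190 - z192) fun z193 =>
  posR z193 <|
  letR (parV gs 16) fun z19 =>
  letR (parV gs 17) fun z20 =>
  letR (parV gs 19) fun z22 =>
  letR (z22 * sg) fun z246 =>
  letR (z20 + z246) fun z247 =>
  letR (parV gs 20) fun z23 =>
  letR (z23 * W) fun z248 =>
  letR (z247 + z248) fun z249 =>
  letR (sg * z249) fun z250 =>
  letR (z19 + z250) fun z251 =>
  a_R4 gs ps be sg W z84 z270 z55 z177 z163 z168 z271 z172 z272 z189 z175 z187 z193 z251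

theorem a_S3 {ε : Fin 4 → ℝ} (gs : ℕ) (hε : ∀ i, |ε i| ≤ 1) (ps : ℕ) (x0 x1 x2 z84 z270 z55 z159 z177 z90 z95 z163 z168 z141 z152 z271 z181 z170 : AF) (be sg W t84 t270 t55 t159 t177 t90 t95 t163 t168 t141 t152 t271 t181 t170 : ℝ)
    (h0 : Rel ε x0 be) (h1 : Rel ε x1 sg) (h2 : Rel ε x2 W) (g84 : Rel ε z84 t84) (g270 : Rel ε z270 t270) (g55 : Rel ε z55 t55) (g159 : Rel ε z159 t159) (g177 : Rel ε z177 t177) (g90 : Rel ε z90 t90) (g95 : Rel ε z95 t95) (g163 : Rel ε z163 t163) (g168 : Rel ε z168 t168) (g141 : Rel ε z141 t141) (g152 : Rel ε z152 t152) (g271 : Rel ε z271 t271) (g181 : Rel ε z181 t181) (g170 : Rel ε z170 t170) :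
    a_B3 gs ps x0 x1 x2 z84 z270 z55 z159 z177 z90 z95 z163 z168 z141 z152 z271 z181 z170 = true → a_R3 gs ps be sg W t84 t270 t55 t159 t177 t90 t95 t163 t168 t141 t152 t271 t181 t170 := by
  delta a_B3 a_R3
  exact mulS hε g90 g95 fun z171 t171 g171 =>
  subS g170 g171 fun z172 t172 g172 =>
  mulS hε g159 g172 fun z182 t182 g182 =>
  subS g181 g182 fun z183 t183 g183 =>
  normS g183 fun z272 t272 g272 =>
  mulS hε h2 g272 fun z188 t188 g188 =>
  addS g177 g188 fun z189 t189 g189 =>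
  posS hε g189 <|
  sqrS hε g189 fun z190 t190 g190 =>
  smulS hε g271 k10 fun z184 t184 g184 =>
  mulS hε g184 g168 fun z185 t185 g185 =>
  mulS hε g90 g152 fun z173 t173 g173 =>
  mulS hε g95 g141 fun z174 t174 g174 =>
  subS g173 g174 fun z175 t175 g175 =>
  mulS hε g159 g175 fun z186 t186 g186 =>
  subS g185 g186 fun z187 t187 g187 =>
  sqrS hε g187 fun z191 t191 g191 =>
  mulS hε h2 g191 fun z192 t192 g192 =>
  subS g190 g192 fun z193 t193 g193 =>
  posS hε g193 <|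
  parS fun z19 t19 g19 =>
  parS fun z20 t20 g20 =>
  parS fun z22 t22 g22 =>
  mulS hε g22 h1 fun z246 t246 g246 =>
  addS g20 g246 fun z247 t247 g247 =>
  parS fun z23 t23 g23 =>
  mulS hε g23 h2 fun z248 t248 g248 =>
  addS g247 g248 fun z249 t249 g249 =>
  mulS hε h1 g249 fun z250 t250 g250 =>
  addS g19 g250 fun z251 t251 g251 =>
  a_S4 gs hε ps x0 x1 x2 z84 z270 z55 z177 z163 z168 z271 z172 z272 z189 z175 z187 z193 z251 be sg W t84 t270 t55 t177 t163 t168 t271 t172 t272 t189 t175 t187 t193 t251 h0 h1 h2 g84 g270 g55 g177 g163 g168 g271 g172 g272 g189 g175 g187 g193 g251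

def a_B2 (gs ps : ℕ) (x0 x1 x2 z78 z156 z84 z157 z270 z55 z159 z177 z89 z134 z90 z116 z161 z102 z123 z129 : AF) : Bool :=
  rsubK z129 4722366482869645213696 0 fun z130 =>
  invK z84 fun z86 =>
  mulK z78 z86 fun z91 =>
  mulK z78 z91 fun z96 =>
  mulK (cst 4722366229542166174105 1) z96 fun z98 =>
  mulK x2 z130 fun z144 =>
  addcK z144 4722366764344621924352 0 fun z145 =>
  mulK z98 z145 fun z146 =>
  addK z130 z146 fun z147 =>
  mulK (cst 4722366989524603292876 1) z78 fun z93 =>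
  addcK z93 4722366511017142884761 1 fun z94 =>
  mulK z91 z94 fun z95 =>
  mulK z102 z123 fun z131 =>
  smulK z131 4722366623607133569024 fun z132 =>
  mulK z95 z132 fun z148 =>
  addK z147 z148 fun z149 =>
  normK z149 fun z267 =>
  mulK z157 z267 fun z162 =>
  addK z161 z162 fun z163 =>
  mulK x2 z163 fun z167 =>
  addK z270 z167 fun z168 =>
  addK z270 z168 fun z178 =>
  mulK z163 z178 fun z179 =>
  mulK z90 z134 fun z139 =>
  mulK x2 z89 fun z140 =>
  addcK z140 4722366764344621924352 0 fun z141 =>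
  mulK z116 z141 fun z142 =>
  addK z139 z142 fun z143 =>
  mulK z156 z143 fun z164 =>
  mulK z95 z145 fun z150 =>
  mulK x2 z98 fun z151 =>
  addcK z151 4722366764344621924352 0 fun z152 =>
  mulK z132 z152 fun z153 =>
  addK z150 z153 fun z154 =>
  mulK z157 z154 fun z165 =>
  subK z164 z165 fun z166 =>
  normK z166 fun z271 =>
  sqrK z271 fun z180 =>
  addK z179 z180 fun z181 =>
  mulK z89 z152 fun z169 =>
  addK z98 z169 fun z170 =>
  a_B3 gs ps x0 x1 x2 z84 z270 z55 z159 z177 z90 z95 z163 z168 z141 z152 z271 z181 z170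

def a_R2 (gs ps : ℕ) (be sg W z78 z156 z84 z157 z270 z55 z159 z177 z89 z134 z90 z116 z161 z102 z123 z129 : ℝ) : Prop :=
  letR ((0 : ℝ) - z129) fun z130 =>
  invR z84 fun z86 =>
  letR (z78 * z86) fun z91 =>
  letR (z78 * z91) fun z96 =>
  letR ((-9 / 10 : ℝ) * z96) fun z98 =>
  letR (W * z130) fun z144 =>
  letR (z144 + (1 : ℝ)) fun z145 =>
  letR (z98 * z145) fun z146 =>
  letR (z130 + z146) fun z147 =>
  letR ((9 / 5 : ℝ) * z78) fun z93 =>
  letR (z93 + (1 / 10 : ℝ)) fun z94 =>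
  letR (z91 * z94) fun z95 =>
  letR (z102 * z123) fun z131 =>
  letR ((1 / 2 : ℝ) * z131) fun z132 =>
  letR (z95 * z132) fun z148 =>
  letR (z147 + z148) fun z149 =>
  letR z149 fun z267 =>
  letR (z157 * z267) fun z162 =>
  letR (z161 + z162) fun z163 =>
  letR (W * z163) fun z167 =>
  letR (z270 + z167) fun z168 =>
  letR (z270 + z168) fun z178 =>
  letR (z163 * z178) fun z179 =>
  letR (z90 * z134) fun z139 =>
  letR (W * z89) fun z140 =>
  letR (z140 + (1 : ℝ)) fun z141 =>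
  letR (z116 * z141) fun z142 =>
  letR (z139 + z142) fun z143 =>
  letR (z156 * z143) fun z164 =>
  letR (z95 * z145) fun z150 =>
  letR (W * z98) fun z151 =>
  letR (z151 + (1 : ℝ)) fun z152 =>
  letR (z132 * z152) fun z153 =>
  letR (z150 + z153) fun z154 =>
  letR (z157 * z154) fun z165 =>
  letR (z164 - z165) fun z166 =>
  letR z166 fun z271 =>
  letR (z271 ^ 2) fun z180 =>
  letR (z179 + z180) fun z181 =>
  letR (z89 * z152) fun z169 =>
  letR (z98 + z169) fun z170 =>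
  a_R3 gs ps be sg W z84 z270 z55 z159 z177 z90 z95 z163 z168 z141 z152 z271 z181 z170

theorem a_S2 {ε : Fin 4 → ℝ} (gs : ℕ) (hε : ∀ i, |ε i| ≤ 1) (ps : ℕ) (x0 x1 x2 z78 z156 z84 z157 z270 z55 z159 z177 z89 z134 z90 z116 z161 z102 z123 z129 : AF) (be sg W t78 t156 t84 t157 t270 t55 t159 t177 t89 t134 t90 t116 t161 t102 t123 t129 : ℝ)
    (h0 : Rel ε x0 be) (h1 : Rel ε x1 sg) (h2 : Rel ε x2 W) (g78 : Rel ε z78 t78) (g156 : Rel ε z156 t156) (g84 : Rel ε z84 t84) (g157 : Rel ε z157 t157) (g270 : Rel ε z270 t270) (g55 : Rel ε z55 t55) (g159 : Rel ε z159 t159) (g177 : Rel ε z177 t177) (g89 : Rel ε z89 t89) (g134 : Rel ε z134 t134) (g90 : Rel ε z90 t90) (g116 : Rel ε z116 t116) (g161 : Rel ε z161 t161) (g102 : Rel ε z102 t102) (g123 : Rel ε z123 t123) (g129 : Rel ε z129 t129) :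
    a_B2 gs ps x0 x1 x2 z78 z156 z84 z157 z270 z55 z159 z177 z89 z134 z90 z116 z161 z102 z123 z129 = true → a_R2 gs ps be sg W t78 t156 t84 t157 t270 t55 t159 t177 t89 t134 t90 t116 t161 t102 t123 t129 := by
  delta a_B2 a_R2
  exact rsubS g129 k7 fun z130 t130 g130 =>
  invS hε g84 fun z86 t86 g86 =>
  mulS hε g78 g86 fun z91 t91 g91 =>
  mulS hε g78 g91 fun z96 t96 g96 =>
  mulS hε (cst_rel k8) g96 fun z98 t98 g98 =>
  mulS hε h2 g130 fun z144 t144 g144 =>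
  addcS g144 k3 fun z145 t145 g145 =>
  mulS hε g98 g145 fun z146 t146 g146 =>
  addS g130 g146 fun z147 t147 g147 =>
  mulS hε (cst_rel k9) g78 fun z93 t93 g93 =>
  addcS g93 k2 fun z94 t94 g94 =>
  mulS hε g91 g94 fun z95 t95 g95 =>
  mulS hε g102 g123 fun z131 t131 g131 =>
  smulS hε g131 k4 fun z132 t132 g132 =>
  mulS hε g95 g132 fun z148 t148 g148 =>
  addS g147 g148 fun z149 t149 g149 =>
  normS g149 fun z267 t267 g267 =>
  mulS hε g157 g267 fun z162 t162 g162 =>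
  addS g161 g162 fun z163 t163 g163 =>
  mulS hε h2 g163 fun z167 t167 g167 =>
  addS g270 g167 fun z168 t168 g168 =>
  addS g270 g168 fun z178 t178 g178 =>
  mulS hε g163 g178 fun z179 t179 g179 =>
  mulS hε g90 g134 fun z139 t139 g139 =>
  mulS hε h2 g89 fun z140 t140 g140 =>
  addcS g140 k3 fun z141 t141 g141 =>
  mulS hε g116 g141 fun z142 t142 g142 =>
  addS g139 g142 fun z143 t143 g143 =>
  mulS hε g156 g143 fun z164 t164 g164 =>
  mulS hε g95 g145 fun z150 t150 g150 =>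
  mulS hε h2 g98 fun z151 t151 g151 =>
  addcS g151 k3 fun z152 t152 g152 =>
  mulS hε g132 g152 fun z153 t153 g153 =>
  addS g150 g153 fun z154 t154 g154 =>
  mulS hε g157 g154 fun z165 t165 g165 =>
  subS g164 g165 fun z166 t166 g166 =>
  normS g166 fun z271 t271 g271 =>
  sqrS hε g271 fun z180 t180 g180 =>
  addS g179 g180 fun z181 t181 g181 =>
  mulS hε g89 g152 fun z169 t169 g169 =>
  addS g98 g169 fun z170 t170 g170 =>
  a_S3 gs hε ps x0 x1 x2 z84 z270 z55 z159 z177 z90 z95 z163 z168 z141 z152 z271 z181 z170 be sg W t84 t270 t55 t159 t177 t90 t95 t163 t168 t141 t152 t271 t181 t170 h0 h1 h2 g84 g270 g55 g159 g177 g90 g95 g163 g168 g141 g152 g271 g181 g170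

def a_B1 (gs ps : ℕ) (x0 x1 x2 z78 z81 z156 z84 z99 z157 z270 z55 z159 z177 z108 : AF) : Bool :=
  invK z108 fun z109 =>
  sqrK z109 fun z110 =>
  smulK z108 4722367608769552056320 fun z111 =>
  addcK z111 4722367608769552056320 0 fun z112 =>
  invK z112 fun z113 =>
  mulK z110 z113 fun z114 =>
  rsubK z114 4722366482869645213696 0 fun z115 =>
  invK z81 fun z85 =>
  mulK (cst 4722367017672100963942 1) z85 fun z88 =>
  rsubK z88 4722366764344621924352 0 fun z89 =>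
  mulK x2 z115 fun z133 =>
  addcK z133 4722366764344621924352 0 fun z134 =>
  mulK z89 z134 fun z135 =>
  addK z115 z135 fun z136 =>
  addcK z89 4722366764344621924352 0 fun z90 =>
  smulK z109 4722366623607133569024 fun z116 =>
  mulK z90 z116 fun z137 =>
  addK z136 z137 fun z138 =>
  mulK z156 z138 fun z161 =>
  invK z99 fun z101 =>
  mulK z78 z101 fun z102 =>
  sqrK z102 fun z103 =>
  mulK z103 x2 fun z117 =>
  rsubK z117 4722366764344621924352 0 fun z118 =>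
  sqrtK z118 fun z119 =>
  addcK z119 4722366764344621924352 0 fun z120 =>
  smulK z120 4722366623607133569024 fun z121 =>
  sqrtK z121 fun z122 =>
  invK z122 fun z123 =>
  sqrK z123 fun z124 =>
  mulK z103 z124 fun z125 =>
  smulK z122 4722367608769552056320 fun z126 =>
  addcK z126 4722367608769552056320 0 fun z127 =>
  invK z127 fun z128 =>
  mulK z125 z128 fun z129 =>
  a_B2 gs ps x0 x1 x2 z78 z156 z84 z157 z270 z55 z159 z177 z89 z134 z90 z116 z161 z102 z123 z129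

def a_R1 (gs ps : ℕ) (be sg W z78 z81 z156 z84 z99 z157 z270 z55 z159 z177 z108 : ℝ) : Prop :=
  invR z108 fun z109 =>
  letR (z109 ^ 2) fun z110 =>
  letR ((4 : ℝ) * z108) fun z111 =>
  letR (z111 + (4 : ℝ)) fun z112 =>
  invR z112 fun z113 =>
  letR (z110 * z113) fun z114 =>
  letR ((0 : ℝ) - z114) fun z115 =>
  invR z81 fun z85 =>
  letR ((19 / 10 : ℝ) * z85) fun z88 =>
  letR ((1 : ℝ) - z88) fun z89 =>
  letR (W * z115) fun z133 =>
  letR (z133 + (1 : ℝ)) fun z134 =>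
  letR (z89 * z134) fun z135 =>
  letR (z115 + z135) fun z136 =>
  letR (z89 + (1 : ℝ)) fun z90 =>
  letR ((1 / 2 : ℝ) * z109) fun z116 =>
  letR (z90 * z116) fun z137 =>
  letR (z136 + z137) fun z138 =>
  letR (z156 * z138) fun z161 =>
  invR z99 fun z101 =>
  letR (z78 * z101) fun z102 =>
  letR (z102 ^ 2) fun z103 =>
  letR (z103 * W) fun z117 =>
  letR ((1 : ℝ) - z117) fun z118 =>
  letR (√z118) fun z119 =>
  letR (z119 + (1 : ℝ)) fun z120 =>
  letR ((1 / 2 : ℝ) * z120) fun z121 =>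
  letR (√z121) fun z122 =>
  invR z122 fun z123 =>
  letR (z123 ^ 2) fun z124 =>
  letR (z103 * z124) fun z125 =>
  letR ((4 : ℝ) * z122) fun z126 =>
  letR (z126 + (4 : ℝ)) fun z127 =>
  invR z127 fun z128 =>
  letR (z125 * z128) fun z129 =>
  a_R2 gs ps be sg W z78 z156 z84 z157 z270 z55 z159 z177 z89 z134 z90 z116 z161 z102 z123 z129

theorem a_S1 {ε : Fin 4 → ℝ} (gs : ℕ) (hε : ∀ i, |ε i| ≤ 1) (ps : ℕ) (x0 x1 x2 z78 z81 z156 z84 z99 z157 z270 z55 z159 z177 z108 : AF) (be sg W t78 t81 t156 t84 t99 t157 t270 t55 t159 t177 t108 : ℝ)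
    (h0 : Rel ε x0 be) (h1 : Rel ε x1 sg) (h2 : Rel ε x2 W) (g78 : Rel ε z78 t78) (g81 : Rel ε z81 t81) (g156 : Rel ε z156 t156) (g84 : Rel ε z84 t84) (g99 : Rel ε z99 t99) (g157 : Rel ε z157 t157) (g270 : Rel ε z270 t270) (g55 : Rel ε z55 t55) (g159 : Rel ε z159 t159) (g177 : Rel ε z177 t177) (g108 : Rel ε z108 t108) :
    a_B1 gs ps x0 x1 x2 z78 z81 z156 z84 z99 z157 z270 z55 z159 z177 z108 = true → a_R1 gs ps be sg W t78 t81 t156 t84 t99 t157 t270 t55 t159 t177 t108 := by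
  delta a_B1 a_R1
  exact invS hε g108 fun z109 t109 g109 =>
  sqrS hε g109 fun z110 t110 g110 =>
  smulS hε g108 k5 fun z111 t111 g111 =>
  addcS g111 k6 fun z112 t112 g112 =>
  invS hε g112 fun z113 t113 g113 =>
  mulS hε g110 g113 fun z114 t114 g114 =>
  rsubS g114 k7 fun z115 t115 g115 =>
  invS hε g81 fun z85 t85 g85 =>
  mulS hε (cst_rel k1) g85 fun z88 t88 g88 =>
  rsubS g88 k3 fun z89 t89 g89 =>
  mulS hε h2 g115 fun z133 t133 g133 =>
  addcS g133 k3 fun z134 t134 g134 =>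
  mulS hε g89 g134 fun z135 t135 g135 =>
  addS g115 g135 fun z136 t136 g136 =>
  addcS g89 k3 fun z90 t90 g90 =>
  smulS hε g109 k4 fun z116 t116 g116 =>
  mulS hε g90 g116 fun z137 t137 g137 =>
  addS g136 g137 fun z138 t138 g138 =>
  mulS hε g156 g138 fun z161 t161 g161 =>
  invS hε g99 fun z101 t101 g101 =>
  mulS hε g78 g101 fun z102 t102 g102 =>
  sqrS hε g102 fun z103 t103 g103 =>
  mulS hε g103 h2 fun z117 t117 g117 =>
  rsubS g117 k3 fun z118 t118 g118 =>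
  sqrtS hε g118 fun z119 t119 g119 =>
  addcS g119 k3 fun z120 t120 g120 =>
  smulS hε g120 k4 fun z121 t121 g121 =>
  sqrtS hε g121 fun z122 t122 g122 =>
  invS hε g122 fun z123 t123 g123 =>
  sqrS hε g123 fun z124 t124 g124 =>
  mulS hε g103 g124 fun z125 t125 g125 =>
  smulS hε g122 k5 fun z126 t126 g126 =>
  addcS g126 k6 fun z127 t127 g127 =>
  invS hε g127 fun z128 t128 g128 =>
  mulS hε g125 g128 fun z129 t129 g129 =>
  a_S2 gs hε ps x0 x1 x2 z78 z156 z84 z157 z270 z55 z159 z177 z89 z134 z90 z116 z161 z102 z123 z129 be sg W t78 t156 t84 t157 t270 t55 t159 t177 t89 t134 t90 t116 t161 t102 t123 t129 h0 h1 h2 g78 g156 g84 g157 g270 g55 g159 g177 g89 g134 g90 g116 g161 g102 g123 g129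

def a_B (gs ps : ℕ) (x0 x1 x2 x3 : AF) : Bool :=
  sqrK x1 fun z78 =>
  mulK (cst 4722366736197124253286 1) z78 fun z80 =>
  rsubK z80 4722367017672100963942 1 fun z81 =>
  mulK z78 z81 fun z155 =>
  normK z155 fun z268 =>
  mulK z268 x1 fun z156 =>
  addcK z80 4722366511017142884761 1 fun z82 =>
  mulK z78 z82 fun z83 =>
  rsubK z83 4722366764344621924352 0 fun z84 =>
  rsubK z78 4722366764344621924352 0 fun z99 =>
  sqrtK z99 fun z100 =>
  mulK z84 z100 fun z157 =>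
  addK z156 z157 fun z160 =>
  normK z160 fun z270 =>
  sqrK z270 fun z176 =>
  rsubK x0 4722366764344621924352 0 fun z55 =>
  mulK z268 z84 fun z158 =>
  normK z158 fun z269 =>
  mulK z55 z269 fun z159 =>
  subK z176 z159 fun z177 =>
  posK z177 <|
  rsubK x2 4722366764344621924352 0 fun z104 =>
  sqrtK z104 fun z105 =>
  addcK z105 4722366764344621924352 0 fun z106 =>
  smulK z106 4722366623607133569024 fun z107 =>
  sqrtK z107 fun z108 =>
  a_B1 gs ps x0 x1 x2 z78 z81 z156 z84 z99 z157 z270 z55 z159 z177 z108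

def a_R (gs ps : ℕ) (be sg W u3 : ℝ) : Prop :=
  letR (sg ^ 2) fun z78 =>
  letR ((9 / 10 : ℝ) * z78) fun z80 =>
  letR ((19 / 10 : ℝ) - z80) fun z81 =>
  letR (z78 * z81) fun z155 =>
  letR z155 fun z268 =>
  letR (z268 * sg) fun z156 =>
  letR (z80 + (1 / 10 : ℝ)) fun z82 =>
  letR (z78 * z82) fun z83 =>
  letR ((1 : ℝ) - z83) fun z84 =>
  letR ((1 : ℝ) - z78) fun z99 =>
  letR (√z99) fun z100 =>
  letR (z84 * z100) fun z157 =>
  letR (z156 + z157) fun z160 =>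
  letR z160 fun z270 =>
  letR (z270 ^ 2) fun z176 =>
  letR ((1 : ℝ) - be) fun z55 =>
  letR (z268 * z84) fun z158 =>
  letR z158 fun z269 =>
  letR (z55 * z269) fun z159 =>
  letR (z176 - z159) fun z177 =>
  posR z177 <|
  letR ((1 : ℝ) - W) fun z104 =>
  letR (√z104) fun z105 =>
  letR (z105 + (1 : ℝ)) fun z106 =>
  letR ((1 / 2 : ℝ) * z106) fun z107 =>
  letR (√z107) fun z108 =>
  a_R1 gs ps be sg W z78 z81 z156 z84 z99 z157 z270 z55 z159 z177 z108

theorem a_S {ε : Fin 4 → ℝ} (gs : ℕ) (hε : ∀ i, |ε i| ≤ 1) (ps : ℕ) (x0 x1 x2 x3 : AF) (be sg W u3 : ℝ)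
    (h0 : Rel ε x0 be) (h1 : Rel ε x1 sg) (h2 : Rel ε x2 W) (h3 : Rel ε x3 u3) :
    a_B gs ps x0 x1 x2 x3 = true → a_R gs ps be sg W u3 := by
  delta a_B a_R
  exact sqrS hε h1 fun z78 t78 g78 =>
  mulS hε (cst_rel k0) g78 fun z80 t80 g80 =>
  rsubS g80 k1 fun z81 t81 g81 =>
  mulS hε g78 g81 fun z155 t155 g155 =>
  normS g155 fun z268 t268 g268 =>
  mulS hε g268 h1 fun z156 t156 g156 =>
  addcS g80 k2 fun z82 t82 g82 =>
  mulS hε g78 g82 fun z83 t83 g83 =>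
  rsubS g83 k3 fun z84 t84 g84 =>
  rsubS g78 k3 fun z99 t99 g99 =>
  sqrtS hε g99 fun z100 t100 g100 =>
  mulS hε g84 g100 fun z157 t157 g157 =>
  addS g156 g157 fun z160 t160 g160 =>
  normS g160 fun z270 t270 g270 =>
  sqrS hε g270 fun z176 t176 g176 =>
  rsubS h0 k3 fun z55 t55 g55 =>
  mulS hε g268 g84 fun z158 t158 g158 =>
  normS g158 fun z269 t269 g269 =>
  mulS hε g55 g269 fun z159 t159 g159 =>
  subS g176 g159 fun z177 t177 g177 =>
  posS hε g177 <|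
  rsubS h2 k3 fun z104 t104 g104 =>
  sqrtS hε g104 fun z105 t105 g105 =>
  addcS g105 k3 fun z106 t106 g106 =>
  smulS hε g106 k4 fun z107 t107 g107 =>
  sqrtS hε g107 fun z108 t108 g108 =>
  a_S1 gs hε ps x0 x1 x2 z78 z81 z156 z84 z99 z157 z270 z55 z159 z177 z108 be sg W t78 t81 t156 t84 t99 t157 t270 t55 t159 t177 t108 h0 h1 h2 g78 g81 g156 g84 g99 g157 g270 g55 g159 g177 g108

/- obtain ⟨al, a9, uh, u, us, w, bc, sb, ws, p0, s, uw, suw, q0, R, iR, RE, iu, uE, xc, uO, RO, xE, th, t2, Q, iQ, QE, iw, aw, wE, yc, wO, QO, yE, pE, pe, ue, xO, we, yO, pO, vE, qE, qe, vO, qO, qd, ga, ra, rb, t, gb, He, Ne, H0, N0, na, n, nW, ma, m, ME, Ho, HE, NE, NO, MO, E, h_al, h_a9, h_uh, h_u, h_us, h_w, h_bc, h_sb, h_ws, h_p0, h_s, h_uw, h_suw, h_q0, c0, h_R, p_iR, h_iR, p_18, h_RE, p_iu, h_iu, h_uE, h_xc, h_uO, h_RO, h_xE, p_bc, h_th, h_t2, h_Q, p_iQ, h_iQ, p_33, h_QE, p_iw, h_iw, h_aw, h_wE, h_yc, h_wO, h_QO, h_yE, h_pE,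 h_pe, h_ue, h_xO, h_we, h_yO, h_pO, h_vE, h_qE, h_qe, c1, h_vO, h_qO, h_qd, c2, h_ga, h_ra, h_rb, p_61, h_t, h_gb, h_He, h_Ne, h_H0, h_N0, h_na, h_n, h_nW, h_ma, h_m, h_ME, p_He, h_Ho, p_76, h_HE, h_NE, h_NO, h_MO, p_81, h_E, c3⟩ := h -/
def a_Spec (rho m0 m1 m2 n0 n1 n2 k0 k1 k2 ku kw A0 A1 B0 B1 g0 g1 g2 g3 g4 g5 rhob m0b m1b m2b n0b n1b n2b k0b k1b k2b kub kwb A0b A1b B0b B1b g0b g1b g2b g3b g4b g5b be sg W : ℝ) : Prop :=
  ∃ al a9 uh u us w bc sb ws p0 s uw suw q0 R iR RE iu uE xc uO RO xE th t2 Q iQ QE iw aw wE yc wO QO yE pE pe ue xO we yO pO vE qE qe vO qO qd ga ra rb t gb He Ne H0 N0 na n nW ma m ME Ho HE NE NO MO E : ℝ,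
    al = (sg ^ 2) ∧
    a9 = ((9 / 10 : ℝ) * al) ∧
    uh = ((19 / 10 : ℝ) - a9) ∧
    u = (al * uh) ∧
    us = (u * sg) ∧
    w = ((1 : ℝ) - (al * (a9 + (1 / 10 : ℝ)))) ∧
    bc = ((1 : ℝ) - al) ∧
    sb = (√bc) ∧
    ws = (w * sb) ∧
    p0 = (us + ws) ∧
    s = ((1 : ℝ) - be) ∧
    uw = (u * w) ∧
    suw = (s * uw) ∧
    q0 = ((p0 ^ 2) - suw) ∧
    0 ≤ q0 ∧
    R = (√((1 / 2 : ℝ) * ((√((1 : ℝ) - W)) + (1 : ℝ)))) ∧
    0 < R ∧
    iR = (R⁻¹) ∧
    0 < (((4 : ℝ) * R) + (4 : ℝ)) ∧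
    RE = ((0 : ℝ) - ((iR ^ 2) * ((((4 : ℝ) * R) + (4 : ℝ))⁻¹))) ∧
    0 < uh ∧
    iu = (uh⁻¹) ∧
    uE = ((1 : ℝ) - ((19 / 10 : ℝ) * iu)) ∧
    xc = ((W * RE) + (1 : ℝ)) ∧
    uO = (uE + (1 : ℝ)) ∧
    RO = ((1 / 2 : ℝ) * iR) ∧
    xE = ((RE + (uE * xc)) + (uO * RO)) ∧
    0 < bc ∧
    th = (al * (bc⁻¹)) ∧
    t2 = (th ^ 2) ∧
    Q = (√((1 / 2 : ℝ) * ((√((1 : ℝ) - (t2 * W))) + (1 : ℝ)))) ∧
    0 < Q ∧
    iQ = (Q⁻¹) ∧
    0 < (((4 : ℝ) * Q) + (4 : ℝ)) ∧
    QE = ((0 : ℝ) - ((t2 * (iQ ^ 2)) * ((((4 : ℝ) * Q) + (4 : ℝ))⁻¹))) ∧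
    0 < w ∧
    iw = (w⁻¹) ∧
    aw = (al * iw) ∧
    wE = ((-9 / 10 : ℝ) * (al * aw)) ∧
    yc = ((W * QE) + (1 : ℝ)) ∧
    wO = (aw * (((9 / 5 : ℝ) * al) + (1 / 10 : ℝ))) ∧
    QO = ((1 / 2 : ℝ) * (th * iQ)) ∧
    yE = ((QE + (wE * yc)) + (wO * QO)) ∧
    pE = ((us * xE) + (ws * yE)) ∧
    pe = (p0 + (W * pE)) ∧
    ue = ((W * uE) + (1 : ℝ)) ∧
    xO = ((uO * xc) + (RO * ue)) ∧
    we = ((W * wE) + (1 : ℝ)) ∧
    yO = ((wO * yc) + (QO * we)) ∧
    pO = ((us * xO) - (ws * yO)) ∧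
    vE = ((wE + (uE * we)) - (uO * wO)) ∧
    qE = (((pE * (p0 + pe)) + (pO ^ 2)) - (suw * vE)) ∧
    qe = (q0 + (W * qE)) ∧
    0 ≤ qe ∧
    vO = ((uO * we) - (wO * ue)) ∧
    qO = ((((2 : ℝ) * pO) * pe) - (suw * vO)) ∧
    qd = ((qe ^ 2) - (W * (qO ^ 2))) ∧
    0 ≤ qd ∧
    ga = ((g0 + (sg * ((g1 + (g3 * sg)) + (g4 * W)))) + (W * (g2 + (g5 * W)))) ∧
    ra = (rho ^ 2) ∧
    rb = (rhob ^ 2) ∧
    0 < (rb - ra) ∧
    t = ((((1 : ℝ) - (be ^ 2)) - ra) * ((rb - ra)⁻¹)) ∧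
    gb = ((g0b + (sg * ((g1b + (g3b * sg)) + (g4b * W)))) + (W * (g2b + (g5b * W)))) ∧
    He = (√((1 / 2 : ℝ) * (qe + (√qd)))) ∧
    Ne = (pe + He) ∧
    H0 = (√q0) ∧
    N0 = (p0 + H0) ∧
    na = ((n0 + (n1 * sg)) + (n2 * W)) ∧
    n = (na + (t * (((n0b + (n1b * sg)) + (n2b * W)) - na))) ∧
    nW = ((W * n) + (1 : ℝ)) ∧
    ma = ((m0 + (m1 * sg)) + (m2 * W)) ∧
    m = (ma + (t * (((m0b + (m1b * sg)) + (m2b * W)) - ma))) ∧
    ME = ((n + (nW * vE)) + (m * vO)) ∧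
    0 < He ∧
    Ho = ((1 / 2 : ℝ) * (qO * (He⁻¹))) ∧
    0 < (He + H0) ∧
    HE = ((qE - (Ho ^ 2)) * ((He + H0)⁻¹)) ∧
    NE = (pE + HE) ∧
    NO = (pO + Ho) ∧
    MO = ((nW * vO) + (m * ((W * vE) + (1 : ℝ)))) ∧
    0 < (N0 * ((Ne ^ 2) - (W * (NO ^ 2)))) ∧
    E = (((Ne * ((N0 * ME) - NE)) + (NO * (NO - (N0 * MO)))) * ((N0 * ((Ne ^ 2) - (W * (NO ^ 2))))⁻¹)) ∧
    0 ≤ ((0 : ℝ) - ((sg * (ga + (t * (gb - ga)))) + ((((2 : ℝ) * s) * w) * E)))

theorem a_E {gs ps : ℕ} {be sg W u3 : ℝ} (h : a_R gs ps be sg W u3) : a_Spec (parV gs 0) (parV gs 1) (parV gs 2) (parV gs 3) (parV gs 4) (parV gs 5) (parV gs 6) (parV gs 7) (parV gs 8) (parV gs 9) (parV gs 10) (parV gs 11) (parV gs 12) (parV gs 13) (parV gs 14) (parV gs 15) (parV gs 16) (parV gs 17) (parV gs 18) (parV gs 19) (parV gs 20) (parV gs 21) (parV gs 22) (parV gs 23) (parV gs 24) (parV gs 25) (parV gs 26) (parV gs 27) (parV gs 28) (parV gs 29) (parV gs 30) (parV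 gs 31) (parV gs 32) (parV gs 33) (parV gs 34) (parV gs 35) (parV gs 36) (parV gs 37) (parV gs 38) (parV gs 39) (parV gs 40) (parV gs 41) (parV gs 42) (parV gs 43) be sg W := by
  delta a_R at h
  exact letR_ex h fun al q1 h =>
  letR_ex h fun a9 q2 h =>
  letR_ex h fun uh q3 h =>
  letR_ex h fun u q4 h =>
  letR_in h fun h =>
  letR_ex h fun us q5 h =>
  letR_in h fun h =>
  letR_in h fun h =>
  letR_ex h fun w q6 h =>
  letR_ex h fun bc q7 h =>
  letR_ex h fun sb q8 h =>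
  letR_ex h fun ws q9 h =>
  letR_ex h fun p0 q10 h =>
  letR_in h fun h =>
  letR_in h fun h =>
  letR_ex h fun s q11 h =>
  letR_ex h fun uw q12 h =>
  letR_in h fun h =>
  letR_ex h fun suw q13 h =>
  letR_ex h fun q0 q14 h =>
  posR_ex h fun q15 h =>
  letR_in h fun h =>
  letR_in h fun h =>
  letR_in h fun h =>
  letR_in h fun h =>
  letR_ex h fun R q16 h =>
  (by delta a_R1 at h; exact
  invR_ex h fun q17 h =>
  letR_ex h fun iR q18 h =>
  letR_in h fun h =>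
  letR_in h fun h =>
  letR_in h fun h =>
  invR_ex h fun q19 h =>
  letR_in h fun h =>
  letR_in h fun h =>
  letR_ex h fun RE q20 h =>
  invR_ex h fun q21 h =>
  letR_ex h fun iu q22 h =>
  letR_in h fun h =>
  letR_ex h fun uE q23 h =>
  letR_in h fun h =>
  letR_ex h fun xc q24 h =>
  letR_in h fun h =>
  letR_in h fun h =>
  letR_ex h fun uO q25 h =>
  letR_ex h fun RO q26 h =>
  letR_in h fun h =>
  letR_ex h fun xE q27 h =>
  letR_in h fun h =>
  invR_ex h fun q28 h =>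
  letR_in h fun h =>
  letR_ex h fun th q29 h =>
  letR_ex h fun t2 q30 h =>
  letR_in h fun h =>
  letR_in h fun h =>
  letR_in h fun h =>
  letR_in h fun h =>
  letR_in h fun h =>
  letR_ex h fun Q q31 h =>
  invR_ex h fun q32 h =>
  letR_ex h fun iQ q33 h =>
  letR_in h fun h =>
  letR_in h fun h =>
  letR_in h fun h =>
  letR_in h fun h =>
  invR_ex h fun q34 h =>
  letR_in h fun h =>
  letR_in h fun h =>
  (by delta a_R2 at h; exact
  letR_ex h fun QE q35 h =>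
  invR_ex h fun q36 h =>
  letR_ex h fun iw q37 h =>
  letR_ex h fun aw q38 h =>
  letR_in h fun h =>
  letR_ex h fun wE q39 h =>
  letR_in h fun h =>
  letR_ex h fun yc q40 h =>
  letR_in h fun h =>
  letR_in h fun h =>
  letR_in h fun h =>
  letR_in h fun h =>
  letR_ex h fun wO q41 h =>
  letR_in h fun h =>
  letR_ex h fun QO q42 h =>
  letR_in h fun h =>
  letR_ex h fun yE q43 h =>
  letR_in h fun h =>
  letR_in h fun h =>
  letR_ex h fun pE q44 h =>
  letR_in h fun h =>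
  letR_ex h fun pe q45 h =>
  letR_in h fun h =>
  letR_in h fun h =>
  letR_in h fun h =>
  letR_in h fun h =>
  letR_ex h fun ue q46 h =>
  letR_in h fun h =>
  letR_ex h fun xO q47 h =>
  letR_in h fun h =>
  letR_in h fun h =>
  letR_in h fun h =>
  letR_ex h fun we q48 h =>
  letR_in h fun h =>
  letR_ex h fun yO q49 h =>
  letR_in h fun h =>
  letR_ex h fun pO q50 h =>
  letR_in h fun h =>
  letR_in h fun h =>
  letR_in h fun h =>
  letR_in h fun h =>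
  letR_in h fun h =>
  (by delta a_R3 at h; exact
  letR_in h fun h =>
  letR_ex h fun vE q51 h =>
  letR_in h fun h =>
  letR_ex h fun qE q52 h =>
  letR_in h fun h =>
  letR_in h fun h =>
  letR_ex h fun qe q53 h =>
  posR_ex h fun q54 h =>
  letR_in h fun h =>
  letR_in h fun h =>
  letR_in h fun h =>
  letR_in h fun h =>
  letR_in h fun h =>
  letR_ex h fun vO q55 h =>
  letR_in h fun h =>
  letR_ex h fun qO q56 h =>
  letR_in h fun h =>
  letR_in h fun h =>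
  letR_ex h fun qd q57 h =>
  posR_ex h fun q58 h =>
  letR_in h fun h =>
  letR_in h fun h =>
  letR_in h fun h =>
  letR_in h fun h =>
  letR_in h fun h =>
  letR_in h fun h =>
  letR_in h fun h =>
  letR_in h fun h =>
  letR_in h fun h =>
  letR_in h fun h =>
  (by delta a_R4 at h; exact
  letR_in h fun h =>
  letR_in h fun h =>
  letR_in h fun h =>
  letR_in h fun h =>
  letR_in h fun h =>
  letR_ex h fun ga q59 h =>
  letR_in h fun h =>
  letR_in h fun h =>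
  letR_in h fun h =>
  letR_ex h fun ra q60 h =>
  letR_in h fun h =>
  letR_in h fun h =>
  letR_ex h fun rb q61 h =>
  letR_in h fun h =>
  invR_ex h fun q62 h =>
  letR_in h fun h =>
  letR_ex h fun t q63 h =>
  letR_in h fun h =>
  letR_in h fun h =>
  letR_in h fun h =>
  letR_in h fun h =>
  letR_in h fun h =>
  letR_in h fun h =>
  letR_in h fun h =>
  letR_in h fun h =>
  letR_in h fun h =>
  letR_in h fun h =>
  letR_in h fun h =>
  letR_in h fun h =>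
  letR_in h fun h =>
  letR_in h fun h =>
  letR_in h fun h =>
  letR_ex h fun gb q64 h =>
  letR_in h fun h =>
  letR_in h fun h =>
  letR_in h fun h =>
  letR_in h fun h =>
  letR_in h fun h =>
  letR_in h fun h =>
  letR_in h fun h =>
  letR_in h fun h =>
  (by delta a_R5 at h; exact
  letR_in h fun h =>
  letR_in h fun h =>
  letR_in h fun h =>
  letR_ex h fun He q65 h =>
  letR_ex h fun Ne q66 h =>
  letR_ex h fun H0 q67 h =>
  letR_ex h fun N0 q68 h =>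
  letR_in h fun h =>
  letR_in h fun h =>
  letR_in h fun h =>
  letR_in h fun h =>
  letR_in h fun h =>
  letR_in h fun h =>
  letR_ex h fun na q69 h =>
  letR_in h fun h =>
  letR_in h fun h =>
  letR_in h fun h =>
  letR_in h fun h =>
  letR_in h fun h =>
  letR_in h fun h =>
  letR_in h fun h =>
  letR_in h fun h =>
  letR_in h fun h =>
  letR_in h fun h =>
  letR_ex h fun n q70 h =>
  (by delta a_R6 at h; exact
  letR_in h fun h =>
  letR_ex h fun nW q71 h =>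
  letR_in h fun h =>
  letR_in h fun h =>
  letR_in h fun h =>
  letR_in h fun h =>
  letR_in h fun h =>
  letR_in h fun h =>
  letR_in h fun h =>
  letR_in h fun h =>
  letR_ex h fun ma q72 h =>
  letR_in h fun h =>
  letR_in h fun h =>
  letR_in h fun h =>
  letR_in h fun h =>
  letR_in h fun h =>
  letR_in h fun h =>
  letR_in h fun h =>
  letR_in h fun h =>
  letR_in h fun h =>
  letR_in h fun h =>
  letR_ex h fun m q73 h =>
  letR_in h fun h =>
  letR_ex h fun ME q74 h =>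
  letR_in h fun h =>
  letR_in h fun h =>
  invR_ex h fun q75 h =>
  letR_in h fun h =>
  letR_in h fun h =>
  letR_ex h fun Ho q76 h =>
  letR_in h fun h =>
  letR_in h fun h =>
  letR_in h fun h =>
  invR_ex h fun q77 h =>
  letR_in h fun h =>
  letR_ex h fun HE q78 h =>
  letR_ex h fun NE q79 h =>
  letR_in h fun h =>
  letR_in h fun h =>
  letR_ex h fun NO q80 h =>
  letR_in h fun h =>
  (by delta a_R7 at h; exact
  letR_in h fun h =>
  letR_in h fun h =>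
  letR_in h fun h =>
  letR_ex h fun MO q81 h =>
  letR_in h fun h =>
  letR_in h fun h =>
  letR_in h fun h =>
  letR_in h fun h =>
  letR_in h fun h =>
  letR_in h fun h =>
  letR_in h fun h =>
  letR_in h fun h =>
  letR_in h fun h =>
  invR_ex h fun q82 h =>
  letR_in h fun h =>
  letR_ex h fun E q83 h =>
  letR_in h fun h =>
  letR_in h fun h =>
  letR_in h fun h =>
  letR_in h fun h =>
  posR_ex h fun q84 h =>
  ⟨al, a9, uh, u, us, w, bc, sb, ws, p0, s, uw, suw, q0, R, iR, RE, iu, uE, xc, uO, RO, xE, th, t2, Q, iQ, QE, iw, aw, wE, yc, wO, QO, yE, pE, pe, ue, xO, we, yO, pO, vE, qE, qe, vO, qO, qd, ga, ra, rb, t, gb, He, Ne, H0, N0, na, n, nW, ma, m, ME, Ho, HE, NE, NO, MO, E, q1, q2, q3, q4, q5, q6, q7, q8, q9, q10, q11, q12, q13, q14, q15, q16, q17, q18, q19, q20, q21, q22, q23, q24, q25, q26, q27, q28, q29, q30, q31, q32, q33, q34, q35, q36, q37, q38, q39, q40, q41, q42, q43, q44, q45, q46, q47, q48,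 q49, q50, q51, q52, q53, q54, q55, q56, q57, q58, q59, q60, q61, q62, q63, q64, q65, q66, q67, q68, q69, q70, q71, q72, q73, q74, q75, q76, q77, q78, q79, q80, q81, q82, q83, q84⟩)))))))

theorem k11 : |2 ^ 48 * (-1 / 16 : ℝ) - (((4722366465277459169280 : ℕ) : ℝ) - 2 ^ 72)| ≤ ((0 : ℕ) : ℝ) := by norm_num [abs_le]
theorem k12 : |2 ^ 48 * (-1 / 16384 : ℝ) - (((4722366482852465344512 : ℕ) : ℝ) - 2 ^ 72)| ≤ ((0 : ℕ) : ℝ) := by norm_num [abs_le]
def x_B (gs ps : ℕ) (x0 x1 x2 x3 : AF) : Bool :=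
  sqrK x1 fun z47 =>
  sqrK z47 fun z48 =>
  mulK x2 z48 fun z49 =>
  addcK z49 4722366465277459169280 0 fun z50 =>
  addcK z50 4722366482852465344512 0 fun z51 =>
  posK z51 <|
  true

def x_R (gs ps : ℕ) (be sg W u3 : ℝ) : Prop :=
  letR (sg ^ 2) fun z47 =>
  letR (z47 ^ 2) fun z48 =>
  letR (W * z48) fun z49 =>
  letR (z49 + (-1 / 16 : ℝ)) fun z50 =>
  letR (z50 + (-1 / 16384 : ℝ)) fun z51 =>
  posR z51 <|
  True

theorem x_S {ε : Fin 4 → ℝ} (gs : ℕ) (hε : ∀ i, |ε i| ≤ 1) (ps : ℕ) (x0 x1 x2 x3 : AF) (be sg W u3 : ℝ)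
    (h0 : Rel ε x0 be) (h1 : Rel ε x1 sg) (h2 : Rel ε x2 W) (h3 : Rel ε x3 u3) :
    x_B gs ps x0 x1 x2 x3 = true → x_R gs ps be sg W u3 := by
  delta x_B x_R
  exact sqrS hε h1 fun z47 t47 g47 =>
  sqrS hε g47 fun z48 t48 g48 =>
  mulS hε h2 g48 fun z49 t49 g49 =>
  addcS g49 k11 fun z50 t50 g50 =>
  addcS g50 k12 fun z51 t51 g51 =>
  posS hε g51 <|
  fun _ => trivial

/- obtain ⟨c0⟩ := h -/
def x_Spec (rho m0 m1 m2 n0 n1 n2 k0 k1 k2 ku kw A0 A1 B0 B1 g0 g1 g2 g3 g4 g5 rhob m0b m1b m2b n0b n1b n2b k0b k1b k2b kub kwb A0b A1b B0b B1b g0b g1b g2b g3b g4b g5b be sg W : ℝ) : Prop :=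
  0 ≤ (((W * ((sg ^ 2) ^ 2)) + (-1 / 16 : ℝ)) + (-1 / 16384 : ℝ))

theorem x_E {gs ps : ℕ} {be sg W u3 : ℝ} (h : x_R gs ps be sg W u3) : x_Spec (parV gs 0) (parV gs 1) (parV gs 2) (parV gs 3) (parV gs 4) (parV gs 5) (parV gs 6) (parV gs 7) (parV gs 8) (parV gs 9) (parV gs 10) (parV gs 11) (parV gs 12) (parV gs 13) (parV gs 14) (parV gs 15) (parV gs 16) (parV gs 17) (parV gs 18) (parV gs 19) (parV gs 20) (parV gs 21) (parV gs 22) (parV gs 23) (parV gs 24) (parV gs 25) (parV gs 26) (parV gs 27) (parV gs 28) (parV gs 29) (parV gs 30) (parV gs 31) (parV gs 32) (parV gs 33) (parV gs 34) (parV gs 35) (parV gs 36) (parV gs 37) (parV gs 38) (parV gs 39) (parV gs 40) (parV gs 41) (parV gs 42) (parV gs 43) be sg W := by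
  delta x_R at h
  exact letR_in h fun h =>
  letR_in h fun h =>
  letR_in h fun h =>
  letR_in h fun h =>
  letR_in h fun h =>
  posR_ex h fun q1 h =>
  q1

def PB (gs : ℕ) : Prog := fun j ps x0 x1 x2 x3 =>
  Nat.rec (motive := fun _ => Bool) (a_B gs ps x0 x1 x2 x3) (fun j _ => x_B gs ps x0 x1 x2 x3) j

def PR (gs : ℕ) : ℕ → ℕ → ℝ → ℝ → ℝ → ℝ → Prop := fun j ps be sg W u3 =>
  Nat.rec (motive := fun _ => Prop) (a_R gs ps be sg W u3) (fun j _ => x_R gs ps be sg W u3) j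

theorem PS (gs : ℕ) : Sound (PB gs) (PR gs) := fun _ hε j => match j with
  | 0 => a_S gs hε
  | _ + 1 => x_S gs hε

theorem PE {j gs ps : ℕ} {be sg W u3 : ℝ} : PR gs j ps be sg W u3 → a_Spec (parV gs 0) (parV gs 1) (parV gs 2) (parV gs 3) (parV gs 4) (parV gs 5) (parV gs 6) (parV gs 7) (parV gs 8) (parV gs 9) (parV gs 10) (parV gs 11) (parV gs 12) (parV gs 13) (parV gs 14) (parV gs 15) (parV gs 16) (parV gs 17) (parV gs 18) (parV gs 19) (parV gs 20) (parV gs 21) (parV gs 22) (parV gs 23) (parV gs 24) (parV gs 25) (parV gs 26) (parV gs 27) (parV gs 28) (parV gs 29) (parV gs 30) (parV gs 31) (parV gs 32) (parV gs 33) (parV gs 34) (parV gs 35) (parV gs 36) (parV gs 37) (parV gs 38) (parV gs 39) (parV gs 40) (parV gs 41) (parV gs 42) (parV gs 43) be sg W ∨ x_Spec (parV gs 0) (parV gs 1) (parV gs 2) (parV gs 3) (parV gs 4) (parV gs 5) (parV gs 6) (parV gs 7) (parV gs 8) (parV gs 9) (parV gs 10) (parV gs 11) (parV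 gs 12) (parV gs 13) (parV gs 14) (parV gs 15) (parV gs 16) (parV gs 17) (parV gs 18) (parV gs 19) (parV gs 20) (parV gs 21) (parV gs 22) (parV gs 23) (parV gs 24) (parV gs 25) (parV gs 26) (parV gs 27) (parV gs 28) (parV gs 29) (parV gs 30) (parV gs 31) (parV gs 32) (parV gs 33) (parV gs 34) (parV gs 35) (parV gs 36) (parV gs 37) (parV gs 38) (parV gs 39) (parV gs 40) (parV gs 41) (parV gs 42) (parV gs 43) be sg W := match j with
  | 0 => fun h => Or.inl (@a_E gs ps be sg W u3 h)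
  | _ + 1 => fun h => Or.inr (@x_E gs ps be sg W u3 h)

theorem of_good {gs l0 h0 l1 h1 l2 h2 l3 h3 : ℕ} (h : Good (PR gs) l0 h0 l1 h1 l2 h2 l3 h3) {be sg W u3 : ℝ}
    (hb : InBox l0 h0 l1 h1 l2 h2 l3 h3 be sg W u3) : a_Spec (parV gs 0) (parV gs 1) (parV gs 2) (parV gs 3) (parV gs 4) (parV gs 5) (parV gs 6) (parV gs 7) (parV gs 8) (parV gs 9) (parV gs 10) (parV gs 11) (parV gs 12) (parV gs 13) (parV gs 14) (parV gs 15) (parV gs 16) (parV gs 17) (parV gs 18) (parV gs 19) (parV gs 20) (parV gs 21) (parV gs 22) (parV gs 23) (parV gs 24) (parV gs 25) (parV gs 26) (parV gs 27) (parV gs 28) (parV gs 29) (parV gs 30) (parV gs 31) (parV gs 32) (parV gs 33) (parV gs 34) (parV gs 35) (parV gs 36) (parV gs 37) (parV gs 38) (parV gs 39) (parV gs 40) (parV gs 41) (parV gs 42) (parV gs 43) be sg W ∨ x_Spec (parV gs 0) (parV gs 1) (parV gs 2) (parV gs 3) (parV gs 4) (parV gs 5) (parV gs 6) (parV gs 7) (parV gs 8) (parV gs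 9) (parV gs 10) (parV gs 11) (parV gs 12) (parV gs 13) (parV gs 14) (parV gs 15) (parV gs 16) (parV gs 17) (parV gs 18) (parV gs 19) (parV gs 20) (parV gs 21) (parV gs 22) (parV gs 23) (parV gs 24) (parV gs 25) (parV gs 26) (parV gs 27) (parV gs 28) (parV gs 29) (parV gs 30) (parV gs 31) (parV gs 32) (parV gs 33) (parV gs 34) (parV gs 35) (parV gs 36) (parV gs 37) (parV gs 38) (parV gs 39) (parV gs 40) (parV gs 41) (parV gs 42) (parV gs 43) be sg W := by
  obtain ⟨j, ps, h⟩ := h be sg W u3 hb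
  exact PE h

def l0 : Tree := Tree.leaf 0
def l1 : Tree := Tree.leaf 1

end

end Crest.Agent.R307.HS2
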