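import Crest.Agent.R307.HPair
import Crest.Agent.R307.HBa
import Crest.Agent.R307.HS1P
import Crest.Agent.R307.HS2P

/-! Row 307: the scalar half.  Common core (state it as one lemma on the equations shared by both Specs): with `a± = σ² (1 ± ω)`,
`ψ± = psiH a± a± = pe ± ω pO` (`sqrt_pair` for `√(1 ± ω)` and `√(1 ∓ th ω)`, `uf a± = u (ue ± ω uO)`, `uf (1 - a±) = w (we ∓ ω wO)`),
`uf a± uf (1 - a±) = uw (1 + W vE ± ω vO)`, `ψ±² - s uf uf = qe ± ω qO ≥ 0` (from `qe ≥ 0`, `qd ≥ 0`), `RH β a± = He ± ω Ho` (`RH_eq`;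
`He² + W Ho² = qe`, `2 He Ho = qO`, `He² - W Ho² = √qd ≥ 0`), `RH β σ² = H0`, `Ne = N0 + W NE`,
`ψ± - RH± = s uf uf / (Ne ± ω NO)`, `muv m n (±ω) (1 + W vE ± ω vO) = 1 + W ME ± ω MO`, hence
`μ0 (ψ+ - RH+) + μ1 (ψ- - RH-) - 2 (p0 - H0) = 2 s W uw E`. -/

set_option autoImplicit false

namespace Crest.Agent.R307

lemma HSm_R {Z C R iR RE t2 W : ℝ} (hZ : Z = t2 * W) (hR : 0 < R) (h2 : 2 * R ^ 2 = 1 + C) (h3 : C ^ 2 = 1 - Z)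
    (hi : iR = R⁻¹) (hE : RE = 0 - (t2 * iR ^ 2) * (4 * R + 4)⁻¹) : W * RE + 1 = R := by
  have h4 : (4 * R + 4) ≠ 0 := by positivity
  have h5 : t2 * W = 4 * R ^ 2 * (1 - R ^ 2) := by
    have hC : C = 2 * R ^ 2 - 1 := by linarith
    rw [hC] at h3
    linear_combination h3 - hZ
  have h6 : W * RE = -(t2 * W) / (R ^ 2 * (4 * R + 4)) := by
    rw [hE, hi]; field_simp; ring
  rw [h6, h5]; field_simp; ring

lemma HSm_H {W qe qO qd He Ho ζ : ℝ} (hζ : ζ ^ 2 = W) (c1 : 0 ≤ qe) (h_qd : qd = qe ^ 2 - W * qO ^ 2) (c2 : 0 ≤ qd)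
    (h_He : He = √(1 / 2 * (qe + √qd))) (p_He : 0 < He) (h_Ho : Ho = 1 / 2 * (qO * He⁻¹)) :
    He ^ 2 + W * Ho ^ 2 = qe ∧ (He + ζ * Ho) ^ 2 = qe + ζ * qO ∧ √(qe + ζ * qO) = He + ζ * Ho := by
  have hD : √qd ^ 2 = qd := Real.sq_sqrt c2
  have hD0 : 0 ≤ √qd := Real.sqrt_nonneg _
  have h1 : He ^ 2 = 1 / 2 * (qe + √qd) := by rw [h_He]; exact Real.sq_sqrt (by positivity)
  have h2 : 2 * He * Ho = qO := by rw [h_Ho]; field_simp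
  have h3 : He ^ 2 + W * Ho ^ 2 = qe := by
    have h4 : He ^ 2 * (He ^ 2 + W * Ho ^ 2 - qe) = 0 := by
      have h5 : He ^ 2 * (W * Ho ^ 2) = W * qO ^ 2 / 4 := by rw [← h2]; ring
      have h6 : He ^ 2 * (He ^ 2 - qe) = -(W * qO ^ 2) / 4 := by
        rw [h1]; linear_combination (1 / 4) * hD + (1 / 4) * h_qd
      linear_combination h5 + h6
    rcases mul_eq_zero.1 h4 with h | h
    · exact absurd h (by positivity)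
    · linarith
  have h7 : (He + ζ * Ho) ^ 2 = qe + ζ * qO := by
    linear_combination h3 + ζ * h2 + Ho ^ 2 * hζ
  refine ⟨h3, h7, ?_⟩
  rw [← h7]
  refine Real.sqrt_sq ?_
  have h8 : (ζ * Ho) ^ 2 ≤ He ^ 2 := by
    have : (ζ * Ho) ^ 2 = W * Ho ^ 2 := by rw [← hζ]; ring
    linarith
  have := (abs_le_of_sq_le_sq' h8 p_He.le).1
  linarith

lemma HSm_fin {W ω S N0 Ne NO NE ME MO E x0 x1 x2 : ℝ} (hW : ω ^ 2 = W) (hN : Ne = N0 + W * NE)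
    (hp : 0 < N0 * (Ne ^ 2 - W * NO ^ 2))
    (hE : E = (Ne * (N0 * ME - NE) + NO * (NO - N0 * MO)) * (N0 * (Ne ^ 2 - W * NO ^ 2))⁻¹)
    (h0 : x0 * N0 = S) (h1 : x1 * (Ne + ω * NO) = S * (1 + W * ME + ω * MO))
    (h2 : x2 * (Ne + -ω * NO) = S * (1 + W * ME + -ω * MO)) : x1 + x2 - 2 * x0 = 2 * S * W * E := by
  have hE' : E * (N0 * (Ne ^ 2 - W * NO ^ 2)) = Ne * (N0 * ME - NE) + NO * (NO - N0 * MO) := by
    rw [hE, mul_assoc, inv_mul_cancel₀ hp.ne', mul_one]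
  refine mul_right_cancel₀ hp.ne' ?_
  subst hW
  linear_combination (N0 * (Ne - ω * NO)) * h1 + (N0 * (Ne + ω * NO)) * h2
    - 2 * (Ne ^ 2 - ω ^ 2 * NO ^ 2) * h0 - 2 * S * ω ^ 2 * hE' - 2 * S * Ne * hN

set_option linter.unusedVariables false in
theorem HSm_core {be sg W ω : ℝ} {al a9 uh u us w bc sb ws p0 s uw suw q0 R iR RE iu uE xc uO RO xE th t2 Q iQ QE iw aw wE yc wO QO yE pE pe ue xO we yO pO vE qE qe vO qO qd He Ne H0 N0 n nW m ME Ho HE NE NO MO E : ℝ}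
    (hσ : 0 < sg) (hσ2 : sg ^ 2 ≤ 1 / 2) (hω : 0 ≤ ω) (hω1 : ω < 1) (hW : ω ^ 2 = W)
    (h_al : al = (sg ^ 2)) (h_a9 : a9 = ((9 / 10 : ℝ) * al)) (h_uh : uh = ((19 / 10 : ℝ) - a9)) (h_u : u = (al * uh))
    (h_us : us = (u * sg)) (h_w : w = ((1 : ℝ) - (al * (a9 + (1 / 10 : ℝ))))) (h_bc : bc = ((1 : ℝ) - al)) (h_sb : sb = (√bc))
    (h_ws : ws = (w * sb)) (h_p0 : p0 = (us + ws)) (h_s : s = ((1 : ℝ) - be)) (h_uw : uw = (u * w)) (h_suw : suw = (s * uw))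
    (h_q0 : q0 = ((p0 ^ 2) - suw)) (c0 : 0 ≤ q0) (h_R : R = (√((1 / 2 : ℝ) * ((√((1 : ℝ) - W)) + (1 : ℝ))))) (p_iR : 0 < R)
    (h_iR : iR = (R⁻¹)) (p_18 : 0 < (((4 : ℝ) * R) + (4 : ℝ))) (h_RE : RE = ((0 : ℝ) - ((iR ^ 2) * ((((4 : ℝ) * R) + (4 : ℝ))⁻¹))))
    (p_iu : 0 < uh) (h_iu : iu = (uh⁻¹)) (h_uE : uE = ((1 : ℝ) - ((19 / 10 : ℝ) * iu))) (h_xc : xc = ((W * RE) + (1 : ℝ)))
    (h_uO : uO = (uE + (1 : ℝ))) (h_RO : RO = ((1 / 2 : ℝ) * iR)) (h_xE : xE = ((RE + (uE * xc)) + (uO * RO))) (p_bc : 0 < bc)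
    (h_th : th = (al * (bc⁻¹))) (h_t2 : t2 = (th ^ 2)) (h_Q : Q = (√((1 / 2 : ℝ) * ((√((1 : ℝ) - (t2 * W))) + (1 : ℝ))))) (p_iQ : 0 < Q)
    (h_iQ : iQ = (Q⁻¹)) (p_33 : 0 < (((4 : ℝ) * Q) + (4 : ℝ))) (h_QE : QE = ((0 : ℝ) - ((t2 * (iQ ^ 2)) * ((((4 : ℝ) * Q) + (4 : ℝ))⁻¹))))
    (p_iw : 0 < w) (h_iw : iw = (w⁻¹)) (h_aw : aw = (al * iw)) (h_wE : wE = ((-9 / 10 : ℝ) * (al * aw))) (h_yc : yc = ((W * QE) + (1 : ℝ)))
    (h_wO : wO = (aw * (((9 / 5 : ℝ) * al) + (1 / 10 : ℝ)))) (h_QO : QO = ((1 / 2 : ℝ) * (th * iQ)))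
    (h_yE : yE = ((QE + (wE * yc)) + (wO * QO))) (h_pE : pE = ((us * xE) + (ws * yE))) (h_pe : pe = (p0 + (W * pE)))
    (h_ue : ue = ((W * uE) + (1 : ℝ))) (h_xO : xO = ((uO * xc) + (RO * ue))) (h_we : we = ((W * wE) + (1 : ℝ)))
    (h_yO : yO = ((wO * yc) + (QO * we))) (h_pO : pO = ((us * xO) - (ws * yO))) (h_vE : vE = ((wE + (uE * we)) - (uO * wO)))
    (h_qE : qE = (((pE * (p0 + pe)) + (pO ^ 2)) - (suw * vE))) (h_qe : qe = (q0 + (W * qE))) (c1 : 0 ≤ qe)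
    (h_vO : vO = ((uO * we) - (wO * ue))) (h_qO : qO = ((((2 : ℝ) * pO) * pe) - (suw * vO))) (h_qd : qd = ((qe ^ 2) - (W * (qO ^ 2))))
    (c2 : 0 ≤ qd) (h_He : He = (√((1 / 2 : ℝ) * (qe + (√qd))))) (h_Ne : Ne = (pe + He)) (h_H0 : H0 = (√q0)) (h_N0 : N0 = (p0 + H0))
    (h_nW : nW = ((W * n) + (1 : ℝ))) (h_ME : ME = ((n + (nW * vE)) + (m * vO))) (p_He : 0 < He)
    (h_Ho : Ho = ((1 / 2 : ℝ) * (qO * (He⁻¹)))) (p_76 : 0 < (He + H0)) (h_HE : HE = ((qE - (Ho ^ 2)) * ((He + H0)⁻¹)))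
    (h_NE : NE = (pE + HE)) (h_NO : NO = (pO + Ho)) (h_MO : MO = ((nW * vO) + (m * ((W * vE) + (1 : ℝ)))))
    (p_81 : 0 < (N0 * ((Ne ^ 2) - (W * (NO ^ 2)))))
    (h_E : E = (((Ne * ((N0 * ME) - NE)) + (NO * (NO - (N0 * MO)))) * ((N0 * ((Ne ^ 2) - (W * (NO ^ 2))))⁻¹)))
    {Γ : ℝ} (hΓ : sg * Γ + 2 * s * w * E ≤ 0) : Sv be m n sg ω Γ := by
  have hW0 : 0 ≤ W := by rw [← hW]; positivity
  have hW1 : W ≤ 1 := by rw [← hW]; exact pow_le_one₀ hω hω1.le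
  have hal0 : 0 < al := by rw [h_al]; positivity
  have hthb : th * bc = al := by rw [h_th]; field_simp
  have hth0 : 0 ≤ th := by rw [h_th]; positivity
  have hth1 : th ≤ 1 := by
    rw [h_th, ← div_eq_mul_inv, div_le_one p_bc]; linarith only [h_bc, h_al, hσ2]
  have ht2W : t2 * W ≤ 1 := by
    rw [h_t2]; exact mul_le_one₀ (pow_le_one₀ hth0 hth1) hW0 hW1
  have hiu : uh * iu = 1 := by rw [h_iu]; field_simp
  have hiw : w * iw = 1 := by rw [h_iw]; field_simp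
  have huE : uh * uE = -a9 := by rw [h_uE]; linear_combination h_uh - (19 / 10) * hiu
  have hwE : w * wE = -(9 / 10) * al ^ 2 := by
    rw [h_wE, h_aw]; linear_combination (-(9 / 10) * al ^ 2) * hiw
  have hwO : w * wO = al * (9 / 5 * al + 1 / 10) := by
    rw [h_wO, h_aw]; linear_combination (al * (9 / 5 * al + 1 / 10)) * hiw
  have hHe := (HSm_H hW c1 h_qd c2 h_He p_He h_Ho).1
  have hH0 : H0 ^ 2 = q0 := by rw [h_H0]; exact Real.sq_sqrt c0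
  have hHE : HE * (He + H0) = qE - Ho ^ 2 := by rw [h_HE, mul_assoc, inv_mul_cancel₀ p_76.ne', mul_one]
  have hHd : He = H0 + W * HE := by
    refine mul_right_cancel₀ p_76.ne' ?_
    linear_combination hHe - hH0 + h_qe - W * hHE
  have hN : Ne = N0 + W * NE := by
    rw [h_Ne, h_N0, h_NE, h_pe]; linear_combination hHd
  have key : ∀ ζ a : ℝ, ζ ^ 2 = W → a = sg ^ 2 * (1 + ζ) →
      muv m n ζ * (psiH a a - RH be a) * (Ne + ζ * NO) = suw * (1 + W * ME + ζ * MO) := by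
    intro ζ a hζ ha
    have hζ1 : |ζ| ≤ 1 := by
      rw [← sq_le_one_iff_abs_le_one, hζ]; exact hW1
    obtain ⟨hζa, hζb⟩ := abs_le.1 hζ1
    have ha0 : 0 ≤ a := by
      rw [ha]; exact mul_nonneg (sq_nonneg _) (by linarith only [hζa])
    have ha1 : a ≤ 1 := by
      rw [ha]
      calc sg ^ 2 * (1 + ζ) ≤ 1 / 2 * 2 := mul_le_mul hσ2 (by linarith only [hζb]) (by linarith only [hζa]) (by norm_num)
        _ = 1 := by norm_num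
    obtain ⟨-, r1, r2, r3⟩ := sqrt_pair hζ hW1 rfl h_R
    have hxc : xc = R := by
      rw [h_xc]
      exact HSm_R (t2 := 1) (one_mul W).symm p_iR r2 r3 h_iR (by rw [h_RE, one_mul])
    obtain ⟨-, s1, s2, s3⟩ := sqrt_pair (ζ := -(th * ζ)) (Z := t2 * W) (by rw [h_t2, ← hζ]; ring) ht2W rfl h_Q
    have hyc : yc = Q := by
      rw [h_yc]
      exact HSm_R rfl p_iQ s2 s3 h_iQ h_QE
    have e1 : √a = sg * (xc + ζ * RO) := by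
      rw [ha, Real.sqrt_mul (sq_nonneg _), Real.sqrt_sq hσ.le, r1, hxc, h_RO, h_iR]
      field_simp
    have e2 : √(1 - a) = sb * (yc - ζ * QO) := by
      have : 1 - a = bc * (1 + -(th * ζ)) := by
        rw [ha, ← h_al]; linear_combination -h_bc + ζ * hthb
      rw [this, Real.sqrt_mul p_bc.le, ← h_sb, s1, hyc, h_QO, h_iQ]
      field_simp
      ring
    have e3 : uf a = u * (ue + ζ * uO) := by
      rw [ha, ← h_al, h_u, h_ue, h_uO, ← hζ]; unfold uf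
      linear_combination (-(al * ζ * (1 + ζ))) * huE - al * (1 + ζ) * h_uh + al * (1 + ζ) * (1 + ζ) * h_a9
    have e4 : uf (1 - a) = w * (we - ζ * wO) := by
      rw [ha, ← h_al, h_we, ← hζ]; unfold uf
      linear_combination -ζ ^ 2 * hwE + ζ * hwO - h_w + al * h_a9
    have e5 : psiH a a = pe + ζ * pO := by
      unfold psiH
      rw [e1, e2, e3, e4, h_pe, h_pO, h_pE, h_p0, h_xO, h_yO, h_xE, h_yE, h_us, h_ws, h_ue, h_we, h_xc, h_yc,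
        ← hζ]
      ring
    have e6 : uf a * uf (1 - a) = uw * (1 + W * vE + ζ * vO) := by
      rw [e3, e4, h_uw, h_vE, h_vO, h_ue, h_we, ← hζ]
      ring
    have e7 : psiH a a ^ 2 - uf a * uf (1 - a) * (1 - be) = qe + ζ * qO := by
      rw [e5, e6, ← h_s, h_qe, h_q0, h_qE, h_qO, h_suw]
      linear_combination pO ^ 2 * hζ + (pe + p0) * h_pe
    obtain ⟨-, f2, f3⟩ := HSm_H hζ c1 h_qd c2 h_He p_He h_Ho
    have e8 : RH be a = He + ζ * Ho := by rw [RH_eq ha0 ha1, e7, f3]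
    have e9 : (psiH a a - RH be a) * (Ne + ζ * NO) = suw * (1 + W * vE + ζ * vO) := by
      rw [e6, e5, ← h_s] at e7
      rw [e8, e5, h_Ne, h_NO, h_suw]
      linear_combination e7 - f2
    have e10 : muv m n ζ * (1 + W * vE + ζ * vO) = 1 + W * ME + ζ * MO := by
      unfold muv
      rw [h_ME, h_MO, h_nW, ← hζ]; ring
    rw [mul_assoc, e9, ← e10]; ring
  have k1 := key ω (sg ^ 2 + sg ^ 2 * ω) hW (by ring)
  have k2 := key (-ω) (sg ^ 2 - sg ^ 2 * ω) (by rw [← hW]; ring) (by ring)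
  have u0 : uf (sg ^ 2) = u := by
    rw [← h_al, h_u, h_uh, h_a9]; unfold uf; ring
  have w0 : uf (1 - sg ^ 2) = w := by
    rw [← h_al, h_w, h_a9]; unfold uf; ring
  have g0 : psiH (sg ^ 2) (sg ^ 2) = p0 := by
    unfold psiH
    rw [u0, w0, Real.sqrt_sq hσ.le, h_p0, h_us, h_ws, h_sb, h_bc, h_al]
  have r0 : RH be (sg ^ 2) = H0 := by
    rw [RH_eq (sq_nonneg _) (by linarith only [hσ2]), g0, u0, w0, h_H0, h_q0, h_suw, h_uw, h_s]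
    congr 1; ring
  have k0 : (p0 - H0) * N0 = suw := by
    rw [h_N0]; linear_combination -hH0 - h_q0
  have fin := HSm_fin hW hN p_81 h_E k0 k1 k2
  have hu : 0 ≤ u * W := by
    rw [h_u]; positivity
  have := mul_le_mul_of_nonneg_left hΓ hu
  unfold Sv Tv
  rw [r0, g0, u0, hW]
  rw [h_suw, h_uw] at fin
  linarith only [fin, this]

theorem HS2_main {rho m0 m1 m2 n0 n1 n2 k0 k1 k2 ku kw A0 A1 B0 B1 g0 g1 g2 g3 g4 g5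
    rhob m0b m1b m2b n0b n1b n2b k0b k1b k2b kub kwb A0b A1b B0b B1b g0b g1b g2b g3b g4b g5b β σ ω t : ℝ}
    (hσ : 0 < σ) (hσ2 : σ ^ 2 ≤ 1 / 2) (hω : 0 ≤ ω) (hω1 : ω < 1) (ht : 1 - β ^ 2 = (1 - t) * rho ^ 2 + t * rhob ^ 2)
    (h : HS2.a_Spec rho m0 m1 m2 n0 n1 n2 k0 k1 k2 ku kw A0 A1 B0 B1 g0 g1 g2 g3 g4 g5
      rhob m0b m1b m2b n0b n1b n2b k0b k1b k2b kub kwb A0b A1b B0b B1b g0b g1b g2b g3b g4b g5b β σ (ω ^ 2)) :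
    Sv β ((1 - t) * af3 m0 m1 m2 σ (ω ^ 2) + t * af3 m0b m1b m2b σ (ω ^ 2))
      ((1 - t) * af3 n0 n1 n2 σ (ω ^ 2) + t * af3 n0b n1b n2b σ (ω ^ 2)) σ ω
      ((1 - t) * gam6 g0 g1 g2 g3 g4 g5 σ (ω ^ 2) + t * gam6 g0b g1b g2b g3b g4b g5b σ (ω ^ 2)) := by
  obtain ⟨al, a9, uh, u, us, w, bc, sb, ws, p0, h⟩ := h
  obtain ⟨s, uw, suw, q0, R, iR, RE, iu, uE, xc, h⟩ := h
  obtain ⟨uO, RO, xE, th, t2, Q, iQ, QE, iw, aw, h⟩ := h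
  obtain ⟨wE, yc, wO, QO, yE, pE, pe, ue, xO, we, h⟩ := h
  obtain ⟨yO, pO, vE, qE, qe, vO, qO, qd, ga, ra, h⟩ := h
  obtain ⟨rb, t', gb, He, Ne, H0, N0, na, n, nW, h⟩ := h
  obtain ⟨ma, m, ME, Ho, HE, NE, NO, MO, E, h_al, h⟩ := h
  obtain ⟨h_a9, h_uh, h_u, h_us, h_w, h_bc, h_sb, h_ws, h_p0, h_s, h⟩ := h
  obtain ⟨h_uw, h_suw, h_q0, c0, h_R, p_iR, h_iR, p_18, h_RE, p_iu, h⟩ := h
  obtain ⟨h_iu, h_uE, h_xc, h_uO, h_RO, h_xE, p_bc, h_th, h_t2, h_Q, h⟩ := h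
  obtain ⟨p_iQ, h_iQ, p_33, h_QE, p_iw, h_iw, h_aw, h_wE, h_yc, h_wO, h⟩ := h
  obtain ⟨h_QO, h_yE, h_pE, h_pe, h_ue, h_xO, h_we, h_yO, h_pO, h_vE, h⟩ := h
  obtain ⟨h_qE, h_qe, c1, h_vO, h_qO, h_qd, c2, h_ga, h_ra, h_rb, h⟩ := h
  obtain ⟨p_61, h_t, h_gb, h_He, h_Ne, h_H0, h_N0, h_na, h_n, h_nW, h⟩ := h
  obtain ⟨h_ma, h_m, h_ME, p_He, h_Ho, p_76, h_HE, h_NE, h_NO, h_MO, h⟩ := h
  obtain ⟨p_81, h_E, c3⟩ := h
  have htt : t' = t := by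
    rw [h_t, ht, ← h_ra, ← h_rb]
    have := p_61.ne'
    field_simp
    ring
  subst htt
  have hm : (1 - t') * af3 m0 m1 m2 σ (ω ^ 2) + t' * af3 m0b m1b m2b σ (ω ^ 2) = m := by
    rw [h_m, h_ma]; unfold af3; ring
  have hn : (1 - t') * af3 n0 n1 n2 σ (ω ^ 2) + t' * af3 n0b n1b n2b σ (ω ^ 2) = n := by
    rw [h_n, h_na]; unfold af3; ring
  rw [hm, hn]
  refine HSm_core hσ hσ2 hω hω1 rfl
    h_al h_a9 h_uh h_u h_us h_w h_bc h_sb h_ws h_p0 h_s h_uw h_suw h_q0 c0 h_R p_iR h_iR p_18 h_RE p_iu h_iu h_uE h_xc h_uO h_RO h_xE p_bc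
    h_th h_t2 h_Q p_iQ h_iQ p_33 h_QE p_iw h_iw h_aw h_wE h_yc h_wO h_QO h_yE h_pE h_pe h_ue h_xO h_we h_yO h_pO h_vE h_qE h_qe c1 h_vO
    h_qO h_qd c2 h_He h_Ne h_H0 h_N0 h_nW h_ME p_He h_Ho p_76 h_HE h_NE h_NO h_MO p_81 h_E ?_
  have hg : (1 - t') * gam6 g0 g1 g2 g3 g4 g5 σ (ω ^ 2) + t' * gam6 g0b g1b g2b g3b g4b g5b σ (ω ^ 2) =
      ga + t' * (gb - ga) := by
    rw [h_ga, h_gb]; unfold gam6; ring
  rw [hg]
  linarith only [c3]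

/-- here `rho = 0`, `t = (1 - β²) / rb`; multiply the last check by `(1 - β) / rb ≥ 0`. -/
theorem HS1_main {rho m0 m1 m2 n0 n1 n2 k0 k1 k2 ku kw A0 A1 B0 B1 g0 g1 g2 g3 g4 g5
    rhob m0b m1b m2b n0b n1b n2b k0b k1b k2b kub kwb A0b A1b B0b B1b g0b g1b g2b g3b g4b g5b β σ ω t : ℝ}
    (hσ : 0 < σ) (hσ2 : σ ^ 2 ≤ 1 / 2) (hω : 0 ≤ ω) (hω1 : ω < 1) (hβ : β ≤ 1) (hρ : rho = 0) (ht : 1 - β ^ 2 = t * rhob ^ 2)
    (h : HS1.a_Spec rho m0 m1 m2 n0 n1 n2 k0 k1 k2 ku kw A0 A1 B0 B1 g0 g1 g2 g3 g4 g5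
      rhob m0b m1b m2b n0b n1b n2b k0b k1b k2b kub kwb A0b A1b B0b B1b g0b g1b g2b g3b g4b g5b β σ (ω ^ 2)) :
    Sv β ((1 - t) * af3 m0 m1 m2 σ (ω ^ 2) + t * af3 m0b m1b m2b σ (ω ^ 2))
      ((1 - t) * af3 n0 n1 n2 σ (ω ^ 2) + t * af3 n0b n1b n2b σ (ω ^ 2)) σ ω
      (t * gam6 g0b g1b g2b g3b g4b g5b σ (ω ^ 2)) := by
  obtain ⟨al, a9, uh, u, us, w, bc, sb, ws, p0, h⟩ := h
  obtain ⟨s, uw, suw, q0, R, iR, RE, iu, uE, xc, h⟩ := h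
  obtain ⟨uO, RO, xE, th, t2, Q, iQ, QE, iw, aw, h⟩ := h
  obtain ⟨wE, yc, wO, QO, yE, pE, pe, ue, xO, we, h⟩ := h
  obtain ⟨yO, pO, vE, qE, qe, vO, qO, qd, gb, rb, h⟩ := h
  obtain ⟨He, Ne, H0, N0, na, ra, t', n, nW, ma, h⟩ := h
  obtain ⟨m, ME, Ho, HE, NE, NO, MO, E, h_al, h_a9, h⟩ := h
  obtain ⟨h_uh, h_u, h_us, h_w, h_bc, h_sb, h_ws, h_p0, h_s, h_uw, h⟩ := h
  obtain ⟨h_suw, h_q0, c0, h_R, p_iR, h_iR, p_18, h_RE, p_iu, h_iu, h⟩ := h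
  obtain ⟨h_uE, h_xc, h_uO, h_RO, h_xE, p_bc, h_th, h_t2, h_Q, p_iQ, h⟩ := h
  obtain ⟨h_iQ, p_33, h_QE, p_iw, h_iw, h_aw, h_wE, h_yc, h_wO, h_QO, h⟩ := h
  obtain ⟨h_yE, h_pE, h_pe, h_ue, h_xO, h_we, h_yO, h_pO, h_vE, h_qE, h⟩ := h
  obtain ⟨h_qe, c1, h_vO, h_qO, h_qd, c2, h_gb, h_rb, h_He, h_Ne, h⟩ := h
  obtain ⟨h_H0, h_N0, h_na, h_ra, p_66, h_t, h_n, h_nW, h_ma, h_m, h⟩ := h
  obtain ⟨h_ME, p_He, h_Ho, p_75, h_HE, h_NE, h_NO, h_MO, p_80, h_E, c3⟩ := h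
  have hra : ra = 0 := by rw [h_ra, hρ]; ring
  have hrb : 0 < rb := by linarith only [hra, p_66]
  have htt : t' = t := by
    rw [h_t, ht, ← h_rb, hra]
    have := hrb.ne'
    simp only [sub_zero]
    field_simp
  subst htt
  have hm : (1 - t') * af3 m0 m1 m2 σ (ω ^ 2) + t' * af3 m0b m1b m2b σ (ω ^ 2) = m := by
    rw [h_m, h_ma]; unfold af3; ring
  have hn : (1 - t') * af3 n0 n1 n2 σ (ω ^ 2) + t' * af3 n0b n1b n2b σ (ω ^ 2) = n := by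
    rw [h_n, h_na]; unfold af3; ring
  rw [hm, hn]
  refine HSm_core hσ hσ2 hω hω1 rfl
    h_al h_a9 h_uh h_u h_us h_w h_bc h_sb h_ws h_p0 h_s h_uw h_suw h_q0 c0 h_R p_iR h_iR p_18 h_RE p_iu h_iu h_uE h_xc h_uO h_RO h_xE p_bc
    h_th h_t2 h_Q p_iQ h_iQ p_33 h_QE p_iw h_iw h_aw h_wE h_yc h_wO h_QO h_yE h_pE h_pe h_ue h_xO h_we h_yO h_pO h_vE h_qE h_qe c1 h_vO
    h_qO h_qd c2 h_He h_Ne h_H0 h_N0 h_nW h_ME p_He h_Ho p_75 h_HE h_NE h_NO h_MO p_80 h_E ?_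
  have hg : gam6 g0b g1b g2b g3b g4b g5b σ (ω ^ 2) = gb := by
    rw [h_gb]; unfold gam6; ring
  rw [hg]
  rw [← h_rb] at ht
  have hs0 : 0 ≤ s := by rw [h_s]; linarith only [hβ]
  have h1 := mul_nonneg hs0 c3
  refine le_of_mul_le_mul_left ?_ hrb
  have h2 : rb * (σ * (t' * gb) + 2 * s * w * E) = s * (σ * gb * (β + 1) + 2 * rb * w * E) := by
    rw [h_s]; linear_combination (-(σ * gb)) * ht
  rw [h2]
  linarith only [h1]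

end Crest.Agent.R307
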