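import Crest.Agent.R307.AA

set_option autoImplicit false
set_option maxRecDepth 100000
set_option linter.unusedVariables false

namespace Crest.Agent.R307.HY
open Crest.Agent.R307.AA

noncomputable section

theorem k0 : |2 ^ 48 * (-1 / 1024 : ℝ) - (((4722366482594767306752 : ℕ) : ℝ) - 2 ^ 72)| ≤ ((0 : ℕ) : ℝ) := by norm_num [abs_le]
theorem k1 : |2 ^ 48 * (9 / 10 : ℝ) - (((4722366736197124253286 : ℕ) : ℝ) - 2 ^ 72)| ≤ ((1 : ℕ) : ℝ) := by norm_num [abs_le]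
theorem k2 : |2 ^ 48 * (19 / 10 : ℝ) - (((4722367017672100963942 : ℕ) : ℝ) - 2 ^ 72)| ≤ ((1 : ℕ) : ℝ) := by norm_num [abs_le]
theorem k3 : |2 ^ 48 * (1 / 10 : ℝ) - (((4722366511017142884761 : ℕ) : ℝ) - 2 ^ 72)| ≤ ((1 : ℕ) : ℝ) := by norm_num [abs_le]
theorem k4 : |2 ^ 48 * (1 : ℝ) - (((4722366764344621924352 : ℕ) : ℝ) - 2 ^ 72)| ≤ ((0 : ℕ) : ℝ) := by norm_num [abs_le]
theorem k5 : |2 ^ 48 * (2 : ℝ) - (((4722367045819598635008 : ℕ) : ℝ) - 2 ^ 72)| ≤ ((0 : ℕ) : ℝ) := by norm_num [abs_le]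
theorem k6 : |2 ^ 48 * (0 : ℝ) - (((4722366482869645213696 : ℕ) : ℝ) - 2 ^ 72)| ≤ ((0 : ℕ) : ℝ) := by norm_num [abs_le]
theorem k7 : (1 / 2 : ℝ) = val 4722366623607133569024 := by norm_num [val]
theorem k8 : (4 : ℝ) = val 4722367608769552056320 := by norm_num [val]
theorem k9 : |2 ^ 48 * (4 : ℝ) - (((4722367608769552056320 : ℕ) : ℝ) - 2 ^ 72)| ≤ ((0 : ℕ) : ℝ) := by norm_num [abs_le]
theorem k10 : |2 ^ 48 * (1 / 2 : ℝ) - (((4722366623607133569024 : ℕ) : ℝ) - 2 ^ 72)| ≤ ((0 : ℕ) : ℝ) := by norm_num [abs_le]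
theorem k11 : (-1 / 2 : ℝ) = val 4722366342132156858368 := by norm_num [val]
theorem k12 : (2 : ℝ) = val 4722367045819598635008 := by norm_num [val]
theorem k13 : |2 ^ 48 * (-9 / 10 : ℝ) - (((4722366229542166174105 : ℕ) : ℝ) - 2 ^ 72)| ≤ ((1 : ℕ) : ℝ) := by norm_num [abs_le]
theorem k14 : |2 ^ 48 * (9 / 5 : ℝ) - (((4722366989524603292876 : ℕ) : ℝ) - 2 ^ 72)| ≤ ((1 : ℕ) : ℝ) := by norm_num [abs_le]
def a_B15 (gs ps : ℕ) (z43 z95 z88 z482 z268 z316 z333 z498 z493 z483 z261 z264 z277 z326 z329 z342 z292 z295 z357 z360 z378 z473 z474 z457 z460 : AF) : Bool :=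
  mulK z457 z460 fun z461 =>
  mulK z88 z268 fun z423 =>
  mulK z43 z333 fun z424 =>
  subK z423 z424 fun z425 =>
  mulK z95 z425 fun z426 =>
  mulK z498 z493 fun z427 =>
  addK z426 z427 fun z428 =>
  invK z261 fun z305 =>
  mulK z264 z305 fun z306 =>
  mulK z292 z306 fun z309 =>
  mulK z482 z295 fun z310 =>
  mulK z277 z305 fun z307 =>
  smulK z307 4722366623607133569024 fun z308 =>
  mulK z310 z308 fun z311 =>
  subK z309 z311 fun z312 =>
  mulK z88 z312 fun z429 =>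
  invK z326 fun z364 =>
  mulK z329 z364 fun z365 =>
  mulK z357 z365 fun z368 =>
  mulK z316 z360 fun z369 =>
  mulK z342 z364 fun z366 =>
  smulK z366 4722366623607133569024 fun z367 =>
  mulK z369 z367 fun z370 =>
  subK z368 z370 fun z371 =>
  mulK z43 z371 fun z430 =>
  subK z429 z430 fun z431 =>
  mulK z295 z306 fun z313 =>
  mulK z292 z308 fun z314 =>
  subK z313 z314 fun z315 =>
  mulK z378 z315 fun z432 =>
  addK z431 z432 fun z433 =>
  normK z433 fun z506 =>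
  mulK z483 z506 fun z462 =>
  addK z428 z462 fun z463 =>
  addK z461 z463 fun z464 =>
  normK z464 fun z512 =>
  sqrK z512 fun z475 =>
  mulK z474 z475 fun z476 =>
  subK z473 z476 fun z477 =>
  posK z477 <|
  true

def a_R15 (gs ps : ℕ) (z43 z95 z88 z482 z268 z316 z333 z498 z493 z483 z261 z264 z277 z326 z329 z342 z292 z295 z357 z360 z378 z473 z474 z457 z460 : ℝ) : Prop :=
  letR (z457 * z460) fun z461 =>
  letR (z88 * z268) fun z423 =>
  letR (z43 * z333) fun z424 =>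
  letR (z423 - z424) fun z425 =>
  letR (z95 * z425) fun z426 =>
  letR (z498 * z493) fun z427 =>
  letR (z426 + z427) fun z428 =>
  invR z261 fun z305 =>
  letR (z264 * z305) fun z306 =>
  letR (z292 * z306) fun z309 =>
  letR (z482 * z295) fun z310 =>
  letR (z277 * z305) fun z307 =>
  letR ((1 / 2 : ℝ) * z307) fun z308 =>
  letR (z310 * z308) fun z311 =>
  letR (z309 - z311) fun z312 =>
  letR (z88 * z312) fun z429 =>
  invR z326 fun z364 =>
  letR (z329 * z364) fun z365 =>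
  letR (z357 * z365) fun z368 =>
  letR (z316 * z360) fun z369 =>
  letR (z342 * z364) fun z366 =>
  letR ((1 / 2 : ℝ) * z366) fun z367 =>
  letR (z369 * z367) fun z370 =>
  letR (z368 - z370) fun z371 =>
  letR (z43 * z371) fun z430 =>
  letR (z429 - z430) fun z431 =>
  letR (z295 * z306) fun z313 =>
  letR (z292 * z308) fun z314 =>
  letR (z313 - z314) fun z315 =>
  letR (z378 * z315) fun z432 =>
  letR (z431 + z432) fun z433 =>
  letR z433 fun z506 =>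
  letR (z483 * z506) fun z462 =>
  letR (z428 + z462) fun z463 =>
  letR (z461 + z463) fun z464 =>
  letR z464 fun z512 =>
  letR (z512 ^ 2) fun z475 =>
  letR (z474 * z475) fun z476 =>
  letR (z473 - z476) fun z477 =>
  posR z477 <|
  True

theorem a_S15 {ε : Fin 4 → ℝ} (gs : ℕ) (hε : ∀ i, |ε i| ≤ 1) (ps : ℕ) (z43 z95 z88 z482 z268 z316 z333 z498 z493 z483 z261 z264 z277 z326 z329 z342 z292 z295 z357 z360 z378 z473 z474 z457 z460 : AF) (t43 t95 t88 t482 t268 t316 t333 t498 t493 t483 t261 t264 t277 t326 t329 t342 t292 t295 t357 t360 t378 t473 t474 t457 t460 : ℝ)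
    (g43 : Rel ε z43 t43) (g95 : Rel ε z95 t95) (g88 : Rel ε z88 t88) (g482 : Rel ε z482 t482) (g268 : Rel ε z268 t268) (g316 : Rel ε z316 t316) (g333 : Rel ε z333 t333) (g498 : Rel ε z498 t498) (g493 : Rel ε z493 t493) (g483 : Rel ε z483 t483) (g261 : Rel ε z261 t261) (g264 : Rel ε z264 t264) (g277 : Rel ε z277 t277) (g326 : Rel ε z326 t326) (g329 : Rel ε z329 t329) (g342 : Rel ε z342 t342) (g292 : Rel ε z292 t292) (g295 : Rel ε z295 t295) (g357 : Rel ε z357 t357) (g360 : Rel ε z360 t360) (g378 : Rel ε z378 t378) (g473 : Rel ε z473 t473) (g474 : Rel ε z474 t474) (g457 : Rel ε z457 t457) (g460 : Rel ε z460 t460) :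
    a_B15 gs ps z43 z95 z88 z482 z268 z316 z333 z498 z493 z483 z261 z264 z277 z326 z329 z342 z292 z295 z357 z360 z378 z473 z474 z457 z460 = true → a_R15 gs ps t43 t95 t88 t482 t268 t316 t333 t498 t493 t483 t261 t264 t277 t326 t329 t342 t292 t295 t357 t360 t378 t473 t474 t457 t460 := by
  delta a_B15 a_R15
  exact mulS hε g457 g460 fun z461 t461 g461 =>
  mulS hε g88 g268 fun z423 t423 g423 =>
  mulS hε g43 g333 fun z424 t424 g424 =>
  subS g423 g424 fun z425 t425 g425 =>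
  mulS hε g95 g425 fun z426 t426 g426 =>
  mulS hε g498 g493 fun z427 t427 g427 =>
  addS g426 g427 fun z428 t428 g428 =>
  invS hε g261 fun z305 t305 g305 =>
  mulS hε g264 g305 fun z306 t306 g306 =>
  mulS hε g292 g306 fun z309 t309 g309 =>
  mulS hε g482 g295 fun z310 t310 g310 =>
  mulS hε g277 g305 fun z307 t307 g307 =>
  smulS hε g307 k7 fun z308 t308 g308 =>
  mulS hε g310 g308 fun z311 t311 g311 =>
  subS g309 g311 fun z312 t312 g312 =>
  mulS hε g88 g312 fun z429 t429 g429 =>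
  invS hε g326 fun z364 t364 g364 =>
  mulS hε g329 g364 fun z365 t365 g365 =>
  mulS hε g357 g365 fun z368 t368 g368 =>
  mulS hε g316 g360 fun z369 t369 g369 =>
  mulS hε g342 g364 fun z366 t366 g366 =>
  smulS hε g366 k7 fun z367 t367 g367 =>
  mulS hε g369 g367 fun z370 t370 g370 =>
  subS g368 g370 fun z371 t371 g371 =>
  mulS hε g43 g371 fun z430 t430 g430 =>
  subS g429 g430 fun z431 t431 g431 =>
  mulS hε g295 g306 fun z313 t313 g313 =>
  mulS hε g292 g308 fun z314 t314 g314 =>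
  subS g313 g314 fun z315 t315 g315 =>
  mulS hε g378 g315 fun z432 t432 g432 =>
  addS g431 g432 fun z433 t433 g433 =>
  normS g433 fun z506 t506 g506 =>
  mulS hε g483 g506 fun z462 t462 g462 =>
  addS g428 g462 fun z463 t463 g463 =>
  addS g461 g463 fun z464 t464 g464 =>
  normS g464 fun z512 t512 g512 =>
  sqrS hε g512 fun z475 t475 g475 =>
  mulS hε g474 g475 fun z476 t476 g476 =>
  subS g473 g476 fun z477 t477 g477 =>
  posS hε g477 <|
  fun _ => trivial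

def a_B14 (gs ps : ℕ) (z7 z435 z94 z436 z438 z120 z77 z481 z147 z43 z195 z212 z497 z489 z129 z140 z143 z156 z205 z208 z221 z171 z174 z236 z239 z376 z448 z95 z88 z482 z268 z316 z333 z498 z493 z483 z261 z264 z277 z326 z329 z342 z451 z452 z292 z295 z357 z360 z378 z412 : AF) : Bool :=
  normK z412 fun z505 =>
  mulK z452 z505 fun z453 =>
  addK z451 z453 fun z454 =>
  normK z454 fun z511 =>
  mulK z94 z511 fun z455 =>
  addK z448 z455 fun z456 =>
  mulK z7 z456 fun z473 =>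
  smulK z436 4722367045819598635008 fun z474 =>
  mulK z435 z438 fun z457 =>
  mulK z77 z147 fun z413 =>
  mulK z43 z212 fun z414 =>
  subK z413 z414 fun z415 =>
  mulK z497 z489 fun z416 =>
  addK z415 z416 fun z417 =>
  mulK z120 z417 fun z458 =>
  invK z140 fun z184 =>
  mulK z143 z184 fun z185 =>
  mulK z171 z185 fun z188 =>
  mulK z481 z174 fun z189 =>
  mulK z156 z184 fun z186 =>
  smulK z186 4722366623607133569024 fun z187 =>
  mulK z189 z187 fun z190 =>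
  subK z188 z190 fun z191 =>
  mulK z77 z191 fun z418 =>
  invK z205 fun z243 =>
  mulK z208 z243 fun z244 =>
  mulK z236 z244 fun z247 =>
  mulK z195 z239 fun z248 =>
  mulK z221 z243 fun z245 =>
  smulK z245 4722366623607133569024 fun z246 =>
  mulK z248 z246 fun z249 =>
  subK z247 z249 fun z250 =>
  mulK z43 z250 fun z419 =>
  subK z418 z419 fun z420 =>
  mulK z174 z185 fun z192 =>
  mulK z171 z187 fun z193 =>
  subK z192 z193 fun z194 =>
  mulK z376 z194 fun z421 =>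
  addK z420 z421 fun z422 =>
  mulK z129 z422 fun z459 =>
  addK z458 z459 fun z460 =>
  a_B15 gs ps z43 z95 z88 z482 z268 z316 z333 z498 z493 z483 z261 z264 z277 z326 z329 z342 z292 z295 z357 z360 z378 z473 z474 z457 z460

def a_R14 (gs ps : ℕ) (z7 z435 z94 z436 z438 z120 z77 z481 z147 z43 z195 z212 z497 z489 z129 z140 z143 z156 z205 z208 z221 z171 z174 z236 z239 z376 z448 z95 z88 z482 z268 z316 z333 z498 z493 z483 z261 z264 z277 z326 z329 z342 z451 z452 z292 z295 z357 z360 z378 z412 : ℝ) : Prop :=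
  letR z412 fun z505 =>
  letR (z452 * z505) fun z453 =>
  letR (z451 + z453) fun z454 =>
  letR z454 fun z511 =>
  letR (z94 * z511) fun z455 =>
  letR (z448 + z455) fun z456 =>
  letR (z7 * z456) fun z473 =>
  letR ((2 : ℝ) * z436) fun z474 =>
  letR (z435 * z438) fun z457 =>
  letR (z77 * z147) fun z413 =>
  letR (z43 * z212) fun z414 =>
  letR (z413 - z414) fun z415 =>
  letR (z497 * z489) fun z416 =>
  letR (z415 + z416) fun z417 =>
  letR (z120 * z417) fun z458 =>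
  invR z140 fun z184 =>
  letR (z143 * z184) fun z185 =>
  letR (z171 * z185) fun z188 =>
  letR (z481 * z174) fun z189 =>
  letR (z156 * z184) fun z186 =>
  letR ((1 / 2 : ℝ) * z186) fun z187 =>
  letR (z189 * z187) fun z190 =>
  letR (z188 - z190) fun z191 =>
  letR (z77 * z191) fun z418 =>
  invR z205 fun z243 =>
  letR (z208 * z243) fun z244 =>
  letR (z236 * z244) fun z247 =>
  letR (z195 * z239) fun z248 =>
  letR (z221 * z243) fun z245 =>
  letR ((1 / 2 : ℝ) * z245) fun z246 =>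
  letR (z248 * z246) fun z249 =>
  letR (z247 - z249) fun z250 =>
  letR (z43 * z250) fun z419 =>
  letR (z418 - z419) fun z420 =>
  letR (z174 * z185) fun z192 =>
  letR (z171 * z187) fun z193 =>
  letR (z192 - z193) fun z194 =>
  letR (z376 * z194) fun z421 =>
  letR (z420 + z421) fun z422 =>
  letR (z129 * z422) fun z459 =>
  letR (z458 + z459) fun z460 =>
  a_R15 gs ps z43 z95 z88 z482 z268 z316 z333 z498 z493 z483 z261 z264 z277 z326 z329 z342 z292 z295 z357 z360 z378 z473 z474 z457 z460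

theorem a_S14 {ε : Fin 4 → ℝ} (gs : ℕ) (hε : ∀ i, |ε i| ≤ 1) (ps : ℕ) (z7 z435 z94 z436 z438 z120 z77 z481 z147 z43 z195 z212 z497 z489 z129 z140 z143 z156 z205 z208 z221 z171 z174 z236 z239 z376 z448 z95 z88 z482 z268 z316 z333 z498 z493 z483 z261 z264 z277 z326 z329 z342 z451 z452 z292 z295 z357 z360 z378 z412 : AF) (t7 t435 t94 t436 t438 t120 t77 t481 t147 t43 t195 t212 t497 t489 t129 t140 t143 t156 t205 t208 t221 t171 t174 t236 t239 t376 t448 t95 t88 t482 t268 t316 t333 t498 t493 t483 t261 t264 t277 t326 t329 t342 t451 t452 t292 t295 t357 t360 t378 t412 : ℝ)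
    (g7 : Rel ε z7 t7) (g435 : Rel ε z435 t435) (g94 : Rel ε z94 t94) (g436 : Rel ε z436 t436) (g438 : Rel ε z438 t438) (g120 : Rel ε z120 t120) (g77 : Rel ε z77 t77) (g481 : Rel ε z481 t481) (g147 : Rel ε z147 t147) (g43 : Rel ε z43 t43) (g195 : Rel ε z195 t195) (g212 : Rel ε z212 t212) (g497 : Rel ε z497 t497) (g489 : Rel ε z489 t489) (g129 : Rel ε z129 t129) (g140 : Rel ε z140 t140) (g143 : Rel ε z143 t143) (g156 : Rel ε z156 t156) (g205 : Rel ε z205 t205) (g208 : Rel ε z208 t208) (g221 : Rel ε z221 t221) (g171 : Rel ε z171 t171) (g174 : Rel ε z174 t174) (g236 : Rel ε z236 t236) (g239 : Rel ε z239 t239) (g376 : Rel ε z376 t376) (g448 : Rel ε z448 t448) (g95 : Rel ε z95 t95) (g88 : Rel ε z88 t88) (g482 : Rel ε z482 t482) (g268 : Rel ε z268 t268) (g316 : Rel ε z316 t316) (g333 : Rel ε z333 t333) (g498 : Rel ε z498 t498) (g493 : Rel ε z493 t493) (g483 : Rel ε z483 t483) (g261 : Rel ε z261 t261) (g264 :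 Rel ε z264 t264) (g277 : Rel ε z277 t277) (g326 : Rel ε z326 t326) (g329 : Rel ε z329 t329) (g342 : Rel ε z342 t342) (g451 : Rel ε z451 t451) (g452 : Rel ε z452 t452) (g292 : Rel ε z292 t292) (g295 : Rel ε z295 t295) (g357 : Rel ε z357 t357) (g360 : Rel ε z360 t360) (g378 : Rel ε z378 t378) (g412 : Rel ε z412 t412) :
    a_B14 gs ps z7 z435 z94 z436 z438 z120 z77 z481 z147 z43 z195 z212 z497 z489 z129 z140 z143 z156 z205 z208 z221 z171 z174 z236 z239 z376 z448 z95 z88 z482 z268 z316 z333 z498 z493 z483 z261 z264 z277 z326 z329 z342 z451 z452 z292 z295 z357 z360 z378 z412 = true → a_R14 gs ps t7 t435 t94 t436 t438 t120 t77 t481 t147 t43 t195 t212 t497 t489 t129 t140 t143 t156 t205 t208 t221 t171 t174 t236 t239 t376 t448 t95 t88 t482 t268 t316 t333 t498 t493 t483 t261 t264 t277 t326 t329 t342 t451 t452 t292 t295 t357 t360 t378 t412 := by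
  delta a_B14 a_R14
  exact normS g412 fun z505 t505 g505 =>
  mulS hε g452 g505 fun z453 t453 g453 =>
  addS g451 g453 fun z454 t454 g454 =>
  normS g454 fun z511 t511 g511 =>
  mulS hε g94 g511 fun z455 t455 g455 =>
  addS g448 g455 fun z456 t456 g456 =>
  mulS hε g7 g456 fun z473 t473 g473 =>
  smulS hε g436 k12 fun z474 t474 g474 =>
  mulS hε g435 g438 fun z457 t457 g457 =>
  mulS hε g77 g147 fun z413 t413 g413 =>
  mulS hε g43 g212 fun z414 t414 g414 =>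
  subS g413 g414 fun z415 t415 g415 =>
  mulS hε g497 g489 fun z416 t416 g416 =>
  addS g415 g416 fun z417 t417 g417 =>
  mulS hε g120 g417 fun z458 t458 g458 =>
  invS hε g140 fun z184 t184 g184 =>
  mulS hε g143 g184 fun z185 t185 g185 =>
  mulS hε g171 g185 fun z188 t188 g188 =>
  mulS hε g481 g174 fun z189 t189 g189 =>
  mulS hε g156 g184 fun z186 t186 g186 =>
  smulS hε g186 k7 fun z187 t187 g187 =>
  mulS hε g189 g187 fun z190 t190 g190 =>
  subS g188 g190 fun z191 t191 g191 =>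
  mulS hε g77 g191 fun z418 t418 g418 =>
  invS hε g205 fun z243 t243 g243 =>
  mulS hε g208 g243 fun z244 t244 g244 =>
  mulS hε g236 g244 fun z247 t247 g247 =>
  mulS hε g195 g239 fun z248 t248 g248 =>
  mulS hε g221 g243 fun z245 t245 g245 =>
  smulS hε g245 k7 fun z246 t246 g246 =>
  mulS hε g248 g246 fun z249 t249 g249 =>
  subS g247 g249 fun z250 t250 g250 =>
  mulS hε g43 g250 fun z419 t419 g419 =>
  subS g418 g419 fun z420 t420 g420 =>
  mulS hε g174 g185 fun z192 t192 g192 =>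
  mulS hε g171 g187 fun z193 t193 g193 =>
  subS g192 g193 fun z194 t194 g194 =>
  mulS hε g376 g194 fun z421 t421 g421 =>
  addS g420 g421 fun z422 t422 g422 =>
  mulS hε g129 g422 fun z459 t459 g459 =>
  addS g458 g459 fun z460 t460 g460 =>
  a_S15 gs hε ps z43 z95 z88 z482 z268 z316 z333 z498 z493 z483 z261 z264 z277 z326 z329 z342 z292 z295 z357 z360 z378 z473 z474 z457 z460 t43 t95 t88 t482 t268 t316 t333 t498 t493 t483 t261 t264 t277 t326 t329 t342 t292 t295 t357 t360 t378 t473 t474 t457 t460 g43 g95 g88 g482 g268 g316 g333 g498 g493 g483 g261 g264 g277 g326 g329 g342 g292 g295 g357 g360 g378 g473 g474 g457 g460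

def a_B13 (gs ps : ℕ) (z7 z435 z94 z436 z438 z120 z77 z481 z147 z43 z195 z212 z497 z489 z129 z140 z143 z156 z205 z208 z221 z171 z174 z236 z239 z376 z448 z95 z88 z482 z268 z316 z321 z323 z333 z498 z377 z493 z401 z483 z261 z264 z277 z287 z326 z329 z342 z343 z350 z352 z405 z495 : AF) : Bool :=
  subK z493 z495 fun z301 =>
  normK z301 fun z496 =>
  mulK z498 z496 fun z406 =>
  addK z405 z406 fun z407 =>
  normK z407 fun z504 =>
  smulK z504 4722367045819598635008 fun z449 =>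
  mulK z483 z449 fun z450 =>
  addK z401 z450 fun z451 =>
  sqrK z483 fun z452 =>
  mulK z493 z495 fun z290 =>
  mulK z482 z287 fun z288 =>
  mulK z268 z288 fun z291 =>
  subK z290 z291 fun z292 =>
  mulK z292 z495 fun z296 =>
  mulK z268 z495 fun z293 =>
  mulK z493 z287 fun z294 =>
  subK z293 z294 fun z295 =>
  mulK z295 z288 fun z297 =>
  subK z296 z297 fun z298 =>
  mulK z88 z298 fun z408 =>
  mulK z321 z323 fun z332 =>
  mulK z343 z350 fun z351 =>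
  mulK z332 z351 fun z355 =>
  mulK z316 z352 fun z353 =>
  mulK z333 z353 fun z356 =>
  subK z355 z356 fun z357 =>
  mulK z357 z351 fun z361 =>
  mulK z333 z351 fun z358 =>
  mulK z332 z352 fun z359 =>
  subK z358 z359 fun z360 =>
  mulK z360 z353 fun z362 =>
  subK z361 z362 fun z363 =>
  mulK z43 z363 fun z409 =>
  subK z408 z409 fun z410 =>
  mulK z481 z377 fun z378 =>
  mulK z295 z495 fun z302 =>
  mulK z292 z287 fun z303 =>
  subK z302 z303 fun z304 =>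
  mulK z378 z304 fun z411 =>
  addK z410 z411 fun z412 =>
  a_B14 gs ps z7 z435 z94 z436 z438 z120 z77 z481 z147 z43 z195 z212 z497 z489 z129 z140 z143 z156 z205 z208 z221 z171 z174 z236 z239 z376 z448 z95 z88 z482 z268 z316 z333 z498 z493 z483 z261 z264 z277 z326 z329 z342 z451 z452 z292 z295 z357 z360 z378 z412

def a_R13 (gs ps : ℕ) (z7 z435 z94 z436 z438 z120 z77 z481 z147 z43 z195 z212 z497 z489 z129 z140 z143 z156 z205 z208 z221 z171 z174 z236 z239 z376 z448 z95 z88 z482 z268 z316 z321 z323 z333 z498 z377 z493 z401 z483 z261 z264 z277 z287 z326 z329 z342 z343 z350 z352 z405 z495 : ℝ) : Prop :=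
  letR (z493 - z495) fun z301 =>
  letR z301 fun z496 =>
  letR (z498 * z496) fun z406 =>
  letR (z405 + z406) fun z407 =>
  letR z407 fun z504 =>
  letR ((2 : ℝ) * z504) fun z449 =>
  letR (z483 * z449) fun z450 =>
  letR (z401 + z450) fun z451 =>
  letR (z483 ^ 2) fun z452 =>
  letR (z493 * z495) fun z290 =>
  letR (z482 * z287) fun z288 =>
  letR (z268 * z288) fun z291 =>
  letR (z290 - z291) fun z292 =>
  letR (z292 * z495) fun z296 =>
  letR (z268 * z495) fun z293 =>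
  letR (z493 * z287) fun z294 =>
  letR (z293 - z294) fun z295 =>
  letR (z295 * z288) fun z297 =>
  letR (z296 - z297) fun z298 =>
  letR (z88 * z298) fun z408 =>
  letR (z321 * z323) fun z332 =>
  letR (z343 * z350) fun z351 =>
  letR (z332 * z351) fun z355 =>
  letR (z316 * z352) fun z353 =>
  letR (z333 * z353) fun z356 =>
  letR (z355 - z356) fun z357 =>
  letR (z357 * z351) fun z361 =>
  letR (z333 * z351) fun z358 =>
  letR (z332 * z352) fun z359 =>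
  letR (z358 - z359) fun z360 =>
  letR (z360 * z353) fun z362 =>
  letR (z361 - z362) fun z363 =>
  letR (z43 * z363) fun z409 =>
  letR (z408 - z409) fun z410 =>
  letR (z481 * z377) fun z378 =>
  letR (z295 * z495) fun z302 =>
  letR (z292 * z287) fun z303 =>
  letR (z302 - z303) fun z304 =>
  letR (z378 * z304) fun z411 =>
  letR (z410 + z411) fun z412 =>
  a_R14 gs ps z7 z435 z94 z436 z438 z120 z77 z481 z147 z43 z195 z212 z497 z489 z129 z140 z143 z156 z205 z208 z221 z171 z174 z236 z239 z376 z448 z95 z88 z482 z268 z316 z333 z498 z493 z483 z261 z264 z277 z326 z329 z342 z451 z452 z292 z295 z357 z360 z378 z412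

theorem a_S13 {ε : Fin 4 → ℝ} (gs : ℕ) (hε : ∀ i, |ε i| ≤ 1) (ps : ℕ) (z7 z435 z94 z436 z438 z120 z77 z481 z147 z43 z195 z212 z497 z489 z129 z140 z143 z156 z205 z208 z221 z171 z174 z236 z239 z376 z448 z95 z88 z482 z268 z316 z321 z323 z333 z498 z377 z493 z401 z483 z261 z264 z277 z287 z326 z329 z342 z343 z350 z352 z405 z495 : AF) (t7 t435 t94 t436 t438 t120 t77 t481 t147 t43 t195 t212 t497 t489 t129 t140 t143 t156 t205 t208 t221 t171 t174 t236 t239 t376 t448 t95 t88 t482 t268 t316 t321 t323 t333 t498 t377 t493 t401 t483 t261 t264 t277 t287 t326 t329 t342 t343 t350 t352 t405 t495 : ℝ)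
    (g7 : Rel ε z7 t7) (g435 : Rel ε z435 t435) (g94 : Rel ε z94 t94) (g436 : Rel ε z436 t436) (g438 : Rel ε z438 t438) (g120 : Rel ε z120 t120) (g77 : Rel ε z77 t77) (g481 : Rel ε z481 t481) (g147 : Rel ε z147 t147) (g43 : Rel ε z43 t43) (g195 : Rel ε z195 t195) (g212 : Rel ε z212 t212) (g497 : Rel ε z497 t497) (g489 : Rel ε z489 t489) (g129 : Rel ε z129 t129) (g140 : Rel ε z140 t140) (g143 : Rel ε z143 t143) (g156 : Rel ε z156 t156) (g205 : Rel ε z205 t205) (g208 : Rel ε z208 t208) (g221 : Rel ε z221 t221) (g171 : Rel ε z171 t171) (g174 : Rel ε z174 t174) (g236 : Rel ε z236 t236) (g239 : Rel ε z239 t239) (g376 : Rel ε z376 t376) (g448 : Rel ε z448 t448) (g95 : Rel ε z95 t95) (g88 : Rel ε z88 t88) (g482 : Rel ε z482 t482) (g268 : Rel ε z268 t268) (g316 : Rel ε z316 t316) (g321 : Rel ε z321 t321) (g323 : Rel ε z323 t323) (g333 : Rel ε z333 t333) (g498 : Rel ε z498 t498) (g377 : Rel ε z377 t377) (g493 :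 Rel ε z493 t493) (g401 : Rel ε z401 t401) (g483 : Rel ε z483 t483) (g261 : Rel ε z261 t261) (g264 : Rel ε z264 t264) (g277 : Rel ε z277 t277) (g287 : Rel ε z287 t287) (g326 : Rel ε z326 t326) (g329 : Rel ε z329 t329) (g342 : Rel ε z342 t342) (g343 : Rel ε z343 t343) (g350 : Rel ε z350 t350) (g352 : Rel ε z352 t352) (g405 : Rel ε z405 t405) (g495 : Rel ε z495 t495) :
    a_B13 gs ps z7 z435 z94 z436 z438 z120 z77 z481 z147 z43 z195 z212 z497 z489 z129 z140 z143 z156 z205 z208 z221 z171 z174 z236 z239 z376 z448 z95 z88 z482 z268 z316 z321 z323 z333 z498 z377 z493 z401 z483 z261 z264 z277 z287 z326 z329 z342 z343 z350 z352 z405 z495 = true → a_R13 gs ps t7 t435 t94 t436 t438 t120 t77 t481 t147 t43 t195 t212 t497 t489 t129 t140 t143 t156 t205 t208 t221 t171 t174 t236 t239 t376 t448 t95 t88 t482 t268 t316 t321 t323 t333 t498 t377 t493 t401 t483 t261 t264 t277 t287 t326 t329 t342 t343 t350 t352 t405 t495 :=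 by
  delta a_B13 a_R13
  exact subS g493 g495 fun z301 t301 g301 =>
  normS g301 fun z496 t496 g496 =>
  mulS hε g498 g496 fun z406 t406 g406 =>
  addS g405 g406 fun z407 t407 g407 =>
  normS g407 fun z504 t504 g504 =>
  smulS hε g504 k12 fun z449 t449 g449 =>
  mulS hε g483 g449 fun z450 t450 g450 =>
  addS g401 g450 fun z451 t451 g451 =>
  sqrS hε g483 fun z452 t452 g452 =>
  mulS hε g493 g495 fun z290 t290 g290 =>
  mulS hε g482 g287 fun z288 t288 g288 =>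
  mulS hε g268 g288 fun z291 t291 g291 =>
  subS g290 g291 fun z292 t292 g292 =>
  mulS hε g292 g495 fun z296 t296 g296 =>
  mulS hε g268 g495 fun z293 t293 g293 =>
  mulS hε g493 g287 fun z294 t294 g294 =>
  subS g293 g294 fun z295 t295 g295 =>
  mulS hε g295 g288 fun z297 t297 g297 =>
  subS g296 g297 fun z298 t298 g298 =>
  mulS hε g88 g298 fun z408 t408 g408 =>
  mulS hε g321 g323 fun z332 t332 g332 =>
  mulS hε g343 g350 fun z351 t351 g351 =>
  mulS hε g332 g351 fun z355 t355 g355 =>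
  mulS hε g316 g352 fun z353 t353 g353 =>
  mulS hε g333 g353 fun z356 t356 g356 =>
  subS g355 g356 fun z357 t357 g357 =>
  mulS hε g357 g351 fun z361 t361 g361 =>
  mulS hε g333 g351 fun z358 t358 g358 =>
  mulS hε g332 g352 fun z359 t359 g359 =>
  subS g358 g359 fun z360 t360 g360 =>
  mulS hε g360 g353 fun z362 t362 g362 =>
  subS g361 g362 fun z363 t363 g363 =>
  mulS hε g43 g363 fun z409 t409 g409 =>
  subS g408 g409 fun z410 t410 g410 =>
  mulS hε g481 g377 fun z378 t378 g378 =>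
  mulS hε g295 g495 fun z302 t302 g302 =>
  mulS hε g292 g287 fun z303 t303 g303 =>
  subS g302 g303 fun z304 t304 g304 =>
  mulS hε g378 g304 fun z411 t411 g411 =>
  addS g410 g411 fun z412 t412 g412 =>
  a_S14 gs hε ps z7 z435 z94 z436 z438 z120 z77 z481 z147 z43 z195 z212 z497 z489 z129 z140 z143 z156 z205 z208 z221 z171 z174 z236 z239 z376 z448 z95 z88 z482 z268 z316 z333 z498 z493 z483 z261 z264 z277 z326 z329 z342 z451 z452 z292 z295 z357 z360 z378 z412 t7 t435 t94 t436 t438 t120 t77 t481 t147 t43 t195 t212 t497 t489 t129 t140 t143 t156 t205 t208 t221 t171 t174 t236 t239 t376 t448 t95 t88 t482 t268 t316 t333 t498 t493 t483 t261 t264 t277 t326 t329 t342 t451 t452 t292 t295 t357 t360 t378 t412 g7 g435 g94 g436 g438 g120 g77 g481 g147 g43 g195 g212 g497 g489 g129 g140 g143 g156 g205 g208 g221 g171 g174 g236 g239 g376 g448 g95 g88 g482 g268 g316 g333 g498 g493 g483 g261 g264 g277 g326 g329 g342 g451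 g452 g292 g295 g357 g360 g378 g412

def a_B12 (gs ps : ℕ) (z7 z435 z94 z436 z438 z120 z77 z481 z108 z147 z43 z195 z212 z497 z489 z129 z140 z143 z156 z205 z208 z221 z171 z174 z236 z239 z376 z448 z95 z88 z482 z268 z316 z321 z322 z323 z333 z498 z377 z493 z401 z483 z258 z261 z264 z277 z280 z278 : AF) : Bool :=
  sqrK z278 fun z281 =>
  sqrK z280 fun z282 =>
  mulK z482 z282 fun z283 =>
  subK z281 z283 fun z284 =>
  invK z284 fun z285 =>
  mulK z280 z285 fun z287 =>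
  addK z268 z287 fun z289 =>
  mulK z88 z289 fun z402 =>
  mulK z316 z258 fun z324 =>
  rsubK z324 4722366764344621924352 0 fun z325 =>
  sqrtK z325 fun z326 =>
  addcK z326 4722366764344621924352 0 fun z327 =>
  smulK z327 4722366623607133569024 fun z328 =>
  sqrtK z328 fun z329 =>
  invK z329 fun z330 =>
  mulK z108 z330 fun z342 =>
  addK z342 z322 fun z344 =>
  smulK z344 4722366623607133569024 fun z345 =>
  addK z329 z321 fun z343 =>
  sqrK z343 fun z346 =>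
  sqrK z345 fun z347 =>
  mulK z316 z347 fun z348 =>
  subK z346 z348 fun z349 =>
  invK z349 fun z350 =>
  mulK z345 z350 fun z352 =>
  addK z333 z352 fun z354 =>
  mulK z43 z354 fun z403 =>
  subK z402 z403 fun z404 =>
  normK z404 fun z503 =>
  mulK z95 z503 fun z405 =>
  mulK z278 z285 fun z286 =>
  normK z286 fun z495 =>
  a_B13 gs ps z7 z435 z94 z436 z438 z120 z77 z481 z147 z43 z195 z212 z497 z489 z129 z140 z143 z156 z205 z208 z221 z171 z174 z236 z239 z376 z448 z95 z88 z482 z268 z316 z321 z323 z333 z498 z377 z493 z401 z483 z261 z264 z277 z287 z326 z329 z342 z343 z350 z352 z405 z495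

def a_R12 (gs ps : ℕ) (z7 z435 z94 z436 z438 z120 z77 z481 z108 z147 z43 z195 z212 z497 z489 z129 z140 z143 z156 z205 z208 z221 z171 z174 z236 z239 z376 z448 z95 z88 z482 z268 z316 z321 z322 z323 z333 z498 z377 z493 z401 z483 z258 z261 z264 z277 z280 z278 : ℝ) : Prop :=
  letR (z278 ^ 2) fun z281 =>
  letR (z280 ^ 2) fun z282 =>
  letR (z482 * z282) fun z283 =>
  letR (z281 - z283) fun z284 =>
  invR z284 fun z285 =>
  letR (z280 * z285) fun z287 =>
  letR (z268 + z287) fun z289 =>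
  letR (z88 * z289) fun z402 =>
  letR (z316 * z258) fun z324 =>
  letR ((1 : ℝ) - z324) fun z325 =>
  letR (√z325) fun z326 =>
  letR (z326 + (1 : ℝ)) fun z327 =>
  letR ((1 / 2 : ℝ) * z327) fun z328 =>
  letR (√z328) fun z329 =>
  invR z329 fun z330 =>
  letR (z108 * z330) fun z342 =>
  letR (z342 + z322) fun z344 =>
  letR ((1 / 2 : ℝ) * z344) fun z345 =>
  letR (z329 + z321) fun z343 =>
  letR (z343 ^ 2) fun z346 =>
  letR (z345 ^ 2) fun z347 =>
  letR (z316 * z347) fun z348 =>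
  letR (z346 - z348) fun z349 =>
  invR z349 fun z350 =>
  letR (z345 * z350) fun z352 =>
  letR (z333 + z352) fun z354 =>
  letR (z43 * z354) fun z403 =>
  letR (z402 - z403) fun z404 =>
  letR z404 fun z503 =>
  letR (z95 * z503) fun z405 =>
  letR (z278 * z285) fun z286 =>
  letR z286 fun z495 =>
  a_R13 gs ps z7 z435 z94 z436 z438 z120 z77 z481 z147 z43 z195 z212 z497 z489 z129 z140 z143 z156 z205 z208 z221 z171 z174 z236 z239 z376 z448 z95 z88 z482 z268 z316 z321 z323 z333 z498 z377 z493 z401 z483 z261 z264 z277 z287 z326 z329 z342 z343 z350 z352 z405 z495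

theorem a_S12 {ε : Fin 4 → ℝ} (gs : ℕ) (hε : ∀ i, |ε i| ≤ 1) (ps : ℕ) (z7 z435 z94 z436 z438 z120 z77 z481 z108 z147 z43 z195 z212 z497 z489 z129 z140 z143 z156 z205 z208 z221 z171 z174 z236 z239 z376 z448 z95 z88 z482 z268 z316 z321 z322 z323 z333 z498 z377 z493 z401 z483 z258 z261 z264 z277 z280 z278 : AF) (t7 t435 t94 t436 t438 t120 t77 t481 t108 t147 t43 t195 t212 t497 t489 t129 t140 t143 t156 t205 t208 t221 t171 t174 t236 t239 t376 t448 t95 t88 t482 t268 t316 t321 t322 t323 t333 t498 t377 t493 t401 t483 t258 t261 t264 t277 t280 t278 : ℝ)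
    (g7 : Rel ε z7 t7) (g435 : Rel ε z435 t435) (g94 : Rel ε z94 t94) (g436 : Rel ε z436 t436) (g438 : Rel ε z438 t438) (g120 : Rel ε z120 t120) (g77 : Rel ε z77 t77) (g481 : Rel ε z481 t481) (g108 : Rel ε z108 t108) (g147 : Rel ε z147 t147) (g43 : Rel ε z43 t43) (g195 : Rel ε z195 t195) (g212 : Rel ε z212 t212) (g497 : Rel ε z497 t497) (g489 : Rel ε z489 t489) (g129 : Rel ε z129 t129) (g140 : Rel ε z140 t140) (g143 : Rel ε z143 t143) (g156 : Rel ε z156 t156) (g205 : Rel ε z205 t205) (g208 : Rel ε z208 t208) (g221 : Rel ε z221 t221) (g171 : Rel ε z171 t171) (g174 : Rel ε z174 t174) (g236 : Rel ε z236 t236) (g239 : Rel ε z239 t239) (g376 : Rel ε z376 t376) (g448 : Rel ε z448 t448) (g95 : Rel ε z95 t95) (g88 : Rel ε z88 t88) (g482 : Rel ε z482 t482) (g268 : Rel ε z268 t268) (g316 : Rel ε z316 t316) (g321 : Rel ε z321 t321) (g322 : Rel ε z322 t322) (g323 : Rel ε z323 t323) (g333 : Rel ε z333 t333) (g498 :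 Rel ε z498 t498) (g377 : Rel ε z377 t377) (g493 : Rel ε z493 t493) (g401 : Rel ε z401 t401) (g483 : Rel ε z483 t483) (g258 : Rel ε z258 t258) (g261 : Rel ε z261 t261) (g264 : Rel ε z264 t264) (g277 : Rel ε z277 t277) (g280 : Rel ε z280 t280) (g278 : Rel ε z278 t278) :
    a_B12 gs ps z7 z435 z94 z436 z438 z120 z77 z481 z108 z147 z43 z195 z212 z497 z489 z129 z140 z143 z156 z205 z208 z221 z171 z174 z236 z239 z376 z448 z95 z88 z482 z268 z316 z321 z322 z323 z333 z498 z377 z493 z401 z483 z258 z261 z264 z277 z280 z278 = true → a_R12 gs ps t7 t435 t94 t436 t438 t120 t77 t481 t108 t147 t43 t195 t212 t497 t489 t129 t140 t143 t156 t205 t208 t221 t171 t174 t236 t239 t376 t448 t95 t88 t482 t268 t316 t321 t322 t323 t333 t498 t377 t493 t401 t483 t258 t261 t264 t277 t280 t278 := by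
  delta a_B12 a_R12
  exact sqrS hε g278 fun z281 t281 g281 =>
  sqrS hε g280 fun z282 t282 g282 =>
  mulS hε g482 g282 fun z283 t283 g283 =>
  subS g281 g283 fun z284 t284 g284 =>
  invS hε g284 fun z285 t285 g285 =>
  mulS hε g280 g285 fun z287 t287 g287 =>
  addS g268 g287 fun z289 t289 g289 =>
  mulS hε g88 g289 fun z402 t402 g402 =>
  mulS hε g316 g258 fun z324 t324 g324 =>
  rsubS g324 k4 fun z325 t325 g325 =>
  sqrtS hε g325 fun z326 t326 g326 =>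
  addcS g326 k4 fun z327 t327 g327 =>
  smulS hε g327 k7 fun z328 t328 g328 =>
  sqrtS hε g328 fun z329 t329 g329 =>
  invS hε g329 fun z330 t330 g330 =>
  mulS hε g108 g330 fun z342 t342 g342 =>
  addS g342 g322 fun z344 t344 g344 =>
  smulS hε g344 k7 fun z345 t345 g345 =>
  addS g329 g321 fun z343 t343 g343 =>
  sqrS hε g343 fun z346 t346 g346 =>
  sqrS hε g345 fun z347 t347 g347 =>
  mulS hε g316 g347 fun z348 t348 g348 =>
  subS g346 g348 fun z349 t349 g349 =>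
  invS hε g349 fun z350 t350 g350 =>
  mulS hε g345 g350 fun z352 t352 g352 =>
  addS g333 g352 fun z354 t354 g354 =>
  mulS hε g43 g354 fun z403 t403 g403 =>
  subS g402 g403 fun z404 t404 g404 =>
  normS g404 fun z503 t503 g503 =>
  mulS hε g95 g503 fun z405 t405 g405 =>
  mulS hε g278 g285 fun z286 t286 g286 =>
  normS g286 fun z495 t495 g495 =>
  a_S13 gs hε ps z7 z435 z94 z436 z438 z120 z77 z481 z147 z43 z195 z212 z497 z489 z129 z140 z143 z156 z205 z208 z221 z171 z174 z236 z239 z376 z448 z95 z88 z482 z268 z316 z321 z323 z333 z498 z377 z493 z401 z483 z261 z264 z277 z287 z326 z329 z342 z343 z350 z352 z405 z495 t7 t435 t94 t436 t438 t120 t77 t481 t147 t43 t195 t212 t497 t489 t129 t140 t143 t156 t205 t208 t221 t171 t174 t236 t239 t376 t448 t95 t88 t482 t268 t316 t321 t323 t333 t498 t377 t493 t401 t483 t261 t264 t277 t287 t326 t329 t342 t343 t350 t352 t405 t495 g7 g435 g94 g436 g438 g120 g77 g481 g147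 g43 g195 g212 g497 g489 g129 g140 g143 g156 g205 g208 g221 g171 g174 g236 g239 g376 g448 g95 g88 g482 g268 g316 g321 g323 g333 g498 g377 g493 g401 g483 g261 g264 g277 g287 g326 g329 g342 g343 g350 g352 g405 g495

def a_B11 (gs ps : ℕ) (z7 z435 z94 z436 z438 z120 z77 z481 z105 z108 z147 z43 z195 z212 z497 z489 z129 z140 z143 z156 z205 z208 z221 z171 z174 z236 z239 z376 z448 z95 z88 z482 z255 z256 z257 z268 z316 z321 z322 z323 z333 z399 z498 : AF) : Bool :=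
  mulK z95 z498 fun z377 =>
  mulK z255 z257 fun z267 =>
  normK z267 fun z493 =>
  mulK z108 z493 fun z299 =>
  addK z299 z268 fun z300 =>
  mulK z377 z300 fun z400 =>
  addK z399 z400 fun z401 =>
  mulK z95 z105 fun z106 =>
  normK z106 fun z483 =>
  sqrK z108 fun z258 =>
  mulK z482 z258 fun z259 =>
  rsubK z259 4722366764344621924352 0 fun z260 =>
  sqrtK z260 fun z261 =>
  addcK z261 4722366764344621924352 0 fun z262 =>
  smulK z262 4722366623607133569024 fun z263 =>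
  sqrtK z263 fun z264 =>
  invK z264 fun z265 =>
  mulK z108 z265 fun z277 =>
  addK z277 z256 fun z279 =>
  normK z279 fun z494 =>
  smulK z494 4722366623607133569024 fun z280 =>
  addK z264 z255 fun z278 =>
  a_B12 gs ps z7 z435 z94 z436 z438 z120 z77 z481 z108 z147 z43 z195 z212 z497 z489 z129 z140 z143 z156 z205 z208 z221 z171 z174 z236 z239 z376 z448 z95 z88 z482 z268 z316 z321 z322 z323 z333 z498 z377 z493 z401 z483 z258 z261 z264 z277 z280 z278

def a_R11 (gs ps : ℕ) (z7 z435 z94 z436 z438 z120 z77 z481 z105 z108 z147 z43 z195 z212 z497 z489 z129 z140 z143 z156 z205 z208 z221 z171 z174 z236 z239 z376 z448 z95 z88 z482 z255 z256 z257 z268 z316 z321 z322 z323 z333 z399 z498 : ℝ) : Prop :=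
  letR (z95 * z498) fun z377 =>
  letR (z255 * z257) fun z267 =>
  letR z267 fun z493 =>
  letR (z108 * z493) fun z299 =>
  letR (z299 + z268) fun z300 =>
  letR (z377 * z300) fun z400 =>
  letR (z399 + z400) fun z401 =>
  letR (z95 * z105) fun z106 =>
  letR z106 fun z483 =>
  letR (z108 ^ 2) fun z258 =>
  letR (z482 * z258) fun z259 =>
  letR ((1 : ℝ) - z259) fun z260 =>
  letR (√z260) fun z261 =>
  letR (z261 + (1 : ℝ)) fun z262 =>
  letR ((1 / 2 : ℝ) * z262) fun z263 =>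
  letR (√z263) fun z264 =>
  invR z264 fun z265 =>
  letR (z108 * z265) fun z277 =>
  letR (z277 + z256) fun z279 =>
  letR z279 fun z494 =>
  letR ((1 / 2 : ℝ) * z494) fun z280 =>
  letR (z264 + z255) fun z278 =>
  a_R12 gs ps z7 z435 z94 z436 z438 z120 z77 z481 z108 z147 z43 z195 z212 z497 z489 z129 z140 z143 z156 z205 z208 z221 z171 z174 z236 z239 z376 z448 z95 z88 z482 z268 z316 z321 z322 z323 z333 z498 z377 z493 z401 z483 z258 z261 z264 z277 z280 z278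

theorem a_S11 {ε : Fin 4 → ℝ} (gs : ℕ) (hε : ∀ i, |ε i| ≤ 1) (ps : ℕ) (z7 z435 z94 z436 z438 z120 z77 z481 z105 z108 z147 z43 z195 z212 z497 z489 z129 z140 z143 z156 z205 z208 z221 z171 z174 z236 z239 z376 z448 z95 z88 z482 z255 z256 z257 z268 z316 z321 z322 z323 z333 z399 z498 : AF) (t7 t435 t94 t436 t438 t120 t77 t481 t105 t108 t147 t43 t195 t212 t497 t489 t129 t140 t143 t156 t205 t208 t221 t171 t174 t236 t239 t376 t448 t95 t88 t482 t255 t256 t257 t268 t316 t321 t322 t323 t333 t399 t498 : ℝ)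
    (g7 : Rel ε z7 t7) (g435 : Rel ε z435 t435) (g94 : Rel ε z94 t94) (g436 : Rel ε z436 t436) (g438 : Rel ε z438 t438) (g120 : Rel ε z120 t120) (g77 : Rel ε z77 t77) (g481 : Rel ε z481 t481) (g105 : Rel ε z105 t105) (g108 : Rel ε z108 t108) (g147 : Rel ε z147 t147) (g43 : Rel ε z43 t43) (g195 : Rel ε z195 t195) (g212 : Rel ε z212 t212) (g497 : Rel ε z497 t497) (g489 : Rel ε z489 t489) (g129 : Rel ε z129 t129) (g140 : Rel ε z140 t140) (g143 : Rel ε z143 t143) (g156 : Rel ε z156 t156) (g205 : Rel ε z205 t205) (g208 : Rel ε z208 t208) (g221 : Rel ε z221 t221) (g171 : Rel ε z171 t171) (g174 : Rel ε z174 t174) (g236 : Rel ε z236 t236) (g239 : Rel ε z239 t239) (g376 : Rel ε z376 t376) (g448 : Rel ε z448 t448) (g95 : Rel ε z95 t95) (g88 : Rel ε z88 t88) (g482 : Rel ε z482 t482) (g255 : Rel ε z255 t255) (g256 : Rel ε z256 t256) (g257 : Rel ε z257 t257) (g268 : Rel ε z268 t268) (g316 : Rel ε z316 t316) (g321 :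 Rel ε z321 t321) (g322 : Rel ε z322 t322) (g323 : Rel ε z323 t323) (g333 : Rel ε z333 t333) (g399 : Rel ε z399 t399) (g498 : Rel ε z498 t498) :
    a_B11 gs ps z7 z435 z94 z436 z438 z120 z77 z481 z105 z108 z147 z43 z195 z212 z497 z489 z129 z140 z143 z156 z205 z208 z221 z171 z174 z236 z239 z376 z448 z95 z88 z482 z255 z256 z257 z268 z316 z321 z322 z323 z333 z399 z498 = true → a_R11 gs ps t7 t435 t94 t436 t438 t120 t77 t481 t105 t108 t147 t43 t195 t212 t497 t489 t129 t140 t143 t156 t205 t208 t221 t171 t174 t236 t239 t376 t448 t95 t88 t482 t255 t256 t257 t268 t316 t321 t322 t323 t333 t399 t498 := by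
  delta a_B11 a_R11
  exact mulS hε g95 g498 fun z377 t377 g377 =>
  mulS hε g255 g257 fun z267 t267 g267 =>
  normS g267 fun z493 t493 g493 =>
  mulS hε g108 g493 fun z299 t299 g299 =>
  addS g299 g268 fun z300 t300 g300 =>
  mulS hε g377 g300 fun z400 t400 g400 =>
  addS g399 g400 fun z401 t401 g401 =>
  mulS hε g95 g105 fun z106 t106 g106 =>
  normS g106 fun z483 t483 g483 =>
  sqrS hε g108 fun z258 t258 g258 =>
  mulS hε g482 g258 fun z259 t259 g259 =>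
  rsubS g259 k4 fun z260 t260 g260 =>
  sqrtS hε g260 fun z261 t261 g261 =>
  addcS g261 k4 fun z262 t262 g262 =>
  smulS hε g262 k7 fun z263 t263 g263 =>
  sqrtS hε g263 fun z264 t264 g264 =>
  invS hε g264 fun z265 t265 g265 =>
  mulS hε g108 g265 fun z277 t277 g277 =>
  addS g277 g256 fun z279 t279 g279 =>
  normS g279 fun z494 t494 g494 =>
  smulS hε g494 k7 fun z280 t280 g280 =>
  addS g264 g255 fun z278 t278 g278 =>
  a_S12 gs hε ps z7 z435 z94 z436 z438 z120 z77 z481 z108 z147 z43 z195 z212 z497 z489 z129 z140 z143 z156 z205 z208 z221 z171 z174 z236 z239 z376 z448 z95 z88 z482 z268 z316 z321 z322 z323 z333 z498 z377 z493 z401 z483 z258 z261 z264 z277 z280 z278 t7 t435 t94 t436 t438 t120 t77 t481 t108 t147 t43 t195 t212 t497 t489 t129 t140 t143 t156 t205 t208 t221 t171 t174 t236 t239 t376 t448 t95 t88 t482 t268 t316 t321 t322 t323 t333 t498 t377 t493 t401 t483 t258 t261 t264 t277 t280 t278 g7 g435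 g94 g436 g438 g120 g77 g481 g108 g147 g43 g195 g212 g497 g489 g129 g140 g143 g156 g205 g208 g221 g171 g174 g236 g239 g376 g448 g95 g88 g482 g268 g316 g321 g322 g323 g333 g498 g377 g493 g401 g483 g258 g261 g264 g277 g280 g278

def a_B10 (gs ps : ℕ) (x1 z7 z435 z94 z436 z438 z120 z66 z33 z77 z481 z105 z108 z147 z43 z195 z212 z89 z497 z489 z129 z140 z143 z156 z205 z208 z221 z171 z174 z236 z239 z376 z448 z64 z61 z375 z95 z96 z88 z482 z255 z256 z257 z268 z395 : AF) : Bool :=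
  mulK z43 z482 fun z316 =>
  rsubK z316 4722366764344621924352 0 fun z317 =>
  sqrtK z317 fun z318 =>
  addcK z318 4722366764344621924352 0 fun z319 =>
  smulK z319 4722366623607133569024 fun z320 =>
  sqrtK z320 fun z321 =>
  invK z321 fun z322 =>
  invK z318 fun z323 =>
  mulK z322 z323 fun z331 =>
  mulK z331 z322 fun z334 =>
  smulK z321 4722367608769552056320 fun z335 =>
  addcK z335 4722367608769552056320 0 fun z336 =>
  invK z336 fun z337 =>
  rsubK z337 4722366623607133569024 0 fun z338 =>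
  mulK z334 z338 fun z339 =>
  smulK z331 4722366342132156858368 fun z333 =>
  mulK z108 z333 fun z340 =>
  addK z339 z340 fun z341 =>
  mulK z43 z341 fun z396 =>
  subK z395 z396 fun z397 =>
  normK z397 fun z502 =>
  mulK z96 z502 fun z398 =>
  addK z375 z398 fun z399 =>
  mulK z66 z61 fun z82 =>
  mulK x1 z64 fun z83 =>
  addcK z83 4722366764344621924352 0 fun z84 =>
  mulK z33 z84 fun z85 =>
  subK z82 z85 fun z86 =>
  normK z86 fun z480 =>
  mulK z480 z89 fun z374 =>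
  normK z374 fun z498 =>
  a_B11 gs ps z7 z435 z94 z436 z438 z120 z77 z481 z105 z108 z147 z43 z195 z212 z497 z489 z129 z140 z143 z156 z205 z208 z221 z171 z174 z236 z239 z376 z448 z95 z88 z482 z255 z256 z257 z268 z316 z321 z322 z323 z333 z399 z498

def a_R10 (gs ps : ℕ) (W z7 z435 z94 z436 z438 z120 z66 z33 z77 z481 z105 z108 z147 z43 z195 z212 z89 z497 z489 z129 z140 z143 z156 z205 z208 z221 z171 z174 z236 z239 z376 z448 z64 z61 z375 z95 z96 z88 z482 z255 z256 z257 z268 z395 : ℝ) : Prop :=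
  letR (z43 * z482) fun z316 =>
  letR ((1 : ℝ) - z316) fun z317 =>
  letR (√z317) fun z318 =>
  letR (z318 + (1 : ℝ)) fun z319 =>
  letR ((1 / 2 : ℝ) * z319) fun z320 =>
  letR (√z320) fun z321 =>
  invR z321 fun z322 =>
  invR z318 fun z323 =>
  letR (z322 * z323) fun z331 =>
  letR (z331 * z322) fun z334 =>
  letR ((4 : ℝ) * z321) fun z335 =>
  letR (z335 + (4 : ℝ)) fun z336 =>
  invR z336 fun z337 =>
  letR ((1 / 2 : ℝ) - z337) fun z338 =>
  letR (z334 * z338) fun z339 =>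
  letR ((-1 / 2 : ℝ) * z331) fun z333 =>
  letR (z108 * z333) fun z340 =>
  letR (z339 + z340) fun z341 =>
  letR (z43 * z341) fun z396 =>
  letR (z395 - z396) fun z397 =>
  letR z397 fun z502 =>
  letR (z96 * z502) fun z398 =>
  letR (z375 + z398) fun z399 =>
  letR (z66 * z61) fun z82 =>
  letR (W * z64) fun z83 =>
  letR (z83 + (1 : ℝ)) fun z84 =>
  letR (z33 * z84) fun z85 =>
  letR (z82 - z85) fun z86 =>
  letR z86 fun z480 =>
  letR (z480 * z89) fun z374 =>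
  letR z374 fun z498 =>
  a_R11 gs ps z7 z435 z94 z436 z438 z120 z77 z481 z105 z108 z147 z43 z195 z212 z497 z489 z129 z140 z143 z156 z205 z208 z221 z171 z174 z236 z239 z376 z448 z95 z88 z482 z255 z256 z257 z268 z316 z321 z322 z323 z333 z399 z498

theorem a_S10 {ε : Fin 4 → ℝ} (gs : ℕ) (hε : ∀ i, |ε i| ≤ 1) (ps : ℕ) (x1 z7 z435 z94 z436 z438 z120 z66 z33 z77 z481 z105 z108 z147 z43 z195 z212 z89 z497 z489 z129 z140 z143 z156 z205 z208 z221 z171 z174 z236 z239 z376 z448 z64 z61 z375 z95 z96 z88 z482 z255 z256 z257 z268 z395 : AF) (W t7 t435 t94 t436 t438 t120 t66 t33 t77 t481 t105 t108 t147 t43 t195 t212 t89 t497 t489 t129 t140 t143 t156 t205 t208 t221 t171 t174 t236 t239 t376 t448 t64 t61 t375 t95 t96 t88 t482 t255 t256 t257 t268 t395 : ℝ)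
    (h1 : Rel ε x1 W) (g7 : Rel ε z7 t7) (g435 : Rel ε z435 t435) (g94 : Rel ε z94 t94) (g436 : Rel ε z436 t436) (g438 : Rel ε z438 t438) (g120 : Rel ε z120 t120) (g66 : Rel ε z66 t66) (g33 : Rel ε z33 t33) (g77 : Rel ε z77 t77) (g481 : Rel ε z481 t481) (g105 : Rel ε z105 t105) (g108 : Rel ε z108 t108) (g147 : Rel ε z147 t147) (g43 : Rel ε z43 t43) (g195 : Rel ε z195 t195) (g212 : Rel ε z212 t212) (g89 : Rel ε z89 t89) (g497 : Rel ε z497 t497) (g489 : Rel ε z489 t489) (g129 : Rel ε z129 t129) (g140 : Rel ε z140 t140) (g143 : Rel ε z143 t143) (g156 : Rel ε z156 t156) (g205 : Rel ε z205 t205) (g208 : Rel ε z208 t208) (g221 : Rel ε z221 t221) (g171 : Rel ε z171 t171) (g174 : Rel ε z174 t174) (g236 : Rel ε z236 t236) (g239 : Rel ε z239 t239) (g376 : Rel ε z376 t376) (g448 : Rel ε z448 t448) (g64 : Rel ε z64 t64) (g61 : Rel ε z61 t61) (g375 : Rel ε z375 t375) (g95 : Rel ε z95 t95) (g96 : Rel ε z96 t96) (g88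 : Rel ε z88 t88) (g482 : Rel ε z482 t482) (g255 : Rel ε z255 t255) (g256 : Rel ε z256 t256) (g257 : Rel ε z257 t257) (g268 : Rel ε z268 t268) (g395 : Rel ε z395 t395) :
    a_B10 gs ps x1 z7 z435 z94 z436 z438 z120 z66 z33 z77 z481 z105 z108 z147 z43 z195 z212 z89 z497 z489 z129 z140 z143 z156 z205 z208 z221 z171 z174 z236 z239 z376 z448 z64 z61 z375 z95 z96 z88 z482 z255 z256 z257 z268 z395 = true → a_R10 gs ps W t7 t435 t94 t436 t438 t120 t66 t33 t77 t481 t105 t108 t147 t43 t195 t212 t89 t497 t489 t129 t140 t143 t156 t205 t208 t221 t171 t174 t236 t239 t376 t448 t64 t61 t375 t95 t96 t88 t482 t255 t256 t257 t268 t395 := by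
  delta a_B10 a_R10
  exact mulS hε g43 g482 fun z316 t316 g316 =>
  rsubS g316 k4 fun z317 t317 g317 =>
  sqrtS hε g317 fun z318 t318 g318 =>
  addcS g318 k4 fun z319 t319 g319 =>
  smulS hε g319 k7 fun z320 t320 g320 =>
  sqrtS hε g320 fun z321 t321 g321 =>
  invS hε g321 fun z322 t322 g322 =>
  invS hε g318 fun z323 t323 g323 =>
  mulS hε g322 g323 fun z331 t331 g331 =>
  mulS hε g331 g322 fun z334 t334 g334 =>
  smulS hε g321 k8 fun z335 t335 g335 =>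
  addcS g335 k9 fun z336 t336 g336 =>
  invS hε g336 fun z337 t337 g337 =>
  rsubS g337 k10 fun z338 t338 g338 =>
  mulS hε g334 g338 fun z339 t339 g339 =>
  smulS hε g331 k11 fun z333 t333 g333 =>
  mulS hε g108 g333 fun z340 t340 g340 =>
  addS g339 g340 fun z341 t341 g341 =>
  mulS hε g43 g341 fun z396 t396 g396 =>
  subS g395 g396 fun z397 t397 g397 =>
  normS g397 fun z502 t502 g502 =>
  mulS hε g96 g502 fun z398 t398 g398 =>
  addS g375 g398 fun z399 t399 g399 =>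
  mulS hε g66 g61 fun z82 t82 g82 =>
  mulS hε h1 g64 fun z83 t83 g83 =>
  addcS g83 k4 fun z84 t84 g84 =>
  mulS hε g33 g84 fun z85 t85 g85 =>
  subS g82 g85 fun z86 t86 g86 =>
  normS g86 fun z480 t480 g480 =>
  mulS hε g480 g89 fun z374 t374 g374 =>
  normS g374 fun z498 t498 g498 =>
  a_S11 gs hε ps z7 z435 z94 z436 z438 z120 z77 z481 z105 z108 z147 z43 z195 z212 z497 z489 z129 z140 z143 z156 z205 z208 z221 z171 z174 z236 z239 z376 z448 z95 z88 z482 z255 z256 z257 z268 z316 z321 z322 z323 z333 z399 z498 t7 t435 t94 t436 t438 t120 t77 t481 t105 t108 t147 t43 t195 t212 t497 t489 t129 t140 t143 t156 t205 t208 t221 t171 t174 t236 t239 t376 t448 t95 t88 t482 t255 t256 t257 t268 t316 t321 t322 t323 t333 t399 t498 g7 g435 g94 g436 g438 g120 g77 g481 g105 g108 g147 g43 g195 g212 g497 g489 g129 g140 g143 g156 g205 g208 g221 g171 g174 g236 g239 g376 g448 g95 g88 g482 g255 g256 g257 g268 g316 g321 g322 g323 g333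 g399 g498

def a_B9 (gs ps : ℕ) (x1 z7 z435 z94 z436 z438 z120 z66 z33 z77 z481 z105 z108 z147 z43 z195 z212 z89 z497 z489 z129 z140 z143 z156 z205 z208 z221 z171 z174 z236 z239 z376 z448 z64 z61 z81 z375 z95 : AF) : Bool :=
  sqrK z95 fun z96 =>
  mulK x1 z81 fun z87 =>
  addcK z87 4722366764344621924352 0 fun z88 =>
  mulK z96 z481 fun z97 =>
  normK z97 fun z482 =>
  rsubK z482 4722366764344621924352 0 fun z251 =>
  sqrtK z251 fun z252 =>
  addcK z252 4722366764344621924352 0 fun z253 =>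
  smulK z253 4722366623607133569024 fun z254 =>
  sqrtK z254 fun z255 =>
  invK z255 fun z256 =>
  invK z252 fun z257 =>
  mulK z256 z257 fun z266 =>
  mulK z266 z256 fun z269 =>
  smulK z255 4722367608769552056320 fun z270 =>
  addcK z270 4722367608769552056320 0 fun z271 =>
  invK z271 fun z272 =>
  rsubK z272 4722366623607133569024 0 fun z273 =>
  mulK z269 z273 fun z274 =>
  smulK z266 4722366342132156858368 fun z268 =>
  mulK z108 z268 fun z275 =>
  addK z274 z275 fun z276 =>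
  mulK z88 z276 fun z395 =>
  a_B10 gs ps x1 z7 z435 z94 z436 z438 z120 z66 z33 z77 z481 z105 z108 z147 z43 z195 z212 z89 z497 z489 z129 z140 z143 z156 z205 z208 z221 z171 z174 z236 z239 z376 z448 z64 z61 z375 z95 z96 z88 z482 z255 z256 z257 z268 z395

def a_R9 (gs ps : ℕ) (W z7 z435 z94 z436 z438 z120 z66 z33 z77 z481 z105 z108 z147 z43 z195 z212 z89 z497 z489 z129 z140 z143 z156 z205 z208 z221 z171 z174 z236 z239 z376 z448 z64 z61 z81 z375 z95 : ℝ) : Prop :=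
  letR (z95 ^ 2) fun z96 =>
  letR (W * z81) fun z87 =>
  letR (z87 + (1 : ℝ)) fun z88 =>
  letR (z96 * z481) fun z97 =>
  letR z97 fun z482 =>
  letR ((1 : ℝ) - z482) fun z251 =>
  letR (√z251) fun z252 =>
  letR (z252 + (1 : ℝ)) fun z253 =>
  letR ((1 / 2 : ℝ) * z253) fun z254 =>
  letR (√z254) fun z255 =>
  invR z255 fun z256 =>
  invR z252 fun z257 =>
  letR (z256 * z257) fun z266 =>
  letR (z266 * z256) fun z269 =>
  letR ((4 : ℝ) * z255) fun z270 =>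
  letR (z270 + (4 : ℝ)) fun z271 =>
  invR z271 fun z272 =>
  letR ((1 / 2 : ℝ) - z272) fun z273 =>
  letR (z269 * z273) fun z274 =>
  letR ((-1 / 2 : ℝ) * z266) fun z268 =>
  letR (z108 * z268) fun z275 =>
  letR (z274 + z275) fun z276 =>
  letR (z88 * z276) fun z395 =>
  a_R10 gs ps W z7 z435 z94 z436 z438 z120 z66 z33 z77 z481 z105 z108 z147 z43 z195 z212 z89 z497 z489 z129 z140 z143 z156 z205 z208 z221 z171 z174 z236 z239 z376 z448 z64 z61 z375 z95 z96 z88 z482 z255 z256 z257 z268 z395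

theorem a_S9 {ε : Fin 4 → ℝ} (gs : ℕ) (hε : ∀ i, |ε i| ≤ 1) (ps : ℕ) (x1 z7 z435 z94 z436 z438 z120 z66 z33 z77 z481 z105 z108 z147 z43 z195 z212 z89 z497 z489 z129 z140 z143 z156 z205 z208 z221 z171 z174 z236 z239 z376 z448 z64 z61 z81 z375 z95 : AF) (W t7 t435 t94 t436 t438 t120 t66 t33 t77 t481 t105 t108 t147 t43 t195 t212 t89 t497 t489 t129 t140 t143 t156 t205 t208 t221 t171 t174 t236 t239 t376 t448 t64 t61 t81 t375 t95 : ℝ)
    (h1 : Rel ε x1 W) (g7 : Rel ε z7 t7) (g435 : Rel ε z435 t435) (g94 : Rel ε z94 t94) (g436 : Rel ε z436 t436) (g438 : Rel ε z438 t438) (g120 : Rel ε z120 t120) (g66 : Rel ε z66 t66) (g33 : Rel ε z33 t33) (g77 : Rel ε z77 t77) (g481 : Rel ε z481 t481) (g105 : Rel ε z105 t105) (g108 : Rel ε z108 t108) (g147 : Rel ε z147 t147) (g43 : Rel ε z43 t43) (g195 : Rel ε z195 t195) (g212 : Rel ε z212 t212) (g89 : Rel ε z89 t89) (g497 : Rel ε z497 t497) (g489 : Rel ε z489 t489) (g129 :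 Rel ε z129 t129) (g140 : Rel ε z140 t140) (g143 : Rel ε z143 t143) (g156 : Rel ε z156 t156) (g205 : Rel ε z205 t205) (g208 : Rel ε z208 t208) (g221 : Rel ε z221 t221) (g171 : Rel ε z171 t171) (g174 : Rel ε z174 t174) (g236 : Rel ε z236 t236) (g239 : Rel ε z239 t239) (g376 : Rel ε z376 t376) (g448 : Rel ε z448 t448) (g64 : Rel ε z64 t64) (g61 : Rel ε z61 t61) (g81 : Rel ε z81 t81) (g375 : Rel ε z375 t375) (g95 : Rel ε z95 t95) :
    a_B9 gs ps x1 z7 z435 z94 z436 z438 z120 z66 z33 z77 z481 z105 z108 z147 z43 z195 z212 z89 z497 z489 z129 z140 z143 z156 z205 z208 z221 z171 z174 z236 z239 z376 z448 z64 z61 z81 z375 z95 = true → a_R9 gs ps W t7 t435 t94 t436 t438 t120 t66 t33 t77 t481 t105 t108 t147 t43 t195 t212 t89 t497 t489 t129 t140 t143 t156 t205 t208 t221 t171 t174 t236 t239 t376 t448 t64 t61 t81 t375 t95 := by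
  delta a_B9 a_R9
  exact sqrS hε g95 fun z96 t96 g96 =>
  mulS hε h1 g81 fun z87 t87 g87 =>
  addcS g87 k4 fun z88 t88 g88 =>
  mulS hε g96 g481 fun z97 t97 g97 =>
  normS g97 fun z482 t482 g482 =>
  rsubS g482 k4 fun z251 t251 g251 =>
  sqrtS hε g251 fun z252 t252 g252 =>
  addcS g252 k4 fun z253 t253 g253 =>
  smulS hε g253 k7 fun z254 t254 g254 =>
  sqrtS hε g254 fun z255 t255 g255 =>
  invS hε g255 fun z256 t256 g256 =>
  invS hε g252 fun z257 t257 g257 =>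
  mulS hε g256 g257 fun z266 t266 g266 =>
  mulS hε g266 g256 fun z269 t269 g269 =>
  smulS hε g255 k8 fun z270 t270 g270 =>
  addcS g270 k9 fun z271 t271 g271 =>
  invS hε g271 fun z272 t272 g272 =>
  rsubS g272 k10 fun z273 t273 g273 =>
  mulS hε g269 g273 fun z274 t274 g274 =>
  smulS hε g266 k11 fun z268 t268 g268 =>
  mulS hε g108 g268 fun z275 t275 g275 =>
  addS g274 g275 fun z276 t276 g276 =>
  mulS hε g88 g276 fun z395 t395 g395 =>
  a_S10 gs hε ps x1 z7 z435 z94 z436 z438 z120 z66 z33 z77 z481 z105 z108 z147 z43 z195 z212 z89 z497 z489 z129 z140 z143 z156 z205 z208 z221 z171 z174 z236 z239 z376 z448 z64 z61 z375 z95 z96 z88 z482 z255 z256 z257 z268 z395 W t7 t435 t94 t436 t438 t120 t66 t33 t77 t481 t105 t108 t147 t43 t195 t212 t89 t497 t489 t129 t140 t143 t156 t205 t208 t221 t171 t174 t236 t239 t376 t448 t64 t61 t375 t95 t96 t88 t482 t255 t256 t257 t268 t395 h1 g7 g435 g94 g436 g438 g120 g66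 g33 g77 g481 g105 g108 g147 g43 g195 g212 g89 g497 g489 g129 g140 g143 g156 g205 g208 g221 g171 g174 g236 g239 g376 g448 g64 g61 g375 g95 g96 g88 g482 g255 g256 g257 g268 g395

def a_B8 (gs ps : ℕ) (x1 z7 z44 z52 z435 z92 z94 z436 z438 z120 z37 z66 z33 z42 z77 z481 z105 z108 z147 z43 z195 z212 z89 z497 z489 z129 z140 z143 z156 z166 z205 z208 z221 z231 z490 z444 z445 z171 z174 z390 z211 z230 : AF) : Bool :=
  mulK z211 z230 fun z234 =>
  mulK z195 z231 fun z232 =>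
  mulK z212 z232 fun z235 =>
  subK z234 z235 fun z236 =>
  mulK z236 z230 fun z240 =>
  mulK z212 z230 fun z237 =>
  mulK z211 z231 fun z238 =>
  subK z237 z238 fun z239 =>
  mulK z239 z232 fun z241 =>
  subK z240 z241 fun z242 =>
  mulK z43 z242 fun z391 =>
  subK z390 z391 fun z392 =>
  mulK z481 z497 fun z376 =>
  mulK z174 z490 fun z181 =>
  mulK z171 z166 fun z182 =>
  subK z181 z182 fun z183 =>
  mulK z376 z183 fun z393 =>
  addK z392 z393 fun z394 =>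
  normK z394 fun z501 =>
  mulK z445 z501 fun z446 =>
  addK z444 z446 fun z447 =>
  normK z447 fun z510 =>
  mulK z435 z510 fun z448 =>
  mulK z44 z52 fun z57 =>
  mulK z44 z57 fun z62 =>
  mulK (cst 4722366229542166174105 1) z62 fun z64 =>
  mulK z66 z64 fun z78 =>
  addK z37 z78 fun z79 =>
  mulK (cst 4722366989524603292876 1) z44 fun z59 =>
  addcK z59 4722366511017142884761 1 fun z60 =>
  mulK z57 z60 fun z61 =>
  mulK z33 z61 fun z80 =>
  subK z79 z80 fun z81 =>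
  mulK z81 z42 fun z375 =>
  invK z92 fun z93 =>
  mulK z44 z93 fun z95 =>
  a_B9 gs ps x1 z7 z435 z94 z436 z438 z120 z66 z33 z77 z481 z105 z108 z147 z43 z195 z212 z89 z497 z489 z129 z140 z143 z156 z205 z208 z221 z171 z174 z236 z239 z376 z448 z64 z61 z81 z375 z95

def a_R8 (gs ps : ℕ) (W z7 z44 z52 z435 z92 z94 z436 z438 z120 z37 z66 z33 z42 z77 z481 z105 z108 z147 z43 z195 z212 z89 z497 z489 z129 z140 z143 z156 z166 z205 z208 z221 z231 z490 z444 z445 z171 z174 z390 z211 z230 : ℝ) : Prop :=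
  letR (z211 * z230) fun z234 =>
  letR (z195 * z231) fun z232 =>
  letR (z212 * z232) fun z235 =>
  letR (z234 - z235) fun z236 =>
  letR (z236 * z230) fun z240 =>
  letR (z212 * z230) fun z237 =>
  letR (z211 * z231) fun z238 =>
  letR (z237 - z238) fun z239 =>
  letR (z239 * z232) fun z241 =>
  letR (z240 - z241) fun z242 =>
  letR (z43 * z242) fun z391 =>
  letR (z390 - z391) fun z392 =>
  letR (z481 * z497) fun z376 =>
  letR (z174 * z490) fun z181 =>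
  letR (z171 * z166) fun z182 =>
  letR (z181 - z182) fun z183 =>
  letR (z376 * z183) fun z393 =>
  letR (z392 + z393) fun z394 =>
  letR z394 fun z501 =>
  letR (z445 * z501) fun z446 =>
  letR (z444 + z446) fun z447 =>
  letR z447 fun z510 =>
  letR (z435 * z510) fun z448 =>
  letR (z44 * z52) fun z57 =>
  letR (z44 * z57) fun z62 =>
  letR ((-9 / 10 : ℝ) * z62) fun z64 =>
  letR (z66 * z64) fun z78 =>
  letR (z37 + z78) fun z79 =>
  letR ((9 / 5 : ℝ) * z44) fun z59 =>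
  letR (z59 + (1 / 10 : ℝ)) fun z60 =>
  letR (z57 * z60) fun z61 =>
  letR (z33 * z61) fun z80 =>
  letR (z79 - z80) fun z81 =>
  letR (z81 * z42) fun z375 =>
  invR z92 fun z93 =>
  letR (z44 * z93) fun z95 =>
  a_R9 gs ps W z7 z435 z94 z436 z438 z120 z66 z33 z77 z481 z105 z108 z147 z43 z195 z212 z89 z497 z489 z129 z140 z143 z156 z205 z208 z221 z171 z174 z236 z239 z376 z448 z64 z61 z81 z375 z95

theorem a_S8 {ε : Fin 4 → ℝ} (gs : ℕ) (hε : ∀ i, |ε i| ≤ 1) (ps : ℕ) (x1 z7 z44 z52 z435 z92 z94 z436 z438 z120 z37 z66 z33 z42 z77 z481 z105 z108 z147 z43 z195 z212 z89 z497 z489 z129 z140 z143 z156 z166 z205 z208 z221 z231 z490 z444 z445 z171 z174 z390 z211 z230 : AF) (W t7 t44 t52 t435 t92 t94 t436 t438 t120 t37 t66 t33 t42 t77 t481 t105 t108 t147 t43 t195 t212 t89 t497 t489 t129 t140 t143 t156 t166 t205 t208 t221 t231 t490 t444 t445 t171 t174 t390 t211 t230 : ℝ)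
    (h1 : Rel ε x1 W) (g7 : Rel ε z7 t7) (g44 : Rel ε z44 t44) (g52 : Rel ε z52 t52) (g435 : Rel ε z435 t435) (g92 : Rel ε z92 t92) (g94 : Rel ε z94 t94) (g436 : Rel ε z436 t436) (g438 : Rel ε z438 t438) (g120 : Rel ε z120 t120) (g37 : Rel ε z37 t37) (g66 : Rel ε z66 t66) (g33 : Rel ε z33 t33) (g42 : Rel ε z42 t42) (g77 : Rel ε z77 t77) (g481 : Rel ε z481 t481) (g105 : Rel ε z105 t105) (g108 : Rel ε z108 t108) (g147 : Rel ε z147 t147) (g43 : Rel ε z43 t43) (g195 : Rel ε z195 t195) (g212 : Rel ε z212 t212) (g89 : Rel ε z89 t89) (g497 : Rel ε z497 t497) (g489 : Rel ε z489 t489) (g129 : Rel ε z129 t129) (g140 : Rel ε z140 t140) (g143 : Rel ε z143 t143) (g156 : Rel ε z156 t156) (g166 : Rel ε z166 t166) (g205 : Rel ε z205 t205) (g208 : Rel ε z208 t208) (g221 : Rel ε z221 t221) (g231 : Rel ε z231 t231) (g490 : Rel ε z490 t490) (g444 : Rel ε z444 t444) (g445 : Rel ε z445 t445) (g171 : Rel ε z171 t171) (g174 :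 Rel ε z174 t174) (g390 : Rel ε z390 t390) (g211 : Rel ε z211 t211) (g230 : Rel ε z230 t230) :
    a_B8 gs ps x1 z7 z44 z52 z435 z92 z94 z436 z438 z120 z37 z66 z33 z42 z77 z481 z105 z108 z147 z43 z195 z212 z89 z497 z489 z129 z140 z143 z156 z166 z205 z208 z221 z231 z490 z444 z445 z171 z174 z390 z211 z230 = true → a_R8 gs ps W t7 t44 t52 t435 t92 t94 t436 t438 t120 t37 t66 t33 t42 t77 t481 t105 t108 t147 t43 t195 t212 t89 t497 t489 t129 t140 t143 t156 t166 t205 t208 t221 t231 t490 t444 t445 t171 t174 t390 t211 t230 := by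
  delta a_B8 a_R8
  exact mulS hε g211 g230 fun z234 t234 g234 =>
  mulS hε g195 g231 fun z232 t232 g232 =>
  mulS hε g212 g232 fun z235 t235 g235 =>
  subS g234 g235 fun z236 t236 g236 =>
  mulS hε g236 g230 fun z240 t240 g240 =>
  mulS hε g212 g230 fun z237 t237 g237 =>
  mulS hε g211 g231 fun z238 t238 g238 =>
  subS g237 g238 fun z239 t239 g239 =>
  mulS hε g239 g232 fun z241 t241 g241 =>
  subS g240 g241 fun z242 t242 g242 =>
  mulS hε g43 g242 fun z391 t391 g391 =>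
  subS g390 g391 fun z392 t392 g392 =>
  mulS hε g481 g497 fun z376 t376 g376 =>
  mulS hε g174 g490 fun z181 t181 g181 =>
  mulS hε g171 g166 fun z182 t182 g182 =>
  subS g181 g182 fun z183 t183 g183 =>
  mulS hε g376 g183 fun z393 t393 g393 =>
  addS g392 g393 fun z394 t394 g394 =>
  normS g394 fun z501 t501 g501 =>
  mulS hε g445 g501 fun z446 t446 g446 =>
  addS g444 g446 fun z447 t447 g447 =>
  normS g447 fun z510 t510 g510 =>
  mulS hε g435 g510 fun z448 t448 g448 =>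
  mulS hε g44 g52 fun z57 t57 g57 =>
  mulS hε g44 g57 fun z62 t62 g62 =>
  mulS hε (cst_rel k13) g62 fun z64 t64 g64 =>
  mulS hε g66 g64 fun z78 t78 g78 =>
  addS g37 g78 fun z79 t79 g79 =>
  mulS hε (cst_rel k14) g44 fun z59 t59 g59 =>
  addcS g59 k3 fun z60 t60 g60 =>
  mulS hε g57 g60 fun z61 t61 g61 =>
  mulS hε g33 g61 fun z80 t80 g80 =>
  subS g79 g80 fun z81 t81 g81 =>
  mulS hε g81 g42 fun z375 t375 g375 =>
  invS hε g92 fun z93 t93 g93 =>
  mulS hε g44 g93 fun z95 t95 g95 =>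
  a_S9 gs hε ps x1 z7 z435 z94 z436 z438 z120 z66 z33 z77 z481 z105 z108 z147 z43 z195 z212 z89 z497 z489 z129 z140 z143 z156 z205 z208 z221 z171 z174 z236 z239 z376 z448 z64 z61 z81 z375 z95 W t7 t435 t94 t436 t438 t120 t66 t33 t77 t481 t105 t108 t147 t43 t195 t212 t89 t497 t489 t129 t140 t143 t156 t205 t208 t221 t171 t174 t236 t239 t376 t448 t64 t61 t81 t375 t95 h1 g7 g435 g94 g436 g438 g120 g66 g33 g77 g481 g105 g108 g147 g43 g195 g212 g89 g497 g489 g129 g140 g143 g156 g205 g208 g221 g171 g174 g236 g239 g376 g448 g64 g61 g81 g375 g95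

def a_B7 (gs ps : ℕ) (x1 z7 z44 z52 z435 z92 z94 z436 z438 z120 z37 z66 z33 z42 z77 z481 z105 z108 z147 z43 z195 z200 z202 z212 z89 z497 z489 z440 z129 z509 z140 z143 z156 z157 z164 z166 z385 z205 z208 z221 z224 : AF) : Bool :=
  addK z208 z200 fun z222 =>
  sqrK z222 fun z225 =>
  sqrK z224 fun z226 =>
  mulK z195 z226 fun z227 =>
  subK z225 z227 fun z228 =>
  invK z228 fun z229 =>
  mulK z224 z229 fun z231 =>
  addK z212 z231 fun z233 =>
  mulK z43 z233 fun z386 =>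
  subK z385 z386 fun z387 =>
  mulK z157 z164 fun z165 =>
  normK z165 fun z490 =>
  subK z489 z490 fun z180 =>
  normK z180 fun z492 =>
  mulK z497 z492 fun z388 =>
  addK z387 z388 fun z389 =>
  normK z389 fun z500 =>
  smulK z500 4722367045819598635008 fun z442 =>
  mulK z509 z442 fun z443 =>
  addK z440 z443 fun z444 =>
  sqrK z129 fun z445 =>
  mulK z489 z490 fun z169 =>
  mulK z481 z166 fun z167 =>
  mulK z147 z167 fun z170 =>
  subK z169 z170 fun z171 =>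
  mulK z171 z490 fun z175 =>
  mulK z147 z490 fun z172 =>
  mulK z489 z166 fun z173 =>
  subK z172 z173 fun z174 =>
  mulK z174 z167 fun z176 =>
  subK z175 z176 fun z177 =>
  mulK z77 z177 fun z390 =>
  mulK z200 z202 fun z211 =>
  mulK z222 z229 fun z230 =>
  a_B8 gs ps x1 z7 z44 z52 z435 z92 z94 z436 z438 z120 z37 z66 z33 z42 z77 z481 z105 z108 z147 z43 z195 z212 z89 z497 z489 z129 z140 z143 z156 z166 z205 z208 z221 z231 z490 z444 z445 z171 z174 z390 z211 z230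

def a_R7 (gs ps : ℕ) (W z7 z44 z52 z435 z92 z94 z436 z438 z120 z37 z66 z33 z42 z77 z481 z105 z108 z147 z43 z195 z200 z202 z212 z89 z497 z489 z440 z129 z509 z140 z143 z156 z157 z164 z166 z385 z205 z208 z221 z224 : ℝ) : Prop :=
  letR (z208 + z200) fun z222 =>
  letR (z222 ^ 2) fun z225 =>
  letR (z224 ^ 2) fun z226 =>
  letR (z195 * z226) fun z227 =>
  letR (z225 - z227) fun z228 =>
  invR z228 fun z229 =>
  letR (z224 * z229) fun z231 =>
  letR (z212 + z231) fun z233 =>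
  letR (z43 * z233) fun z386 =>
  letR (z385 - z386) fun z387 =>
  letR (z157 * z164) fun z165 =>
  letR z165 fun z490 =>
  letR (z489 - z490) fun z180 =>
  letR z180 fun z492 =>
  letR (z497 * z492) fun z388 =>
  letR (z387 + z388) fun z389 =>
  letR z389 fun z500 =>
  letR ((2 : ℝ) * z500) fun z442 =>
  letR (z509 * z442) fun z443 =>
  letR (z440 + z443) fun z444 =>
  letR (z129 ^ 2) fun z445 =>
  letR (z489 * z490) fun z169 =>
  letR (z481 * z166) fun z167 =>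
  letR (z147 * z167) fun z170 =>
  letR (z169 - z170) fun z171 =>
  letR (z171 * z490) fun z175 =>
  letR (z147 * z490) fun z172 =>
  letR (z489 * z166) fun z173 =>
  letR (z172 - z173) fun z174 =>
  letR (z174 * z167) fun z176 =>
  letR (z175 - z176) fun z177 =>
  letR (z77 * z177) fun z390 =>
  letR (z200 * z202) fun z211 =>
  letR (z222 * z229) fun z230 =>
  a_R8 gs ps W z7 z44 z52 z435 z92 z94 z436 z438 z120 z37 z66 z33 z42 z77 z481 z105 z108 z147 z43 z195 z212 z89 z497 z489 z129 z140 z143 z156 z166 z205 z208 z221 z231 z490 z444 z445 z171 z174 z390 z211 z230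

theorem a_S7 {ε : Fin 4 → ℝ} (gs : ℕ) (hε : ∀ i, |ε i| ≤ 1) (ps : ℕ) (x1 z7 z44 z52 z435 z92 z94 z436 z438 z120 z37 z66 z33 z42 z77 z481 z105 z108 z147 z43 z195 z200 z202 z212 z89 z497 z489 z440 z129 z509 z140 z143 z156 z157 z164 z166 z385 z205 z208 z221 z224 : AF) (W t7 t44 t52 t435 t92 t94 t436 t438 t120 t37 t66 t33 t42 t77 t481 t105 t108 t147 t43 t195 t200 t202 t212 t89 t497 t489 t440 t129 t509 t140 t143 t156 t157 t164 t166 t385 t205 t208 t221 t224 : ℝ)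
    (h1 : Rel ε x1 W) (g7 : Rel ε z7 t7) (g44 : Rel ε z44 t44) (g52 : Rel ε z52 t52) (g435 : Rel ε z435 t435) (g92 : Rel ε z92 t92) (g94 : Rel ε z94 t94) (g436 : Rel ε z436 t436) (g438 : Rel ε z438 t438) (g120 : Rel ε z120 t120) (g37 : Rel ε z37 t37) (g66 : Rel ε z66 t66) (g33 : Rel ε z33 t33) (g42 : Rel ε z42 t42) (g77 : Rel ε z77 t77) (g481 : Rel ε z481 t481) (g105 : Rel ε z105 t105) (g108 : Rel ε z108 t108) (g147 : Rel ε z147 t147) (g43 : Rel ε z43 t43) (g195 : Rel ε z195 t195) (g200 : Rel ε z200 t200) (g202 : Rel ε z202 t202) (g212 : Rel ε z212 t212) (g89 : Rel ε z89 t89) (g497 : Rel ε z497 t497) (g489 : Rel ε z489 t489) (g440 : Rel ε z440 t440) (g129 : Rel ε z129 t129) (g509 : Rel ε z509 t509) (g140 : Rel ε z140 t140) (g143 : Rel ε z143 t143) (g156 : Rel ε z156 t156) (g157 : Rel ε z157 t157) (g164 : Rel ε z164 t164) (g166 : Rel ε z166 t166) (g385 : Rel ε z385 t385) (g205 : Rel ε z205 t205) (g208 :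 Rel ε z208 t208) (g221 : Rel ε z221 t221) (g224 : Rel ε z224 t224) :
    a_B7 gs ps x1 z7 z44 z52 z435 z92 z94 z436 z438 z120 z37 z66 z33 z42 z77 z481 z105 z108 z147 z43 z195 z200 z202 z212 z89 z497 z489 z440 z129 z509 z140 z143 z156 z157 z164 z166 z385 z205 z208 z221 z224 = true → a_R7 gs ps W t7 t44 t52 t435 t92 t94 t436 t438 t120 t37 t66 t33 t42 t77 t481 t105 t108 t147 t43 t195 t200 t202 t212 t89 t497 t489 t440 t129 t509 t140 t143 t156 t157 t164 t166 t385 t205 t208 t221 t224 := by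
  delta a_B7 a_R7
  exact addS g208 g200 fun z222 t222 g222 =>
  sqrS hε g222 fun z225 t225 g225 =>
  sqrS hε g224 fun z226 t226 g226 =>
  mulS hε g195 g226 fun z227 t227 g227 =>
  subS g225 g227 fun z228 t228 g228 =>
  invS hε g228 fun z229 t229 g229 =>
  mulS hε g224 g229 fun z231 t231 g231 =>
  addS g212 g231 fun z233 t233 g233 =>
  mulS hε g43 g233 fun z386 t386 g386 =>
  subS g385 g386 fun z387 t387 g387 =>
  mulS hε g157 g164 fun z165 t165 g165 =>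
  normS g165 fun z490 t490 g490 =>
  subS g489 g490 fun z180 t180 g180 =>
  normS g180 fun z492 t492 g492 =>
  mulS hε g497 g492 fun z388 t388 g388 =>
  addS g387 g388 fun z389 t389 g389 =>
  normS g389 fun z500 t500 g500 =>
  smulS hε g500 k12 fun z442 t442 g442 =>
  mulS hε g509 g442 fun z443 t443 g443 =>
  addS g440 g443 fun z444 t444 g444 =>
  sqrS hε g129 fun z445 t445 g445 =>
  mulS hε g489 g490 fun z169 t169 g169 =>
  mulS hε g481 g166 fun z167 t167 g167 =>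
  mulS hε g147 g167 fun z170 t170 g170 =>
  subS g169 g170 fun z171 t171 g171 =>
  mulS hε g171 g490 fun z175 t175 g175 =>
  mulS hε g147 g490 fun z172 t172 g172 =>
  mulS hε g489 g166 fun z173 t173 g173 =>
  subS g172 g173 fun z174 t174 g174 =>
  mulS hε g174 g167 fun z176 t176 g176 =>
  subS g175 g176 fun z177 t177 g177 =>
  mulS hε g77 g177 fun z390 t390 g390 =>
  mulS hε g200 g202 fun z211 t211 g211 =>
  mulS hε g222 g229 fun z230 t230 g230 =>
  a_S8 gs hε ps x1 z7 z44 z52 z435 z92 z94 z436 z438 z120 z37 z66 z33 z42 z77 z481 z105 z108 z147 z43 z195 z212 z89 z497 z489 z129 z140 z143 z156 z166 z205 z208 z221 z231 z490 z444 z445 z171 z174 z390 z211 z230 W t7 t44 t52 t435 t92 t94 t436 t438 t120 t37 t66 t33 t42 t77 t481 t105 t108 t147 t43 t195 t212 t89 t497 t489 t129 t140 t143 t156 t166 t205 t208 t221 t231 t490 t444 t445 t171 t174 t390 t211 t230 h1 g7 g44 g52 g435 g92 g94 g436 g438 g120 g37 g66 g33 g42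 g77 g481 g105 g108 g147 g43 g195 g212 g89 g497 g489 g129 g140 g143 g156 g166 g205 g208 g221 g231 g490 g444 g445 g171 g174 g390 g211 g230

def a_B6 (gs ps : ℕ) (x1 z7 z44 z52 z435 z92 z94 z436 z438 z120 z37 z66 z33 z42 z77 z481 z134 z135 z105 z108 z128 z147 z43 z195 z200 z201 z202 z212 z89 z497 z489 z440 z129 : AF) : Bool :=
  mulK z120 z129 fun z441 =>
  normK z441 fun z509 =>
  sqrK z128 fun z137 =>
  mulK z481 z137 fun z138 =>
  rsubK z138 4722366764344621924352 0 fun z139 =>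
  sqrtK z139 fun z140 =>
  addcK z140 4722366764344621924352 0 fun z141 =>
  smulK z141 4722366623607133569024 fun z142 =>
  sqrtK z142 fun z143 =>
  invK z143 fun z144 =>
  mulK z128 z144 fun z156 =>
  addK z156 z135 fun z158 =>
  smulK z158 4722366623607133569024 fun z159 =>
  addK z143 z134 fun z157 =>
  sqrK z157 fun z160 =>
  sqrK z159 fun z161 =>
  mulK z481 z161 fun z162 =>
  subK z160 z162 fun z163 =>
  invK z163 fun z164 =>
  mulK z159 z164 fun z166 =>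
  addK z147 z166 fun z168 =>
  mulK z77 z168 fun z385 =>
  mulK z195 z137 fun z203 =>
  rsubK z203 4722366764344621924352 0 fun z204 =>
  sqrtK z204 fun z205 =>
  addcK z205 4722366764344621924352 0 fun z206 =>
  smulK z206 4722366623607133569024 fun z207 =>
  sqrtK z207 fun z208 =>
  invK z208 fun z209 =>
  mulK z128 z209 fun z221 =>
  addK z221 z201 fun z223 =>
  smulK z223 4722366623607133569024 fun z224 =>
  a_B7 gs ps x1 z7 z44 z52 z435 z92 z94 z436 z438 z120 z37 z66 z33 z42 z77 z481 z105 z108 z147 z43 z195 z200 z202 z212 z89 z497 z489 z440 z129 z509 z140 z143 z156 z157 z164 z166 z385 z205 z208 z221 z224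

def a_R6 (gs ps : ℕ) (W z7 z44 z52 z435 z92 z94 z436 z438 z120 z37 z66 z33 z42 z77 z481 z134 z135 z105 z108 z128 z147 z43 z195 z200 z201 z202 z212 z89 z497 z489 z440 z129 : ℝ) : Prop :=
  letR (z120 * z129) fun z441 =>
  letR z441 fun z509 =>
  letR (z128 ^ 2) fun z137 =>
  letR (z481 * z137) fun z138 =>
  letR ((1 : ℝ) - z138) fun z139 =>
  letR (√z139) fun z140 =>
  letR (z140 + (1 : ℝ)) fun z141 =>
  letR ((1 / 2 : ℝ) * z141) fun z142 =>
  letR (√z142) fun z143 =>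
  invR z143 fun z144 =>
  letR (z128 * z144) fun z156 =>
  letR (z156 + z135) fun z158 =>
  letR ((1 / 2 : ℝ) * z158) fun z159 =>
  letR (z143 + z134) fun z157 =>
  letR (z157 ^ 2) fun z160 =>
  letR (z159 ^ 2) fun z161 =>
  letR (z481 * z161) fun z162 =>
  letR (z160 - z162) fun z163 =>
  invR z163 fun z164 =>
  letR (z159 * z164) fun z166 =>
  letR (z147 + z166) fun z168 =>
  letR (z77 * z168) fun z385 =>
  letR (z195 * z137) fun z203 =>
  letR ((1 : ℝ) - z203) fun z204 =>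
  letR (√z204) fun z205 =>
  letR (z205 + (1 : ℝ)) fun z206 =>
  letR ((1 / 2 : ℝ) * z206) fun z207 =>
  letR (√z207) fun z208 =>
  invR z208 fun z209 =>
  letR (z128 * z209) fun z221 =>
  letR (z221 + z201) fun z223 =>
  letR ((1 / 2 : ℝ) * z223) fun z224 =>
  a_R7 gs ps W z7 z44 z52 z435 z92 z94 z436 z438 z120 z37 z66 z33 z42 z77 z481 z105 z108 z147 z43 z195 z200 z202 z212 z89 z497 z489 z440 z129 z509 z140 z143 z156 z157 z164 z166 z385 z205 z208 z221 z224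

theorem a_S6 {ε : Fin 4 → ℝ} (gs : ℕ) (hε : ∀ i, |ε i| ≤ 1) (ps : ℕ) (x1 z7 z44 z52 z435 z92 z94 z436 z438 z120 z37 z66 z33 z42 z77 z481 z134 z135 z105 z108 z128 z147 z43 z195 z200 z201 z202 z212 z89 z497 z489 z440 z129 : AF) (W t7 t44 t52 t435 t92 t94 t436 t438 t120 t37 t66 t33 t42 t77 t481 t134 t135 t105 t108 t128 t147 t43 t195 t200 t201 t202 t212 t89 t497 t489 t440 t129 : ℝ)
    (h1 : Rel ε x1 W) (g7 : Rel ε z7 t7) (g44 : Rel ε z44 t44) (g52 : Rel ε z52 t52) (g435 : Rel ε z435 t435) (g92 : Rel ε z92 t92) (g94 : Rel ε z94 t94) (g436 : Rel ε z436 t436) (g438 : Rel ε z438 t438) (g120 : Rel ε z120 t120) (g37 : Rel ε z37 t37) (g66 : Rel ε z66 t66) (g33 : Rel ε z33 t33) (g42 : Rel ε z42 t42) (g77 : Rel ε z77 t77) (g481 : Rel ε z481 t481) (g134 : Rel ε z134 t134) (g135 : Rel ε z135 t135) (g105 : Rel ε z105 t105) (g108 : Rel ε z108 t108) (g128 : Rel ε z128 t128) (g147 : Rel ε z147 t147) (g43 : Rel ε z43 t43)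 (g195 : Rel ε z195 t195) (g200 : Rel ε z200 t200) (g201 : Rel ε z201 t201) (g202 : Rel ε z202 t202) (g212 : Rel ε z212 t212) (g89 : Rel ε z89 t89) (g497 : Rel ε z497 t497) (g489 : Rel ε z489 t489) (g440 : Rel ε z440 t440) (g129 : Rel ε z129 t129) :
    a_B6 gs ps x1 z7 z44 z52 z435 z92 z94 z436 z438 z120 z37 z66 z33 z42 z77 z481 z134 z135 z105 z108 z128 z147 z43 z195 z200 z201 z202 z212 z89 z497 z489 z440 z129 = true → a_R6 gs ps W t7 t44 t52 t435 t92 t94 t436 t438 t120 t37 t66 t33 t42 t77 t481 t134 t135 t105 t108 t128 t147 t43 t195 t200 t201 t202 t212 t89 t497 t489 t440 t129 := by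
  delta a_B6 a_R6
  exact mulS hε g120 g129 fun z441 t441 g441 =>
  normS g441 fun z509 t509 g509 =>
  sqrS hε g128 fun z137 t137 g137 =>
  mulS hε g481 g137 fun z138 t138 g138 =>
  rsubS g138 k4 fun z139 t139 g139 =>
  sqrtS hε g139 fun z140 t140 g140 =>
  addcS g140 k4 fun z141 t141 g141 =>
  smulS hε g141 k7 fun z142 t142 g142 =>
  sqrtS hε g142 fun z143 t143 g143 =>
  invS hε g143 fun z144 t144 g144 =>
  mulS hε g128 g144 fun z156 t156 g156 =>
  addS g156 g135 fun z158 t158 g158 =>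
  smulS hε g158 k7 fun z159 t159 g159 =>
  addS g143 g134 fun z157 t157 g157 =>
  sqrS hε g157 fun z160 t160 g160 =>
  sqrS hε g159 fun z161 t161 g161 =>
  mulS hε g481 g161 fun z162 t162 g162 =>
  subS g160 g162 fun z163 t163 g163 =>
  invS hε g163 fun z164 t164 g164 =>
  mulS hε g159 g164 fun z166 t166 g166 =>
  addS g147 g166 fun z168 t168 g168 =>
  mulS hε g77 g168 fun z385 t385 g385 =>
  mulS hε g195 g137 fun z203 t203 g203 =>
  rsubS g203 k4 fun z204 t204 g204 =>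
  sqrtS hε g204 fun z205 t205 g205 =>
  addcS g205 k4 fun z206 t206 g206 =>
  smulS hε g206 k7 fun z207 t207 g207 =>
  sqrtS hε g207 fun z208 t208 g208 =>
  invS hε g208 fun z209 t209 g209 =>
  mulS hε g128 g209 fun z221 t221 g221 =>
  addS g221 g201 fun z223 t223 g223 =>
  smulS hε g223 k7 fun z224 t224 g224 =>
  a_S7 gs hε ps x1 z7 z44 z52 z435 z92 z94 z436 z438 z120 z37 z66 z33 z42 z77 z481 z105 z108 z147 z43 z195 z200 z202 z212 z89 z497 z489 z440 z129 z509 z140 z143 z156 z157 z164 z166 z385 z205 z208 z221 z224 W t7 t44 t52 t435 t92 t94 t436 t438 t120 t37 t66 t33 t42 t77 t481 t105 t108 t147 t43 t195 t200 t202 t212 t89 t497 t489 t440 t129 t509 t140 t143 t156 t157 t164 t166 t385 t205 t208 t221 t224 h1 g7 g44 g52 g435 g92 g94 g436 g438 g120 g37 g66 g33 g42 g77 g481 g105 g108 g147 g43 g195 g200 g202 g212 g89 g497 g489 g440 g129 g509 g140 g143 g156 g157 g164 g166 g385 g205 g208 g221 g224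

def a_B5 (gs ps : ℕ) (x0 x1 z7 z44 z52 z435 z92 z94 z436 z438 z120 z439 z37 z66 z55 z33 z56 z42 z77 z481 z134 z135 z136 z105 z108 z487 z128 z147 z380 z43 : AF) : Bool :=
  mulK z43 z481 fun z195 =>
  rsubK z195 4722366764344621924352 0 fun z196 =>
  sqrtK z196 fun z197 =>
  addcK z197 4722366764344621924352 0 fun z198 =>
  smulK z198 4722366623607133569024 fun z199 =>
  sqrtK z199 fun z200 =>
  invK z200 fun z201 =>
  invK z197 fun z202 =>
  mulK z201 z202 fun z210 =>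
  mulK z210 z201 fun z213 =>
  smulK z200 4722367608769552056320 fun z214 =>
  addcK z214 4722367608769552056320 0 fun z215 =>
  invK z215 fun z216 =>
  rsubK z216 4722366623607133569024 0 fun z217 =>
  mulK z213 z217 fun z218 =>
  smulK z210 4722366342132156858368 fun z212 =>
  mulK z128 z212 fun z219 =>
  addK z218 z219 fun z220 =>
  mulK z43 z220 fun z381 =>
  subK z380 z381 fun z382 =>
  mulK z66 z56 fun z71 =>
  mulK x1 z55 fun z72 =>
  addcK z72 4722366764344621924352 0 fun z73 =>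
  mulK z33 z73 fun z74 =>
  addK z71 z74 fun z75 =>
  normK z75 fun z479 =>
  sqrtK z42 fun z89 =>
  mulK z479 z89 fun z372 =>
  normK z372 fun z497 =>
  mulK z134 z136 fun z146 =>
  normK z146 fun z489 =>
  mulK z128 z489 fun z178 =>
  addK z178 z147 fun z179 =>
  normK z179 fun z491 =>
  mulK z497 z491 fun z383 =>
  addK z382 z383 fun z384 =>
  normK z384 fun z499 =>
  mulK z439 z499 fun z440 =>
  mulK x0 z487 fun z129 =>
  a_B6 gs ps x1 z7 z44 z52 z435 z92 z94 z436 z438 z120 z37 z66 z33 z42 z77 z481 z134 z135 z105 z108 z128 z147 z43 z195 z200 z201 z202 z212 z89 z497 z489 z440 z129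

def a_R5 (gs ps : ℕ) (sg W z7 z44 z52 z435 z92 z94 z436 z438 z120 z439 z37 z66 z55 z33 z56 z42 z77 z481 z134 z135 z136 z105 z108 z487 z128 z147 z380 z43 : ℝ) : Prop :=
  letR (z43 * z481) fun z195 =>
  letR ((1 : ℝ) - z195) fun z196 =>
  letR (√z196) fun z197 =>
  letR (z197 + (1 : ℝ)) fun z198 =>
  letR ((1 / 2 : ℝ) * z198) fun z199 =>
  letR (√z199) fun z200 =>
  invR z200 fun z201 =>
  invR z197 fun z202 =>
  letR (z201 * z202) fun z210 =>
  letR (z210 * z201) fun z213 =>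
  letR ((4 : ℝ) * z200) fun z214 =>
  letR (z214 + (4 : ℝ)) fun z215 =>
  invR z215 fun z216 =>
  letR ((1 / 2 : ℝ) - z216) fun z217 =>
  letR (z213 * z217) fun z218 =>
  letR ((-1 / 2 : ℝ) * z210) fun z212 =>
  letR (z128 * z212) fun z219 =>
  letR (z218 + z219) fun z220 =>
  letR (z43 * z220) fun z381 =>
  letR (z380 - z381) fun z382 =>
  letR (z66 * z56) fun z71 =>
  letR (W * z55) fun z72 =>
  letR (z72 + (1 : ℝ)) fun z73 =>
  letR (z33 * z73) fun z74 =>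
  letR (z71 + z74) fun z75 =>
  letR z75 fun z479 =>
  letR (√z42) fun z89 =>
  letR (z479 * z89) fun z372 =>
  letR z372 fun z497 =>
  letR (z134 * z136) fun z146 =>
  letR z146 fun z489 =>
  letR (z128 * z489) fun z178 =>
  letR (z178 + z147) fun z179 =>
  letR z179 fun z491 =>
  letR (z497 * z491) fun z383 =>
  letR (z382 + z383) fun z384 =>
  letR z384 fun z499 =>
  letR (z439 * z499) fun z440 =>
  letR (sg * z487) fun z129 =>
  a_R6 gs ps W z7 z44 z52 z435 z92 z94 z436 z438 z120 z37 z66 z33 z42 z77 z481 z134 z135 z105 z108 z128 z147 z43 z195 z200 z201 z202 z212 z89 z497 z489 z440 z129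

theorem a_S5 {ε : Fin 4 → ℝ} (gs : ℕ) (hε : ∀ i, |ε i| ≤ 1) (ps : ℕ) (x0 x1 z7 z44 z52 z435 z92 z94 z436 z438 z120 z439 z37 z66 z55 z33 z56 z42 z77 z481 z134 z135 z136 z105 z108 z487 z128 z147 z380 z43 : AF) (sg W t7 t44 t52 t435 t92 t94 t436 t438 t120 t439 t37 t66 t55 t33 t56 t42 t77 t481 t134 t135 t136 t105 t108 t487 t128 t147 t380 t43 : ℝ)
    (h0 : Rel ε x0 sg) (h1 : Rel ε x1 W) (g7 : Rel ε z7 t7) (g44 : Rel ε z44 t44) (g52 : Rel ε z52 t52) (g435 : Rel ε z435 t435) (g92 : Rel ε z92 t92) (g94 : Rel ε z94 t94) (g436 : Rel ε z436 t436) (g438 : Rel ε z438 t438) (g120 : Rel ε z120 t120) (g439 : Rel ε z439 t439) (g37 : Rel ε z37 t37) (g66 : Rel ε z66 t66) (g55 : Rel ε z55 t55) (g33 : Rel ε z33 t33) (g56 : Rel ε z56 t56) (g42 : Rel ε z42 t42) (g77 : Rel ε z77 t77) (g481 : Rel ε z481 t481) (g134 : Rel ε z134 t134) (g135 : Rel ε z135 t135) (g136 : Rel ε z136 t136) (g105 : Rel ε z105 t105) (g108 : Rel ε z108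 t108) (g487 : Rel ε z487 t487) (g128 : Rel ε z128 t128) (g147 : Rel ε z147 t147) (g380 : Rel ε z380 t380) (g43 : Rel ε z43 t43) :
    a_B5 gs ps x0 x1 z7 z44 z52 z435 z92 z94 z436 z438 z120 z439 z37 z66 z55 z33 z56 z42 z77 z481 z134 z135 z136 z105 z108 z487 z128 z147 z380 z43 = true → a_R5 gs ps sg W t7 t44 t52 t435 t92 t94 t436 t438 t120 t439 t37 t66 t55 t33 t56 t42 t77 t481 t134 t135 t136 t105 t108 t487 t128 t147 t380 t43 := by
  delta a_B5 a_R5
  exact mulS hε g43 g481 fun z195 t195 g195 =>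
  rsubS g195 k4 fun z196 t196 g196 =>
  sqrtS hε g196 fun z197 t197 g197 =>
  addcS g197 k4 fun z198 t198 g198 =>
  smulS hε g198 k7 fun z199 t199 g199 =>
  sqrtS hε g199 fun z200 t200 g200 =>
  invS hε g200 fun z201 t201 g201 =>
  invS hε g197 fun z202 t202 g202 =>
  mulS hε g201 g202 fun z210 t210 g210 =>
  mulS hε g210 g201 fun z213 t213 g213 =>
  smulS hε g200 k8 fun z214 t214 g214 =>
  addcS g214 k9 fun z215 t215 g215 =>
  invS hε g215 fun z216 t216 g216 =>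
  rsubS g216 k10 fun z217 t217 g217 =>
  mulS hε g213 g217 fun z218 t218 g218 =>
  smulS hε g210 k11 fun z212 t212 g212 =>
  mulS hε g128 g212 fun z219 t219 g219 =>
  addS g218 g219 fun z220 t220 g220 =>
  mulS hε g43 g220 fun z381 t381 g381 =>
  subS g380 g381 fun z382 t382 g382 =>
  mulS hε g66 g56 fun z71 t71 g71 =>
  mulS hε h1 g55 fun z72 t72 g72 =>
  addcS g72 k4 fun z73 t73 g73 =>
  mulS hε g33 g73 fun z74 t74 g74 =>
  addS g71 g74 fun z75 t75 g75 =>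
  normS g75 fun z479 t479 g479 =>
  sqrtS hε g42 fun z89 t89 g89 =>
  mulS hε g479 g89 fun z372 t372 g372 =>
  normS g372 fun z497 t497 g497 =>
  mulS hε g134 g136 fun z146 t146 g146 =>
  normS g146 fun z489 t489 g489 =>
  mulS hε g128 g489 fun z178 t178 g178 =>
  addS g178 g147 fun z179 t179 g179 =>
  normS g179 fun z491 t491 g491 =>
  mulS hε g497 g491 fun z383 t383 g383 =>
  addS g382 g383 fun z384 t384 g384 =>
  normS g384 fun z499 t499 g499 =>
  mulS hε g439 g499 fun z440 t440 g440 =>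
  mulS hε h0 g487 fun z129 t129 g129 =>
  a_S6 gs hε ps x1 z7 z44 z52 z435 z92 z94 z436 z438 z120 z37 z66 z33 z42 z77 z481 z134 z135 z105 z108 z128 z147 z43 z195 z200 z201 z202 z212 z89 z497 z489 z440 z129 W t7 t44 t52 t435 t92 t94 t436 t438 t120 t37 t66 t33 t42 t77 t481 t134 t135 t105 t108 t128 t147 t43 t195 t200 t201 t202 t212 t89 t497 t489 t440 t129 h1 g7 g44 g52 g435 g92 g94 g436 g438 g120 g37 g66 g33 g42 g77 g481 g134 g135 g105 g108 g128 g147 g43 g195 g200 g201 g202 g212 g89 g497 g489 g440 g129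

def a_B4 (gs ps : ℕ) (x0 x1 x2 z7 z44 z52 z435 z92 z94 z436 z115 z438 z110 z120 z439 z37 z66 z55 z33 z56 z42 z373 z77 z481 z134 z135 z136 z145 z153 z105 : AF) : Bool :=
  mulK z105 x2 fun z107 =>
  normK z107 fun z484 =>
  addcK z484 4722366764344621924352 0 fun z108 =>
  mulK z110 z108 fun z121 =>
  addK z121 z105 fun z122 =>
  normK z122 fun z485 =>
  mulK z44 z485 fun z123 =>
  mulK z92 z110 fun z124 =>
  addK z123 z124 fun z125 =>
  normK z125 fun z486 =>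
  mulK z486 z115 fun z126 =>
  normK z126 fun z487 =>
  mulK x2 z487 fun z127 =>
  normK z127 fun z488 =>
  addcK z488 4722366764344621924352 0 fun z128 =>
  smulK z145 4722366342132156858368 fun z147 =>
  mulK z128 z147 fun z154 =>
  addK z153 z154 fun z155 =>
  mulK z77 z155 fun z379 =>
  addK z373 z379 fun z380 =>
  parK gs 0 fun z8 =>
  sqrK z8 fun z43 =>
  a_B5 gs ps x0 x1 z7 z44 z52 z435 z92 z94 z436 z438 z120 z439 z37 z66 z55 z33 z56 z42 z77 z481 z134 z135 z136 z105 z108 z487 z128 z147 z380 z43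

def a_R4 (gs ps : ℕ) (sg W e z7 z44 z52 z435 z92 z94 z436 z115 z438 z110 z120 z439 z37 z66 z55 z33 z56 z42 z373 z77 z481 z134 z135 z136 z145 z153 z105 : ℝ) : Prop :=
  letR (z105 * e) fun z107 =>
  letR z107 fun z484 =>
  letR (z484 + (1 : ℝ)) fun z108 =>
  letR (z110 * z108) fun z121 =>
  letR (z121 + z105) fun z122 =>
  letR z122 fun z485 =>
  letR (z44 * z485) fun z123 =>
  letR (z92 * z110) fun z124 =>
  letR (z123 + z124) fun z125 =>
  letR z125 fun z486 =>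
  letR (z486 * z115) fun z126 =>
  letR z126 fun z487 =>
  letR (e * z487) fun z127 =>
  letR z127 fun z488 =>
  letR (z488 + (1 : ℝ)) fun z128 =>
  letR ((-1 / 2 : ℝ) * z145) fun z147 =>
  letR (z128 * z147) fun z154 =>
  letR (z153 + z154) fun z155 =>
  letR (z77 * z155) fun z379 =>
  letR (z373 + z379) fun z380 =>
  letR (parV gs 0) fun z8 =>
  letR (z8 ^ 2) fun z43 =>
  a_R5 gs ps sg W z7 z44 z52 z435 z92 z94 z436 z438 z120 z439 z37 z66 z55 z33 z56 z42 z77 z481 z134 z135 z136 z105 z108 z487 z128 z147 z380 z43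

theorem a_S4 {ε : Fin 4 → ℝ} (gs : ℕ) (hε : ∀ i, |ε i| ≤ 1) (ps : ℕ) (x0 x1 x2 z7 z44 z52 z435 z92 z94 z436 z115 z438 z110 z120 z439 z37 z66 z55 z33 z56 z42 z373 z77 z481 z134 z135 z136 z145 z153 z105 : AF) (sg W e t7 t44 t52 t435 t92 t94 t436 t115 t438 t110 t120 t439 t37 t66 t55 t33 t56 t42 t373 t77 t481 t134 t135 t136 t145 t153 t105 : ℝ)
    (h0 : Rel ε x0 sg) (h1 : Rel ε x1 W) (h2 : Rel ε x2 e) (g7 : Rel ε z7 t7) (g44 : Rel ε z44 t44) (g52 : Rel ε z52 t52) (g435 : Rel ε z435 t435) (g92 : Rel ε z92 t92) (g94 : Rel ε z94 t94) (g436 : Rel ε z436 t436) (g115 : Rel ε z115 t115) (g438 : Rel ε z438 t438) (g110 : Rel ε z110 t110) (g120 : Rel ε z120 t120) (g439 : Rel ε z439 t439) (g37 : Rel ε z37 t37) (g66 : Rel ε z66 t66) (g55 : Rel ε z55 t55) (g33 : Rel ε z33 t33) (g56 : Rel ε z56 t56) (g42 : Rel ε z42 t42) (g373 : Rel ε z373 t373) (g77 : Rel ε z77 t77) (g481 : Rel ε z481 t481) (g134 : Rel ε z134 t134) (g135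 : Rel ε z135 t135) (g136 : Rel ε z136 t136) (g145 : Rel ε z145 t145) (g153 : Rel ε z153 t153) (g105 : Rel ε z105 t105) :
    a_B4 gs ps x0 x1 x2 z7 z44 z52 z435 z92 z94 z436 z115 z438 z110 z120 z439 z37 z66 z55 z33 z56 z42 z373 z77 z481 z134 z135 z136 z145 z153 z105 = true → a_R4 gs ps sg W e t7 t44 t52 t435 t92 t94 t436 t115 t438 t110 t120 t439 t37 t66 t55 t33 t56 t42 t373 t77 t481 t134 t135 t136 t145 t153 t105 := by
  delta a_B4 a_R4
  exact mulS hε g105 h2 fun z107 t107 g107 =>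
  normS g107 fun z484 t484 g484 =>
  addcS g484 k4 fun z108 t108 g108 =>
  mulS hε g110 g108 fun z121 t121 g121 =>
  addS g121 g105 fun z122 t122 g122 =>
  normS g122 fun z485 t485 g485 =>
  mulS hε g44 g485 fun z123 t123 g123 =>
  mulS hε g92 g110 fun z124 t124 g124 =>
  addS g123 g124 fun z125 t125 g125 =>
  normS g125 fun z486 t486 g486 =>
  mulS hε g486 g115 fun z126 t126 g126 =>
  normS g126 fun z487 t487 g487 =>
  mulS hε h2 g487 fun z127 t127 g127 =>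
  normS g127 fun z488 t488 g488 =>
  addcS g488 k4 fun z128 t128 g128 =>
  smulS hε g145 k11 fun z147 t147 g147 =>
  mulS hε g128 g147 fun z154 t154 g154 =>
  addS g153 g154 fun z155 t155 g155 =>
  mulS hε g77 g155 fun z379 t379 g379 =>
  addS g373 g379 fun z380 t380 g380 =>
  parS fun z8 t8 g8 =>
  sqrS hε g8 fun z43 t43 g43 =>
  a_S5 gs hε ps x0 x1 z7 z44 z52 z435 z92 z94 z436 z438 z120 z439 z37 z66 z55 z33 z56 z42 z77 z481 z134 z135 z136 z105 z108 z487 z128 z147 z380 z43 sg W t7 t44 t52 t435 t92 t94 t436 t438 t120 t439 t37 t66 t55 t33 t56 t42 t77 t481 t134 t135 t136 t105 t108 t487 t128 t147 t380 t43 h0 h1 g7 g44 g52 g435 g92 g94 g436 g438 g120 g439 g37 g66 g55 g33 g56 g42 g77 g481 g134 g135 g136 g105 g108 g487 g128 g147 g380 g43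

def a_B3 (gs ps : ℕ) (x0 x1 x2 z3 z4 z5 z6 z7 z44 z52 z435 z92 z94 z436 z115 z438 z110 z120 z439 z37 z66 z55 z68 z33 : AF) : Bool :=
  addcK z55 4722366764344621924352 0 fun z56 =>
  mulK z33 z56 fun z69 =>
  addK z68 z69 fun z70 =>
  normK z70 fun z478 =>
  parK gs 7 fun z15 =>
  parK gs 8 fun z16 =>
  mulK z16 x0 fun z38 =>
  addK z15 z38 fun z39 =>
  parK gs 9 fun z17 =>
  mulK z17 x1 fun z40 =>
  addK z39 z40 fun z41 =>
  rsubK z41 4722366764344621924352 0 fun z42 =>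
  mulK z478 z42 fun z373 =>
  mulK x1 z478 fun z76 =>
  addcK z76 4722366764344621924352 0 fun z77 =>
  invK z42 fun z90 =>
  mulK x1 z90 fun z91 =>
  normK z91 fun z481 =>
  rsubK z481 4722366764344621924352 0 fun z130 =>
  sqrtK z130 fun z131 =>
  addcK z131 4722366764344621924352 0 fun z132 =>
  smulK z132 4722366623607133569024 fun z133 =>
  sqrtK z133 fun z134 =>
  invK z134 fun z135 =>
  invK z131 fun z136 =>
  mulK z135 z136 fun z145 =>
  mulK z145 z135 fun z148 =>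
  smulK z134 4722367608769552056320 fun z149 =>
  addcK z149 4722367608769552056320 0 fun z150 =>
  invK z150 fun z151 =>
  rsubK z151 4722366623607133569024 0 fun z152 =>
  mulK z148 z152 fun z153 =>
  mulK z4 x0 fun z100 =>
  addK z3 z100 fun z101 =>
  mulK z5 x1 fun z102 =>
  addK z101 z102 fun z103 =>
  mulK z6 x2 fun z104 =>
  addK z103 z104 fun z105 =>
  a_B4 gs ps x0 x1 x2 z7 z44 z52 z435 z92 z94 z436 z115 z438 z110 z120 z439 z37 z66 z55 z33 z56 z42 z373 z77 z481 z134 z135 z136 z145 z153 z105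

def a_R3 (gs ps : ℕ) (sg W e z3 z4 z5 z6 z7 z44 z52 z435 z92 z94 z436 z115 z438 z110 z120 z439 z37 z66 z55 z68 z33 : ℝ) : Prop :=
  letR (z55 + (1 : ℝ)) fun z56 =>
  letR (z33 * z56) fun z69 =>
  letR (z68 + z69) fun z70 =>
  letR z70 fun z478 =>
  letR (parV gs 7) fun z15 =>
  letR (parV gs 8) fun z16 =>
  letR (z16 * sg) fun z38 =>
  letR (z15 + z38) fun z39 =>
  letR (parV gs 9) fun z17 =>
  letR (z17 * W) fun z40 =>
  letR (z39 + z40) fun z41 =>
  letR ((1 : ℝ) - z41) fun z42 =>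
  letR (z478 * z42) fun z373 =>
  letR (W * z478) fun z76 =>
  letR (z76 + (1 : ℝ)) fun z77 =>
  invR z42 fun z90 =>
  letR (W * z90) fun z91 =>
  letR z91 fun z481 =>
  letR ((1 : ℝ) - z481) fun z130 =>
  letR (√z130) fun z131 =>
  letR (z131 + (1 : ℝ)) fun z132 =>
  letR ((1 / 2 : ℝ) * z132) fun z133 =>
  letR (√z133) fun z134 =>
  invR z134 fun z135 =>
  invR z131 fun z136 =>
  letR (z135 * z136) fun z145 =>
  letR (z145 * z135) fun z148 =>
  letR ((4 : ℝ) * z134) fun z149 =>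
  letR (z149 + (4 : ℝ)) fun z150 =>
  invR z150 fun z151 =>
  letR ((1 / 2 : ℝ) - z151) fun z152 =>
  letR (z148 * z152) fun z153 =>
  letR (z4 * sg) fun z100 =>
  letR (z3 + z100) fun z101 =>
  letR (z5 * W) fun z102 =>
  letR (z101 + z102) fun z103 =>
  letR (z6 * e) fun z104 =>
  letR (z103 + z104) fun z105 =>
  a_R4 gs ps sg W e z7 z44 z52 z435 z92 z94 z436 z115 z438 z110 z120 z439 z37 z66 z55 z33 z56 z42 z373 z77 z481 z134 z135 z136 z145 z153 z105

theorem a_S3 {ε : Fin 4 → ℝ} (gs : ℕ) (hε : ∀ i, |ε i| ≤ 1) (ps : ℕ) (x0 x1 x2 z3 z4 z5 z6 z7 z44 z52 z435 z92 z94 z436 z115 z438 z110 z120 z439 z37 z66 z55 z68 z33 : AF) (sg W e t3 t4 t5 t6 t7 t44 t52 t435 t92 t94 t436 t115 t438 t110 t120 t439 t37 t66 t55 t68 t33 : ℝ)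
    (h0 : Rel ε x0 sg) (h1 : Rel ε x1 W) (h2 : Rel ε x2 e) (g3 : Rel ε z3 t3) (g4 : Rel ε z4 t4) (g5 : Rel ε z5 t5) (g6 : Rel ε z6 t6) (g7 : Rel ε z7 t7) (g44 : Rel ε z44 t44) (g52 : Rel ε z52 t52) (g435 : Rel ε z435 t435) (g92 : Rel ε z92 t92) (g94 : Rel ε z94 t94) (g436 : Rel ε z436 t436) (g115 : Rel ε z115 t115) (g438 : Rel ε z438 t438) (g110 : Rel ε z110 t110) (g120 : Rel ε z120 t120) (g439 : Rel ε z439 t439) (g37 : Rel ε z37 t37) (g66 : Rel ε z66 t66) (g55 : Rel ε z55 t55) (g68 : Rel ε z68 t68) (g33 : Rel ε z33 t33) :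
    a_B3 gs ps x0 x1 x2 z3 z4 z5 z6 z7 z44 z52 z435 z92 z94 z436 z115 z438 z110 z120 z439 z37 z66 z55 z68 z33 = true → a_R3 gs ps sg W e t3 t4 t5 t6 t7 t44 t52 t435 t92 t94 t436 t115 t438 t110 t120 t439 t37 t66 t55 t68 t33 := by
  delta a_B3 a_R3
  exact addcS g55 k4 fun z56 t56 g56 =>
  mulS hε g33 g56 fun z69 t69 g69 =>
  addS g68 g69 fun z70 t70 g70 =>
  normS g70 fun z478 t478 g478 =>
  parS fun z15 t15 g15 =>
  parS fun z16 t16 g16 =>
  mulS hε g16 h0 fun z38 t38 g38 =>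
  addS g15 g38 fun z39 t39 g39 =>
  parS fun z17 t17 g17 =>
  mulS hε g17 h1 fun z40 t40 g40 =>
  addS g39 g40 fun z41 t41 g41 =>
  rsubS g41 k4 fun z42 t42 g42 =>
  mulS hε g478 g42 fun z373 t373 g373 =>
  mulS hε h1 g478 fun z76 t76 g76 =>
  addcS g76 k4 fun z77 t77 g77 =>
  invS hε g42 fun z90 t90 g90 =>
  mulS hε h1 g90 fun z91 t91 g91 =>
  normS g91 fun z481 t481 g481 =>
  rsubS g481 k4 fun z130 t130 g130 =>
  sqrtS hε g130 fun z131 t131 g131 =>
  addcS g131 k4 fun z132 t132 g132 =>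
  smulS hε g132 k7 fun z133 t133 g133 =>
  sqrtS hε g133 fun z134 t134 g134 =>
  invS hε g134 fun z135 t135 g135 =>
  invS hε g131 fun z136 t136 g136 =>
  mulS hε g135 g136 fun z145 t145 g145 =>
  mulS hε g145 g135 fun z148 t148 g148 =>
  smulS hε g134 k8 fun z149 t149 g149 =>
  addcS g149 k9 fun z150 t150 g150 =>
  invS hε g150 fun z151 t151 g151 =>
  rsubS g151 k10 fun z152 t152 g152 =>
  mulS hε g148 g152 fun z153 t153 g153 =>
  mulS hε g4 h0 fun z100 t100 g100 =>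
  addS g3 g100 fun z101 t101 g101 =>
  mulS hε g5 h1 fun z102 t102 g102 =>
  addS g101 g102 fun z103 t103 g103 =>
  mulS hε g6 h2 fun z104 t104 g104 =>
  addS g103 g104 fun z105 t105 g105 =>
  a_S4 gs hε ps x0 x1 x2 z7 z44 z52 z435 z92 z94 z436 z115 z438 z110 z120 z439 z37 z66 z55 z33 z56 z42 z373 z77 z481 z134 z135 z136 z145 z153 z105 sg W e t7 t44 t52 t435 t92 t94 t436 t115 t438 t110 t120 t439 t37 t66 t55 t33 t56 t42 t373 t77 t481 t134 t135 t136 t145 t153 t105 h0 h1 h2 g7 g44 g52 g435 g92 g94 g436 g115 g438 g110 g120 g439 g37 g66 g55 g33 g56 g42 g373 g77 g481 g134 g135 g136 g145 g153 g105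

def a_B2 (gs ps : ℕ) (x0 x1 x2 z3 z4 z5 z6 z7 z44 z47 z52 z435 z92 z94 z436 z115 z438 z110 z120 : AF) : Bool :=
  sqrK z120 fun z439 =>
  parK gs 4 fun z12 =>
  parK gs 5 fun z13 =>
  mulK z13 x0 fun z34 =>
  addK z12 z34 fun z35 =>
  parK gs 6 fun z14 =>
  mulK z14 x1 fun z36 =>
  addK z35 z36 fun z37 =>
  mulK x1 z37 fun z65 =>
  addcK z65 4722366764344621924352 0 fun z66 =>
  invK z47 fun z51 =>
  mulK (cst 4722367017672100963942 1) z51 fun z54 =>
  rsubK z54 4722366764344621924352 0 fun z55 =>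
  mulK z66 z55 fun z67 =>
  addK z37 z67 fun z68 =>
  parK gs 1 fun z9 =>
  parK gs 2 fun z10 =>
  mulK z10 x0 fun z30 =>
  addK z9 z30 fun z31 =>
  parK gs 3 fun z11 =>
  mulK z11 x1 fun z32 =>
  addK z31 z32 fun z33 =>
  a_B3 gs ps x0 x1 x2 z3 z4 z5 z6 z7 z44 z52 z435 z92 z94 z436 z115 z438 z110 z120 z439 z37 z66 z55 z68 z33

def a_R2 (gs ps : ℕ) (sg W e z3 z4 z5 z6 z7 z44 z47 z52 z435 z92 z94 z436 z115 z438 z110 z120 : ℝ) : Prop :=
  letR (z120 ^ 2) fun z439 =>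
  letR (parV gs 4) fun z12 =>
  letR (parV gs 5) fun z13 =>
  letR (z13 * sg) fun z34 =>
  letR (z12 + z34) fun z35 =>
  letR (parV gs 6) fun z14 =>
  letR (z14 * W) fun z36 =>
  letR (z35 + z36) fun z37 =>
  letR (W * z37) fun z65 =>
  letR (z65 + (1 : ℝ)) fun z66 =>
  invR z47 fun z51 =>
  letR ((19 / 10 : ℝ) * z51) fun z54 =>
  letR ((1 : ℝ) - z54) fun z55 =>
  letR (z66 * z55) fun z67 =>
  letR (z37 + z67) fun z68 =>
  letR (parV gs 1) fun z9 =>
  letR (parV gs 2) fun z10 =>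
  letR (z10 * sg) fun z30 =>
  letR (z9 + z30) fun z31 =>
  letR (parV gs 3) fun z11 =>
  letR (z11 * W) fun z32 =>
  letR (z31 + z32) fun z33 =>
  a_R3 gs ps sg W e z3 z4 z5 z6 z7 z44 z52 z435 z92 z94 z436 z115 z438 z110 z120 z439 z37 z66 z55 z68 z33

theorem a_S2 {ε : Fin 4 → ℝ} (gs : ℕ) (hε : ∀ i, |ε i| ≤ 1) (ps : ℕ) (x0 x1 x2 z3 z4 z5 z6 z7 z44 z47 z52 z435 z92 z94 z436 z115 z438 z110 z120 : AF) (sg W e t3 t4 t5 t6 t7 t44 t47 t52 t435 t92 t94 t436 t115 t438 t110 t120 : ℝ)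
    (h0 : Rel ε x0 sg) (h1 : Rel ε x1 W) (h2 : Rel ε x2 e) (g3 : Rel ε z3 t3) (g4 : Rel ε z4 t4) (g5 : Rel ε z5 t5) (g6 : Rel ε z6 t6) (g7 : Rel ε z7 t7) (g44 : Rel ε z44 t44) (g47 : Rel ε z47 t47) (g52 : Rel ε z52 t52) (g435 : Rel ε z435 t435) (g92 : Rel ε z92 t92) (g94 : Rel ε z94 t94) (g436 : Rel ε z436 t436) (g115 : Rel ε z115 t115) (g438 : Rel ε z438 t438) (g110 : Rel ε z110 t110) (g120 : Rel ε z120 t120) :
    a_B2 gs ps x0 x1 x2 z3 z4 z5 z6 z7 z44 z47 z52 z435 z92 z94 z436 z115 z438 z110 z120 = true → a_R2 gs ps sg W e t3 t4 t5 t6 t7 t44 t47 t52 t435 t92 t94 t436 t115 t438 t110 t120 := by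
  delta a_B2 a_R2
  exact sqrS hε g120 fun z439 t439 g439 =>
  parS fun z12 t12 g12 =>
  parS fun z13 t13 g13 =>
  mulS hε g13 h0 fun z34 t34 g34 =>
  addS g12 g34 fun z35 t35 g35 =>
  parS fun z14 t14 g14 =>
  mulS hε g14 h1 fun z36 t36 g36 =>
  addS g35 g36 fun z37 t37 g37 =>
  mulS hε h1 g37 fun z65 t65 g65 =>
  addcS g65 k4 fun z66 t66 g66 =>
  invS hε g47 fun z51 t51 g51 =>
  mulS hε (cst_rel k2) g51 fun z54 t54 g54 =>
  rsubS g54 k4 fun z55 t55 g55 =>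
  mulS hε g66 g55 fun z67 t67 g67 =>
  addS g37 g67 fun z68 t68 g68 =>
  parS fun z9 t9 g9 =>
  parS fun z10 t10 g10 =>
  mulS hε g10 h0 fun z30 t30 g30 =>
  addS g9 g30 fun z31 t31 g31 =>
  parS fun z11 t11 g11 =>
  mulS hε g11 h1 fun z32 t32 g32 =>
  addS g31 g32 fun z33 t33 g33 =>
  a_S3 gs hε ps x0 x1 x2 z3 z4 z5 z6 z7 z44 z52 z435 z92 z94 z436 z115 z438 z110 z120 z439 z37 z66 z55 z68 z33 sg W e t3 t4 t5 t6 t7 t44 t52 t435 t92 t94 t436 t115 t438 t110 t120 t439 t37 t66 t55 t68 t33 h0 h1 h2 g3 g4 g5 g6 g7 g44 g52 g435 g92 g94 g436 g115 g438 g110 g120 g439 g37 g66 g55 g68 g33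

def a_B1 (gs ps : ℕ) (x0 x1 x2 z3 z4 z5 z6 z7 z19 z44 z47 z52 z435 z466 z92 : AF) : Bool :=
  sqrtK z92 fun z94 =>
  addcK x2 4722366764344621924352 0 fun z109 =>
  mulK z94 z109 fun z436 =>
  sqrK z109 fun z111 =>
  mulK z92 z111 fun z112 =>
  rsubK z112 4722366764344621924352 0 fun z113 =>
  sqrtK z113 fun z114 =>
  mulK z436 z114 fun z437 =>
  normK z437 fun z508 =>
  invK z113 fun z115 =>
  mulK z508 z115 fun z438 =>
  sqrK z438 fun z467 =>
  mulK z467 z438 fun z468 =>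
  mulK z466 z468 fun z469 =>
  addK z19 z469 fun z470 =>
  subK z470 z7 fun z472 =>
  posK z472 <|
  addcK x2 4722367045819598635008 0 fun z110 =>
  mulK z110 z92 fun z116 =>
  addK z114 x0 fun z117 =>
  invK z117 fun z118 =>
  mulK z116 z118 fun z119 =>
  rsubK z119 4722366482869645213696 0 fun z120 =>
  a_B2 gs ps x0 x1 x2 z3 z4 z5 z6 z7 z44 z47 z52 z435 z92 z94 z436 z115 z438 z110 z120

def a_R1 (gs ps : ℕ) (sg W e z3 z4 z5 z6 z7 z19 z44 z47 z52 z435 z466 z92 : ℝ) : Prop :=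
  letR (√z92) fun z94 =>
  letR (e + (1 : ℝ)) fun z109 =>
  letR (z94 * z109) fun z436 =>
  letR (z109 ^ 2) fun z111 =>
  letR (z92 * z111) fun z112 =>
  letR ((1 : ℝ) - z112) fun z113 =>
  letR (√z113) fun z114 =>
  letR (z436 * z114) fun z437 =>
  letR z437 fun z508 =>
  invR z113 fun z115 =>
  letR (z508 * z115) fun z438 =>
  letR (z438 ^ 2) fun z467 =>
  letR (z467 * z438) fun z468 =>
  letR (z466 * z468) fun z469 =>
  letR (z19 + z469) fun z470 =>
  letR (z470 - z7) fun z472 =>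
  posR z472 <|
  letR (e + (2 : ℝ)) fun z110 =>
  letR (z110 * z92) fun z116 =>
  letR (z114 + sg) fun z117 =>
  invR z117 fun z118 =>
  letR (z116 * z118) fun z119 =>
  letR ((0 : ℝ) - z119) fun z120 =>
  a_R2 gs ps sg W e z3 z4 z5 z6 z7 z44 z47 z52 z435 z92 z94 z436 z115 z438 z110 z120

theorem a_S1 {ε : Fin 4 → ℝ} (gs : ℕ) (hε : ∀ i, |ε i| ≤ 1) (ps : ℕ) (x0 x1 x2 z3 z4 z5 z6 z7 z19 z44 z47 z52 z435 z466 z92 : AF) (sg W e t3 t4 t5 t6 t7 t19 t44 t47 t52 t435 t466 t92 : ℝ)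
    (h0 : Rel ε x0 sg) (h1 : Rel ε x1 W) (h2 : Rel ε x2 e) (g3 : Rel ε z3 t3) (g4 : Rel ε z4 t4) (g5 : Rel ε z5 t5) (g6 : Rel ε z6 t6) (g7 : Rel ε z7 t7) (g19 : Rel ε z19 t19) (g44 : Rel ε z44 t44) (g47 : Rel ε z47 t47) (g52 : Rel ε z52 t52) (g435 : Rel ε z435 t435) (g466 : Rel ε z466 t466) (g92 : Rel ε z92 t92) :
    a_B1 gs ps x0 x1 x2 z3 z4 z5 z6 z7 z19 z44 z47 z52 z435 z466 z92 = true → a_R1 gs ps sg W e t3 t4 t5 t6 t7 t19 t44 t47 t52 t435 t466 t92 := by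
  delta a_B1 a_R1
  exact sqrtS hε g92 fun z94 t94 g94 =>
  addcS h2 k4 fun z109 t109 g109 =>
  mulS hε g94 g109 fun z436 t436 g436 =>
  sqrS hε g109 fun z111 t111 g111 =>
  mulS hε g92 g111 fun z112 t112 g112 =>
  rsubS g112 k4 fun z113 t113 g113 =>
  sqrtS hε g113 fun z114 t114 g114 =>
  mulS hε g436 g114 fun z437 t437 g437 =>
  normS g437 fun z508 t508 g508 =>
  invS hε g113 fun z115 t115 g115 =>
  mulS hε g508 g115 fun z438 t438 g438 =>
  sqrS hε g438 fun z467 t467 g467 =>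
  mulS hε g467 g438 fun z468 t468 g468 =>
  mulS hε g466 g468 fun z469 t469 g469 =>
  addS g19 g469 fun z470 t470 g470 =>
  subS g470 g7 fun z472 t472 g472 =>
  posS hε g472 <|
  addcS h2 k5 fun z110 t110 g110 =>
  mulS hε g110 g92 fun z116 t116 g116 =>
  addS g114 h0 fun z117 t117 g117 =>
  invS hε g117 fun z118 t118 g118 =>
  mulS hε g116 g118 fun z119 t119 g119 =>
  rsubS g119 k6 fun z120 t120 g120 =>
  a_S2 gs hε ps x0 x1 x2 z3 z4 z5 z6 z7 z44 z47 z52 z435 z92 z94 z436 z115 z438 z110 z120 sg W e t3 t4 t5 t6 t7 t44 t47 t52 t435 t92 t94 t436 t115 t438 t110 t120 h0 h1 h2 g3 g4 g5 g6 g7 g44 g47 g52 g435 g92 g94 g436 g115 g438 g110 g120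

def a_B (gs ps : ℕ) (x0 x1 x2 x3 : AF) : Bool :=
  parK ps 0 fun z3 =>
  parK ps 1 fun z4 =>
  parK ps 2 fun z5 =>
  parK ps 3 fun z6 =>
  parK ps 4 fun z7 =>
  addcK z7 4722366482594767306752 0 fun z471 =>
  posK z471 <|
  parK gs 11 fun z19 =>
  sqrK x0 fun z44 =>
  mulK (cst 4722366736197124253286 1) z44 fun z46 =>
  rsubK z46 4722367017672100963942 1 fun z47 =>
  mulK x0 z47 fun z434 =>
  normK z434 fun z507 =>
  addcK z46 4722366511017142884761 1 fun z48 =>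
  mulK z44 z48 fun z49 =>
  rsubK z49 4722366764344621924352 0 fun z50 =>
  invK z50 fun z52 =>
  mulK z507 z52 fun z435 =>
  mulK z435 x0 fun z465 =>
  parK gs 10 fun z18 =>
  mulK z465 z18 fun z466 =>
  rsubK z44 4722366764344621924352 0 fun z92 =>
  a_B1 gs ps x0 x1 x2 z3 z4 z5 z6 z7 z19 z44 z47 z52 z435 z466 z92

def a_R (gs ps : ℕ) (sg W e u3 : ℝ) : Prop :=
  letR (parV ps 0) fun z3 =>
  letR (parV ps 1) fun z4 =>
  letR (parV ps 2) fun z5 =>
  letR (parV ps 3) fun z6 =>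
  letR (parV ps 4) fun z7 =>
  letR (z7 + (-1 / 1024 : ℝ)) fun z471 =>
  posR z471 <|
  letR (parV gs 11) fun z19 =>
  letR (sg ^ 2) fun z44 =>
  letR ((9 / 10 : ℝ) * z44) fun z46 =>
  letR ((19 / 10 : ℝ) - z46) fun z47 =>
  letR (sg * z47) fun z434 =>
  letR z434 fun z507 =>
  letR (z46 + (1 / 10 : ℝ)) fun z48 =>
  letR (z44 * z48) fun z49 =>
  letR ((1 : ℝ) - z49) fun z50 =>
  invR z50 fun z52 =>
  letR (z507 * z52) fun z435 =>
  letR (z435 * sg) fun z465 =>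
  letR (parV gs 10) fun z18 =>
  letR (z465 * z18) fun z466 =>
  letR ((1 : ℝ) - z44) fun z92 =>
  a_R1 gs ps sg W e z3 z4 z5 z6 z7 z19 z44 z47 z52 z435 z466 z92

theorem a_S {ε : Fin 4 → ℝ} (gs : ℕ) (hε : ∀ i, |ε i| ≤ 1) (ps : ℕ) (x0 x1 x2 x3 : AF) (sg W e u3 : ℝ)
    (h0 : Rel ε x0 sg) (h1 : Rel ε x1 W) (h2 : Rel ε x2 e) (h3 : Rel ε x3 u3) :
    a_B gs ps x0 x1 x2 x3 = true → a_R gs ps sg W e u3 := by
  delta a_B a_R
  exact parS fun z3 t3 g3 =>
  parS fun z4 t4 g4 =>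
  parS fun z5 t5 g5 =>
  parS fun z6 t6 g6 =>
  parS fun z7 t7 g7 =>
  addcS g7 k0 fun z471 t471 g471 =>
  posS hε g471 <|
  parS fun z19 t19 g19 =>
  sqrS hε h0 fun z44 t44 g44 =>
  mulS hε (cst_rel k1) g44 fun z46 t46 g46 =>
  rsubS g46 k2 fun z47 t47 g47 =>
  mulS hε h0 g47 fun z434 t434 g434 =>
  normS g434 fun z507 t507 g507 =>
  addcS g46 k3 fun z48 t48 g48 =>
  mulS hε g44 g48 fun z49 t49 g49 =>
  rsubS g49 k4 fun z50 t50 g50 =>
  invS hε g50 fun z52 t52 g52 =>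
  mulS hε g507 g52 fun z435 t435 g435 =>
  mulS hε g435 h0 fun z465 t465 g465 =>
  parS fun z18 t18 g18 =>
  mulS hε g465 g18 fun z466 t466 g466 =>
  rsubS g44 k4 fun z92 t92 g92 =>
  a_S1 gs hε ps x0 x1 x2 z3 z4 z5 z6 z7 z19 z44 z47 z52 z435 z466 z92 sg W e t3 t4 t5 t6 t7 t19 t44 t47 t52 t435 t466 t92 h0 h1 h2 g3 g4 g5 g6 g7 g19 g44 g47 g52 g435 g466 g92

/- obtain ⟨p0, p1, p2, p3, kp, al, a9, uh, w, iw, us, bc, sb, e1, yy, ab, x, ia, yx, K, e2, ep, n, nW, iu, uE, m, uO, lE, ik2, lE1, le, kk2, Z, C1, R1, iR1, iC1, hR1, up, qt, uu, q, io1, AE1, r, Zr, C2, R2, iR2, iC2, hR2, io2, AE2, lo, ik, lo1, ie1, Ao1, Au, su, qq1, Cs1, X1, iX1, qX1, So1, Se1, iD1, In1, bo1, Cs2, X2, iX2, qX2, So2, Se2, iD2, In2, bo2, Ie1, be1, Bu, ZI1, Je1, Jo1, ge1, ie2, Ie2, ZI2, Je2, Jo2, ge2, Zl, go1, Cu, aw, wE, wO, tE, tE1, ibc, th, t2, te, Zt, C3, R3, iR3, iC3, hR3, io3, AE3, Ztr, C4, R4, iR4, iC4, hR4, io4, AE4, tO, tO1, tt,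 ie3, Ao3, Aw, tu, qq3, Cs3, X3, iX3, qX3, So3, Se3, iD3, In3, bo3, Cs4, X4, iX4, qX4, So4, Se4, iD4, In4, bo4, Ie3, be3, Bw, ZI3, Je3, Jo3, ge3, ie4, Ie4, ZI4, Je4, Jo4, ge4, Ztt, go3, Cw, P0, Du, iCs1, xe1, xn1, he1, iCs2, xe2, xn2, he2, ho1, Eu, Dw, iCs3, xe3, xn3, he3, iCs4, xe4, xn4, he4, ho3, Ew, P1, c0, h_al, h_a9, h_uh, h_w, p_iw, h_iw, h_us, h_bc, h_sb, h_e1, h_yy, h_ab, h_x, p_ia, h_ia, h_yx, h_K, c1, h_e2, p_20, h_ep, h_n, h_nW, p_iu, h_iu, h_uE, h_m, h_uO, h_lE, h_ik2, h_lE1, h_le, p_kk2, h_kk2, h_Z, h_C1, h_R1, p_iR1, h_iR1, p_iC1, h_iC1, h_hR1, p_43, h_up, h_qt, h_uu, h_q, h_io1, h_AE1, h_r, h_Zr, h_C2, h_R2, p_iR2, h_iR2, p_iC2, h_iC2, h_hR2, p_59, h_io2, h_AE2, h_lo, h_ik, h_lo1, h_ie1, h_Ao1, h_Au, h_su, h_qq1, h_Cs1, h_X1, p_iX1, h_iX1, h_qX1, h_So1, h_Se1, p_iD1, h_iD1, h_In1, h_bo1, h_Cs2, h_X2, p_iX2, h_iX2, h_qX2, h_So2, h_Se2, p_iD2, h_iD2, h_In2, h_bo2, h_Ie1, h_be1, h_Bu, h_ZI1,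 h_Je1, h_Jo1, h_ge1, h_ie2, h_Ie2, h_ZI2, h_Je2, h_Jo2, h_ge2, h_Zl, h_go1, h_Cu, h_aw, h_wE, h_wO, h_tE, h_tE1, p_ibc, h_ibc, h_th, h_t2, h_te, h_Zt, h_C3, h_R3, p_iR3, h_iR3, p_iC3, h_iC3, h_hR3, p_126, h_io3, h_AE3, h_Ztr, h_C4, h_R4, p_iR4, h_iR4, p_iC4, h_iC4, h_hR4, p_137, h_io4, h_AE4, h_tO, h_tO1, h_tt, h_ie3, h_Ao3, h_Aw, h_tu, h_qq3, h_Cs3, h_X3, p_iX3, h_iX3, h_qX3, h_So3, h_Se3, p_iD3, h_iD3, h_In3, h_bo3, h_Cs4, h_X4, p_iX4, h_iX4, h_qX4, h_So4, h_Se4, p_iD4, h_iD4, h_In4, h_bo4, h_Ie3, h_be3, h_Bw, h_ZI3, h_Je3, h_Jo3, h_ge3, h_ie4, h_Ie4, h_ZI4, h_Je4, h_Jo4, h_ge4, h_Ztt, h_go3, h_Cw, h_P0, h_Du, p_iCs1, h_iCs1, h_xe1, h_xn1, h_he1, p_iCs2, h_iCs2, h_xe2, h_xn2, h_he2, h_ho1, h_Eu, h_Dw, p_iCs3, h_iCs3, h_xe3, h_xn3, h_he3, p_iCs4, h_iCs4, h_xe4, h_xn4, h_he4, h_ho3, h_Ew, h_P1, c2⟩ := h -/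
def a_Spec (rho m0 m1 m2 n0 n1 n2 k0 k1 k2 ku kw A0 A1 B0 B1 g0 g1 g2 g3 g4 g5 sg W e : ℝ) : Prop :=
  ∃ p0 p1 p2 p3 kp al a9 uh w iw us bc sb e1 yy ab x ia yx K e2 ep n nW iu uE m uO lE ik2 lE1 le kk2 Z C1 R1 iR1 iC1 hR1 up qt uu q io1 AE1 r Zr C2 R2 iR2 iC2 hR2 io2 AE2 lo ik lo1 ie1 Ao1 Au su qq1 Cs1 X1 iX1 qX1 So1 Se1 iD1 In1 bo1 Cs2 X2 iX2 qX2 So2 Se2 iD2 In2 bo2 Ie1 be1 Bu ZI1 Je1 Jo1 ge1 ie2 Ie2 ZI2 Je2 Jo2 ge2 Zl go1 Cu aw wE wO tE tE1 ibc th t2 te Zt C3 R3 iR3 iC3 hR3 io3 AE3 Ztr C4 R4 iR4 iC4 hR4 io4 AE4 tO tO1 tt ie3 Ao3 Aw tu qq3 Cs3 X3 iX3 qX3 So3 Se3 iD3 In3 bo3 Cs4 X4 iX4 qX4 So4 Se4 iD4 In4 bo4 Ie3 be3 Bw ZI3 Je3 Jo3 ge3 ie4 Ie4 ZI4 Je4 Jo4 ge4 Ztt go3 Cw P0 Du iCs1 xe1 xn1 he1 iCs2 xe2 xn2 he2 ho1 Eu Dw iCs3 xe3 xn3 he3 iCs4 xe4 xn4 he4 ho3 Ew P1 : ℝ,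
    0 ≤ (kp + (-1 / 1024 : ℝ)) ∧
    al = (sg ^ 2) ∧
    a9 = ((9 / 10 : ℝ) * al) ∧
    uh = ((19 / 10 : ℝ) - a9) ∧
    w = ((1 : ℝ) - (al * (a9 + (1 / 10 : ℝ)))) ∧
    0 < w ∧
    iw = (w⁻¹) ∧
    us = ((sg * uh) * iw) ∧
    bc = ((1 : ℝ) - al) ∧
    sb = (√bc) ∧
    e1 = (e + (1 : ℝ)) ∧
    yy = (sb * e1) ∧
    ab = ((1 : ℝ) - (bc * (e1 ^ 2))) ∧
    x = (√ab) ∧
    0 < ab ∧
    ia = (ab⁻¹) ∧
    yx = ((yy * x) * ia) ∧
    K = (kw + (((us * sg) * ku) * ((yx ^ 2) * yx))) ∧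
    0 ≤ (K - kp) ∧
    e2 = (e + (2 : ℝ)) ∧
    0 < (x + sg) ∧
    ep = ((0 : ℝ) - ((e2 * bc) * ((x + sg)⁻¹))) ∧
    n = ((n0 + (n1 * sg)) + (n2 * W)) ∧
    nW = ((W * n) + (1 : ℝ)) ∧
    0 < uh ∧
    iu = (uh⁻¹) ∧
    uE = ((1 : ℝ) - ((19 / 10 : ℝ) * iu)) ∧
    m = ((m0 + (m1 * sg)) + (m2 * W)) ∧
    uO = (uE + (1 : ℝ)) ∧
    lE = ((n + (nW * uE)) + (m * uO)) ∧
    ik2 = ((1 : ℝ) - ((k0 + (k1 * sg)) + (k2 * W))) ∧
    lE1 = (lE * ik2) ∧
    le = ((W * lE) + (1 : ℝ)) ∧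
    0 < ik2 ∧
    kk2 = (ik2⁻¹) ∧
    Z = (W * kk2) ∧
    C1 = (√((1 : ℝ) - Z)) ∧
    R1 = (√((1 / 2 : ℝ) * (C1 + (1 : ℝ)))) ∧
    0 < R1 ∧
    iR1 = (R1⁻¹) ∧
    0 < C1 ∧
    iC1 = (C1⁻¹) ∧
    hR1 = (iR1 * iC1) ∧
    0 < (((4 : ℝ) * R1) + (4 : ℝ)) ∧
    up = (((p0 + (p1 * sg)) + (p2 * W)) + (p3 * e)) ∧
    qt = ((up * e) + (1 : ℝ)) ∧
    uu = (((al * ((e2 * qt) + up)) + (bc * e2)) * ia) ∧
    q = ((e * uu) + (1 : ℝ)) ∧
    io1 = ((-1 / 2 : ℝ) * hR1) ∧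
    AE1 = (((hR1 * iR1) * ((1 / 2 : ℝ) - ((((4 : ℝ) * R1) + (4 : ℝ))⁻¹))) + (q * io1)) ∧
    r = (rho ^ 2) ∧
    Zr = (r * Z) ∧
    C2 = (√((1 : ℝ) - Zr)) ∧
    R2 = (√((1 / 2 : ℝ) * (C2 + (1 : ℝ)))) ∧
    0 < R2 ∧
    iR2 = (R2⁻¹) ∧
    0 < C2 ∧
    iC2 = (C2⁻¹) ∧
    hR2 = (iR2 * iC2) ∧
    0 < (((4 : ℝ) * R2) + (4 : ℝ)) ∧
    io2 = ((-1 / 2 : ℝ) * hR2) ∧
    AE2 = (((hR2 * iR2) * ((1 / 2 : ℝ) - ((((4 : ℝ) * R2) + (4 : ℝ))⁻¹))) + (q * io2)) ∧
    lo = ((nW * uO) + (m * ((W * uE) + (1 : ℝ)))) ∧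
    ik = (√ik2) ∧
    lo1 = (lo * ik) ∧
    ie1 = (R1 * iC1) ∧
    Ao1 = ((q * ie1) + io1) ∧
    Au = (((lE1 + (le * AE1)) - (r * AE2)) + (lo1 * Ao1)) ∧
    su = (sg * uu) ∧
    qq1 = (q ^ 2) ∧
    Cs1 = (√((1 : ℝ) - (Z * qq1))) ∧
    X1 = (√((1 / 2 : ℝ) * (Cs1 + (1 : ℝ)))) ∧
    0 < X1 ∧
    iX1 = (X1⁻¹) ∧
    qX1 = (q * iX1) ∧
    So1 = ((1 / 2 : ℝ) * (qX1 + iR1)) ∧
    Se1 = (X1 + R1) ∧
    0 < ((Se1 ^ 2) - (Z * (So1 ^ 2))) ∧
    iD1 = (((Se1 ^ 2) - (Z * (So1 ^ 2)))⁻¹) ∧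
    In1 = (So1 * iD1) ∧
    bo1 = (io1 + In1) ∧
    Cs2 = (√((1 : ℝ) - (Zr * qq1))) ∧
    X2 = (√((1 / 2 : ℝ) * (Cs2 + (1 : ℝ)))) ∧
    0 < X2 ∧
    iX2 = (X2⁻¹) ∧
    qX2 = (q * iX2) ∧
    So2 = ((1 / 2 : ℝ) * (qX2 + iR2)) ∧
    Se2 = (X2 + R2) ∧
    0 < ((Se2 ^ 2) - (Zr * (So2 ^ 2))) ∧
    iD2 = (((Se2 ^ 2) - (Zr * (So2 ^ 2)))⁻¹) ∧
    In2 = (So2 * iD2) ∧
    bo2 = (io2 + In2) ∧
    Ie1 = (Se1 * iD1) ∧
    be1 = (ie1 - Ie1) ∧
    Bu = (((le * bo1) - (r * bo2)) + (lo1 * be1)) ∧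
    ZI1 = (Z * In1) ∧
    Je1 = ((ie1 * Ie1) - (io1 * ZI1)) ∧
    Jo1 = ((io1 * Ie1) - (ie1 * In1)) ∧
    ge1 = ((Je1 * Ie1) - (Jo1 * ZI1)) ∧
    ie2 = (R2 * iC2) ∧
    Ie2 = (Se2 * iD2) ∧
    ZI2 = (Zr * In2) ∧
    Je2 = ((ie2 * Ie2) - (io2 * ZI2)) ∧
    Jo2 = ((io2 * Ie2) - (ie2 * In2)) ∧
    ge2 = ((Je2 * Ie2) - (Jo2 * ZI2)) ∧
    Zl = (Z * lo1) ∧
    go1 = ((Jo1 * Ie1) - (Je1 * In1)) ∧
    Cu = (((le * ge1) - (r * ge2)) + (Zl * go1)) ∧
    aw = (al * iw) ∧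
    wE = ((-9 / 10 : ℝ) * (al * aw)) ∧
    wO = (aw * (((9 / 5 : ℝ) * al) + (1 / 10 : ℝ))) ∧
    tE = ((n + (nW * wE)) - (m * wO)) ∧
    tE1 = (tE * ik2) ∧
    0 < bc ∧
    ibc = (bc⁻¹) ∧
    th = (al * ibc) ∧
    t2 = (th ^ 2) ∧
    te = ((W * tE) + (1 : ℝ)) ∧
    Zt = (t2 * Z) ∧
    C3 = (√((1 : ℝ) - Zt)) ∧
    R3 = (√((1 / 2 : ℝ) * (C3 + (1 : ℝ)))) ∧
    0 < R3 ∧
    iR3 = (R3⁻¹) ∧
    0 < C3 ∧
    iC3 = (C3⁻¹) ∧
    hR3 = (iR3 * iC3) ∧
    0 < (((4 : ℝ) * R3) + (4 : ℝ)) ∧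
    io3 = ((-1 / 2 : ℝ) * hR3) ∧
    AE3 = (((hR3 * iR3) * ((1 / 2 : ℝ) - ((((4 : ℝ) * R3) + (4 : ℝ))⁻¹))) + (qt * io3)) ∧
    Ztr = (r * Zt) ∧
    C4 = (√((1 : ℝ) - Ztr)) ∧
    R4 = (√((1 / 2 : ℝ) * (C4 + (1 : ℝ)))) ∧
    0 < R4 ∧
    iR4 = (R4⁻¹) ∧
    0 < C4 ∧
    iC4 = (C4⁻¹) ∧
    hR4 = (iR4 * iC4) ∧
    0 < (((4 : ℝ) * R4) + (4 : ℝ)) ∧
    io4 = ((-1 / 2 : ℝ) * hR4) ∧
    AE4 = (((hR4 * iR4) * ((1 / 2 : ℝ) - ((((4 : ℝ) * R4) + (4 : ℝ))⁻¹))) + (qt * io4)) ∧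
    tO = ((nW * wO) - (m * ((W * wE) + (1 : ℝ)))) ∧
    tO1 = (tO * ik) ∧
    tt = (th * tO1) ∧
    ie3 = (R3 * iC3) ∧
    Ao3 = ((qt * ie3) + io3) ∧
    Aw = ((tE1 + (t2 * ((te * AE3) - (r * AE4)))) + (tt * Ao3)) ∧
    tu = (th * up) ∧
    qq3 = (qt ^ 2) ∧
    Cs3 = (√((1 : ℝ) - (Zt * qq3))) ∧
    X3 = (√((1 / 2 : ℝ) * (Cs3 + (1 : ℝ)))) ∧
    0 < X3 ∧
    iX3 = (X3⁻¹) ∧
    qX3 = (qt * iX3) ∧
    So3 = ((1 / 2 : ℝ) * (qX3 + iR3)) ∧
    Se3 = (X3 + R3) ∧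
    0 < ((Se3 ^ 2) - (Zt * (So3 ^ 2))) ∧
    iD3 = (((Se3 ^ 2) - (Zt * (So3 ^ 2)))⁻¹) ∧
    In3 = (So3 * iD3) ∧
    bo3 = (io3 + In3) ∧
    Cs4 = (√((1 : ℝ) - (Ztr * qq3))) ∧
    X4 = (√((1 / 2 : ℝ) * (Cs4 + (1 : ℝ)))) ∧
    0 < X4 ∧
    iX4 = (X4⁻¹) ∧
    qX4 = (qt * iX4) ∧
    So4 = ((1 / 2 : ℝ) * (qX4 + iR4)) ∧
    Se4 = (X4 + R4) ∧
    0 < ((Se4 ^ 2) - (Ztr * (So4 ^ 2))) ∧
    iD4 = (((Se4 ^ 2) - (Ztr * (So4 ^ 2)))⁻¹) ∧
    In4 = (So4 * iD4) ∧
    bo4 = (io4 + In4) ∧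
    Ie3 = (Se3 * iD3) ∧
    be3 = (ie3 - Ie3) ∧
    Bw = ((th * ((te * bo3) - (r * bo4))) + (tO1 * be3)) ∧
    ZI3 = (Zt * In3) ∧
    Je3 = ((ie3 * Ie3) - (io3 * ZI3)) ∧
    Jo3 = ((io3 * Ie3) - (ie3 * In3)) ∧
    ge3 = ((Je3 * Ie3) - (Jo3 * ZI3)) ∧
    ie4 = (R4 * iC4) ∧
    Ie4 = (Se4 * iD4) ∧
    ZI4 = (Ztr * In4) ∧
    Je4 = ((ie4 * Ie4) - (io4 * ZI4)) ∧
    Jo4 = ((io4 * Ie4) - (ie4 * In4)) ∧
    ge4 = ((Je4 * Ie4) - (Jo4 * ZI4)) ∧
    Ztt = (Z * tt) ∧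
    go3 = ((Jo3 * Ie3) - (Je3 * In3)) ∧
    Cw = (((te * ge3) - (r * ge4)) + (Ztt * go3)) ∧
    P0 = ((us * ((((ep ^ 2) * Au) + ((ep * su) * ((2 : ℝ) * Bu))) + ((su ^ 2) * Cu))) + (sb * ((Aw + (tu * ((2 : ℝ) * Bw))) + ((tu ^ 2) * Cw)))) ∧
    Du = (((le * io1) - (r * io2)) + (lo1 * ie1)) ∧
    0 < Cs1 ∧
    iCs1 = (Cs1⁻¹) ∧
    xe1 = (X1 * iCs1) ∧
    xn1 = ((1 / 2 : ℝ) * (qX1 * iCs1)) ∧
    he1 = ((Je1 * xe1) - ((Z * Jo1) * xn1)) ∧
    0 < Cs2 ∧
    iCs2 = (Cs2⁻¹) ∧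
    xe2 = (X2 * iCs2) ∧
    xn2 = ((1 / 2 : ℝ) * (qX2 * iCs2)) ∧
    he2 = ((Je2 * xe2) - ((Zr * Jo2) * xn2)) ∧
    ho1 = ((Jo1 * xe1) - (Je1 * xn1)) ∧
    Eu = (((le * he1) - (r * he2)) + (Zl * ho1)) ∧
    Dw = ((th * ((te * io3) - (r * io4))) + (tO1 * ie3)) ∧
    0 < Cs3 ∧
    iCs3 = (Cs3⁻¹) ∧
    xe3 = (X3 * iCs3) ∧
    xn3 = ((1 / 2 : ℝ) * (qX3 * iCs3)) ∧
    he3 = ((Je3 * xe3) - ((Zt * Jo3) * xn3)) ∧
    0 < Cs4 ∧
    iCs4 = (Cs4⁻¹) ∧
    xe4 = (X4 * iCs4) ∧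
    xn4 = ((1 / 2 : ℝ) * (qX4 * iCs4)) ∧
    he4 = ((Je4 * xe4) - ((Ztr * Jo4) * xn4)) ∧
    ho3 = ((Jo3 * xe3) - (Je3 * xn3)) ∧
    Ew = (((te * he3) - (r * he4)) + (Ztt * ho3)) ∧
    P1 = (((us * yx) * ((ep * Du) + (su * Eu))) + (Dw + (tu * Ew))) ∧
    0 ≤ ((kp * P0) - (((2 : ℝ) * yy) * (P1 ^ 2)))

theorem a_E {gs ps : ℕ} {sg W e u3 : ℝ} (h : a_R gs ps sg W e u3) : a_Spec (parV gs 0) (parV gs 1) (parV gs 2) (parV gs 3) (parV gs 4) (parV gs 5) (parV gs 6) (parV gs 7) (parV gs 8) (parV gs 9) (parV gs 10) (parV gs 11) (parV gs 12) (parV gs 13) (parV gs 14) (parV gs 15) (parV gs 16) (parV gs 17) (parV gs 18) (parV gs 19) (parV gs 20) (parV gs 21) sg W e := by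
  delta a_R at h
  exact letR_ex h fun p0 _ h =>
  letR_ex h fun p1 _ h =>
  letR_ex h fun p2 _ h =>
  letR_ex h fun p3 _ h =>
  letR_ex h fun kp _ h =>
  letR_in h fun h =>
  posR_ex h fun q1 h =>
  letR_in h fun h =>
  letR_ex h fun al q2 h =>
  letR_ex h fun a9 q3 h =>
  letR_ex h fun uh q4 h =>
  letR_in h fun h =>
  letR_in h fun h =>
  letR_in h fun h =>
  letR_in h fun h =>
  letR_ex h fun w q5 h =>
  invR_ex h fun q6 h =>
  letR_ex h fun iw q7 h =>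
  letR_ex h fun us q8 h =>
  letR_in h fun h =>
  letR_in h fun h =>
  letR_in h fun h =>
  letR_ex h fun bc q9 h =>
  (by delta a_R1 at h; exact
  letR_ex h fun sb q10 h =>
  letR_ex h fun e1 q11 h =>
  letR_ex h fun yy q12 h =>
  letR_in h fun h =>
  letR_in h fun h =>
  letR_ex h fun ab q13 h =>
  letR_ex h fun x q14 h =>
  letR_in h fun h =>
  letR_in h fun h =>
  invR_ex h fun q15 h =>
  letR_ex h fun ia q16 h =>
  letR_ex h fun yx q17 h =>
  letR_in h fun h =>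
  letR_in h fun h =>
  letR_in h fun h =>
  letR_ex h fun K q18 h =>
  letR_in h fun h =>
  posR_ex h fun q19 h =>
  letR_ex h fun e2 q20 h =>
  letR_in h fun h =>
  letR_in h fun h =>
  invR_ex h fun q21 h =>
  letR_in h fun h =>
  letR_in h fun h =>
  letR_ex h fun ep q22 h =>
  (by delta a_R2 at h; exact
  letR_in h fun h =>
  letR_in h fun h =>
  letR_in h fun h =>
  letR_in h fun h =>
  letR_in h fun h =>
  letR_in h fun h =>
  letR_in h fun h =>
  letR_ex h fun n q23 h =>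
  letR_in h fun h =>
  letR_ex h fun nW q24 h =>
  invR_ex h fun q25 h =>
  letR_ex h fun iu q26 h =>
  letR_in h fun h =>
  letR_ex h fun uE q27 h =>
  letR_in h fun h =>
  letR_in h fun h =>
  letR_in h fun h =>
  letR_in h fun h =>
  letR_in h fun h =>
  letR_in h fun h =>
  letR_in h fun h =>
  letR_in h fun h =>
  letR_ex h fun m q28 h =>
  (by delta a_R3 at h; exact
  letR_ex h fun uO q29 h =>
  letR_in h fun h =>
  letR_ex h fun lE q30 h =>
  letR_in h fun h =>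
  letR_in h fun h =>
  letR_in h fun h =>
  letR_in h fun h =>
  letR_in h fun h =>
  letR_in h fun h =>
  letR_in h fun h =>
  letR_in h fun h =>
  letR_ex h fun ik2 q31 h =>
  letR_ex h fun lE1 q32 h =>
  letR_in h fun h =>
  letR_ex h fun le q33 h =>
  invR_ex h fun q34 h =>
  letR_ex h fun kk2 q35 h =>
  letR_ex h fun Z q36 h =>
  letR_in h fun h =>
  letR_in h fun h =>
  letR_ex h fun C1 q37 h =>
  letR_in h fun h =>
  letR_in h fun h =>
  letR_ex h fun R1 q38 h =>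
  invR_ex h fun q39 h =>
  letR_ex h fun iR1 q40 h =>
  invR_ex h fun q41 h =>
  letR_ex h fun iC1 q42 h =>
  letR_ex h fun hR1 q43 h =>
  letR_in h fun h =>
  letR_in h fun h =>
  letR_in h fun h =>
  invR_ex h fun q44 h =>
  letR_in h fun h =>
  letR_in h fun h =>
  letR_in h fun h =>
  letR_in h fun h =>
  letR_in h fun h =>
  letR_in h fun h =>
  letR_in h fun h =>
  letR_in h fun h =>
  letR_ex h fun up q45 h =>
  (by delta a_R4 at h; exact
  letR_in h fun h =>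
  letR_in h fun h =>
  letR_ex h fun qt q46 h =>
  letR_in h fun h =>
  letR_in h fun h =>
  letR_in h fun h =>
  letR_in h fun h =>
  letR_in h fun h =>
  letR_in h fun h =>
  letR_in h fun h =>
  letR_ex h fun uu q47 h =>
  letR_in h fun h =>
  letR_in h fun h =>
  letR_in h fun h =>
  letR_ex h fun q q48 h =>
  letR_ex h fun io1 q49 h =>
  letR_in h fun h =>
  letR_ex h fun AE1 q50 h =>
  letR_in h fun h =>
  letR_in h fun h =>
  letR_in h fun h =>
  letR_ex h fun r q51 h =>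
  (by delta a_R5 at h; exact
  letR_ex h fun Zr q52 h =>
  letR_in h fun h =>
  letR_ex h fun C2 q53 h =>
  letR_in h fun h =>
  letR_in h fun h =>
  letR_ex h fun R2 q54 h =>
  invR_ex h fun q55 h =>
  letR_ex h fun iR2 q56 h =>
  invR_ex h fun q57 h =>
  letR_ex h fun iC2 q58 h =>
  letR_ex h fun hR2 q59 h =>
  letR_in h fun h =>
  letR_in h fun h =>
  letR_in h fun h =>
  invR_ex h fun q60 h =>
  letR_in h fun h =>
  letR_in h fun h =>
  letR_in h fun h =>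
  letR_ex h fun io2 q61 h =>
  letR_in h fun h =>
  letR_ex h fun AE2 q62 h =>
  letR_in h fun h =>
  letR_in h fun h =>
  letR_in h fun h =>
  letR_in h fun h =>
  letR_in h fun h =>
  letR_in h fun h =>
  letR_ex h fun lo q63 h =>
  letR_in h fun h =>
  letR_ex h fun ik q64 h =>
  letR_ex h fun lo1 q65 h =>
  letR_in h fun h =>
  letR_ex h fun ie1 q66 h =>
  letR_in h fun h =>
  letR_in h fun h =>
  letR_ex h fun Ao1 q67 h =>
  letR_in h fun h =>
  letR_in h fun h =>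
  letR_ex h fun Au q68 h =>
  letR_in h fun h =>
  letR_in h fun h =>
  letR_ex h fun su q69 h =>
  (by delta a_R6 at h; exact
  letR_in h fun h =>
  letR_in h fun h =>
  letR_ex h fun qq1 q70 h =>
  letR_in h fun h =>
  letR_in h fun h =>
  letR_ex h fun Cs1 q71 h =>
  letR_in h fun h =>
  letR_in h fun h =>
  letR_ex h fun X1 q72 h =>
  invR_ex h fun q73 h =>
  letR_ex h fun iX1 q74 h =>
  letR_ex h fun qX1 q75 h =>
  letR_in h fun h =>
  letR_ex h fun So1 q76 h =>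
  letR_ex h fun Se1 q77 h =>
  letR_in h fun h =>
  letR_in h fun h =>
  letR_in h fun h =>
  letR_in h fun h =>
  invR_ex h fun q78 h =>
  letR_ex h fun iD1 q79 h =>
  letR_ex h fun In1 q80 h =>
  letR_ex h fun bo1 q81 h =>
  letR_in h fun h =>
  letR_in h fun h =>
  letR_in h fun h =>
  letR_ex h fun Cs2 q82 h =>
  letR_in h fun h =>
  letR_in h fun h =>
  letR_ex h fun X2 q83 h =>
  invR_ex h fun q84 h =>
  letR_ex h fun iX2 q85 h =>
  letR_ex h fun qX2 q86 h =>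
  letR_in h fun h =>
  letR_ex h fun So2 q87 h =>
  (by delta a_R7 at h; exact
  letR_ex h fun Se2 q88 h =>
  letR_in h fun h =>
  letR_in h fun h =>
  letR_in h fun h =>
  letR_in h fun h =>
  invR_ex h fun q89 h =>
  letR_ex h fun iD2 q90 h =>
  letR_ex h fun In2 q91 h =>
  letR_ex h fun bo2 q92 h =>
  letR_in h fun h =>
  letR_in h fun h =>
  letR_ex h fun Ie1 q93 h =>
  letR_in h fun h =>
  letR_ex h fun be1 q94 h =>
  letR_in h fun h =>
  letR_in h fun h =>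
  letR_ex h fun Bu q95 h =>
  letR_in h fun h =>
  letR_in h fun h =>
  letR_in h fun h =>
  letR_in h fun h =>
  letR_in h fun h =>
  letR_in h fun h =>
  letR_ex h fun ZI1 q96 h =>
  letR_in h fun h =>
  letR_ex h fun Je1 q97 h =>
  letR_in h fun h =>
  letR_in h fun h =>
  letR_in h fun h =>
  letR_ex h fun Jo1 q98 h =>
  letR_in h fun h =>
  letR_ex h fun ge1 q99 h =>
  letR_in h fun h =>
  letR_ex h fun ie2 q100 h =>
  letR_ex h fun Ie2 q101 h =>
  (by delta a_R8 at h; exact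
  letR_in h fun h =>
  letR_ex h fun ZI2 q102 h =>
  letR_in h fun h =>
  letR_ex h fun Je2 q103 h =>
  letR_in h fun h =>
  letR_in h fun h =>
  letR_in h fun h =>
  letR_ex h fun Jo2 q104 h =>
  letR_in h fun h =>
  letR_ex h fun ge2 q105 h =>
  letR_in h fun h =>
  letR_in h fun h =>
  letR_ex h fun Zl q106 h =>
  letR_in h fun h =>
  letR_in h fun h =>
  letR_ex h fun go1 q107 h =>
  letR_in h fun h =>
  letR_ex h fun Cu q108 h =>
  letR_in h fun h =>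
  letR_in h fun h =>
  letR_in h fun h =>
  letR_in h fun h =>
  letR_in h fun h =>
  letR_ex h fun aw q109 h =>
  letR_in h fun h =>
  letR_ex h fun wE q110 h =>
  letR_in h fun h =>
  letR_in h fun h =>
  letR_in h fun h =>
  letR_in h fun h =>
  letR_ex h fun wO q111 h =>
  letR_in h fun h =>
  letR_ex h fun tE q112 h =>
  letR_ex h fun tE1 q113 h =>
  invR_ex h fun q114 h =>
  letR_ex h fun ibc q115 h =>
  letR_ex h fun th q116 h =>
  (by delta a_R9 at h; exact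
  letR_ex h fun t2 q117 h =>
  letR_in h fun h =>
  letR_ex h fun te q118 h =>
  letR_ex h fun Zt q119 h =>
  letR_in h fun h =>
  letR_in h fun h =>
  letR_ex h fun C3 q120 h =>
  letR_in h fun h =>
  letR_in h fun h =>
  letR_ex h fun R3 q121 h =>
  invR_ex h fun q122 h =>
  letR_ex h fun iR3 q123 h =>
  invR_ex h fun q124 h =>
  letR_ex h fun iC3 q125 h =>
  letR_ex h fun hR3 q126 h =>
  letR_in h fun h =>
  letR_in h fun h =>
  letR_in h fun h =>
  invR_ex h fun q127 h =>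
  letR_in h fun h =>
  letR_in h fun h =>
  letR_in h fun h =>
  letR_ex h fun io3 q128 h =>
  letR_in h fun h =>
  letR_ex h fun AE3 q129 h =>
  letR_in h fun h =>
  (by delta a_R10 at h; exact
  letR_ex h fun Ztr q130 h =>
  letR_in h fun h =>
  letR_ex h fun C4 q131 h =>
  letR_in h fun h =>
  letR_in h fun h =>
  letR_ex h fun R4 q132 h =>
  invR_ex h fun q133 h =>
  letR_ex h fun iR4 q134 h =>
  invR_ex h fun q135 h =>
  letR_ex h fun iC4 q136 h =>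
  letR_ex h fun hR4 q137 h =>
  letR_in h fun h =>
  letR_in h fun h =>
  letR_in h fun h =>
  invR_ex h fun q138 h =>
  letR_in h fun h =>
  letR_in h fun h =>
  letR_in h fun h =>
  letR_ex h fun io4 q139 h =>
  letR_in h fun h =>
  letR_ex h fun AE4 q140 h =>
  letR_in h fun h =>
  letR_in h fun h =>
  letR_in h fun h =>
  letR_in h fun h =>
  letR_in h fun h =>
  letR_in h fun h =>
  letR_in h fun h =>
  letR_in h fun h =>
  letR_in h fun h =>
  letR_ex h fun tO q141 h =>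
  letR_in h fun h =>
  letR_ex h fun tO1 q142 h =>
  letR_in h fun h =>
  (by delta a_R11 at h; exact
  letR_ex h fun tt q143 h =>
  letR_ex h fun ie3 q144 h =>
  letR_in h fun h =>
  letR_in h fun h =>
  letR_ex h fun Ao3 q145 h =>
  letR_in h fun h =>
  letR_ex h fun Aw q146 h =>
  letR_ex h fun tu q147 h =>
  letR_in h fun h =>
  letR_ex h fun qq3 q148 h =>
  letR_in h fun h =>
  letR_in h fun h =>
  letR_ex h fun Cs3 q149 h =>
  letR_in h fun h =>
  letR_in h fun h =>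
  letR_ex h fun X3 q150 h =>
  invR_ex h fun q151 h =>
  letR_ex h fun iX3 q152 h =>
  letR_ex h fun qX3 q153 h =>
  letR_in h fun h =>
  letR_in h fun h =>
  letR_ex h fun So3 q154 h =>
  letR_ex h fun Se3 q155 h =>
  (by delta a_R12 at h; exact
  letR_in h fun h =>
  letR_in h fun h =>
  letR_in h fun h =>
  letR_in h fun h =>
  invR_ex h fun q156 h =>
  letR_ex h fun iD3 q157 h =>
  letR_ex h fun In3 q158 h =>
  letR_ex h fun bo3 q159 h =>
  letR_in h fun h =>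
  letR_in h fun h =>
  letR_in h fun h =>
  letR_ex h fun Cs4 q160 h =>
  letR_in h fun h =>
  letR_in h fun h =>
  letR_ex h fun X4 q161 h =>
  invR_ex h fun q162 h =>
  letR_ex h fun iX4 q163 h =>
  letR_ex h fun qX4 q164 h =>
  letR_in h fun h =>
  letR_ex h fun So4 q165 h =>
  letR_ex h fun Se4 q166 h =>
  letR_in h fun h =>
  letR_in h fun h =>
  letR_in h fun h =>
  letR_in h fun h =>
  invR_ex h fun q167 h =>
  letR_ex h fun iD4 q168 h =>
  letR_ex h fun In4 q169 h =>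
  letR_ex h fun bo4 q170 h =>
  letR_in h fun h =>
  letR_in h fun h =>
  letR_in h fun h =>
  letR_in h fun h =>
  letR_ex h fun Ie3 q171 h =>
  letR_in h fun h =>
  (by delta a_R13 at h; exact
  letR_ex h fun be3 q172 h =>
  letR_in h fun h =>
  letR_in h fun h =>
  letR_ex h fun Bw q173 h =>
  letR_in h fun h =>
  letR_in h fun h =>
  letR_in h fun h =>
  letR_in h fun h =>
  letR_in h fun h =>
  letR_in h fun h =>
  letR_ex h fun ZI3 q174 h =>
  letR_in h fun h =>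
  letR_ex h fun Je3 q175 h =>
  letR_in h fun h =>
  letR_in h fun h =>
  letR_in h fun h =>
  letR_ex h fun Jo3 q176 h =>
  letR_in h fun h =>
  letR_ex h fun ge3 q177 h =>
  letR_in h fun h =>
  letR_ex h fun ie4 q178 h =>
  letR_ex h fun Ie4 q179 h =>
  letR_in h fun h =>
  letR_ex h fun ZI4 q180 h =>
  letR_in h fun h =>
  letR_ex h fun Je4 q181 h =>
  letR_in h fun h =>
  letR_in h fun h =>
  letR_in h fun h =>
  letR_ex h fun Jo4 q182 h =>
  letR_in h fun h =>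
  letR_ex h fun ge4 q183 h =>
  letR_in h fun h =>
  letR_in h fun h =>
  letR_ex h fun Ztt q184 h =>
  letR_in h fun h =>
  letR_in h fun h =>
  letR_ex h fun go3 q185 h =>
  letR_in h fun h =>
  letR_ex h fun Cw q186 h =>
  (by delta a_R14 at h; exact
  letR_in h fun h =>
  letR_in h fun h =>
  letR_in h fun h =>
  letR_in h fun h =>
  letR_in h fun h =>
  letR_ex h fun P0 q187 h =>
  letR_in h fun h =>
  letR_in h fun h =>
  letR_in h fun h =>
  letR_in h fun h =>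
  letR_in h fun h =>
  letR_in h fun h =>
  letR_in h fun h =>
  letR_ex h fun Du q188 h =>
  letR_in h fun h =>
  invR_ex h fun q189 h =>
  letR_ex h fun iCs1 q190 h =>
  letR_ex h fun xe1 q191 h =>
  letR_in h fun h =>
  letR_in h fun h =>
  letR_in h fun h =>
  letR_ex h fun xn1 q192 h =>
  letR_in h fun h =>
  letR_ex h fun he1 q193 h =>
  letR_in h fun h =>
  invR_ex h fun q194 h =>
  letR_ex h fun iCs2 q195 h =>
  letR_ex h fun xe2 q196 h =>
  letR_in h fun h =>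
  letR_in h fun h =>
  letR_in h fun h =>
  letR_ex h fun xn2 q197 h =>
  letR_in h fun h =>
  letR_ex h fun he2 q198 h =>
  letR_in h fun h =>
  letR_in h fun h =>
  letR_in h fun h =>
  letR_in h fun h =>
  letR_ex h fun ho1 q199 h =>
  letR_in h fun h =>
  letR_ex h fun Eu q200 h =>
  letR_in h fun h =>
  letR_in h fun h =>
  (by delta a_R15 at h; exact
  letR_in h fun h =>
  letR_in h fun h =>
  letR_in h fun h =>
  letR_in h fun h =>
  letR_in h fun h =>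
  letR_in h fun h =>
  letR_ex h fun Dw q201 h =>
  invR_ex h fun q202 h =>
  letR_ex h fun iCs3 q203 h =>
  letR_ex h fun xe3 q204 h =>
  letR_in h fun h =>
  letR_in h fun h =>
  letR_in h fun h =>
  letR_ex h fun xn3 q205 h =>
  letR_in h fun h =>
  letR_ex h fun he3 q206 h =>
  letR_in h fun h =>
  invR_ex h fun q207 h =>
  letR_ex h fun iCs4 q208 h =>
  letR_ex h fun xe4 q209 h =>
  letR_in h fun h =>
  letR_in h fun h =>
  letR_in h fun h =>
  letR_ex h fun xn4 q210 h =>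
  letR_in h fun h =>
  letR_ex h fun he4 q211 h =>
  letR_in h fun h =>
  letR_in h fun h =>
  letR_in h fun h =>
  letR_in h fun h =>
  letR_ex h fun ho3 q212 h =>
  letR_in h fun h =>
  letR_ex h fun Ew q213 h =>
  letR_in h fun h =>
  letR_in h fun h =>
  letR_in h fun h =>
  letR_ex h fun P1 q214 h =>
  letR_in h fun h =>
  letR_in h fun h =>
  letR_in h fun h =>
  letR_in h fun h =>
  posR_ex h fun q215 h =>
  ⟨p0, p1, p2, p3, kp, al, a9, uh, w, iw, us, bc, sb, e1, yy, ab, x, ia, yx, K, e2, ep, n, nW, iu, uE, m, uO, lE, ik2, lE1, le, kk2, Z, C1, R1, iR1, iC1, hR1, up, qt, uu, q, io1, AE1, r, Zr, C2, R2, iR2, iC2, hR2, io2, AE2, lo, ik, lo1, ie1, Ao1, Au, su, qq1, Cs1, X1, iX1, qX1, So1, Se1, iD1, In1, bo1, Cs2, X2, iX2, qX2, So2, Se2, iD2, In2, bo2, Ie1, be1, Bu, ZI1, Je1, Jo1, ge1, ie2, Ie2, ZI2, Je2, Jo2, ge2, Zl, go1, Cu, aw, wE, wO, tE, tE1, ibc, th, t2, te, Zt, C3, R3, iR3, iC3, hR3, io3, AE3,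 Ztr, C4, R4, iR4, iC4, hR4, io4, AE4, tO, tO1, tt, ie3, Ao3, Aw, tu, qq3, Cs3, X3, iX3, qX3, So3, Se3, iD3, In3, bo3, Cs4, X4, iX4, qX4, So4, Se4, iD4, In4, bo4, Ie3, be3, Bw, ZI3, Je3, Jo3, ge3, ie4, Ie4, ZI4, Je4, Jo4, ge4, Ztt, go3, Cw, P0, Du, iCs1, xe1, xn1, he1, iCs2, xe2, xn2, he2, ho1, Eu, Dw, iCs3, xe3, xn3, he3, iCs4, xe4, xn4, he4, ho3, Ew, P1, q1, q2, q3, q4, q5, q6, q7, q8, q9, q10, q11, q12, q13, q14, q15, q16, q17, q18, q19, q20, q21, q22, q23, q24, q25, q26, q27, q28, q29, q30, q31, q32, q33, q34, q35, q36, q37, q38, q39, q40, q41, q42, q43, q44, q45, q46, q47, q48, q49, q50, q51, q52, q53, q54, q55, q56, q57, q58, q59, q60, q61, q62, q63, q64, q65, q66, q67, q68, q69, q70, q71, q72, q73, q74, q75, q76, q77, q78, q79, q80, q81, q82, q83, q84, q85, q86, q87, q88, q89, q90, q91, q92, q93, q94, q95, q96, q97, q98, q99, q100, q101, q102, q103, q104, q105, q106, q107, q108, q109, q110, q111,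 q112, q113, q114, q115, q116, q117, q118, q119, q120, q121, q122, q123, q124, q125, q126, q127, q128, q129, q130, q131, q132, q133, q134, q135, q136, q137, q138, q139, q140, q141, q142, q143, q144, q145, q146, q147, q148, q149, q150, q151, q152, q153, q154, q155, q156, q157, q158, q159, q160, q161, q162, q163, q164, q165, q166, q167, q168, q169, q170, q171, q172, q173, q174, q175, q176, q177, q178, q179, q180, q181, q182, q183, q184, q185, q186, q187, q188, q189, q190, q191, q192, q193, q194, q195, q196, q197, q198, q199, q200, q201, q202, q203, q204, q205, q206, q207, q208, q209, q210, q211, q212, q213, q214, q215⟩)))))))))))))))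

theorem k15 : |2 ^ 48 * (-1 / 16 : ℝ) - (((4722366465277459169280 : ℕ) : ℝ) - 2 ^ 72)| ≤ ((0 : ℕ) : ℝ) := by norm_num [abs_le]
theorem k16 : |2 ^ 48 * (-1 / 16384 : ℝ) - (((4722366482852465344512 : ℕ) : ℝ) - 2 ^ 72)| ≤ ((0 : ℕ) : ℝ) := by norm_num [abs_le]
def x_B (gs ps : ℕ) (x0 x1 x2 x3 : AF) : Bool :=
  sqrK x0 fun z25 =>
  sqrK z25 fun z26 =>
  mulK x1 z26 fun z27 =>
  addcK z27 4722366465277459169280 0 fun z28 =>
  addcK z28 4722366482852465344512 0 fun z29 =>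
  posK z29 <|
  true

def x_R (gs ps : ℕ) (sg W e u3 : ℝ) : Prop :=
  letR (sg ^ 2) fun z25 =>
  letR (z25 ^ 2) fun z26 =>
  letR (W * z26) fun z27 =>
  letR (z27 + (-1 / 16 : ℝ)) fun z28 =>
  letR (z28 + (-1 / 16384 : ℝ)) fun z29 =>
  posR z29 <|
  True

theorem x_S {ε : Fin 4 → ℝ} (gs : ℕ) (hε : ∀ i, |ε i| ≤ 1) (ps : ℕ) (x0 x1 x2 x3 : AF) (sg W e u3 : ℝ)
    (h0 : Rel ε x0 sg) (h1 : Rel ε x1 W) (h2 : Rel ε x2 e) (h3 : Rel ε x3 u3) :
    x_B gs ps x0 x1 x2 x3 = true → x_R gs ps sg W e u3 := by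
  delta x_B x_R
  exact sqrS hε h0 fun z25 t25 g25 =>
  sqrS hε g25 fun z26 t26 g26 =>
  mulS hε h1 g26 fun z27 t27 g27 =>
  addcS g27 k15 fun z28 t28 g28 =>
  addcS g28 k16 fun z29 t29 g29 =>
  posS hε g29 <|
  fun _ => trivial

/- obtain ⟨c0⟩ := h -/
def x_Spec (rho m0 m1 m2 n0 n1 n2 k0 k1 k2 ku kw A0 A1 B0 B1 g0 g1 g2 g3 g4 g5 sg W e : ℝ) : Prop :=
  0 ≤ (((W * ((sg ^ 2) ^ 2)) + (-1 / 16 : ℝ)) + (-1 / 16384 : ℝ))

theorem x_E {gs ps : ℕ} {sg W e u3 : ℝ} (h : x_R gs ps sg W e u3) : x_Spec (parV gs 0) (parV gs 1) (parV gs 2) (parV gs 3) (parV gs 4) (parV gs 5) (parV gs 6) (parV gs 7) (parV gs 8) (parV gs 9) (parV gs 10) (parV gs 11) (parV gs 12) (parV gs 13) (parV gs 14) (parV gs 15) (parV gs 16) (parV gs 17) (parV gs 18) (parV gs 19) (parV gs 20) (parV gs 21) sg W e := by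
  delta x_R at h
  exact letR_in h fun h =>
  letR_in h fun h =>
  letR_in h fun h =>
  letR_in h fun h =>
  letR_in h fun h =>
  posR_ex h fun q1 h =>
  q1

theorem k17 : |2 ^ 48 * (-65 / 128 : ℝ) - (((4722366339933133602816 : ℕ) : ℝ) - 2 ^ 72)| ≤ ((0 : ℕ) : ℝ) := by norm_num [abs_le]
def y_B (gs ps : ℕ) (x0 x1 x2 x3 : AF) : Bool :=
  sqrK x0 fun z25 =>
  rsubK z25 4722366764344621924352 0 fun z26 =>
  addcK x2 4722366764344621924352 0 fun z27 =>
  sqrK z27 fun z28 =>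
  mulK z26 z28 fun z29 =>
  addcK z29 4722366339933133602816 0 fun z30 =>
  posK z30 <|
  true

def y_R (gs ps : ℕ) (sg W e u3 : ℝ) : Prop :=
  letR (sg ^ 2) fun z25 =>
  letR ((1 : ℝ) - z25) fun z26 =>
  letR (e + (1 : ℝ)) fun z27 =>
  letR (z27 ^ 2) fun z28 =>
  letR (z26 * z28) fun z29 =>
  letR (z29 + (-65 / 128 : ℝ)) fun z30 =>
  posR z30 <|
  True

theorem y_S {ε : Fin 4 → ℝ} (gs : ℕ) (hε : ∀ i, |ε i| ≤ 1) (ps : ℕ) (x0 x1 x2 x3 : AF) (sg W e u3 : ℝ)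
    (h0 : Rel ε x0 sg) (h1 : Rel ε x1 W) (h2 : Rel ε x2 e) (h3 : Rel ε x3 u3) :
    y_B gs ps x0 x1 x2 x3 = true → y_R gs ps sg W e u3 := by
  delta y_B y_R
  exact sqrS hε h0 fun z25 t25 g25 =>
  rsubS g25 k4 fun z26 t26 g26 =>
  addcS h2 k4 fun z27 t27 g27 =>
  sqrS hε g27 fun z28 t28 g28 =>
  mulS hε g26 g28 fun z29 t29 g29 =>
  addcS g29 k17 fun z30 t30 g30 =>
  posS hε g30 <|
  fun _ => trivial

/- obtain ⟨c0⟩ := h -/
def y_Spec (rho m0 m1 m2 n0 n1 n2 k0 k1 k2 ku kw A0 A1 B0 B1 g0 g1 g2 g3 g4 g5 sg W e : ℝ) : Prop :=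
  0 ≤ ((((1 : ℝ) - (sg ^ 2)) * ((e + (1 : ℝ)) ^ 2)) + (-65 / 128 : ℝ))

theorem y_E {gs ps : ℕ} {sg W e u3 : ℝ} (h : y_R gs ps sg W e u3) : y_Spec (parV gs 0) (parV gs 1) (parV gs 2) (parV gs 3) (parV gs 4) (parV gs 5) (parV gs 6) (parV gs 7) (parV gs 8) (parV gs 9) (parV gs 10) (parV gs 11) (parV gs 12) (parV gs 13) (parV gs 14) (parV gs 15) (parV gs 16) (parV gs 17) (parV gs 18) (parV gs 19) (parV gs 20) (parV gs 21) sg W e := by
  delta y_R at h
  exact letR_in h fun h =>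
  letR_in h fun h =>
  letR_in h fun h =>
  letR_in h fun h =>
  letR_in h fun h =>
  letR_in h fun h =>
  posR_ex h fun q1 h =>
  q1

def PB (gs : ℕ) : Prog := fun j ps x0 x1 x2 x3 =>
  Nat.rec (motive := fun _ => Bool) (a_B gs ps x0 x1 x2 x3) (fun j _ => Nat.rec (motive := fun _ => Bool) (x_B gs ps x0 x1 x2 x3) (fun j _ => y_B gs ps x0 x1 x2 x3) j) j

def PR (gs : ℕ) : ℕ → ℕ → ℝ → ℝ → ℝ → ℝ → Prop := fun j ps sg W e u3 =>
  Nat.rec (motive := fun _ => Prop) (a_R gs ps sg W e u3) (fun j _ => Nat.rec (motive := fun _ => Prop) (x_R gs ps sg W e u3) (fun j _ => y_R gs ps sg W e u3) j) j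

theorem PS (gs : ℕ) : Sound (PB gs) (PR gs) := fun _ hε j => match j with
  | 0 => a_S gs hε
  | 1 => x_S gs hε
  | _ + 2 => y_S gs hε

theorem PE {j gs ps : ℕ} {sg W e u3 : ℝ} : PR gs j ps sg W e u3 → a_Spec (parV gs 0) (parV gs 1) (parV gs 2) (parV gs 3) (parV gs 4) (parV gs 5) (parV gs 6) (parV gs 7) (parV gs 8) (parV gs 9) (parV gs 10) (parV gs 11) (parV gs 12) (parV gs 13) (parV gs 14) (parV gs 15) (parV gs 16) (parV gs 17) (parV gs 18) (parV gs 19) (parV gs 20) (parV gs 21) sg W e ∨ x_Spec (parV gs 0) (parV gs 1) (parV gs 2) (parV gs 3) (parV gs 4) (parV gs 5) (parV gs 6) (parV gs 7) (parV gs 8) (parV gs 9) (parV gs 10) (parV gs 11) (parV gs 12) (parV gs 13) (parV gs 14) (parV gs 15) (parV gs 16) (parV gs 17) (parV gs 18) (parV gs 19) (parV gs 20) (parV gs 21) sg W e ∨ y_Spec (parV gs 0) (parV gs 1) (parV gs 2) (parV gs 3) (parV gs 4) (parV gs 5) (parV gs 6) (parV gs 7) (parV gs 8) (parV gs 9) (parV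 gs 10) (parV gs 11) (parV gs 12) (parV gs 13) (parV gs 14) (parV gs 15) (parV gs 16) (parV gs 17) (parV gs 18) (parV gs 19) (parV gs 20) (parV gs 21) sg W e := match j with
  | 0 => fun h => Or.inl (@a_E gs ps sg W e u3 h)
  | 1 => fun h => Or.inr (Or.inl (@x_E gs ps sg W e u3 h))
  | _ + 2 => fun h => Or.inr (Or.inr (@y_E gs ps sg W e u3 h))

theorem of_good {gs l0 h0 l1 h1 l2 h2 l3 h3 : ℕ} (h : Good (PR gs) l0 h0 l1 h1 l2 h2 l3 h3) {sg W e u3 : ℝ}
    (hb : InBox l0 h0 l1 h1 l2 h2 l3 h3 sg W e u3) : a_Spec (parV gs 0) (parV gs 1) (parV gs 2) (parV gs 3) (parV gs 4) (parV gs 5) (parV gs 6) (parV gs 7) (parV gs 8) (parV gs 9) (parV gs 10) (parV gs 11) (parV gs 12) (parV gs 13) (parV gs 14) (parV gs 15) (parV gs 16) (parV gs 17) (parV gs 18) (parV gs 19) (parV gs 20) (parV gs 21) sg W e ∨ x_Spec (parV gs 0) (parV gs 1) (parV gs 2) (parV gs 3) (parV gs 4) (parV gs 5) (parV gs 6) (parV gs 7) (parV gs 8) (parV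 gs 9) (parV gs 10) (parV gs 11) (parV gs 12) (parV gs 13) (parV gs 14) (parV gs 15) (parV gs 16) (parV gs 17) (parV gs 18) (parV gs 19) (parV gs 20) (parV gs 21) sg W e ∨ y_Spec (parV gs 0) (parV gs 1) (parV gs 2) (parV gs 3) (parV gs 4) (parV gs 5) (parV gs 6) (parV gs 7) (parV gs 8) (parV gs 9) (parV gs 10) (parV gs 11) (parV gs 12) (parV gs 13) (parV gs 14) (parV gs 15) (parV gs 16) (parV gs 17) (parV gs 18) (parV gs 19) (parV gs 20) (parV gs 21) sg W e := by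
  obtain ⟨j, ps, h⟩ := h sg W e u3 hb
  exact PE h

def l0 : Tree := Tree.leaf 0
def l1 : Tree := Tree.leaf 1
def l2 : Tree := Tree.leaf 2

end

end Crest.Agent.R307.HY
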