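import Crest.Agent.R307.HPair
import Crest.Agent.R307.HBb
import Crest.Agent.R307.HYP

/-! Row 307: the chart `1 - x = (1 - σ²) (1 + e)²`. -/

set_option autoImplicit false

namespace Crest.Agent.R307

theorem HYm_uf {a : ℝ} (h0 : 0 ≤ a) (h1 : a ≤ 1) : 0 ≤ uf a := by
  unfold uf
  exact mul_nonneg h0 (by linarith)

theorem HYm_core {ρ u w σ sb th z τ τ' q qt U0 U1 W0 W1 ku kw b0 b1 : ℝ} (h0 : 0 ≤ ρ) (h1 : ρ < 1)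
    (hu : 0 < u) (hw : 0 < w) (hσ : 0 < σ) (hsb : 0 < sb) (hs : σ ^ 2 + sb ^ 2 = 1) (hth : th * sb ^ 2 = σ ^ 2)
    (hτ : 0 < τ) (hτ' : 0 < τ') (hab : σ ^ 2 * τ ^ 2 + sb ^ 2 * τ' ^ 2 = 1) (hq : τ ^ 2 * q = τ' ^ 2 * qt)
    (p1 : 0 < 1 + z) (p2 : 0 < 1 - z) (p3 : 0 < 1 + z * q) (p4 : 0 < 1 - z * q)
    (p5 : 0 < 1 + th * z) (p6 : 0 < 1 - th * z) (p7 : 0 < 1 + th * z * qt) (p8 : 0 < 1 - th * z * qt)
    (hU0 : 0 ≤ U0) (hU1 : 0 ≤ U1) (hW0 : 0 ≤ W0) (hW1 : 0 ≤ W1)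
    (hku : Kap ρ (U0 / u) (U1 / u) ku) (hkw : Kap ρ (W1 / w) (W0 / w) kw)
    (hκ : 0 < u * ku / (σ * τ) ^ 3 + w * kw / (sb * τ') ^ 3)
    (hP : ∀ φ : ℝ, σ * √(1 - z) * φ = σ * τ * √(1 - z * q) →
      2 * FB' ρ u w U0 (U1 / (2 * (σ * √(1 - z)))) W0 W1 (σ ^ 2 * (1 + z)) (σ * √(1 - z))
          (σ ^ 2 * τ ^ 2 * (1 + z * q)) (σ ^ 2 * τ ^ 2 * (1 - z * q)) φ ^ 2 ≤
        (u * ku / (σ * τ) ^ 3 + w * kw / (sb * τ') ^ 3) *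
          FB ρ u w U0 (U1 / (2 * (σ * √(1 - z)))) W0 W1 (σ ^ 2 * (1 + z)) (σ * √(1 - z))
            (σ ^ 2 * τ ^ 2 * (1 + z * q)) (σ ^ 2 * τ ^ 2 * (1 - z * q)))
    (hb00 : 0 ≤ b0) (hb01 : b0 ≤ 1) (hb10 : 0 ≤ b1) (hb11 : b1 ≤ 1) (hb : b0 + b1 = 2 * (σ * τ) ^ 2) :
    0 ≤ FB ρ u w U0 (U1 / (2 * (σ * √(1 - z)))) W0 W1 (σ ^ 2 * (1 + z)) (σ * √(1 - z)) b0 b1 := by
  have s1 : 0 < √(1 - z) := Real.sqrt_pos.2 p2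
  have s2 : 0 < √(1 - z * q) := Real.sqrt_pos.2 p4
  have q1 : √(1 - z) ^ 2 = 1 - z := Real.sq_sqrt p2.le
  have q2 : √(1 - z * q) ^ 2 = 1 - z * q := Real.sq_sqrt p4.le
  have hr : 0 < σ * √(1 - z) := mul_pos hσ s1
  have hφ : σ * √(1 - z) * (τ * √(1 - z * q) / √(1 - z)) = σ * τ * √(1 - z * q) := by
    field_simp
  have hφ2 : (σ * √(1 - z) * (τ * √(1 - z * q) / √(1 - z))) ^ 2 = σ ^ 2 * τ ^ 2 * (1 - z * q) := by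
    rw [hφ, mul_pow, mul_pow, q2]
  have hsb2 : 0 < sb ^ 2 := by positivity
  have hx : 0 < σ * τ := mul_pos hσ hτ
  have hy : 0 < sb * τ' := mul_pos hsb hτ'
  have h1x : 1 - (σ * τ) ^ 2 = (sb * τ') ^ 2 := by linear_combination -hab
  have e1 : (σ * τ) ^ 2 * √((σ * τ) ^ 2) = (σ * τ) ^ 3 := by rw [Real.sqrt_sq hx.le]; ring
  have e2 : (1 - (σ * τ) ^ 2) * √(1 - (σ * τ) ^ 2) = (sb * τ') ^ 3 := by rw [h1x, Real.sqrt_sq hy.le]; ring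
  have hy2 : 0 < (sb * τ') ^ 2 := by positivity
  refine FB_nonneg_of_ref (ku := ku) (kw := kw) (x := (σ * τ) ^ 2) (a0 := σ ^ 2 * τ ^ 2 * (1 + z * q))
    (φ := τ * √(1 - z * q) / √(1 - z)) h0 h1 hu hw hU0 (by positivity) hW0 hW1 (by positivity) ?_ hr.le ?_ ?_ hkw
    (by positivity) (by linarith) (by positivity) ?_ (by positivity) ?_ ?_ ?_ ?_ hb00 hb01 hb10 hb11 hb
  · have : 1 - σ ^ 2 * (1 + z) = sb ^ 2 * (1 - th * z) := by linear_combination -hs + z * hth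
    have := mul_pos hsb2 p6
    linarith
  · have e : 1 - (σ * √(1 - z)) ^ 2 = sb ^ 2 * (1 + th * z) := by
      rw [mul_pow, q1]; linear_combination -hs - z * hth
    have := mul_pos hsb2 p5
    nlinarith
  · have e : 2 * (σ * √(1 - z)) * (U1 / (2 * (σ * √(1 - z)))) = U1 := by field_simp
    rw [e]; exact hku
  · rw [hφ2]; ring
  · have e : 1 - σ ^ 2 * τ ^ 2 * (1 + z * q) = (sb * τ') ^ 2 * (1 - th * z * qt) := by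
      linear_combination -hab - z * σ ^ 2 * hq + z * τ' ^ 2 * qt * hth
    have := mul_pos hy2 p8
    linarith
  · have e : 1 - σ ^ 2 * τ ^ 2 * (1 - z * q) = (sb * τ') ^ 2 * (1 + th * z * qt) := by
      linear_combination -hab + z * σ ^ 2 * hq - z * τ' ^ 2 * qt * hth
    have := mul_pos hy2 p7
    rw [hφ2]
    linarith
  · rw [e1, e2]; exact hκ
  · rw [e1, e2, hφ2]; exact hP _ hφ

/-- As `HX_main`, now `τ' = 1 + e`, `τ = x / σ` (`x = √ab`; `τ - 1 = e ep / σ`, `q - 1 = e uu`, `qt - 1 = up e`, `τ² q = τ'² qt`):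
`FBv (ref) = w e² Z P0`, `FB' = w e z P1 / yy`, and the modulus is `w K / yy³`.
If `e = -1` then `b0 = b1 = 1` is the reference point itself (`q = 0` there: `τ² q = 0`). -/
theorem HY_main {rho m0 m1 m2 n0 n1 n2 k0 k1 k2 ku kw A0 A1 B0 B1 g0 g1 g2 g3 g4 g5 σ ω e : ℝ} (h0 : 0 ≤ rho) (h1 : rho < 1)
    (hσ : 0 < σ) (hσ2 : σ ^ 2 ≤ 1 / 2) (hω : 0 ≤ ω) (hω1 : ω ≤ 1) (he : -1 ≤ e)
    (hμ0 : 0 ≤ muv (af3 m0 m1 m2 σ (ω ^ 2)) (af3 n0 n1 n2 σ (ω ^ 2)) ω)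
    (hμ1 : 0 ≤ muv (af3 m0 m1 m2 σ (ω ^ 2)) (af3 n0 n1 n2 σ (ω ^ 2)) (-ω))
    (hK : Kv rho (af3 m0 m1 m2 σ (ω ^ 2)) (af3 n0 n1 n2 σ (ω ^ 2)) σ ω ku kw)
    (h : HY.a_Spec rho m0 m1 m2 n0 n1 n2 k0 k1 k2 ku kw A0 A1 B0 B1 g0 g1 g2 g3 g4 g5 σ (ω ^ 2) e)
    {b0 b1 : ℝ} (hb00 : 0 ≤ b0) (hb01 : b0 ≤ 1) (hb10 : 0 ≤ b1) (hb11 : b1 ≤ 1)
    (hb : b0 + b1 = 2 * (1 - (1 - σ ^ 2) * (1 + e) ^ 2)) :
    0 ≤ FBv rho (af3 m0 m1 m2 σ (ω ^ 2)) (af3 n0 n1 n2 σ (ω ^ 2)) (1 - af3 k0 k1 k2 σ (ω ^ 2)) σ ω b0 b1 := by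
  obtain ⟨p0, p1, p2, p3, kp, al, a9, uh, h⟩ := h
  obtain ⟨w, iw, us, bc, sb, e1, yy, ab, h⟩ := h
  obtain ⟨x, ia, yx, K, e2, ep, n, nW, h⟩ := h
  obtain ⟨iu, uE, m, uO, lE, ik2, lE1, le, h⟩ := h
  obtain ⟨kk2, Z, C1, R1, iR1, iC1, hR1, up, h⟩ := h
  obtain ⟨qt, uu, q, io1, AE1, r, Zr, C2, h⟩ := h
  obtain ⟨R2, iR2, iC2, hR2, io2, AE2, lo, ik, h⟩ := h
  obtain ⟨lo1, ie1, Ao1, Au, su, qq1, Cs1, X1, h⟩ := h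
  obtain ⟨iX1, qX1, So1, Se1, iD1, In1, bo1, Cs2, h⟩ := h
  obtain ⟨X2, iX2, qX2, So2, Se2, iD2, In2, bo2, h⟩ := h
  obtain ⟨Ie1, be1, Bu, ZI1, Je1, Jo1, ge1, ie2, h⟩ := h
  obtain ⟨Ie2, ZI2, Je2, Jo2, ge2, Zl, go1, Cu, h⟩ := h
  obtain ⟨aw, wE, wO, tE, tE1, ibc, th, t2, h⟩ := h
  obtain ⟨te, Zt, C3, R3, iR3, iC3, hR3, io3, h⟩ := h
  obtain ⟨AE3, Ztr, C4, R4, iR4, iC4, hR4, io4, h⟩ := h
  obtain ⟨AE4, tO, tO1, tt, ie3, Ao3, Aw, tu, h⟩ := h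
  obtain ⟨qq3, Cs3, X3, iX3, qX3, So3, Se3, iD3, h⟩ := h
  obtain ⟨In3, bo3, Cs4, X4, iX4, qX4, So4, Se4, h⟩ := h
  obtain ⟨iD4, In4, bo4, Ie3, be3, Bw, ZI3, Je3, h⟩ := h
  obtain ⟨Jo3, ge3, ie4, Ie4, ZI4, Je4, Jo4, ge4, h⟩ := h
  obtain ⟨Ztt, go3, Cw, P0, Du, iCs1, xe1, xn1, h⟩ := h
  obtain ⟨he1, iCs2, xe2, xn2, he2, ho1, Eu, Dw, h⟩ := h
  obtain ⟨iCs3, xe3, xn3, he3, iCs4, xe4, xn4, he4, h⟩ := h
  obtain ⟨ho3, Ew, P1, c0, h_al, h_a9, h_uh, h_w, h⟩ := h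
  obtain ⟨p_iw, h_iw, h_us, h_bc, h_sb, h_e1, h_yy, h_ab, h⟩ := h
  obtain ⟨h_x, p_ia, h_ia, h_yx, h_K, c1, h_e2, p_20, h⟩ := h
  obtain ⟨h_ep, h_n, h_nW, p_iu, h_iu, h_uE, h_m, h_uO, h⟩ := h
  obtain ⟨h_lE, h_ik2, h_lE1, h_le, p_kk2, h_kk2, h_Z, h_C1, h⟩ := h
  obtain ⟨h_R1, p_iR1, h_iR1, p_iC1, h_iC1, h_hR1, p_43, h_up, h⟩ := h
  obtain ⟨h_qt, h_uu, h_q, h_io1, h_AE1, h_r, h_Zr, h_C2, h⟩ := h
  obtain ⟨h_R2, p_iR2, h_iR2, p_iC2, h_iC2, h_hR2, p_59, h_io2, h⟩ := h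
  obtain ⟨h_AE2, h_lo, h_ik, h_lo1, h_ie1, h_Ao1, h_Au, h_su, h⟩ := h
  obtain ⟨h_qq1, h_Cs1, h_X1, p_iX1, h_iX1, h_qX1, h_So1, h_Se1, h⟩ := h
  obtain ⟨p_iD1, h_iD1, h_In1, h_bo1, h_Cs2, h_X2, p_iX2, h_iX2, h⟩ := h
  obtain ⟨h_qX2, h_So2, h_Se2, p_iD2, h_iD2, h_In2, h_bo2, h_Ie1, h⟩ := h
  obtain ⟨h_be1, h_Bu, h_ZI1, h_Je1, h_Jo1, h_ge1, h_ie2, h_Ie2, h⟩ := h
  obtain ⟨h_ZI2, h_Je2, h_Jo2, h_ge2, h_Zl, h_go1, h_Cu, h_aw, h⟩ := h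
  obtain ⟨h_wE, h_wO, h_tE, h_tE1, p_ibc, h_ibc, h_th, h_t2, h⟩ := h
  obtain ⟨h_te, h_Zt, h_C3, h_R3, p_iR3, h_iR3, p_iC3, h_iC3, h⟩ := h
  obtain ⟨h_hR3, p_126, h_io3, h_AE3, h_Ztr, h_C4, h_R4, p_iR4, h⟩ := h
  obtain ⟨h_iR4, p_iC4, h_iC4, h_hR4, p_137, h_io4, h_AE4, h_tO, h⟩ := h
  obtain ⟨h_tO1, h_tt, h_ie3, h_Ao3, h_Aw, h_tu, h_qq3, h_Cs3, h⟩ := h
  obtain ⟨h_X3, p_iX3, h_iX3, h_qX3, h_So3, h_Se3, p_iD3, h_iD3, h⟩ := h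
  obtain ⟨h_In3, h_bo3, h_Cs4, h_X4, p_iX4, h_iX4, h_qX4, h_So4, h⟩ := h
  obtain ⟨h_Se4, p_iD4, h_iD4, h_In4, h_bo4, h_Ie3, h_be3, h_Bw, h⟩ := h
  obtain ⟨h_ZI3, h_Je3, h_Jo3, h_ge3, h_ie4, h_Ie4, h_ZI4, h_Je4, h⟩ := h
  obtain ⟨h_Jo4, h_ge4, h_Ztt, h_go3, h_Cw, h_P0, h_Du, p_iCs1, h⟩ := h
  obtain ⟨h_iCs1, h_xe1, h_xn1, h_he1, p_iCs2, h_iCs2, h_xe2, h_xn2, h⟩ := h
  obtain ⟨h_he2, h_ho1, h_Eu, h_Dw, p_iCs3, h_iCs3, h_xe3, h_xn3, h⟩ := h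
  obtain ⟨h_he3, p_iCs4, h_iCs4, h_xe4, h_xn4, h_he4, h_ho3, h_Ew, h⟩ := h
  obtain ⟨h_P1, c2⟩ := h
  have hm : af3 m0 m1 m2 σ (ω ^ 2) = m := by rw [h_m]; rfl
  have hn : af3 n0 n1 n2 σ (ω ^ 2) = n := by rw [h_n]; rfl
  have hk : 1 - af3 k0 k1 k2 σ (ω ^ 2) = ik2 := by rw [h_ik2]; rfl
  rw [hm, hn] at hμ0 hμ1 hK
  rw [hm, hn, hk]
  obtain ⟨cu, cw, cU0, cU1, cW1, cW0⟩ := coef_of (σ := σ) (ω := ω) rfl h_al h_a9 h_uh p_iu h_iu h_w p_iw h_iw h_aw h_uE h_uO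
    h_wE h_wO h_nW h_lE h_lo h_le h_tE h_tO h_te
  have hik : 0 < ik := by rw [h_ik]; exact Real.sqrt_pos.2 p_kk2
  have hik2 : ik ^ 2 = ik2 := by rw [h_ik]; exact Real.sq_sqrt p_kk2.le
  obtain ⟨z, hz⟩ : ∃ z : ℝ, z = ω / ik := ⟨_, rfl⟩
  have hZ : z ^ 2 = Z := by rw [hz, h_Z, h_kk2, ← hik2]; field_simp
  have hzl : ω * lo = z * lo1 := by rw [hz, h_lo1]; field_simp
  have hzt : ω * tO = z * tO1 := by rw [hz, h_tO1]; field_simp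
  have hle : le = 1 + Z * lE1 := by rw [h_le, h_Z, h_lE1, h_kk2]; field_simp; ring
  have hte : te = 1 + Z * tE1 := by rw [h_te, h_Z, h_tE1, h_kk2]; field_simp; ring
  rw [hzl] at cU0 cU1
  rw [hzt] at cW0 cW1
  have hσ0 : 0 < σ ^ 2 := by positivity
  have hσω0 : 0 ≤ σ ^ 2 * ω := mul_nonneg hσ0.le hω
  have hσω1 : σ ^ 2 * ω ≤ σ ^ 2 := mul_le_of_le_one_right hσ0.le hω1
  have nU0 : 0 ≤ al * uh * (le + z * lo1) := by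
    rw [← cU0]; exact mul_nonneg hμ0 (HYm_uf (by linarith only [hσ0, hσω0, hσω1, hσ2]) (by linarith only [hσ0, hσω0, hσω1, hσ2]))
  have nU1 : 0 ≤ al * uh * (le - z * lo1) := by
    rw [← cU1]; exact mul_nonneg hμ1 (HYm_uf (by linarith only [hσ0, hσω0, hσω1, hσ2]) (by linarith only [hσ0, hσω0, hσω1, hσ2]))
  have nW1 : 0 ≤ w * (te + z * tO1) := by
    rw [← cW1]; exact mul_nonneg hμ1 (HYm_uf (by linarith only [hσ0, hσω0, hσω1, hσ2]) (by linarith only [hσ0, hσω0, hσω1, hσ2]))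
  have nW0 : 0 ≤ w * (te - z * tO1) := by
    rw [← cW0]; exact mul_nonneg hμ0 (HYm_uf (by linarith only [hσ0, hσω0, hσω1, hσ2]) (by linarith only [hσ0, hσω0, hσω1, hσ2]))
  unfold Kv at hK
  rw [cU0, cU1, cW0, cW1, cu, cw] at hK
  unfold FBv
  rw [cU0, cU1, cW0, cW1, cu, cw, ← h_ik, ← hz]
  have hu : 0 < al * uh := mul_pos (by rw [h_al]; exact hσ0) p_iu
  have hsb : 0 < sb := by rw [h_sb]; exact Real.sqrt_pos.2 p_ibc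
  have hsb2 : sb ^ 2 = bc := by rw [h_sb]; exact Real.sq_sqrt p_ibc.le
  have hx : 0 < x := by rw [h_x]; exact Real.sqrt_pos.2 p_ia
  have hx2 : x ^ 2 = ab := by rw [h_x]; exact Real.sq_sqrt p_ia.le
  have he1 : 0 ≤ e1 := by rw [h_e1]; linarith only [he]
  have hs : σ ^ 2 + sb ^ 2 = 1 := by rw [hsb2, h_bc, h_al]; ring
  have hth : th * sb ^ 2 = σ ^ 2 := by rw [hsb2, h_th, h_ibc, h_al]; field_simp
  obtain ⟨τ, hτ⟩ : ∃ τ : ℝ, τ = x / σ := ⟨_, rfl⟩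
  have hτ0 : 0 < τ := by rw [hτ]; positivity
  have hστ : σ * τ = x := by rw [hτ]; field_simp
  have hστ2 : σ ^ 2 * τ ^ 2 = ab := by rw [← mul_pow, hστ, hx2]
  have hab : σ ^ 2 * τ ^ 2 + sb ^ 2 * e1 ^ 2 = 1 := by rw [hστ2, hsb2, h_ab]; ring
  have habu : ab * uu = al * (e2 * qt + up) + bc * e2 := by rw [h_uu, h_ia]; field_simp
  have habq : ab * q = σ ^ 2 * e1 ^ 2 * qt := by
    have a1 : ab * q = e * (ab * uu) + ab := by rw [h_q]; ring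
    rw [a1, habu, h_ab, h_bc, h_e1, h_e2, h_qt, h_al]; ring
  have hq : τ ^ 2 * q = e1 ^ 2 * qt := by
    apply mul_left_cancel₀ hσ0.ne'
    linear_combination habq + q * hστ2
  have hτ1 : τ - 1 = e * ep / σ := by
    have a1 : (x + σ) * (e * ep) = (x + σ) * (x - σ) := by
      have a2 : (x + σ) * ep = -(e2 * bc) := by rw [h_ep]; field_simp; ring
      have a3 : (x + σ) * (x - σ) = ab - σ ^ 2 := by rw [← hx2]; ring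
      rw [a3, h_ab, mul_left_comm, a2, h_bc, h_e1, h_e2, h_al]; ring
    rw [mul_left_cancel₀ p_20.ne' a1, hτ]; field_simp
  have hq1 : q - 1 = e * uu := by rw [h_q]; ring
  have hqt1 : qt - 1 = up * e := by rw [h_qt]; ring
  have he11 : e1 - 1 = e := by rw [h_e1]; ring
  have hwus : w * us = σ * uh := by rw [h_us, h_iw]; field_simp
  have F1 := pairF_of h_C1 h_R1 h_iR1 p_iC1 h_iC1 h_hR1 h_io1 h_ie1 h_qq1 h_Cs1 p_iCs1 h_X1 h_iX1 h_qX1 h_So1 h_Se1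
    h_iD1 h_In1 h_Ie1 h_ZI1 h_Je1 h_Jo1
  have F2 := pairF_of h_C2 h_R2 h_iR2 p_iC2 h_iC2 h_hR2 h_io2 h_ie2 h_qq1 h_Cs2 p_iCs2 h_X2 h_iX2 h_qX2 h_So2 h_Se2
    h_iD2 h_In2 h_Ie2 h_ZI2 h_Je2 h_Jo2
  have F3 := pairF_of h_C3 h_R3 h_iR3 p_iC3 h_iC3 h_hR3 h_io3 h_ie3 h_qq3 h_Cs3 p_iCs3 h_X3 h_iX3 h_qX3 h_So3 h_Se3
    h_iD3 h_In3 h_Ie3 h_ZI3 h_Je3 h_Jo3
  have F4 := pairF_of h_C4 h_R4 h_iR4 p_iC4 h_iC4 h_hR4 h_io4 h_ie4 h_qq3 h_Cs4 p_iCs4 h_X4 h_iX4 h_qX4 h_So4 h_Se4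
    h_iD4 h_In4 h_Ie4 h_ZI4 h_Je4 h_Jo4
  rw [← h_iCs1, ← h_xe1, ← h_xn1, ← h_he1, ← h_ho1, ← h_AE1, ← h_Ao1, ← h_be1, ← h_bo1, ← h_ge1, ← h_go1] at F1
  rw [← h_iCs2, ← h_xe2, ← h_xn2, ← h_he2, ← h_AE2, ← h_bo2, ← h_ge2, h_Zr] at F2
  rw [← h_iCs3, ← h_xe3, ← h_xn3, ← h_he3, ← h_ho3, ← h_AE3, ← h_Ao3, ← h_be3, ← h_bo3, ← h_ge3, ← h_go3, h_Zt] at F3
  rw [← h_iCs4, ← h_xe4, ← h_xn4, ← h_he4, ← h_AE4, ← h_bo4, ← h_ge4, h_Ztr, h_Zt] at F4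
  obtain ⟨G0, G1⟩ := FB_pairs (ρ := rho) (u := al * uh) (w := w) hσ hsb hs hth h_t2 h_r hZ hτ0.le he1 hab hq hle hte h_tt h_Zl h_Ztt
    F1 F2 F3 F4
  rw [← h_Au, ← h_Bu, ← h_Cu, ← h_Aw, ← h_Bw, ← h_Cw, hτ1, hq1, hqt1, he11] at G0
  rw [← h_Du, ← h_Eu, ← h_Dw, ← h_Ew, hτ1, hq1, hqt1, he11, hστ, ← h_yy] at G1
  have hus : us = σ * uh / w := by rw [← hwus]; field_simp
  have G0' : FB rho (al * uh) w (al * uh * (le + z * lo1)) (al * uh * (le - z * lo1) / (2 * (σ * √(1 - z))))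
      (w * (te - z * tO1)) (w * (te + z * tO1)) (σ ^ 2 * (1 + z)) (σ * √(1 - z)) (σ ^ 2 * τ ^ 2 * (1 + z * q))
      (σ ^ 2 * τ ^ 2 * (1 - z * q)) = w * e ^ 2 * z ^ 2 * P0 := by
    rw [G0, h_P0, hus, h_su, h_tu, h_al, hZ]
    field_simp
  have hkp : 0 < kp := by linarith only [c0]
  have hyy : 0 ≤ yy := by rw [h_yy]; exact mul_nonneg hsb.le he1
  have hP0 : 0 ≤ P0 := by
    have a1 : 0 ≤ 2 * yy * P1 ^ 2 := by positivity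
    exact nonneg_of_mul_nonneg_right (by linarith only [a1, c2] : 0 ≤ kp * P0) hkp
  rcases he1.eq_or_lt with he0 | he0
  · have hab1 : ab = 1 := by rw [h_ab, ← he0]; ring
    have hq0 : q = 0 := by
      have a1 := habq
      rw [hab1, ← he0] at a1
      linarith only [a1]
    have he' : 1 + e = 0 := by rw [h_e1] at he0; linarith only [he0]
    rw [he'] at hb
    have hb0 : b0 = σ ^ 2 * τ ^ 2 * (1 + z * q) := by rw [hστ2, hab1, hq0]; linarith only [hb, hb01, hb11]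
    have hb1 : b1 = σ ^ 2 * τ ^ 2 * (1 - z * q) := by rw [hστ2, hab1, hq0]; linarith only [hb, hb01, hb11]
    rw [hb0, hb1, G0']
    positivity
  · have hyy0 : 0 < yy := by rw [h_yy]; exact mul_pos hsb he0
    have hyx : yx = yy / x := by rw [h_yx, h_ia, ← hx2]; field_simp
    have hκ : al * uh * ku / (σ * τ) ^ 3 + w * kw / (sb * e1) ^ 3 = w * K / yy ^ 3 := by
      rw [hστ, ← h_yy, h_K, hyx, hus, h_al]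
      field_simp
      ring
    have hKp : 0 < K := by linarith only [hkp, c1]
    obtain ⟨a1, a3, -⟩ := F1 z hZ
    obtain ⟨a2, a4, -⟩ := F1 (-z) (by rw [neg_sq, hZ])
    obtain ⟨a5, a7, -⟩ := F3 (th * z) (by rw [mul_pow, hZ, h_t2])
    obtain ⟨a6, a8, -⟩ := F3 (-(th * z)) (by rw [neg_sq, mul_pow, hZ, h_t2])
    refine HYm_core (ku := ku) (kw := kw) (qt := qt) h0 h1 hu p_iw hσ hsb hs hth hτ0 he0 hab hq a1 (by linarith only [a2]) a3 (by linarith only [a4])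
      a5 (by linarith only [a6]) a7 (by linarith only [a8]) nU0 nU1 nW0 nW1 hK.1 hK.2 ?_ ?_ hb00 hb01 hb10 hb11 ?_
    · rw [hκ]; positivity
    · intro φ hφ
      have G1' := G1 φ hτ0 he0 (by rw [hφ, hστ])
      rw [G1', G0', hκ]
      have a9 : al * uh * z * (e * ep / σ * Du + e * uu * Eu) / x + w * z * (e * Dw + th * (up * e) * Ew) / yy =
          w * e * z * P1 / yy := by
        rw [h_P1, hyx, hus, h_su, h_tu, h_al]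
        field_simp
      rw [a9]
      have a10 : 0 ≤ K * P0 - 2 * yy * P1 ^ 2 := by linarith only [mul_nonneg c1 hP0, c2]
      have a11 : w * K / yy ^ 3 * (w * e ^ 2 * z ^ 2 * P0) - 2 * (w * e * z * P1 / yy) ^ 2 =
          (w * e * z) ^ 2 / yy ^ 3 * (K * P0 - 2 * yy * P1 ^ 2) := by
        field_simp
      have a12 : 0 ≤ (w * e * z) ^ 2 / yy ^ 3 * (K * P0 - 2 * yy * P1 ^ 2) := mul_nonneg (by positivity) a10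
      linarith only [a11, a12]
    · rw [hb, hστ, hx2, h_ab, h_bc, h_al, h_e1]; ring

end Crest.Agent.R307
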