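import Crest.Agent.R307.HXm
import Crest.Agent.R307.HYm
import Crest.Agent.R307.HGm
import Crest.Agent.R307.HSm
import Crest.Agent.R307.HSh

/-! Row 307: from the verified boxes of one region of the `(σ, W)` plane to `HS`. -/

set_option autoImplicit false

namespace Crest.Agent.R307
open AA

theorem uf_pos' {a : ℝ} (h0 : 0 < a) (h1 : a ≤ 1) : 0 < uf a := by
  unfold uf; apply mul_pos h0; linarith

theorem val_O : val 4722366482869645213696 = 0 := by norm_num [val]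

theorem vertex_main {gs l0 h0 l1 h1 : ℕ}
    (hX : Good (HX.PR gs) l0 h0 l1 h1 4722366201394668503040 4722367890244528766976 4722366482869645213696 4722366482869645213696)
    (hY : Good (HY.PR gs) l0 h0 l1 h1 4722366201394668503040 4722366482869645213696 4722366482869645213696 4722366482869645213696)
    (hG : Good (HG.PR gs) l0 h0 l1 h1 4722366482869645213696 4722366482869645213696 4722366482869645213696 4722366482869645213696)
    (hK : Good (HK.PR gs) 4722366482869645213696 4722366764344621924352 4722366482869645213696 4722366482869645213696 4722366482869645213696 4722366482869645213696 4722366482869645213696 4722366482869645213696)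
    {σ ω : ℝ} (hb0 : val l0 ≤ σ ∧ σ ≤ val h0) (hb1 : val l1 ≤ ω ^ 2 ∧ ω ^ 2 ≤ val h1)
    (hρ0 : 0 ≤ parV gs 0) (hρ1 : parV gs 0 < 1) (hσ : 1 / 8 ≤ σ) (hσ2 : σ ^ 2 ≤ 1 / 2) (hω : 0 ≤ ω) (hω1 : ω < 1)
    (hδ : σ ^ 2 * ω ≤ 1 / 4) :
    ∃ Γ : ℝ, Γ ≤ (gam6 (parV gs 16) (parV gs 17) (parV gs 18) (parV gs 19) (parV gs 20) (parV gs 21) σ (ω ^ 2)) ∧ (parV gs 0 = 0 → parV gs 7 = 0 → parV gs 8 = 0 → parV gs 9 = 0 → Γ = 0) ∧
      Vx (parV gs 0) (σ ^ 2) (σ ^ 2 * ω) (muv (af3 (parV gs 1) (parV gs 2) (parV gs 3) σ (ω ^ 2)) (af3 (parV gs 4) (parV gs 5) (parV gs 6) σ (ω ^ 2)) ω) (muv (af3 (parV gs 1) (parV gs 2) (parV gs 3) σ (ω ^ 2)) (af3 (parV gs 4) (parV gs 5) (parV gs 6) σ (ω ^ 2)) (-ω)) 0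
        (Tv (af3 (parV gs 1) (parV gs 2) (parV gs 3) σ (ω ^ 2)) (af3 (parV gs 4) (parV gs 5) (parV gs 6) σ (ω ^ 2)) σ ω Γ) := by
  have hσ0 : 0 < σ := by linarith
  have hα : 0 < σ ^ 2 := by positivity
  have hz : (val 4722366482869645213696 ≤ (0 : ℝ) ∧ (0 : ℝ) ≤ val 4722366482869645213696) := by rw [val_O]; exact ⟨le_rfl, le_rfl⟩
  have hex : ¬ (0 ≤ (ω ^ 2 * (σ ^ 2) ^ 2 + (-1 / 16 : ℝ)) + (-1 / 16384 : ℝ)) := by
    have : (σ ^ 2 * ω) ^ 2 ≤ (1 / 4) ^ 2 := pow_le_pow_left₀ (by positivity) hδ 2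
    intro h; nlinarith
  obtain ⟨k1, k2, a0, a1⟩ := HK_main (fun s s0 s1 => @HK.of_good _ _ _ _ _ _ _ _ _ hK s 0 0 0
    ⟨⟨by rw [val_O]; exact s0, le_trans s1 (by norm_num [val])⟩, hz, hz, hz⟩)
  have hGs := (@HG.of_good _ _ _ _ _ _ _ _ _ hG σ (ω ^ 2) 0 0 ⟨hb0, hb1, hz, hz⟩).resolve_right hex
  obtain ⟨z1, c0, c1, c2, c3, Γ, hΓ, hΓ0, hT⟩ := HG_main hρ0 hρ1 hσ0 hσ2 hω hω1 hGs
  set m := (af3 (parV gs 1) (parV gs 2) (parV gs 3) σ (ω ^ 2))
  set n := (af3 (parV gs 4) (parV gs 5) (parV gs 6) σ (ω ^ 2))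
  set ik := 1 - af3 (parV gs 7) (parV gs 8) (parV gs 9) σ (ω ^ 2)
  have hu : 0 < uf (σ ^ 2) := uf_pos' hα (by linarith)
  have hδ0 : 0 ≤ σ ^ 2 * ω := by positivity
  have hδ1 : σ ^ 2 * ω < σ ^ 2 := by nlinarith
  have hu0 : 0 < uf (σ ^ 2 + σ ^ 2 * ω) := uf_pos' (by linarith) (by linarith)
  have hu1 : 0 < uf (σ ^ 2 - σ ^ 2 * ω) := uf_pos' (by linarith) (by linarith)
  have hμ0 : 0 ≤ muv m n ω := by
    by_contra hn
    have := div_neg_of_neg_of_pos (mul_neg_of_neg_of_pos (not_le.1 hn) hu0) hu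
    linarith
  have hμ1 : 0 ≤ muv m n (-ω) := by
    by_contra hn
    have := div_neg_of_neg_of_pos (mul_neg_of_neg_of_pos (not_le.1 hn) hu1) hu
    linarith
  have hKv : Kv (parV gs 0) m n σ ω (parV gs 10) (parV gs 11) :=
    ⟨Kap_mono k1 c0 c1 le_rfl, Kap_mono k2 c2 c3 le_rfl⟩
  have hz0 : 0 ≤ ω / √ik := div_nonneg hω (Real.sqrt_nonneg _)
  have hr : 0 < √(1 - ω / √ik) := Real.sqrt_pos.2 (by linarith)
  have hr' : √(1 - ω / √ik) ≤ 1 := Real.sqrt_le_one.2 (by linarith)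
  have hσ1 : σ < 1 := by nlinarith
  have hF : ∀ b0 b1 : ℝ, 0 ≤ b0 → b0 ≤ 1 → 0 ≤ b1 → b1 ≤ 1 → 0 ≤ FBv (parV gs 0) m n ik σ ω b0 b1 := by
    intro b0 b1 p0 p1 q0 q1
    rcases lt_or_ge (b0 + b1) 1 with hx | hx
    · have hs : √((b0 + b1) / 2) ^ 2 = (b0 + b1) / 2 := Real.sq_sqrt (by linarith)
      have hs0 := Real.sqrt_nonneg ((b0 + b1) / 2)
      have he : σ * (1 + (√((b0 + b1) / 2) / σ - 1)) = √((b0 + b1) / 2) := by field_simp; ring
      have e0 : -1 ≤ √((b0 + b1) / 2) / σ - 1 := by have := div_nonneg hs0 hσ0.le; linarith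
      have e1 : √((b0 + b1) / 2) / σ - 1 ≤ 5 := by
        have : √((b0 + b1) / 2) / σ ≤ 6 := by rw [div_le_iff₀ hσ0]; nlinarith
        linarith
      rcases @HX.of_good _ _ _ _ _ _ _ _ _ hX σ (ω ^ 2) (√((b0 + b1) / 2) / σ - 1) 0
        ⟨hb0, hb1, ⟨le_trans (by norm_num [val]) e0, le_trans e1 (by norm_num [val])⟩, hz⟩ with h | h | h
      · exact HX_main hρ0 hρ1 hσ0 hσ2 hω hω1.le e0 hμ0 hμ1 hKv h p0 p1 q0 q1 (by rw [he, hs]; ring)
      · exact absurd h hex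
      · exfalso
        unfold HX.y_Spec at h
        rw [add_comm (_ - 1 : ℝ) 1, he, hs] at h
        linarith
    · have hc : 0 < 1 - σ ^ 2 := by linarith
      have hq : 0 ≤ (1 - (b0 + b1) / 2) / (1 - σ ^ 2) := div_nonneg (by linarith) hc.le
      have hs : √((1 - (b0 + b1) / 2) / (1 - σ ^ 2)) ^ 2 = (1 - (b0 + b1) / 2) / (1 - σ ^ 2) := Real.sq_sqrt hq
      have hs0 := Real.sqrt_nonneg ((1 - (b0 + b1) / 2) / (1 - σ ^ 2))
      have hs1 : √((1 - (b0 + b1) / 2) / (1 - σ ^ 2)) ≤ 1 :=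
        Real.sqrt_le_one.2 (by rw [div_le_one hc]; linarith)
      have he : (1 - σ ^ 2) * (1 + (√((1 - (b0 + b1) / 2) / (1 - σ ^ 2)) - 1)) ^ 2 = 1 - (b0 + b1) / 2 := by
        rw [add_sub_cancel, hs]; field_simp
      rcases @HY.of_good _ _ _ _ _ _ _ _ _ hY σ (ω ^ 2) (√((1 - (b0 + b1) / 2) / (1 - σ ^ 2)) - 1) 0
        ⟨hb0, hb1, ⟨le_trans (by norm_num [val]) (show (-1 : ℝ) ≤ _ by linarith), by rw [val_O]; linarith⟩, hz⟩ with h | h | h
      · exact HY_main hρ0 hρ1 hσ0 hσ2 hω hω1.le (by linarith) hμ0 hμ1 hKv h p0 p1 q0 q1 (by rw [he]; ring)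
      · exact absurd h hex
      · exfalso
        unfold HY.y_Spec at h
        rw [add_comm (_ - 1 : ℝ) 1, he] at h
        linarith
  refine ⟨Γ, hΓ, hΓ0, ?_⟩
  have hV := Vx_of_FB (η := 0) (Λ := muv m n (-ω) * uf (σ ^ 2 - σ ^ 2 * ω) / (2 * (σ * √(1 - ω / √ik))))
    (c0 := σ ^ 2 * (1 + ω / √ik)) (r1 := σ * √(1 - ω / √ik)) hρ0 hρ1 hδ0 hδ1.le (by linarith) hμ0 hμ1 le_rfl
    (by positivity) (by nlinarith) (by positivity) (by nlinarith) (by field_simp; ring) hF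
  refine Vx_mono hV (le_of_eq ?_)
  unfold FBv at hT
  unfold Tv
  linarith

theorem interval_main {ρ β ρa ρb t σ ω ma na mb nb Γa Γb γ : ℝ} (h0 : 0 ≤ ρ) (ha0 : 0 ≤ ρa) (ha1 : ρa ≤ 1) (hb0 : 0 ≤ ρb)
    (hb1 : ρb ≤ 1) (ht0 : 0 ≤ t) (ht1 : t ≤ 1) (ht : ρ ^ 2 = (1 - t) * ρa ^ 2 + t * ρb ^ 2) (hσ : 0 < σ) (hσ2 : σ ^ 2 ≤ 1 / 2)
    (Va : Vx ρa (σ ^ 2) (σ ^ 2 * ω) (muv ma na ω) (muv ma na (-ω)) 0 (Tv ma na σ ω Γa))
    (Vb : Vx ρb (σ ^ 2) (σ ^ 2 * ω) (muv mb nb ω) (muv mb nb (-ω)) 0 (Tv mb nb σ ω Γb))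
    (hγ : (1 - t) * Γa + t * Γb ≤ γ) (hS : Sv β ((1 - t) * ma + t * mb) ((1 - t) * na + t * nb) σ ω γ) :
    HS ρ β (σ ^ 2) (σ ^ 2 * ω) := by
  have hV := Vx_interp ht0 ht1 h0 ha0 ha1 hb0 hb1 ht (by positivity) (by linarith) Va Vb
  refine HS_of_Vx hV ?_
  have hu : 0 ≤ uf (σ ^ 2) * σ * ω ^ 2 := by have := uf_pos' (a := σ ^ 2) (by positivity) (by linarith); positivity
  have := mul_le_mul_of_nonneg_left hγ hu
  unfold Sv Tv muv at *
  nlinarith

/-- the property of a point `(σ, W)` -/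
def QH : ℕ → ℕ → ℝ → ℝ → ℝ → ℝ → Prop := fun _ _ σ W _ _ =>
  ∀ ρ β ω : ℝ, 0 ≤ ρ → ρ ≤ 4 / 5 → 0 ≤ β → ρ ^ 2 + β ^ 2 = 1 → 1 / 8 ≤ σ → σ ^ 2 ≤ 1 / 2 → 0 ≤ ω → ω < 1 → W = ω ^ 2 →
    σ ^ 2 * ω ≤ 1 / 4 → HS ρ β (σ ^ 2) (σ ^ 2 * ω)

theorem region {G l0 h0 l1 h1 : ℕ}
    (X0 : Good (HX.PR (sh G 0)) l0 h0 l1 h1 4722366201394668503040 4722367890244528766976 4722366482869645213696 4722366482869645213696)
    (Y0 : Good (HY.PR (sh G 0)) l0 h0 l1 h1 4722366201394668503040 4722366482869645213696 4722366482869645213696 4722366482869645213696)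
    (G0 : Good (HG.PR (sh G 0)) l0 h0 l1 h1 4722366482869645213696 4722366482869645213696 4722366482869645213696 4722366482869645213696)
    (K0 : Good (HK.PR (sh G 0)) 4722366482869645213696 4722366764344621924352 4722366482869645213696 4722366482869645213696 4722366482869645213696 4722366482869645213696 4722366482869645213696 4722366482869645213696)
    (X1 : Good (HX.PR (sh G 1)) l0 h0 l1 h1 4722366201394668503040 4722367890244528766976 4722366482869645213696 4722366482869645213696)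
    (Y1 : Good (HY.PR (sh G 1)) l0 h0 l1 h1 4722366201394668503040 4722366482869645213696 4722366482869645213696 4722366482869645213696)
    (G1 : Good (HG.PR (sh G 1)) l0 h0 l1 h1 4722366482869645213696 4722366482869645213696 4722366482869645213696 4722366482869645213696)
    (K1 : Good (HK.PR (sh G 1)) 4722366482869645213696 4722366764344621924352 4722366482869645213696 4722366482869645213696 4722366482869645213696 4722366482869645213696 4722366482869645213696 4722366482869645213696)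
    (X2 : Good (HX.PR (sh G 2)) l0 h0 l1 h1 4722366201394668503040 4722367890244528766976 4722366482869645213696 4722366482869645213696)
    (Y2 : Good (HY.PR (sh G 2)) l0 h0 l1 h1 4722366201394668503040 4722366482869645213696 4722366482869645213696 4722366482869645213696)
    (G2 : Good (HG.PR (sh G 2)) l0 h0 l1 h1 4722366482869645213696 4722366482869645213696 4722366482869645213696 4722366482869645213696)
    (K2 : Good (HK.PR (sh G 2)) 4722366482869645213696 4722366764344621924352 4722366482869645213696 4722366482869645213696 4722366482869645213696 4722366482869645213696 4722366482869645213696 4722366482869645213696)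
    (X3 : Good (HX.PR (sh G 3)) l0 h0 l1 h1 4722366201394668503040 4722367890244528766976 4722366482869645213696 4722366482869645213696)
    (Y3 : Good (HY.PR (sh G 3)) l0 h0 l1 h1 4722366201394668503040 4722366482869645213696 4722366482869645213696 4722366482869645213696)
    (G3 : Good (HG.PR (sh G 3)) l0 h0 l1 h1 4722366482869645213696 4722366482869645213696 4722366482869645213696 4722366482869645213696)
    (K3 : Good (HK.PR (sh G 3)) 4722366482869645213696 4722366764344621924352 4722366482869645213696 4722366482869645213696 4722366482869645213696 4722366482869645213696 4722366482869645213696 4722366482869645213696)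
    (S0 : Good (HS1.PR (sh G 0)) 4722366726411470766080 4722366764344621924352 l0 h0 l1 h1 4722366482869645213696 4722366482869645213696)
    (S1 : Good (HS2.PR (sh G 1)) 4722366682980761468928 4722366726686348673024 l0 h0 l1 h1 4722366482869645213696 4722366482869645213696)
    (S2 : Good (HS2.PR (sh G 2)) 4722366651754631240089 4722366683255639375872 l0 h0 l1 h1 4722366482869645213696 4722366482869645213696)
    (hp : parN (sh G 0) 0 = 4722366482869645213696 ∧ parN (sh G 0) 7 = 4722366482869645213696 ∧ parN (sh G 0) 8 = 4722366482869645213696 ∧ parN (sh G 0) 9 = 4722366482869645213696 ∧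
      parN (sh G 1) 0 = 4722366623607133569024 ∧ parN (sh G 2) 0 = 4722366680781738213376 ∧ parN (sh G 3) 0 = 4722366708049626582221) :
    Good QH l0 h0 l1 h1 4722366482869645213696 4722366482869645213696 4722366482869645213696 4722366482869645213696 := by
  intro σ W _ _ hb
  refine ⟨0, 0, ?_⟩
  intro ρ β ω h0 h1 hβ hρ hσ hσ2 hω hω1 hW hδ
  subst hW
  obtain ⟨p0, p7, p8, p9, p1, p2, p3⟩ := hp
  have r0 : parV (sh G 0) 0 = 0 := by rw [parV, p0, val_O]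
  have r1 : parV (sh G 1) 0 = 1 / 2 := by rw [parV, p1]; norm_num [val]
  have r2 : parV (sh G 2) 0 = 45 / 64 := by rw [parV, p2]; norm_num [val]
  have r3 : parV (sh G 3) 0 = 225179981368525 / 281474976710656 := by rw [parV, p3]; norm_num [val]
  have hσ0 : 0 < σ := by linarith
  have hz : (val 4722366482869645213696 ≤ (0 : ℝ) ∧ (0 : ℝ) ≤ val 4722366482869645213696) := by rw [val_O]; exact ⟨le_rfl, le_rfl⟩
  have hex : ¬ (0 ≤ (ω ^ 2 * (σ ^ 2) ^ 2 + (-1 / 16 : ℝ)) + (-1 / 16384 : ℝ)) := by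
    have : (σ ^ 2 * ω) ^ 2 ≤ (1 / 4) ^ 2 := pow_le_pow_left₀ (by positivity) hδ 2
    intro h; nlinarith
  obtain ⟨Γ0, a0, b0, V0⟩ := vertex_main X0 Y0 G0 K0 hb.1 hb.2.1 (by rw [r0]; try norm_num) (by rw [r0]; norm_num) hσ hσ2 hω hω1 hδ
  obtain ⟨Γ1, a1, b1, V1⟩ := vertex_main X1 Y1 G1 K1 hb.1 hb.2.1 (by rw [r1]; try norm_num) (by rw [r1]; norm_num) hσ hσ2 hω hω1 hδ
  obtain ⟨Γ2, a2, b2, V2⟩ := vertex_main X2 Y2 G2 K2 hb.1 hb.2.1 (by rw [r2]; try norm_num) (by rw [r2]; norm_num) hσ hσ2 hω hω1 hδ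
  obtain ⟨Γ3, a3, b3, V3⟩ := vertex_main X3 Y3 G3 K3 hb.1 hb.2.1 (by rw [r3]; try norm_num) (by rw [r3]; norm_num) hσ hσ2 hω hω1 hδ
  have hβ1 : β ≤ 1 := by nlinarith
  rcases le_total ρ (1 / 2) with c1 | c1
  · have hS := (@HS1.of_good _ _ _ _ _ _ _ _ _ S0 β σ (ω ^ 2) 0
      ⟨⟨le_trans (by norm_num [val]) (show (886 / 1024 : ℝ) ≤ β by nlinarith), le_trans hβ1 (by norm_num [val])⟩, hb.1, hb.2.1, hz⟩).resolve_right hex
    rw [(parV_sh G 0 0 : parV (sh G 0) 22 = parV (sh G 1) 0), (parV_sh G 0 1 : parV (sh G 0) 23 = parV (sh G 1) 1), (parV_sh G 0 2 : parV (sh G 0) 24 = parV (sh G 1) 2), (parV_sh G 0 3 : parV (sh G 0) 25 = parV (sh G 1) 3), (parV_sh G 0 4 : parV (sh G 0) 26 = parV (sh G 1) 4), (parV_sh G 0 5 : parV (sh G 0) 27 = parV (sh G 1) 5), (parV_sh G 0 6 : parV (sh G 0) 28 = parV (sh G 1) 6), (parV_sh G 0 7 : parV (sh G 0) 29 = parV (sh G 1) 7), (parV_sh G 0 8 : parV (sh G 0) 30 = parV (sh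 G 1) 8), (parV_sh G 0 9 : parV (sh G 0) 31 = parV (sh G 1) 9), (parV_sh G 0 10 : parV (sh G 0) 32 = parV (sh G 1) 10), (parV_sh G 0 11 : parV (sh G 0) 33 = parV (sh G 1) 11), (parV_sh G 0 12 : parV (sh G 0) 34 = parV (sh G 1) 12), (parV_sh G 0 13 : parV (sh G 0) 35 = parV (sh G 1) 13), (parV_sh G 0 14 : parV (sh G 0) 36 = parV (sh G 1) 14), (parV_sh G 0 15 : parV (sh G 0) 37 = parV (sh G 1) 15), (parV_sh G 0 16 : parV (sh G 0) 38 = parV (sh G 1) 16), (parV_sh G 0 17 : parV (sh G 0) 39 = parV (sh G 1) 17), (parV_sh G 0 18 : parV (sh G 0) 40 = parV (sh G 1) 18), (parV_sh G 0 19 : parV (sh G 0) 41 = parV (sh G 1) 19), (parV_sh G 0 20 : parV (sh G 0) 42 = parV (sh G 1) 20), (parV_sh G 0 21 : parV (sh G 0) 43 = parV (sh G 1) 21)] at hS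
    have hΓ := b0 r0 (by rw [parV, p7, val_O]) (by rw [parV, p8, val_O]) (by rw [parV, p9, val_O])
    refine interval_main (t := 4 * ρ ^ 2) h0 (by rw [r0]) (by rw [r0]; norm_num) (by rw [r1]; norm_num) (by rw [r1]; norm_num)
      (by positivity) (by nlinarith) (by rw [r0, r1]; ring) hσ0 hσ2 V0 V1 ?_
      (HS1_main hσ0 hσ2 hω hω1 hβ1 r0 (by rw [r1]; linarith) hS)
    rw [hΓ, mul_zero, zero_add]
    exact mul_le_mul_of_nonneg_left a1 (by positivity)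
  rcases le_total ρ (45 / 64) with c2 | c2
  · have hS := (@HS2.of_good _ _ _ _ _ _ _ _ _ S1 β σ (ω ^ 2) 0
      ⟨⟨le_trans (by norm_num [val]) (show (728 / 1024 : ℝ) ≤ β by nlinarith),
        le_trans (show β ≤ (887 / 1024 : ℝ) by nlinarith) (by norm_num [val])⟩, hb.1, hb.2.1, hz⟩).resolve_right hex
    rw [(parV_sh G 1 0 : parV (sh G 1) 22 = parV (sh G 2) 0), (parV_sh G 1 1 : parV (sh G 1) 23 = parV (sh G 2) 1), (parV_sh G 1 2 : parV (sh G 1) 24 = parV (sh G 2) 2), (parV_sh G 1 3 : parV (sh G 1) 25 = parV (sh G 2) 3), (parV_sh G 1 4 : parV (sh G 1) 26 = parV (sh G 2) 4), (parV_sh G 1 5 : parV (sh G 1) 27 = parV (sh G 2) 5), (parV_sh G 1 6 : parV (sh G 1) 28 = parV (sh G 2) 6), (parV_sh G 1 7 : parV (sh G 1) 29 = parV (sh G 2) 7), (parV_sh G 1 8 : parV (sh G 1) 30 = parV (sh G 2) 8), (parV_sh G 1 9 : parV (sh G 1) 31 = parV (sh G 2) 9), (parV_sh G 1 10 : parV (sh G 1) 32 = parV (sh G 2) 10),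 (parV_sh G 1 11 : parV (sh G 1) 33 = parV (sh G 2) 11), (parV_sh G 1 12 : parV (sh G 1) 34 = parV (sh G 2) 12), (parV_sh G 1 13 : parV (sh G 1) 35 = parV (sh G 2) 13), (parV_sh G 1 14 : parV (sh G 1) 36 = parV (sh G 2) 14), (parV_sh G 1 15 : parV (sh G 1) 37 = parV (sh G 2) 15), (parV_sh G 1 16 : parV (sh G 1) 38 = parV (sh G 2) 16), (parV_sh G 1 17 : parV (sh G 1) 39 = parV (sh G 2) 17), (parV_sh G 1 18 : parV (sh G 1) 40 = parV (sh G 2) 18), (parV_sh G 1 19 : parV (sh G 1) 41 = parV (sh G 2) 19), (parV_sh G 1 20 : parV (sh G 1) 42 = parV (sh G 2) 20), (parV_sh G 1 21 : parV (sh G 1) 43 = parV (sh G 2) 21)] at hS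
    have t0 : 0 ≤ (ρ ^ 2 - 1 / 4) * (4096 / 1001) := by nlinarith
    have t1 : (ρ ^ 2 - 1 / 4) * (4096 / 1001) ≤ 1 := by nlinarith
    refine interval_main (t := (ρ ^ 2 - 1 / 4) * (4096 / 1001)) h0 (by rw [r1]; norm_num) (by rw [r1]; norm_num)
      (by rw [r2]; norm_num) (by rw [r2]; norm_num) t0 t1 (by rw [r1, r2]; ring) hσ0 hσ2 V1 V2 ?_
      (HS2_main hσ0 hσ2 hω hω1 (by rw [r1, r2]; linarith) hS)
    exact add_le_add (mul_le_mul_of_nonneg_left a1 (by linarith)) (mul_le_mul_of_nonneg_left a2 t0)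
  · have hS := (@HS2.of_good _ _ _ _ _ _ _ _ _ S2 β σ (ω ^ 2) 0
      ⟨⟨le_trans (by norm_num [val]) (show (3 / 5 : ℝ) ≤ β by nlinarith),
        le_trans (show β ≤ (729 / 1024 : ℝ) by nlinarith) (by norm_num [val])⟩, hb.1, hb.2.1, hz⟩).resolve_right hex
    rw [(parV_sh G 2 0 : parV (sh G 2) 22 = parV (sh G 3) 0), (parV_sh G 2 1 : parV (sh G 2) 23 = parV (sh G 3) 1), (parV_sh G 2 2 : parV (sh G 2) 24 = parV (sh G 3) 2), (parV_sh G 2 3 : parV (sh G 2) 25 = parV (sh G 3) 3), (parV_sh G 2 4 : parV (sh G 2) 26 = parV (sh G 3) 4), (parV_sh G 2 5 : parV (sh G 2) 27 = parV (sh G 3) 5), (parV_sh G 2 6 : parV (sh G 2) 28 = parV (sh G 3) 6), (parV_sh G 2 7 : parV (sh G 2) 29 = parV (sh G 3) 7), (parV_sh G 2 8 : parV (sh G 2) 30 = parV (sh G 3) 8), (parV_sh G 2 9 : parV (sh G 2) 31 = parV (sh G 3) 9), (parV_sh G 2 10 : parV (sh G 2) 32 = parV (sh G 3) 10), (parV_sh G 2 11 : parV (sh G 2) 33 = parV (sh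 G 3) 11), (parV_sh G 2 12 : parV (sh G 2) 34 = parV (sh G 3) 12), (parV_sh G 2 13 : parV (sh G 2) 35 = parV (sh G 3) 13), (parV_sh G 2 14 : parV (sh G 2) 36 = parV (sh G 3) 14), (parV_sh G 2 15 : parV (sh G 2) 37 = parV (sh G 3) 15), (parV_sh G 2 16 : parV (sh G 2) 38 = parV (sh G 3) 16), (parV_sh G 2 17 : parV (sh G 2) 39 = parV (sh G 3) 17), (parV_sh G 2 18 : parV (sh G 2) 40 = parV (sh G 3) 18), (parV_sh G 2 19 : parV (sh G 2) 41 = parV (sh G 3) 19), (parV_sh G 2 20 : parV (sh G 2) 42 = parV (sh G 3) 20), (parV_sh G 2 21 : parV (sh G 2) 43 = parV (sh G 3) 21)] at hS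
    obtain ⟨c, hc⟩ : ∃ c : ℝ, c = ((225179981368525 / 281474976710656) ^ 2 - (45 / 64) ^ 2)⁻¹ := ⟨_, rfl⟩
    have hc0 : 0 < c := by rw [hc]; norm_num
    have hc1 : c * ((225179981368525 / 281474976710656) ^ 2 - (45 / 64) ^ 2) = 1 := by rw [hc]; norm_num
    have t0 : 0 ≤ (ρ ^ 2 - (45 / 64) ^ 2) * c := mul_nonneg (by nlinarith) hc0.le
    have t1 : (ρ ^ 2 - (45 / 64) ^ 2) * c ≤ 1 := by
      rw [← hc1, mul_comm]; exact mul_le_mul_of_nonneg_left (by nlinarith) hc0.le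
    have ht : ρ ^ 2 = (1 - (ρ ^ 2 - (45 / 64) ^ 2) * c) * parV (sh G 2) 0 ^ 2 + (ρ ^ 2 - (45 / 64) ^ 2) * c * parV (sh G 3) 0 ^ 2 := by
      rw [r2, r3]; linear_combination (-(ρ ^ 2 - (45 / 64) ^ 2)) * hc1
    refine interval_main h0 (by rw [r2]; norm_num) (by rw [r2]; norm_num)
      (by rw [r3]; norm_num) (by rw [r3]; norm_num) t0 t1 ht hσ0 hσ2 V2 V3 ?_
      (HS2_main hσ0 hσ2 hω hω1 (by rw [← ht]; linarith) hS)
    exact add_le_add (mul_le_mul_of_nonneg_left a2 (by linarith)) (mul_le_mul_of_nonneg_left a3 t0)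

end Crest.Agent.R307
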