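import Crest.Agent.R307.HS2P
import Crest.Agent.R307.HGs

set_option autoImplicit false
set_option maxRecDepth 100000
set_option linter.unusedVariables false

namespace Crest.Agent.R307.HS2
open Crest.Agent.R307.AA

open Tree

theorem c0 : Good (PR (sh G0 1)) 4722366682980761468928 4722366726686348673024 4722366518054017302528 4722366533447180091392 4722366482869645213696 4722366496888418467840 4722366482869645213696 4722366482869645213696 :=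
  run_sound (PS _) (s0 (s1 (s0 (s2 (s1 l0 l0) l0) (s2 (s0 (s1 l0 l0) (s1 l0 l0)) (s1 l0 l0))) (s0 (s2 (s1 l0 l0) l0) (s2 (s0 (s1 l0 l0) (s1 l0 l0)) (s1 l0 l0)))) (s0 (s1 (s1 (s2 l0 l0) (s2 l0 l0)) (s2 (s1 l0 l0) (s0 l0 (s1 l0 l0)))) (s1 (s0 (s1 l0 l0) l0) (s0 (s2 l0 (s1 l0 l0)) (s2 l0 (s1 l0 l0)))))) 0 _ _ _ _ _ _ _ _ (by decide +kernel)

theorem c1 : Good (PR (sh G0 2)) 4722366651754631240089 4722366683255639375872 4722366518054017302528 4722366533447180091392 4722366482869645213696 4722366496888418467840 4722366482869645213696 4722366482869645213696 :=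
  run_sound (PS _) (s0 (s0 (s1 (s2 (s2 (s0 (s1 l0 l0) (s1 l0 l0)) (s1 l0 l0)) (s0 l0 l0)) (s2 (s0 (s2 (s1 l0 l0) l0) (s2 (s1 l0 l0) l0)) (s0 (s0 l0 (s1 l0 l0)) (s1 l0 (s2 l0 l0))))) (s1 (s2 (s0 (s2 (s1 l0 l0) l0) (s2 (s1 l0 l0) l0)) (s0 l0 l0)) (s2 (s0 (s2 (s1 l0 l0) l0) (s2 (s1 l0 l0) l0)) (s0 (s1 l0 (s2 l0 l0)) (s0 (s1 l0 l0) l0))))) (s0 (s1 (s2 (s0 (s1 l0 l0) (s1 l0 l0)) (s0 l0 l0)) (s2 (s0 (s1 l0 (s1 l0 l0)) (s1 l0 l0)) (s0 (s0 l0 l0) l0))) (s0 (s1 (s2 (s1 l0 l0) l0) (s2 (s1 l0 l0) l0)) (s1 (s2 (s1 l0 l0) l0) (s0 l0 l0))))) 0 _ _ _ _ _ _ _ _ (by decide +kernel)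

theorem c2 : Good (PR (sh G1 1)) 4722366682980761468928 4722366726686348673024 4722366518054017302528 4722366533447180091392 4722366496888418467840 4722366516679627767808 4722366482869645213696 4722366482869645213696 :=
  run_sound (PS _) (s0 (s0 (s1 (s0 (s2 l0 l0) (s2 l0 l0)) (s0 (s2 l0 l0) (s2 l0 l0))) (s1 (s0 (s2 l0 l0) (s2 l0 l0)) (s0 (s2 l0 l0) (s2 (s1 l0 l0) l0)))) (s0 (s1 (s0 (s2 l0 l0) (s2 l0 l0)) (s0 (s2 l0 l0) (s2 l0 l0))) (s1 (s0 l0 l0) (s0 (s2 l0 l0) l0)))) 0 _ _ _ _ _ _ _ _ (by decide +kernel)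

theorem c3 : Good (PR (sh G1 2)) 4722366651754631240089 4722366683255639375872 4722366518054017302528 4722366533447180091392 4722366496888418467840 4722366516679627767808 4722366482869645213696 4722366482869645213696 :=
  run_sound (PS _) (s0 (s0 (s2 (s0 (s1 l0 (s1 l0 l0)) (s1 l0 (s1 l0 l0))) (s1 l0 l0)) (s2 (s0 (s1 l0 (s1 l0 l0)) (s1 l0 l0)) (s1 l0 l0))) (s0 (s0 (s2 (s1 l0 l0) l0) (s2 (s1 l0 l0) l0)) (s0 (s2 (s1 l0 l0) l0) (s1 (s2 l0 l0) (s2 l0 l0))))) 0 _ _ _ _ _ _ _ _ (by decide +kernel)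

theorem c4 : Good (PR (sh G2 1)) 4722366682980761468928 4722366726686348673024 4722366518054017302528 4722366533447180091392 4722366516679627767808 4722366539219616137216 4722366482869645213696 4722366482869645213696 :=
  run_sound (PS _) (s0 (s0 (s0 (s2 (s1 l0 (s1 l0 l0)) (s1 l0 l0)) (s2 (s1 (s1 l0 l0) (s1 l0 l0)) (s1 l0 l0))) (s0 (s2 (s1 (s1 l0 l0) (s1 l0 l0)) (s1 l0 l0)) (s2 (s1 (s1 l0 l0) (s1 l0 l0)) (s1 l0 (s1 l0 l0))))) (s0 (s0 (s1 (s2 (s1 l0 l0) l0) (s2 (s1 l0 l0) (s1 l0 l0))) (s1 (s2 l0 l0) (s0 (s2 l0 l0) l0))) (s0 (s0 (s1 l0 l0) (s1 l0 l0)) (s1 (s2 l0 l0) (s2 l0 l0))))) 0 _ _ _ _ _ _ _ _ (by decide +kernel)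

theorem c5 : Good (PR (sh G2 2)) 4722366651754631240089 4722366683255639375872 4722366518054017302528 4722366533447180091392 4722366516679627767808 4722366539219616137216 4722366482869645213696 4722366482869645213696 :=
  run_sound (PS _) (s0 (s0 (s1 (s2 l0 l0) l0) (s1 (s2 l0 l0) (s2 l0 l0))) (s0 (s2 (s1 l0 l0) l0) (s1 l0 (s2 l0 l0)))) 0 _ _ _ _ _ _ _ _ (by decide +kernel)

theorem c6 : Good (PR (sh G3 1)) 4722366682980761468928 4722366726686348673024 4722366518054017302528 4722366533447180091392 4722366539219616137216 4722366564508383576064 4722366482869645213696 4722366482869645213696 :=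
  run_sound (PS _) (s0 (s1 (s0 (s2 l0 l0) (s2 l0 l0)) (s0 (s2 l0 l0) (s2 l0 l0))) (s1 (s0 (s2 l0 l0) l0) (s0 (s2 l0 l0) l0))) 0 _ _ _ _ _ _ _ _ (by decide +kernel)

theorem c7 : Good (PR (sh G3 2)) 4722366651754631240089 4722366683255639375872 4722366518054017302528 4722366533447180091392 4722366539219616137216 4722366564508383576064 4722366482869645213696 4722366482869645213696 :=
  run_sound (PS _) (s0 (s2 (s0 l0 (s1 l0 l0)) (s0 (s1 l0 l0) (s1 l0 l0))) (s0 (s1 (s2 l0 l0) (s2 l0 l0)) (s1 l0 (s2 l0 l0)))) 0 _ _ _ _ _ _ _ _ (by decide +kernel)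

theorem c8 : Good (PR (sh G4 1)) 4722366682980761468928 4722366726686348673024 4722366518054017302528 4722366533447180091392 4722366564508383576064 4722366592820807991296 4722366482869645213696 4722366482869645213696 :=
  run_sound (PS _) (s0 (s0 (s1 (s2 (s0 l0 l0) l0) (s2 (s1 l0 l0) l0)) (s2 (s1 (s0 l0 l0) (s0 l0 l0)) (s1 l0 l0))) (s0 (s2 (s1 (s0 l0 (s1 l0 l0)) (s0 (s1 l0 l0) (s1 l0 l0))) (s1 (s1 l0 l0) (s0 l0 l0))) (s2 (s1 (s0 l0 l0) (s0 (s1 l0 l0) (s1 l0 l0))) (s1 (s1 l0 l0) (s0 (s1 l0 l0) (s0 l0 (s1 l0 l0))))))) 0 _ _ _ _ _ _ _ _ (by decide +kernel)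

theorem c9 : Good (PR (sh G4 2)) 4722366651754631240089 4722366683255639375872 4722366518054017302528 4722366533447180091392 4722366564508383576064 4722366592820807991296 4722366482869645213696 4722366482869645213696 :=
  run_sound (PS _) (s0 (s0 (s1 l0 l0) (s1 l0 l0)) (s0 (s1 l0 l0) (s1 l0 l0))) 0 _ _ _ _ _ _ _ _ (by decide +kernel)

theorem c10 : Good (PR (sh G5 1)) 4722366682980761468928 4722366726686348673024 4722366533447180091392 4722366553238389391360 4722366482869645213696 4722366496888418467840 4722366482869645213696 4722366482869645213696 :=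
  run_sound (PS _) (s0 (s0 (s1 (s2 (s0 (s1 l0 l0) (s1 l0 l0)) (s0 l0 l0)) (s2 (s0 (s1 l0 l0) (s1 l0 l0)) (s0 l0 (s1 l0 l0)))) (s1 (s2 (s0 (s1 l0 l0) (s1 (s1 l0 l0) (s1 l0 l0))) (s0 (s1 l0 l0) (s1 l0 l0))) (s2 (s0 (s1 (s1 l0 l0) (s1 l0 l0)) (s1 (s2 l0 l0) (s2 l0 l0))) (s0 (s1 l0 l0) (s1 (s1 l0 l0) (s0 l0 l0)))))) (s0 (s1 (s2 (s0 (s1 (s1 l0 l0) (s1 l0 l0)) (s1 (s1 l0 l0) (s1 l0 l0))) (s0 (s1 l0 l0) (s1 l0 l0))) (s0 (s2 (s1 (s2 l0 l0) (s2 l0 l0)) (s1 (s0 l0 l0) (s2 l0 (s0 l0 (s1 l0 l0))))) (s2 (s1 (s1 l0 l0) (s1 l0 l0)) (s1 (s0 l0 l0) (s2 l0 (s1 l0 (s0 l0 l0))))))) (s1 (s0 (s2 (s1 l0 l0) (s1 l0 l0)) (s2 (s1 l0 l0) l0)) (s0 (s2 (s1 l0 l0) (s1 (s0 l0 l0) (s2 l0 (s0 (s1 l0 l0) l0)))) (s2 (s1 l0 l0) (s0 (s1 l0 l0) l0)))))) 0 _ _ _ _ _ _ _ _ (by decide +kernel)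

theorem c11 : Good (PR (sh G5 2)) 4722366651754631240089 4722366683255639375872 4722366533447180091392 4722366553238389391360 4722366482869645213696 4722366496888418467840 4722366482869645213696 4722366482869645213696 :=
  run_sound (PS _) (s0 (s0 (s1 (s2 (s0 (s1 (s1 l0 l0) l0) (s1 (s1 l0 l0) l0)) (s1 l0 l0)) (s2 (s0 (s1 (s1 l0 l0) (s1 l0 l0)) (s1 (s1 l0 l0) (s1 l0 l0))) (s0 (s1 l0 l0) (s1 l0 l0)))) (s1 (s2 (s0 (s1 l0 l0) (s1 l0 l0)) (s0 l0 l0)) (s2 (s0 (s1 (s1 l0 l0) (s1 l0 l0)) (s1 l0 (s1 l0 l0))) (s0 (s1 l0 l0) (s1 l0 l0))))) (s0 (s1 (s2 (s0 (s1 l0 l0) l0) (s0 l0 l0)) (s0 (s2 (s1 l0 l0) l0) (s2 (s1 l0 l0) l0))) (s0 (s1 (s2 l0 l0) (s0 l0 l0)) (s1 (s1 l0 l0) (s2 l0 l0))))) 0 _ _ _ _ _ _ _ _ (by decide +kernel)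

theorem c12 : Good (PR (sh G6 1)) 4722366682980761468928 4722366726686348673024 4722366533447180091392 4722366553238389391360 4722366496888418467840 4722366516679627767808 4722366482869645213696 4722366482869645213696 :=
  run_sound (PS _) (s0 (s0 (s1 (s0 (s1 l0 l0) (s0 l0 l0)) (s0 (s2 (s1 l0 l0) l0) (s2 (s1 l0 l0) (s1 l0 l0)))) (s1 (s0 (s2 (s1 l0 l0) l0) (s0 (s1 l0 l0) (s1 l0 l0))) (s0 (s1 (s2 l0 l0) (s2 l0 l0)) (s1 (s2 l0 l0) (s2 (s1 l0 l0) l0))))) (s0 (s1 (s0 (s0 (s1 l0 l0) (s1 l0 l0)) (s0 (s1 l0 l0) (s1 l0 l0))) (s0 (s1 (s2 l0 l0) (s0 l0 l0)) (s0 (s1 l0 l0) (s1 l0 l0)))) (s1 (s0 (s0 (s1 l0 l0) (s1 l0 l0)) (s0 l0 l0)) (s0 (s0 (s1 l0 l0) l0) (s1 l0 l0))))) 0 _ _ _ _ _ _ _ _ (by decide +kernel)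

theorem c13 : Good (PR (sh G6 2)) 4722366651754631240089 4722366683255639375872 4722366533447180091392 4722366553238389391360 4722366496888418467840 4722366516679627767808 4722366482869645213696 4722366482869645213696 :=
  run_sound (PS _) (s0 (s1 (s2 (s0 (s2 (s1 l0 l0) l0) (s0 (s1 l0 l0) (s1 l0 l0))) (s0 l0 l0)) (s0 (s2 (s2 (s1 l0 l0) (s1 l0 l0)) (s1 l0 l0)) (s2 (s1 (s2 l0 l0) (s0 l0 l0)) (s1 l0 l0)))) (s0 (s1 (s2 (s0 l0 l0) l0) (s2 (s1 (s1 l0 l0) (s2 l0 l0)) (s1 l0 l0))) (s1 (s0 (s1 l0 l0) l0) (s2 (s0 l0 l0) (s1 l0 l0))))) 0 _ _ _ _ _ _ _ _ (by decide +kernel)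

theorem c14 : Good (PR (sh G7 1)) 4722366682980761468928 4722366726686348673024 4722366533447180091392 4722366553238389391360 4722366516679627767808 4722366539219616137216 4722366482869645213696 4722366482869645213696 :=
  run_sound (PS _) (s0 (s0 (s2 (s1 (s0 l0 l0) (s0 l0 l0)) (s1 (s1 l0 l0) (s2 l0 l0))) (s2 (s1 (s0 l0 l0) (s0 l0 l0)) (s1 (s0 l0 l0) (s0 l0 l0)))) (s0 (s2 (s1 (s1 l0 l0) (s2 l0 l0)) (s1 (s0 l0 l0) (s0 (s1 l0 l0) (s1 l0 l0)))) (s0 (s2 (s1 l0 l0) (s1 l0 l0)) (s1 (s2 l0 l0) (s2 l0 l0))))) 0 _ _ _ _ _ _ _ _ (by decide +kernel)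

theorem c15 : Good (PR (sh G7 2)) 4722366651754631240089 4722366683255639375872 4722366533447180091392 4722366553238389391360 4722366516679627767808 4722366539219616137216 4722366482869645213696 4722366482869645213696 :=
  run_sound (PS _) (s0 (s0 (s1 (s0 l0 l0) (s2 l0 l0)) (s1 (s0 l0 l0) (s0 l0 l0))) (s0 (s1 (s0 l0 l0) (s0 l0 (s2 l0 l0))) (s1 (s0 l0 l0) (s0 (s2 l0 l0) l0)))) 0 _ _ _ _ _ _ _ _ (by decide +kernel)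

theorem c16 : Good (PR (sh G8 1)) 4722366682980761468928 4722366726686348673024 4722366533447180091392 4722366553238389391360 4722366539219616137216 4722366564508383576064 4722366482869645213696 4722366482869645213696 :=
  run_sound (PS _) (s0 (s0 (s1 (s0 (s2 l0 l0) (s2 (s1 l0 l0) l0)) (s0 (s2 (s1 l0 l0) l0) (s2 (s1 l0 l0) l0))) (s1 (s0 (s2 (s1 l0 l0) l0) (s2 (s1 l0 l0) l0)) (s0 (s2 (s1 l0 l0) (s1 l0 l0)) (s2 (s1 l0 l0) (s1 l0 l0))))) (s0 (s0 (s1 (s2 (s1 l0 l0) l0) (s2 (s1 l0 l0) (s1 l0 l0))) (s1 (s0 l0 l0) (s0 (s2 l0 l0) l0))) (s0 (s1 (s2 l0 l0) (s2 l0 l0)) (s1 (s2 l0 l0) (s2 l0 l0))))) 0 _ _ _ _ _ _ _ _ (by decide +kernel)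

theorem c17 : Good (PR (sh G8 2)) 4722366651754631240089 4722366683255639375872 4722366533447180091392 4722366553238389391360 4722366539219616137216 4722366564508383576064 4722366482869645213696 4722366482869645213696 :=
  run_sound (PS _) (s0 (s0 (s1 (s2 (s1 l0 l0) (s1 l0 l0)) (s2 (s1 l0 l0) (s1 l0 l0))) (s1 (s2 (s0 l0 l0) (s1 l0 l0)) (s2 (s0 l0 l0) l0))) (s0 (s1 (s2 (s0 l0 l0) l0) (s2 (s0 l0 l0) l0)) (s1 (s2 (s0 l0 l0) l0) (s2 (s0 l0 l0) l0)))) 0 _ _ _ _ _ _ _ _ (by decide +kernel)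

theorem c18 : Good (PR (sh G9 1)) 4722366682980761468928 4722366726686348673024 4722366533447180091392 4722366553238389391360 4722366564508383576064 4722366592820807991296 4722366482869645213696 4722366482869645213696 :=
  run_sound (PS _) (s0 (s0 (s1 (s0 (s2 (s1 l0 l0) l0) (s2 (s1 l0 l0) l0)) (s0 (s1 l0 l0) (s2 (s1 l0 l0) l0))) (s1 (s0 (s2 (s1 l0 l0) l0) (s2 (s1 l0 l0) l0)) (s0 (s2 (s1 l0 l0) l0) (s2 (s1 l0 l0) (s1 l0 l0))))) (s0 (s1 (s0 (s2 (s1 l0 l0) l0) (s2 (s1 l0 l0) (s1 l0 l0))) (s0 (s2 (s1 l0 (s2 l0 l0)) (s1 l0 l0)) (s2 (s1 (s2 l0 l0) (s2 l0 l0)) (s1 l0 (s2 l0 l0))))) (s1 (s0 (s2 (s1 l0 l0) l0) (s2 (s1 l0 l0) l0)) (s0 (s1 (s2 (s2 l0 l0) l0) (s2 (s0 l0 l0) (s0 l0 (s2 l0 l0)))) (s1 (s2 l0 l0) (s2 (s2 l0 l0) (s0 (s0 l0 l0) (s0 l0 (s2 l0 l0))))))))) 0 _ _ _ _ _ _ _ _ (by decide +kernel)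

theorem c19 : Good (PR (sh G9 2)) 4722366651754631240089 4722366683255639375872 4722366533447180091392 4722366553238389391360 4722366564508383576064 4722366592820807991296 4722366482869645213696 4722366482869645213696 :=
  run_sound (PS _) (s0 (s0 (s1 (s0 (s2 l0 l0) l0) (s0 (s2 l0 l0) l0)) (s1 (s2 l0 l0) (s0 l0 l0))) (s0 (s1 (s0 l0 l0) (s0 l0 l0)) (s1 (s0 l0 (s2 l0 l0)) (s2 l0 l0)))) 0 _ _ _ _ _ _ _ _ (by decide +kernel)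

theorem c20 : Good (PR (sh G10 1)) 4722366682980761468928 4722366726686348673024 4722366553238389391360 4722366575778377760768 4722366482869645213696 4722366496888418467840 4722366482869645213696 4722366482869645213696 :=
  run_sound (PS _) (s0 (s1 (s0 (s0 (s1 l0 l0) (s1 (s2 l0 l0) (s2 l0 l0))) (s0 (s1 (s2 l0 l0) (s2 l0 l0)) (s1 (s2 l0 l0) (s2 l0 l0)))) (s0 (s0 (s1 l0 (s2 l0 l0)) (s1 (s2 l0 l0) (s2 l0 l0))) (s0 (s1 (s2 l0 l0) (s2 (s0 l0 l0) (s1 l0 l0))) (s1 (s2 (s1 l0 l0) (s1 l0 l0)) (s2 (s0 (s1 l0 l0) (s1 l0 l0)) (s0 (s1 l0 l0) (s1 l0 (s2 l0 l0)))))))) (s1 (s0 (s0 (s1 (s2 (s1 l0 l0) l0) (s2 (s1 l0 l0) (s1 l0 l0))) (s1 (s2 (s0 l0 l0) l0) (s2 (s1 l0 l0) (s1 l0 l0)))) (s0 (s1 (s2 (s0 l0 (s1 l0 l0)) l0) (s2 (s0 l0 l0) (s1 l0 l0))) (s1 (s2 (s0 (s1 l0 l0) (s1 l0 l0)) l0) (s2 (s0 l0 l0) l0)))) (s0 (s0 (s1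 (s2 (s0 l0 l0) (s0 l0 (s1 l0 l0))) (s2 (s1 (s2 l0 l0) (s0 (s2 l0 l0) (s2 l0 l0))) (s0 (s1 l0 (s2 l0 (s1 l0 l0))) (s1 (s2 l0 l0) (s2 l0 (s0 l0 (s1 l0 l0))))))) (s1 (s2 (s0 l0 l0) (s0 (s1 l0 l0) (s1 l0 l0))) (s2 (s1 (s2 l0 l0) (s0 l0 l0)) (s1 (s0 (s2 l0 l0) (s2 l0 l0)) (s2 (s1 l0 l0) (s0 (s1 l0 (s0 (s2 l0 l0) (s2 l0 l0))) (s1 l0 (s2 l0 (s0 l0 l0))))))))) (s0 (s1 (s2 (s0 l0 l0) (s0 (s1 l0 l0) l0)) (s2 (s0 (s1 l0 l0) l0) (s0 (s2 l0 (s1 l0 (s0 (s1 l0 l0) l0))) (s1 l0 (s2 l0 l0))))) (s1 (s0 (s2 l0 l0) l0) (s0 (s2 l0 (s1 l0 l0)) (s2 l0 l0))))))) 0 _ _ _ _ _ _ _ _ (by decide +kernel)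

theorem c21 : Good (PR (sh G10 2)) 4722366651754631240089 4722366683255639375872 4722366553238389391360 4722366575778377760768 4722366482869645213696 4722366496888418467840 4722366482869645213696 4722366482869645213696 :=
  run_sound (PS _) (s0 (s1 (s0 (s2 (s1 (s2 (s0 l0 l0) l0) (s2 (s1 l0 l0) l0)) (s1 (s1 l0 l0) (s1 l0 l0))) (s2 (s1 (s0 (s1 l0 l0) l0) (s0 l0 l0)) (s1 (s1 l0 l0) l0))) (s0 (s2 (s1 (s2 (s1 l0 l0) l0) (s0 (s2 (s1 l0 l0) l0) (s2 l0 l0))) (s1 (s0 l0 l0) (s0 (s0 l0 l0) (s0 l0 (s1 l0 l0))))) (s1 (s2 (s0 l0 l0) (s0 l0 l0)) (s0 (s2 (s1 l0 l0) (s0 l0 l0)) (s2 (s1 l0 l0) (s1 l0 l0)))))) (s1 (s0 (s0 (s1 (s2 l0 l0) (s2 l0 l0)) (s1 l0 l0)) (s0 (s1 l0 l0) l0)) (s0 (s0 (s1 (s2 l0 l0) (s2 l0 l0)) (s1 l0 (s2 l0 l0))) (s0 (s1 l0 l0) l0)))) 0 _ _ _ _ _ _ _ _ (by decide +kernel)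

theorem c22 : Good (PR (sh G11 1)) 4722366682980761468928 4722366726686348673024 4722366553238389391360 4722366575778377760768 4722366496888418467840 4722366516679627767808 4722366482869645213696 4722366482869645213696 :=
  run_sound (PS _) (s0 (s1 (s0 (s0 (s2 l0 l0) (s2 (s1 l0 l0) l0)) (s0 (s2 (s1 l0 l0) (s1 l0 l0)) (s2 (s1 l0 (s1 l0 l0)) (s1 l0 (s1 l0 l0))))) (s0 (s0 (s2 (s1 l0 l0) l0) (s2 (s1 l0 l0) (s1 l0 l0))) (s0 (s2 (s1 (s1 l0 l0) (s2 l0 l0)) (s1 l0 l0)) (s2 (s1 (s1 l0 l0) (s0 l0 l0)) (s1 (s1 l0 l0) (s0 l0 l0)))))) (s0 (s1 (s0 (s2 (s1 l0 (s1 l0 l0)) (s1 (s1 l0 l0) (s0 l0 l0))) (s2 (s1 l0 l0) (s1 (s0 l0 l0) (s0 l0 l0)))) (s0 (s1 (s2 (s1 l0 l0) (s0 l0 (s1 l0 l0))) (s2 (s0 l0 l0) (s0 (s1 l0 l0) (s1 l0 l0)))) (s2 (s1 (s1 l0 l0) (s1 l0 l0)) (s1 (s0 (s1 l0 l0) (s1 l0 l0)) (s2 l0 (s0 l0 l0)))))) (s1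 (s0 (s2 (s1 l0 l0) (s1 (s2 l0 l0) (s0 l0 l0))) (s1 (s2 l0 (s1 l0 l0)) (s2 l0 (s1 l0 l0)))) (s0 (s2 (s1 l0 l0) (s1 (s0 l0 l0) (s0 (s1 l0 l0) l0))) (s2 (s1 l0 l0) (s1 (s1 l0 l0) (s1 l0 l0))))))) 0 _ _ _ _ _ _ _ _ (by decide +kernel)

theorem c23 : Good (PR (sh G11 2)) 4722366651754631240089 4722366683255639375872 4722366553238389391360 4722366575778377760768 4722366496888418467840 4722366516679627767808 4722366482869645213696 4722366482869645213696 :=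
  run_sound (PS _) (s0 (s1 (s0 (s2 (s2 (s1 (s0 l0 l0) (s0 l0 l0)) (s1 l0 l0)) (s0 (s1 (s1 l0 l0) (s2 l0 l0)) (s1 (s2 l0 l0) (s0 l0 l0)))) (s2 (s2 (s1 (s1 l0 l0) (s0 l0 l0)) (s1 l0 l0)) (s0 (s1 (s2 l0 l0) (s0 l0 l0)) (s1 (s1 l0 l0) (s2 l0 l0))))) (s0 (s2 (s2 (s1 (s0 (s1 l0 l0) (s1 l0 l0)) (s2 (s1 l0 l0) l0)) (s1 l0 l0)) (s1 (s2 l0 (s0 l0 l0)) (s2 l0 (s0 l0 l0)))) (s2 (s1 (s2 (s0 l0 l0) l0) (s2 (s0 l0 l0) l0)) (s1 (s2 l0 (s0 l0 l0)) (s2 l0 (s0 l0 l0)))))) (s0 (s1 (s0 (s2 (s1 l0 l0) (s1 (s1 l0 l0) (s1 l0 l0))) (s2 (s1 l0 l0) (s1 l0 l0))) (s0 (s2 (s1 (s1 l0 l0) (s1 l0 l0)) (s1 (s1 l0 l0) (s1 l0 l0))) (s2 (s1 l0 l0) (s1 l0 l0)))) (s1 (s0 (s2 l0 l0) (s1 l0 l0)) (s0 (s2 (s1 l0 l0) l0) (s2 l0 l0))))) 0 _ _ _ _ _ _ _ _ (by decide +kernel)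

theorem c24 : Good (PR (sh G12 1)) 4722366682980761468928 4722366726686348673024 4722366553238389391360 4722366575778377760768 4722366516679627767808 4722366539219616137216 4722366482869645213696 4722366482869645213696 :=
  run_sound (PS _) (s0 (s1 (s0 (s0 (s1 l0 l0) (s1 l0 l0)) (s0 (s1 (s2 l0 l0) (s2 l0 l0)) (s1 (s2 l0 l0) (s2 l0 l0)))) (s0 (s0 (s1 l0 (s2 l0 l0)) (s1 (s2 l0 l0) (s2 l0 l0))) (s0 (s1 (s2 l0 l0) (s2 (s1 l0 l0) l0)) (s1 (s2 l0 l0) (s2 (s1 l0 l0) l0))))) (s0 (s1 (s0 (s1 (s2 l0 l0) (s2 l0 l0)) (s1 (s2 l0 l0) (s2 l0 l0))) (s0 (s1 (s2 l0 l0) (s2 l0 l0)) (s1 (s2 l0 l0) (s2 l0 l0)))) (s1 (s0 (s1 (s2 l0 l0) (s2 l0 l0)) (s1 (s2 l0 l0) (s2 l0 l0))) (s0 (s1 (s2 l0 l0) (s2 l0 l0)) (s1 l0 l0))))) 0 _ _ _ _ _ _ _ _ (by decide +kernel)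

theorem c25 : Good (PR (sh G12 2)) 4722366651754631240089 4722366683255639375872 4722366553238389391360 4722366575778377760768 4722366516679627767808 4722366539219616137216 4722366482869645213696 4722366482869645213696 :=
  run_sound (PS _) (s0 (s1 (s0 (s0 (s1 (s2 l0 l0) (s2 (s1 l0 l0) l0)) (s1 (s2 (s1 l0 l0) l0) (s2 (s1 l0 l0) (s1 l0 l0)))) (s0 (s1 (s2 (s1 l0 l0) l0) (s2 (s1 l0 l0) (s1 l0 l0))) (s2 (s1 (s1 l0 l0) (s1 l0 l0)) (s1 l0 l0)))) (s0 (s2 (s1 (s2 (s0 l0 l0) l0) (s2 (s0 l0 l0) l0)) (s1 (s0 l0 (s1 l0 l0)) (s0 (s1 l0 l0) (s1 l0 l0)))) (s2 (s1 (s2 (s0 l0 l0) l0) (s2 (s0 l0 l0) l0)) (s1 (s0 (s1 l0 l0) l0) (s0 (s1 l0 l0) (s1 l0 l0)))))) (s1 (s0 (s0 (s2 (s1 l0 l0) (s1 l0 l0)) (s2 (s1 l0 l0) (s1 l0 l0))) (s0 (s2 (s1 l0 l0) (s1 l0 l0)) (s2 (s1 l0 l0) l0))) (s0 (s0 (s1 (s2 (s1 l0 l0) l0) (s2 (s1 l0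 l0) l0)) (s2 (s1 l0 (s1 l0 l0)) (s1 l0 l0))) (s0 (s2 (s1 l0 l0) (s1 l0 l0)) (s2 (s1 l0 l0) l0))))) 0 _ _ _ _ _ _ _ _ (by decide +kernel)

theorem c26 : Good (PR (sh G13 1)) 4722366682980761468928 4722366726686348673024 4722366553238389391360 4722366575778377760768 4722366539219616137216 4722366564508383576064 4722366482869645213696 4722366482869645213696 :=
  run_sound (PS _) (s0 (s1 (s0 (s2 (s0 l0 l0) (s1 l0 l0)) (s2 (s0 l0 l0) (s0 l0 l0))) (s0 (s2 (s0 l0 (s1 l0 l0)) (s1 l0 l0)) (s2 (s0 (s1 l0 l0) (s1 l0 l0)) (s0 l0 (s1 l0 l0))))) (s0 (s1 (s0 (s2 l0 (s1 l0 l0)) (s2 l0 (s1 l0 l0))) (s0 (s2 (s1 l0 l0) (s1 l0 l0)) (s2 l0 (s1 l0 l0)))) (s1 (s0 (s2 l0 (s1 l0 l0)) (s2 l0 l0)) (s0 (s2 l0 (s1 l0 l0)) (s2 l0 (s1 l0 l0)))))) 0 _ _ _ _ _ _ _ _ (by decide +kernel)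

theorem c27 : Good (PR (sh G13 2)) 4722366651754631240089 4722366683255639375872 4722366553238389391360 4722366575778377760768 4722366539219616137216 4722366564508383576064 4722366482869645213696 4722366482869645213696 :=
  run_sound (PS _) (s1 (s0 (s1 l0 (s2 l0 l0)) (s0 l0 l0)) (s0 (s1 (s0 l0 l0) (s0 l0 l0)) (s1 (s2 l0 l0) (s0 l0 l0)))) 0 _ _ _ _ _ _ _ _ (by decide +kernel)

theorem c28 : Good (PR (sh G14 1)) 4722366682980761468928 4722366726686348673024 4722366553238389391360 4722366575778377760768 4722366564508383576064 4722366592820807991296 4722366482869645213696 4722366482869645213696 :=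
  run_sound (PS _) (s0 (s1 (s0 (s0 (s1 (s0 l0 l0) (s2 l0 l0)) (s1 (s0 l0 l0) (s2 l0 l0))) (s0 (s1 (s0 l0 l0) (s0 l0 l0)) (s1 (s0 l0 l0) (s0 l0 l0)))) (s0 (s0 (s1 (s2 l0 l0) l0) (s1 (s2 l0 l0) (s2 l0 l0))) (s0 (s1 (s2 l0 l0) (s2 l0 l0)) (s1 (s0 l0 l0) (s0 l0 (s2 l0 l0)))))) (s0 (s1 (s0 (s1 (s0 l0 l0) (s0 l0 l0)) (s1 (s2 l0 l0) (s2 l0 l0))) (s0 (s1 (s0 l0 l0) (s0 (s2 l0 l0) (s2 l0 l0))) (s1 (s0 l0 l0) (s0 (s2 l0 l0) (s2 l0 l0))))) (s1 (s0 (s1 (s2 l0 l0) (s2 l0 l0)) (s0 (s2 l0 l0) l0)) (s0 (s1 (s2 l0 l0) (s0 l0 l0)) (s0 (s1 l0 l0) l0))))) 0 _ _ _ _ _ _ _ _ (by decide +kernel)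

theorem c29 : Good (PR (sh G14 2)) 4722366651754631240089 4722366683255639375872 4722366553238389391360 4722366575778377760768 4722366564508383576064 4722366592820807991296 4722366482869645213696 4722366482869645213696 :=
  run_sound (PS _) (s0 (s1 (s0 (s2 (s0 (s1 l0 l0) (s1 l0 l0)) (s0 (s1 l0 l0) (s1 l0 l0))) (s2 (s0 (s1 l0 l0) (s1 l0 l0)) (s0 (s1 l0 l0) (s1 l0 l0)))) (s0 (s2 (s1 (s2 l0 l0) (s2 l0 l0)) (s1 (s0 l0 l0) (s0 l0 l0))) (s2 (s1 (s0 l0 l0) (s0 l0 l0)) (s1 (s2 l0 l0) (s2 l0 l0))))) (s0 (s1 (s2 (s0 (s1 l0 l0) (s1 l0 l0)) (s0 l0 l0)) (s2 (s1 (s0 l0 l0) (s2 l0 l0)) (s0 (s1 l0 l0) l0))) (s1 (s2 (s0 (s1 l0 l0) (s1 l0 l0)) (s0 l0 l0)) (s2 (s0 (s1 l0 l0) (s1 l0 l0)) (s1 l0 l0))))) 0 _ _ _ _ _ _ _ _ (by decide +kernel)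

theorem c30 : Good (PR (sh G15 1)) 4722366682980761468928 4722366726686348673024 4722366575778377760768 4722366601067145199616 4722366482869645213696 4722366496888418467840 4722366482869645213696 4722366482869645213696 :=
  run_sound (PS _) (s1 (s0 (s0 (s1 (s2 l0 l0) (s2 l0 l0)) (s1 (s0 l0 l0) (s0 l0 (s2 l0 l0)))) (s0 (s1 (s2 l0 l0) (s0 l0 l0)) (s1 l0 (s2 l0 l0)))) (s0 (s0 (s1 (s0 l0 l0) (s0 l0 (s2 l0 l0))) (s1 (s0 (s2 l0 l0) (s2 l0 l0)) (s0 (s2 (s1 l0 l0) l0) (s2 (s1 l0 l0) (s1 l0 l0))))) (s0 (s1 (s0 (s2 l0 l0) (s2 l0 l0)) (s0 (s1 (s2 l0 l0) (s2 l0 (s2 l0 l0))) (s2 (s1 l0 l0) (s1 l0 (s2 l0 l0))))) (s1 (s0 l0 l0) (s0 (s2 l0 (s1 l0 l0)) (s2 l0 l0)))))) 0 _ _ _ _ _ _ _ _ (by decide +kernel)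

theorem c31 : Good (PR (sh G15 2)) 4722366651754631240089 4722366683255639375872 4722366575778377760768 4722366601067145199616 4722366482869645213696 4722366496888418467840 4722366482869645213696 4722366482869645213696 :=
  run_sound (PS _) (s1 (s0 (s0 (s1 (s2 (s0 l0 l0) (s0 l0 l0)) (s2 (s0 (s1 l0 l0) l0) (s0 l0 l0))) (s1 (s0 (s2 l0 l0) (s2 l0 l0)) (s2 (s0 l0 l0) (s1 l0 l0)))) (s0 (s1 (s0 (s2 l0 l0) l0) (s0 (s2 l0 l0) l0)) (s0 (s1 l0 l0) l0))) (s0 (s1 (s0 (s2 (s0 (s1 l0 l0) (s1 l0 l0)) (s1 l0 l0)) (s2 (s0 l0 l0) (s1 l0 l0))) (s0 (s2 (s0 (s1 l0 l0) (s1 l0 l0)) (s1 l0 l0)) (s2 (s1 l0 l0) l0))) (s0 (s1 (s2 (s1 l0 l0) l0) (s2 (s1 l0 l0) l0)) (s1 (s2 l0 l0) (s2 l0 l0))))) 0 _ _ _ _ _ _ _ _ (by decide +kernel)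

theorem c32 : Good (PR (sh G16 1)) 4722366682980761468928 4722366726686348673024 4722366575778377760768 4722366601067145199616 4722366496888418467840 4722366516679627767808 4722366482869645213696 4722366482869645213696 :=
  run_sound (PS _) (s1 (s0 (s0 (s1 (s2 l0 l0) (s0 l0 l0)) (s1 (s0 l0 (s2 l0 l0)) (s0 (s2 l0 l0) (s1 l0 l0)))) (s0 (s1 (s0 (s2 l0 l0) (s2 (s1 l0 l0) l0)) (s0 (s2 (s1 l0 l0) l0) (s1 l0 l0))) (s1 (s0 (s1 (s2 l0 l0) l0) (s0 l0 l0)) (s0 (s1 l0 l0) (s2 l0 l0))))) (s0 (s0 (s1 (s0 l0 l0) (s0 l0 (s2 l0 l0))) (s1 (s0 (s2 l0 l0) (s1 (s2 l0 l0) (s2 l0 l0))) (s0 (s1 (s2 l0 l0) (s2 l0 l0)) (s1 (s2 l0 l0) (s2 (s2 l0 l0) (s2 l0 l0)))))) (s0 (s1 (s0 (s1 (s2 l0 l0) (s2 l0 l0)) (s1 l0 (s2 l0 l0))) (s0 (s1 (s2 l0 (s2 l0 l0)) (s2 (s1 l0 l0) (s0 l0 (s1 l0 l0)))) (s1 (s2 l0 (s2 l0 l0)) (s2 (s2 l0 l0) (s0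 (s1 l0 l0) (s2 l0 l0)))))) (s1 (s0 (s0 (s2 l0 l0) l0) l0) (s0 (s2 (s1 l0 l0) (s1 l0 (s0 l0 l0))) (s0 l0 l0)))))) 0 _ _ _ _ _ _ _ _ (by decide +kernel)

theorem c33 : Good (PR (sh G16 2)) 4722366651754631240089 4722366683255639375872 4722366575778377760768 4722366601067145199616 4722366496888418467840 4722366516679627767808 4722366482869645213696 4722366482869645213696 :=
  run_sound (PS _) (s1 (s0 (s1 (s0 (s0 (s1 l0 (s2 l0 l0)) (s1 l0 (s2 l0 l0))) (s0 (s1 l0 l0) (s2 l0 l0))) (s0 (s2 (s1 (s2 l0 l0) (s2 l0 l0)) (s1 l0 l0)) (s0 (s1 (s2 l0 l0) (s2 l0 l0)) (s1 l0 l0)))) (s0 (s1 (s0 (s2 l0 l0) l0) (s0 (s2 l0 l0) l0)) (s1 (s2 l0 l0) l0))) (s0 (s1 (s0 (s2 (s1 (s2 l0 l0) (s2 l0 l0)) (s1 l0 l0)) (s2 (s1 (s2 l0 l0) (s2 l0 l0)) (s1 l0 l0))) (s0 (s2 (s1 (s2 l0 l0) (s2 l0 l0)) (s1 l0 l0)) (s2 (s1 l0 l0) l0))) (s1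 (s0 (s0 (s2 l0 l0) l0) l0) (s0 (s0 (s2 l0 l0) l0) l0)))) 0 _ _ _ _ _ _ _ _ (by decide +kernel)

theorem c34 : Good (PR (sh G17 1)) 4722366682980761468928 4722366726686348673024 4722366575778377760768 4722366601067145199616 4722366516679627767808 4722366539219616137216 4722366482869645213696 4722366482869645213696 :=
  run_sound (PS _) (s1 (s0 (s0 (s1 (s2 (s1 l0 l0) l0) (s2 (s1 l0 l0) l0)) (s1 (s2 (s0 l0 l0) (s0 l0 l0)) (s2 (s0 l0 l0) (s0 l0 l0)))) (s0 (s1 (s2 (s1 l0 l0) (s2 l0 l0)) (s2 (s0 l0 l0) (s0 l0 l0))) (s0 (s1 l0 (s2 l0 l0)) (s1 l0 l0)))) (s0 (s0 (s1 (s2 (s1 l0 l0) (s1 l0 l0)) (s2 (s1 l0 l0) (s1 l0 l0))) (s1 (s2 (s0 l0 l0) (s0 l0 l0)) (s2 (s0 l0 l0) (s0 l0 l0)))) (s0 (s1 (s2 (s0 l0 l0) (s0 l0 l0)) (s2 (s0 l0 l0) (s0 l0 l0))) (s1 (s0 (s2 l0 l0) l0) (s0 (s2 l0 l0) l0))))) 0 _ _ _ _ _ _ _ _ (by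 decide +kernel)

theorem c35 : Good (PR (sh G17 2)) 4722366651754631240089 4722366683255639375872 4722366575778377760768 4722366601067145199616 4722366516679627767808 4722366539219616137216 4722366482869645213696 4722366482869645213696 :=
  run_sound (PS _) (s1 (s0 (s0 (s1 (s2 (s1 l0 l0) (s1 l0 l0)) (s2 (s1 l0 l0) (s1 l0 l0))) (s1 (s2 (s1 l0 l0) (s1 l0 l0)) (s2 (s1 l0 l0) (s1 l0 l0)))) (s0 (s1 (s0 l0 l0) (s2 (s1 l0 l0) l0)) (s1 (s2 l0 l0) (s2 l0 l0)))) (s0 (s1 (s0 (s2 (s0 l0 l0) (s1 l0 l0)) (s2 (s1 l0 l0) (s1 l0 l0))) (s2 (s0 (s1 l0 l0) (s1 l0 l0)) (s0 l0 l0))) (s0 (s1 (s2 (s1 l0 l0) l0) (s2 (s1 l0 l0) l0)) (s1 (s2 l0 l0) (s2 l0 l0))))) 0 _ _ _ _ _ _ _ _ (by decide +kernel)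

theorem c36 : Good (PR (sh G18 1)) 4722366682980761468928 4722366726686348673024 4722366575778377760768 4722366601067145199616 4722366539219616137216 4722366564508383576064 4722366482869645213696 4722366482869645213696 :=
  run_sound (PS _) (s1 (s0 (s0 (s1 (s2 l0 l0) (s2 l0 l0)) (s1 (s2 l0 l0) (s2 l0 l0))) (s0 (s1 (s2 l0 l0) (s2 l0 l0)) (s1 (s2 l0 l0) (s2 l0 l0)))) (s0 (s1 (s0 (s2 l0 l0) (s2 l0 l0)) (s0 (s2 l0 l0) (s2 (s1 l0 l0) l0))) (s1 (s0 (s2 l0 l0) (s2 l0 l0)) (s0 (s2 l0 l0) (s2 l0 l0))))) 0 _ _ _ _ _ _ _ _ (by decide +kernel)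

theorem c37 : Good (PR (sh G18 2)) 4722366651754631240089 4722366683255639375872 4722366575778377760768 4722366601067145199616 4722366539219616137216 4722366564508383576064 4722366482869645213696 4722366482869645213696 :=
  run_sound (PS _) (s1 (s0 (s0 (s1 (s2 l0 l0) (s2 l0 l0)) (s1 (s2 l0 l0) (s2 (s1 l0 l0) l0))) (s0 (s1 (s2 l0 l0) (s2 (s1 l0 l0) l0)) (s1 (s2 l0 l0) (s2 l0 l0)))) (s0 (s1 (s0 (s2 (s1 l0 l0) l0) (s2 (s1 l0 l0) l0)) (s2 (s0 (s1 l0 l0) (s1 l0 l0)) (s0 l0 l0))) (s1 (s0 (s2 (s1 l0 l0) l0) (s2 l0 l0)) (s0 (s2 (s1 l0 l0) l0) (s2 l0 l0))))) 0 _ _ _ _ _ _ _ _ (by decide +kernel)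

theorem c38 : Good (PR (sh G19 1)) 4722366682980761468928 4722366726686348673024 4722366575778377760768 4722366601067145199616 4722366564508383576064 4722366592820807991296 4722366482869645213696 4722366482869645213696 :=
  run_sound (PS _) (s1 (s0 (s0 (s1 (s2 l0 l0) (s2 l0 l0)) (s1 (s0 l0 l0) (s0 l0 l0))) (s0 (s1 (s0 l0 l0) (s0 l0 l0)) (s1 (s0 l0 l0) (s0 l0 l0)))) (s0 (s0 (s1 (s2 l0 l0) (s2 l0 l0)) (s1 (s0 l0 (s2 l0 l0)) (s0 (s2 l0 l0) (s2 l0 l0)))) (s0 (s1 (s0 (s2 l0 l0) l0) (s0 (s2 l0 l0) (s2 l0 l0))) (s1 (s0 l0 l0) (s0 (s2 l0 l0) l0))))) 0 _ _ _ _ _ _ _ _ (by decide +kernel)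

theorem c39 : Good (PR (sh G19 2)) 4722366651754631240089 4722366683255639375872 4722366575778377760768 4722366601067145199616 4722366564508383576064 4722366592820807991296 4722366482869645213696 4722366482869645213696 :=
  run_sound (PS _) (s1 (s0 (s0 (s1 (s2 (s2 l0 l0) (s2 l0 l0)) (s2 (s2 l0 l0) (s2 l0 l0))) (s1 (s2 (s2 l0 l0) l0) (s2 (s2 l0 l0) (s2 l0 l0)))) (s0 (s1 (s2 (s2 l0 l0) l0) (s2 (s2 l0 l0) l0)) (s0 (s1 l0 l0) (s1 l0 l0)))) (s0 (s0 (s1 (s2 (s0 l0 l0) (s2 l0 l0)) (s2 (s0 l0 l0) (s2 l0 l0))) (s1 (s2 (s2 l0 l0) (s2 l0 l0)) (s2 (s0 l0 l0) (s2 l0 l0)))) (s0 (s1 (s2 (s2 l0 l0) l0) (s2 (s2 l0 l0) l0)) (s1 (s2 l0 l0) (s2 (s2 l0 l0) l0))))) 0 _ _ _ _ _ _ _ _ (by decide +kernel)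

theorem c40 : Good (PR (sh G20 1)) 4722366682980761468928 4722366726686348673024 4722366601067145199616 4722366626355912638464 4722366482869645213696 4722366496888418467840 4722366482869645213696 4722366482869645213696 :=
  run_sound (PS _) (s1 (s0 (s0 (s1 (s2 (s1 l0 l0) (s1 l0 l0)) (s2 (s1 l0 l0) (s1 l0 l0))) (s1 (s2 (s0 (s1 l0 l0) (s1 l0 l0)) (s0 l0 (s1 l0 l0))) (s2 (s0 l0 (s1 l0 l0)) (s0 l0 (s1 l0 l0))))) (s0 (s1 (s2 (s0 (s1 l0 l0) (s1 l0 l0)) (s0 (s1 l0 l0) (s1 l0 l0))) (s2 (s0 (s1 l0 l0) (s1 l0 l0)) (s0 (s1 l0 l0) (s1 l0 l0)))) (s1 (s0 (s2 (s1 l0 l0) l0) (s2 l0 l0)) (s0 (s2 (s1 l0 l0) (s1 l0 l0)) (s2 l0 l0))))) (s0 (s0 (s1 (s2 (s1 l0 l0) (s1 l0 l0)) (s2 l0 (s1 l0 l0))) (s1 (s2 (s0 l0 (s1 l0 l0)) (s0 l0 (s1 l0 l0))) (s2 (s0 l0 (s1 l0 l0)) (s0 l0 (s1 l0 l0))))) (s0 (s1 (s2 (s1 (s0 l0 l0) (s0 l0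 l0)) (s0 (s1 (s2 l0 l0) (s2 l0 l0)) (s1 (s2 l0 l0) (s2 l0 l0)))) (s2 (s1 (s0 l0 l0) (s0 l0 l0)) (s0 (s1 (s0 l0 l0) (s0 l0 (s2 l0 l0))) (s1 (s2 l0 (s1 l0 l0)) (s2 l0 (s1 l0 (s0 l0 l0))))))) (s1 (s0 (s2 l0 (s1 l0 (s2 l0 l0))) (s2 l0 l0)) (s0 (s2 l0 (s1 (s0 l0 l0) (s0 (s2 l0 l0) l0))) (s2 l0 (s1 l0 l0))))))) 0 _ _ _ _ _ _ _ _ (by decide +kernel)

theorem c41 : Good (PR (sh G20 2)) 4722366651754631240089 4722366683255639375872 4722366601067145199616 4722366626355912638464 4722366482869645213696 4722366496888418467840 4722366482869645213696 4722366482869645213696 :=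
  run_sound (PS _) (s1 (s0 (s1 (s0 (s1 (s2 l0 l0) (s2 l0 l0)) (s1 (s2 l0 l0) (s2 l0 l0))) (s0 (s1 (s2 l0 l0) (s2 l0 l0)) (s1 (s2 l0 l0) (s2 l0 l0)))) (s1 (s0 (s1 l0 l0) l0) (s0 (s1 l0 l0) l0))) (s0 (s1 (s0 (s1 (s2 l0 l0) (s2 l0 l0)) (s1 (s2 l0 l0) (s2 l0 l0))) (s0 (s1 (s2 l0 l0) (s2 l0 l0)) (s1 (s2 l0 l0) (s2 l0 l0)))) (s1 (s0 (s1 l0 l0) l0) (s0 (s1 l0 l0) l0)))) 0 _ _ _ _ _ _ _ _ (by decide +kernel)

theorem c42 : Good (PR (sh G21 1)) 4722366682980761468928 4722366726686348673024 4722366601067145199616 4722366626355912638464 4722366496888418467840 4722366516679627767808 4722366482869645213696 4722366482869645213696 :=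
  run_sound (PS _) (s1 (s0 (s0 (s1 (s2 (s1 l0 l0) (s1 l0 l0)) (s2 (s1 l0 l0) (s1 l0 l0))) (s1 (s2 (s0 (s1 l0 l0) (s1 l0 l0)) (s0 l0 (s1 l0 l0))) (s2 (s0 (s1 l0 l0) (s1 l0 l0)) (s0 (s1 l0 l0) (s1 l0 (s2 l0 l0)))))) (s0 (s1 (s2 (s0 (s1 l0 l0) (s1 l0 l0)) (s0 (s1 l0 (s2 l0 l0)) (s1 l0 (s2 l0 l0)))) (s2 (s0 (s1 l0 l0) (s1 l0 l0)) (s0 (s1 (s2 l0 l0) (s2 l0 l0)) (s1 (s2 l0 l0) (s2 l0 l0))))) (s1 (s0 (s2 (s1 l0 l0) (s1 l0 l0)) (s2 l0 l0)) (s0 (s2 (s1 l0 l0) (s1 l0 l0)) (s2 l0 l0))))) (s0 (s0 (s1 (s2 (s1 l0 l0) (s1 l0 l0)) (s2 (s1 l0 l0) (s1 l0 l0))) (s1 (s2 (s0 (s1 l0 l0) (s1 l0 l0)) (s0 (s1 l0 l0) (s1 (s2 l0 l0) (s2 l0 l0)))) (s2 (s0 (s1 l0 l0) (s1 l0 l0)) (s0 (s1 l0 l0) (s1 (s2 l0 l0) (s2 l0 l0)))))) (s0 (s1 (s2 (s0 (s1 l0 l0) (s1 l0 l0)) (s1 (s2 (s0 l0 l0) (s0 (s1 l0 l0) (s1 l0 l0))) (s2 (s0 l0 l0) (s0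 (s1 l0 l0) (s0 l0 l0))))) (s2 (s1 (s0 l0 l0) (s0 l0 l0)) (s0 (s1 (s2 l0 (s0 l0 l0)) (s2 l0 (s0 l0 (s1 l0 l0)))) (s1 (s2 l0 (s0 l0 l0)) (s2 l0 (s0 (s1 l0 l0) (s1 l0 l0))))))) (s1 (s0 (s2 (s1 l0 l0) (s1 (s2 l0 l0) (s0 l0 l0))) (s2 l0 l0)) (s0 (s2 (s1 l0 l0) (s1 (s0 (s2 l0 l0) l0) (s0 (s2 l0 l0) l0))) (s2 l0 (s1 l0 l0))))))) 0 _ _ _ _ _ _ _ _ (by decide +kernel)

end Crest.Agent.R307.HS2
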