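import Crest.Agent.R307.HS2P
import Crest.Agent.R307.HGs

set_option autoImplicit false
set_option maxRecDepth 100000
set_option linter.unusedVariables false

namespace Crest.Agent.R307.HS2
open Crest.Agent.R307.AA

open Tree

theorem c43 : Good (PR (sh G21 2)) 4722366651754631240089 4722366683255639375872 4722366601067145199616 4722366626355912638464 4722366496888418467840 4722366516679627767808 4722366482869645213696 4722366482869645213696 :=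
  run_sound (PS _) (s1 (s0 (s1 (s1 (s0 (s2 l0 l0) l0) (s0 (s2 l0 l0) l0)) (s1 (s0 (s2 l0 l0) (s2 l0 l0)) (s0 (s2 l0 l0) (s2 l0 l0)))) (s1 (s0 (s2 l0 l0) l0) (s0 (s1 l0 l0) l0))) (s1 (s0 (s1 (s0 (s2 l0 l0) l0) (s0 (s2 l0 l0) l0)) (s0 (s1 l0 l0) l0)) (s0 (s1 (s0 (s2 l0 l0) l0) (s0 (s2 l0 l0) l0)) (s0 (s1 l0 l0) l0)))) 0 _ _ _ _ _ _ _ _ (by decide +kernel)

theorem c44 : Good (PR (sh G22 1)) 4722366682980761468928 4722366726686348673024 4722366601067145199616 4722366626355912638464 4722366516679627767808 4722366539219616137216 4722366482869645213696 4722366482869645213696 :=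
  run_sound (PS _) (s1 (s0 (s1 (s0 (s2 l0 l0) (s1 l0 l0)) (s0 (s1 l0 l0) (s0 l0 l0))) (s1 (s0 (s2 l0 l0) l0) (s0 (s1 l0 l0) l0))) (s0 (s1 (s0 (s1 l0 l0) (s0 (s2 l0 l0) (s2 l0 l0))) (s0 (s1 l0 l0) (s0 (s2 l0 l0) (s1 l0 l0)))) (s1 (s0 (s1 l0 l0) (s1 l0 l0)) (s0 (s1 (s2 l0 l0) (s2 l0 l0)) (s0 (s2 l0 l0) l0))))) 0 _ _ _ _ _ _ _ _ (by decide +kernel)

theorem c45 : Good (PR (sh G22 2)) 4722366651754631240089 4722366683255639375872 4722366601067145199616 4722366626355912638464 4722366516679627767808 4722366539219616137216 4722366482869645213696 4722366482869645213696 :=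
  run_sound (PS _) (s1 (s1 (s0 (s0 (s2 l0 l0) (s2 l0 l0)) (s0 l0 l0)) (s0 (s0 (s2 l0 l0) (s2 l0 l0)) (s0 (s2 l0 l0) l0))) (s1 (s0 (s0 (s1 l0 l0) (s1 l0 l0)) (s0 (s2 l0 l0) l0)) (s0 (s0 (s1 l0 l0) (s1 l0 l0)) (s0 (s2 l0 l0) l0)))) 0 _ _ _ _ _ _ _ _ (by decide +kernel)

theorem c46 : Good (PR (sh G23 1)) 4722366682980761468928 4722366726686348673024 4722366601067145199616 4722366626355912638464 4722366539219616137216 4722366564508383576064 4722366482869645213696 4722366482869645213696 :=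
  run_sound (PS _) (s1 (s0 (s1 (s0 (s2 l0 l0) (s2 l0 l0)) (s0 (s2 l0 l0) (s2 (s1 l0 l0) (s1 l0 l0)))) (s1 (s0 (s2 l0 l0) (s2 l0 l0)) (s0 (s2 l0 l0) (s2 l0 l0)))) (s0 (s1 (s0 (s2 l0 l0) (s2 (s1 l0 l0) (s1 l0 l0))) (s0 (s2 l0 l0) (s2 (s1 l0 l0) (s1 l0 l0)))) (s1 (s0 (s2 l0 (s1 l0 l0)) (s0 (s2 l0 l0) l0)) (s0 (s2 (s1 l0 l0) (s1 l0 l0)) (s0 (s2 l0 l0) l0))))) 0 _ _ _ _ _ _ _ _ (by decide +kernel)

theorem c47 : Good (PR (sh G23 2)) 4722366651754631240089 4722366683255639375872 4722366601067145199616 4722366626355912638464 4722366539219616137216 4722366564508383576064 4722366482869645213696 4722366482869645213696 :=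
  run_sound (PS _) (s1 (s0 (s1 (s0 l0 l0) (s0 (s2 l0 l0) (s2 l0 l0))) (s1 (s0 l0 l0) (s0 (s2 l0 l0) l0))) (s1 (s0 (s0 (s2 l0 l0) (s2 l0 l0)) (s0 (s2 l0 l0) l0)) (s0 (s0 (s2 l0 l0) (s2 l0 l0)) (s0 (s2 l0 l0) l0)))) 0 _ _ _ _ _ _ _ _ (by decide +kernel)

theorem c48 : Good (PR (sh G24 1)) 4722366682980761468928 4722366726686348673024 4722366601067145199616 4722366626355912638464 4722366564508383576064 4722366592820807991296 4722366482869645213696 4722366482869645213696 :=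
  run_sound (PS _) (s1 (s0 (s1 (s0 (s2 l0 l0) (s2 l0 l0)) (s0 (s2 l0 l0) (s2 l0 l0))) (s1 (s0 (s2 l0 l0) (s2 l0 l0)) (s0 (s2 l0 l0) (s2 l0 l0)))) (s1 (s0 (s0 (s2 l0 l0) (s2 (s2 l0 l0) (s2 l0 l0))) (s0 (s2 l0 (s2 l0 l0)) (s2 l0 l0))) (s0 (s0 (s2 l0 l0) (s2 (s2 l0 l0) (s2 l0 l0))) (s0 (s2 l0 (s2 l0 l0)) (s2 l0 (s2 l0 l0)))))) 0 _ _ _ _ _ _ _ _ (by decide +kernel)

theorem c49 : Good (PR (sh G24 2)) 4722366651754631240089 4722366683255639375872 4722366601067145199616 4722366626355912638464 4722366564508383576064 4722366592820807991296 4722366482869645213696 4722366482869645213696 :=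
  run_sound (PS _) (s1 (s1 (s0 (s2 l0 l0) (s2 l0 l0)) (s0 (s2 (s0 l0 l0) (s0 l0 l0)) (s2 l0 l0))) (s1 (s0 (s2 (s0 l0 l0) (s0 l0 l0)) (s1 l0 l0)) (s1 (s2 (s0 l0 l0) l0) (s2 l0 l0)))) 0 _ _ _ _ _ _ _ _ (by decide +kernel)

theorem c50 : Good (PR (sh G25 1)) 4722366682980761468928 4722366726686348673024 4722366626355912638464 4722366651644680077312 4722366482869645213696 4722366496888418467840 4722366482869645213696 4722366482869645213696 :=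
  run_sound (PS _) (s1 (s0 (s1 (s0 (s1 l0 l0) (s1 (s0 l0 l0) (s0 l0 l0))) (s0 (s1 l0 l0) (s1 (s2 l0 l0) (s2 l0 l0)))) (s1 (s0 (s1 (s0 l0 l0) (s0 l0 l0)) (s0 (s1 l0 l0) (s2 l0 l0))) (s0 (s1 (s2 l0 l0) (s2 l0 l0)) (s1 (s2 l0 l0) l0)))) (s0 (s1 (s0 (s1 l0 l0) (s1 (s2 l0 l0) (s0 l0 l0))) (s0 (s1 l0 l0) (s1 (s0 l0 l0) (s0 l0 l0)))) (s1 (s0 (s1 (s2 l0 l0) (s0 l0 l0)) (s0 (s1 l0 l0) l0)) (s0 (s1 (s0 (s2 l0 l0) (s2 l0 l0)) (s0 (s1 l0 l0) (s1 l0 (s2 l0 l0)))) (s0 (s1 l0 (s0 (s2 l0 l0) l0)) (s1 l0 l0)))))) 0 _ _ _ _ _ _ _ _ (by decide +kernel)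

theorem c51 : Good (PR (sh G25 2)) 4722366651754631240089 4722366683255639375872 4722366626355912638464 4722366651644680077312 4722366482869645213696 4722366496888418467840 4722366482869645213696 4722366482869645213696 :=
  run_sound (PS _) (s1 (s1 (s0 (s1 (s0 l0 l0) (s0 l0 l0)) (s0 (s1 l0 l0) l0)) (s0 (s1 (s0 l0 l0) (s0 l0 l0)) (s0 (s1 l0 l0) l0))) (s1 (s0 (s1 (s0 l0 l0) (s0 l0 l0)) (s0 (s1 l0 l0) l0)) (s0 (s1 (s0 (s2 l0 l0) l0) (s0 (s0 l0 l0) (s2 l0 l0))) (s0 (s1 l0 l0) l0)))) 0 _ _ _ _ _ _ _ _ (by decide +kernel)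

theorem c52 : Good (PR (sh G26 1)) 4722366682980761468928 4722366726686348673024 4722366626355912638464 4722366651644680077312 4722366496888418467840 4722366516679627767808 4722366482869645213696 4722366482869645213696 :=
  run_sound (PS _) (s1 (s0 (s1 (s0 (s1 l0 l0) (s1 (s2 l0 l0) l0)) (s0 (s1 l0 l0) (s1 l0 l0))) (s1 (s0 (s1 (s0 l0 l0) l0) (s1 (s0 l0 l0) l0)) (s0 (s1 l0 l0) (s1 l0 l0)))) (s0 (s1 (s0 (s1 l0 l0) (s1 (s2 l0 l0) (s0 l0 l0))) (s0 (s1 l0 l0) (s1 (s0 l0 l0) (s0 l0 l0)))) (s1 (s0 (s1 (s2 l0 l0) (s0 l0 l0)) (s1 l0 (s2 l0 l0))) (s0 (s1 (s0 (s2 l0 l0) l0) (s0 (s1 l0 l0) (s1 l0 l0))) (s1 (s0 l0 l0) (s0 (s1 l0 (s2 l0 l0)) l0)))))) 0 _ _ _ _ _ _ _ _ (by decide +kernel)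

theorem c53 : Good (PR (sh G26 2)) 4722366651754631240089 4722366683255639375872 4722366626355912638464 4722366651644680077312 4722366496888418467840 4722366516679627767808 4722366482869645213696 4722366482869645213696 :=
  run_sound (PS _) (s1 (s1 (s0 (s0 (s1 (s2 l0 l0) (s2 (s2 l0 l0) l0)) (s1 (s2 l0 l0) (s2 l0 l0))) (s0 (s1 (s2 l0 l0) l0) l0)) (s0 (s0 (s1 (s2 (s2 l0 l0) l0) (s2 (s2 l0 l0) l0)) (s1 (s2 l0 l0) (s2 l0 l0))) (s0 (s1 l0 l0) l0))) (s1 (s0 (s1 (s2 (s0 (s2 l0 l0) l0) (s0 l0 l0)) (s2 (s0 (s2 l0 l0) l0) (s0 l0 l0))) (s0 (s1 l0 l0) l0)) (s0 (s1 (s2 (s0 (s2 l0 l0) l0) (s0 l0 l0)) (s2 (s0 (s2 l0 l0) l0) (s0 l0 l0))) (s0 (s1 l0 l0) l0)))) 0 _ _ _ _ _ _ _ _ (by decide +kernel)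

theorem c54 : Good (PR (sh G27 1)) 4722366682980761468928 4722366726686348673024 4722366626355912638464 4722366651644680077312 4722366516679627767808 4722366539219616137216 4722366482869645213696 4722366482869645213696 :=
  run_sound (PS _) (s1 (s0 (s1 (s0 (s2 (s1 l0 l0) (s1 l0 l0)) (s1 (s2 l0 l0) (s2 l0 l0))) (s0 (s2 (s1 l0 l0) (s1 l0 l0)) (s1 (s2 (s2 l0 l0) l0) (s2 (s2 l0 l0) l0)))) (s1 (s0 (s1 (s2 l0 l0) (s2 l0 l0)) (s0 (s2 l0 l0) l0)) (s0 (s1 (s2 l0 l0) (s2 l0 l0)) (s0 (s1 l0 l0) (s2 l0 l0))))) (s1 (s0 (s0 (s1 (s2 l0 l0) (s2 l0 l0)) (s1 (s2 (s2 l0 l0) l0) (s2 (s2 l0 l0) l0))) (s0 (s1 (s2 l0 (s2 l0 l0)) (s2 l0 (s2 l0 l0))) (s0 (s1 (s2 l0 l0) (s2 l0 l0)) (s1 l0 l0)))) (s0 (s0 (s1 (s2 l0 l0) (s2 l0 l0)) (s1 (s2 (s2 l0 l0) (s2 l0 l0)) (s2 (s0 l0 l0) (s2 l0 l0)))) (s0 (s1 (s2 l0 (s0 l0 l0)) (s2 l0 (s0 l0 l0))) (s0 (s1 (s2 l0 l0) (s2 l0 l0)) (s1 l0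 (s2 l0 l0))))))) 0 _ _ _ _ _ _ _ _ (by decide +kernel)

theorem c55 : Good (PR (sh G27 2)) 4722366651754631240089 4722366683255639375872 4722366626355912638464 4722366651644680077312 4722366516679627767808 4722366539219616137216 4722366482869645213696 4722366482869645213696 :=
  run_sound (PS _) (s1 (s1 (s0 (s0 (s2 (s1 l0 l0) (s1 l0 l0)) (s2 (s1 l0 l0) (s1 l0 l0))) (s0 (s2 (s1 l0 l0) (s1 l0 l0)) (s2 l0 l0))) (s0 (s0 (s2 (s1 l0 l0) (s1 l0 l0)) (s2 (s1 l0 l0) (s1 l0 l0))) (s0 (s2 (s1 l0 l0) (s1 l0 l0)) (s1 l0 l0)))) (s1 (s0 (s0 (s2 (s1 l0 l0) (s1 l0 l0)) (s1 (s2 l0 l0) (s2 l0 l0))) (s0 (s1 (s2 l0 l0) (s2 l0 l0)) (s1 l0 l0))) (s0 (s0 (s1 (s2 l0 l0) (s2 l0 l0)) (s1 (s2 l0 l0) (s2 l0 l0))) (s0 (s1 (s2 l0 l0) (s2 l0 l0)) (s1 l0 l0))))) 0 _ _ _ _ _ _ _ _ (by decide +kernel)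

theorem c56 : Good (PR (sh G28 1)) 4722366682980761468928 4722366726686348673024 4722366626355912638464 4722366651644680077312 4722366539219616137216 4722366564508383576064 4722366482869645213696 4722366482869645213696 :=
  run_sound (PS _) (s1 (s1 (s0 (s0 (s1 l0 l0) (s1 l0 l0)) (s0 (s1 l0 l0) (s2 l0 l0))) (s0 (s0 (s1 l0 l0) (s1 (s2 l0 l0) (s2 l0 l0))) (s0 (s1 l0 l0) (s1 l0 l0)))) (s1 (s0 (s0 (s1 l0 l0) (s1 (s2 l0 l0) (s2 l0 l0))) (s0 (s1 l0 (s2 l0 l0)) (s1 l0 l0))) (s0 (s0 (s1 l0 l0) (s1 (s2 l0 l0) (s2 l0 l0))) (s0 (s1 (s2 l0 l0) (s2 l0 l0)) (s1 (s2 l0 l0) (s2 l0 l0)))))) 0 _ _ _ _ _ _ _ _ (by decide +kernel)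

theorem c57 : Good (PR (sh G28 2)) 4722366651754631240089 4722366683255639375872 4722366626355912638464 4722366651644680077312 4722366539219616137216 4722366564508383576064 4722366482869645213696 4722366482869645213696 :=
  run_sound (PS _) (s1 (s1 (s0 (s1 l0 l0) (s1 l0 l0)) (s1 (s0 l0 l0) (s0 (s2 l0 l0) l0))) (s1 (s1 (s0 (s2 l0 l0) l0) (s0 (s2 l0 l0) l0)) (s1 (s0 (s2 l0 l0) l0) (s0 (s2 l0 l0) l0)))) 0 _ _ _ _ _ _ _ _ (by decide +kernel)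

theorem c58 : Good (PR (sh G29 1)) 4722366682980761468928 4722366726686348673024 4722366626355912638464 4722366651644680077312 4722366564508383576064 4722366592820807991296 4722366482869645213696 4722366482869645213696 :=
  run_sound (PS _) (s1 (s1 (s0 (s0 (s2 l0 l0) (s1 l0 l0)) (s0 (s1 l0 l0) (s1 l0 l0))) (s0 (s0 (s1 l0 l0) (s1 (s2 l0 l0) (s2 l0 l0))) (s0 (s1 l0 (s2 l0 l0)) (s1 l0 l0)))) (s1 (s0 (s0 (s1 l0 l0) (s1 (s2 l0 l0) (s2 l0 l0))) (s0 (s1 (s2 l0 l0) (s2 l0 l0)) (s1 (s2 l0 l0) (s2 l0 l0)))) (s0 (s0 (s1 l0 l0) (s1 (s2 l0 l0) (s2 l0 l0))) (s0 (s1 (s2 l0 l0) (s2 l0 l0)) (s1 (s2 l0 l0) (s2 l0 l0)))))) 0 _ _ _ _ _ _ _ _ (by decide +kernel)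

theorem c59 : Good (PR (sh G29 2)) 4722366651754631240089 4722366683255639375872 4722366626355912638464 4722366651644680077312 4722366564508383576064 4722366592820807991296 4722366482869645213696 4722366482869645213696 :=
  run_sound (PS _) (s1 (s1 (s0 (s1 (s2 l0 l0) (s2 l0 l0)) (s1 l0 l0)) (s0 (s1 (s2 l0 l0) (s2 l0 l0)) (s1 l0 (s2 l0 l0)))) (s1 (s0 (s1 (s2 l0 l0) (s2 l0 l0)) (s1 (s2 l0 l0) (s2 l0 l0))) (s1 (s0 (s2 l0 l0) (s2 l0 l0)) (s0 (s2 l0 l0) (s2 l0 l0))))) 0 _ _ _ _ _ _ _ _ (by decide +kernel)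

theorem c60 : Good (PR (sh G30 1)) 4722366682980761468928 4722366726686348673024 4722366651644680077312 4722366668687110307840 4722366482869645213696 4722366496888418467840 4722366482869645213696 4722366482869645213696 :=
  run_sound (PS _) (s1 (s0 (s1 (s0 l0 l0) (s0 l0 l0)) (s1 (s0 l0 l0) (s0 (s2 l0 l0) l0))) (s0 (s1 (s0 l0 (s2 l0 l0)) (s0 l0 (s0 l0 l0))) (s1 (s0 (s0 l0 l0) (s0 l0 l0)) (s0 (s1 (s2 l0 l0) (s0 l0 l0)) (s1 l0 (s0 l0 l0)))))) 0 _ _ _ _ _ _ _ _ (by decide +kernel)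

theorem c61 : Good (PR (sh G30 2)) 4722366651754631240089 4722366683255639375872 4722366651644680077312 4722366668687110307840 4722366482869645213696 4722366496888418467840 4722366482869645213696 4722366482869645213696 :=
  run_sound (PS _) (s1 (s0 (s1 (s0 (s1 l0 l0) (s1 l0 l0)) (s0 (s1 l0 l0) (s1 l0 l0))) (s1 (s0 (s1 l0 l0) l0) (s0 (s1 l0 l0) l0))) (s0 (s1 (s0 (s1 l0 l0) (s1 l0 l0)) (s0 (s1 l0 (s2 l0 l0)) (s1 l0 (s2 l0 l0)))) (s1 (s0 (s1 l0 l0) l0) (s0 (s1 l0 (s2 l0 l0)) l0)))) 0 _ _ _ _ _ _ _ _ (by decide +kernel)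

theorem c62 : Good (PR (sh G31 1)) 4722366682980761468928 4722366726686348673024 4722366651644680077312 4722366668687110307840 4722366496888418467840 4722366516679627767808 4722366482869645213696 4722366482869645213696 :=
  run_sound (PS _) (s1 (s0 (s1 (s0 (s2 l0 l0) (s2 (s0 l0 l0) (s0 l0 (s2 l0 l0)))) (s0 (s2 l0 l0) (s2 (s0 l0 l0) (s1 (s0 l0 l0) (s0 l0 l0))))) (s1 (s0 (s2 (s1 l0 l0) (s1 (s0 l0 l0) (s0 l0 l0))) (s0 (s2 l0 (s2 l0 l0)) l0)) (s0 (s2 (s1 l0 l0) (s1 (s0 l0 l0) (s0 l0 l0))) (s0 (s2 l0 (s1 l0 l0)) (s2 l0 l0))))) (s0 (s1 (s0 (s2 l0 l0) (s2 (s0 l0 l0) (s1 (s0 l0 l0) l0))) (s0 (s2 l0 l0) (s2 (s0 l0 l0) (s1 l0 l0)))) (s1 (s0 (s2 (s1 l0 l0) (s1 (s0 l0 l0) (s0 l0 l0))) (s2 (s0 l0 l0) (s0 (s1 l0 l0) l0))) (s0 (s2 (s0 l0 l0) (s1 (s0 l0 l0) (s0 l0 l0))) (s2 (s0 l0 l0) (s0 (s1 l0 l0) (s2 l0 l0))))))) 0 _ _ _ _ _ _ _ _ (by decide +kernel)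

theorem c63 : Good (PR (sh G31 2)) 4722366651754631240089 4722366683255639375872 4722366651644680077312 4722366668687110307840 4722366496888418467840 4722366516679627767808 4722366482869645213696 4722366482869645213696 :=
  run_sound (PS _) (s1 (s1 (s0 (s1 (s0 (s2 l0 l0) l0) (s0 l0 l0)) (s0 (s2 l0 l0) l0)) (s0 (s0 (s1 l0 l0) (s1 l0 l0)) (s0 (s2 l0 l0) l0))) (s0 (s1 (s0 (s1 l0 l0) (s1 l0 l0)) (s1 (s0 (s2 l0 l0) l0) (s0 (s2 l0 l0) (s2 l0 l0)))) (s1 (s0 (s2 l0 l0) l0) (s0 (s1 l0 l0) l0)))) 0 _ _ _ _ _ _ _ _ (by decide +kernel)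

theorem c64 : Good (PR (sh G32 1)) 4722366682980761468928 4722366726686348673024 4722366651644680077312 4722366668687110307840 4722366516679627767808 4722366539219616137216 4722366482869645213696 4722366482869645213696 :=
  run_sound (PS _) (s1 (s0 (s1 (s0 l0 (s1 l0 l0)) (s0 (s2 l0 l0) (s1 l0 l0))) (s1 (s0 (s1 l0 l0) (s2 l0 l0)) (s0 (s1 l0 l0) (s0 l0 l0)))) (s0 (s1 (s0 (s2 l0 l0) (s1 l0 (s2 l0 l0))) (s0 (s2 l0 l0) (s1 (s2 l0 l0) (s2 l0 l0)))) (s1 (s0 (s1 l0 (s2 l0 l0)) (s1 l0 (s2 l0 l0))) (s0 (s1 (s2 l0 l0) (s2 l0 l0)) (s0 (s1 l0 l0) l0))))) 0 _ _ _ _ _ _ _ _ (by decide +kernel)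

theorem c65 : Good (PR (sh G32 2)) 4722366651754631240089 4722366683255639375872 4722366651644680077312 4722366668687110307840 4722366516679627767808 4722366539219616137216 4722366482869645213696 4722366482869645213696 :=
  run_sound (PS _) (s1 (s0 (s1 (s0 (s2 (s1 l0 l0) (s2 l0 l0)) (s1 (s2 l0 l0) (s2 l0 l0))) (s0 (s1 (s2 l0 l0) (s2 l0 l0)) (s1 (s2 l0 l0) (s2 l0 l0)))) (s1 (s0 (s1 l0 l0) (s2 l0 l0)) (s0 (s1 l0 l0) (s2 l0 l0)))) (s0 (s1 (s0 (s1 (s2 l0 l0) (s2 l0 l0)) (s1 (s2 l0 l0) (s2 l0 l0))) (s0 (s1 (s2 l0 l0) (s2 l0 l0)) (s1 (s2 l0 l0) (s2 l0 l0)))) (s1 (s0 (s1 l0 l0) (s2 l0 l0)) (s0 (s1 l0 (s2 l0 l0)) (s2 l0 l0))))) 0 _ _ _ _ _ _ _ _ (by decide +kernel)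

theorem c66 : Good (PR (sh G33 1)) 4722366682980761468928 4722366726686348673024 4722366651644680077312 4722366668687110307840 4722366539219616137216 4722366564508383576064 4722366482869645213696 4722366482869645213696 :=
  run_sound (PS _) (s1 (s0 (s1 (s0 l0 (s1 l0 l0)) (s0 (s2 l0 l0) (s1 l0 l0))) (s1 (s0 (s1 l0 l0) (s1 l0 l0)) (s0 (s1 l0 (s2 l0 l0)) (s1 l0 l0)))) (s0 (s1 (s0 (s2 l0 l0) (s1 (s2 l0 l0) (s2 l0 l0))) (s0 (s2 l0 l0) (s1 (s2 l0 l0) (s2 l0 l0)))) (s1 (s0 (s1 (s2 l0 l0) (s2 l0 l0)) (s1 l0 (s2 l0 l0))) (s0 (s1 (s2 l0 l0) (s2 l0 l0)) (s1 (s2 l0 l0) (s2 l0 l0)))))) 0 _ _ _ _ _ _ _ _ (by decide +kernel)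

theorem c67 : Good (PR (sh G33 2)) 4722366651754631240089 4722366683255639375872 4722366651644680077312 4722366668687110307840 4722366539219616137216 4722366564508383576064 4722366482869645213696 4722366482869645213696 :=
  run_sound (PS _) (s1 (s1 (s0 (s0 l0 l0) l0) (s0 (s1 l0 l0) (s2 l0 l0))) (s1 (s0 (s1 l0 l0) (s0 l0 l0)) (s0 (s1 l0 l0) (s0 l0 l0)))) 0 _ _ _ _ _ _ _ _ (by decide +kernel)

theorem c68 : Good (PR (sh G34 1)) 4722366682980761468928 4722366726686348673024 4722366651644680077312 4722366668687110307840 4722366564508383576064 4722366592820807991296 4722366482869645213696 4722366482869645213696 :=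
  run_sound (PS _) (s1 (s1 (s0 (s0 l0 (s2 l0 l0)) (s1 l0 (s2 l0 l0))) (s0 (s0 l0 (s0 l0 l0)) (s0 (s1 l0 l0) (s2 l0 l0)))) (s1 (s0 (s0 l0 (s1 l0 l0)) (s0 (s1 l0 l0) (s0 l0 l0))) (s0 (s0 (s2 l0 l0) (s1 l0 l0)) (s0 (s1 l0 l0) (s1 l0 l0))))) 0 _ _ _ _ _ _ _ _ (by decide +kernel)

theorem c69 : Good (PR (sh G34 2)) 4722366651754631240089 4722366683255639375872 4722366651644680077312 4722366668687110307840 4722366564508383576064 4722366592820807991296 4722366482869645213696 4722366482869645213696 :=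
  run_sound (PS _) (s1 (s1 (s0 (s1 l0 l0) (s2 l0 l0)) (s0 (s1 l0 l0) (s1 l0 l0))) (s1 (s0 (s1 (s2 l0 l0) (s2 l0 l0)) (s1 l0 l0)) (s0 (s1 (s2 l0 l0) (s2 l0 l0)) (s1 l0 l0)))) 0 _ _ _ _ _ _ _ _ (by decide +kernel)

theorem c70 : Good (PR (sh G35 1)) 4722366682980761468928 4722366726686348673024 4722366668687110307840 4722366681915609579520 4722366482869645213696 4722366496888418467840 4722366482869645213696 4722366482869645213696 :=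
  run_sound (PS _) (s1 (s0 (s1 (s0 l0 l0) (s0 l0 (s2 l0 l0))) (s1 (s0 (s2 l0 l0) l0) (s0 (s0 l0 l0) (s2 l0 l0)))) (s0 (s0 (s1 l0 l0) (s1 (s0 l0 l0) (s0 l0 l0))) (s1 (s0 (s0 l0 l0) (s0 l0 l0)) (s0 (s0 (s2 l0 l0) (s2 l0 l0)) (s0 (s2 l0 l0) l0))))) 0 _ _ _ _ _ _ _ _ (by decide +kernel)

theorem c71 : Good (PR (sh G35 2)) 4722366651754631240089 4722366683255639375872 4722366668687110307840 4722366681915609579520 4722366482869645213696 4722366496888418467840 4722366482869645213696 4722366482869645213696 :=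
  run_sound (PS _) (s1 (s0 (s1 (s0 (s2 l0 l0) l0) (s0 l0 l0)) (s1 (s0 l0 l0) (s0 l0 l0))) (s0 (s1 (s0 l0 l0) (s0 (s1 l0 l0) (s0 l0 l0))) (s1 (s0 l0 l0) (s0 (s2 l0 l0) l0)))) 0 _ _ _ _ _ _ _ _ (by decide +kernel)

theorem c72 : Good (PR (sh G36 1)) 4722366682980761468928 4722366726686348673024 4722366668687110307840 4722366681915609579520 4722366496888418467840 4722366516679627767808 4722366482869645213696 4722366482869645213696 :=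
  run_sound (PS _) (s1 (s0 (s1 (s0 l0 (s2 l0 l0)) (s0 l0 (s2 l0 l0))) (s1 (s0 (s2 l0 l0) (s2 l0 l0)) (s0 (s1 l0 l0) (s2 l0 l0)))) (s0 (s1 (s0 (s2 l0 l0) (s2 l0 (s0 l0 l0))) (s0 (s2 l0 l0) (s2 l0 (s1 l0 l0)))) (s1 (s0 (s2 l0 (s0 l0 l0)) (s1 l0 (s2 l0 l0))) (s0 (s2 l0 (s1 l0 (s0 l0 l0))) (s2 l0 (s1 l0 l0)))))) 0 _ _ _ _ _ _ _ _ (by decide +kernel)

theorem c73 : Good (PR (sh G36 2)) 4722366651754631240089 4722366683255639375872 4722366668687110307840 4722366681915609579520 4722366496888418467840 4722366516679627767808 4722366482869645213696 4722366482869645213696 :=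
  run_sound (PS _) (s1 (s1 (s0 (s0 (s1 (s2 l0 l0) (s2 l0 l0)) (s1 l0 l0)) (s0 (s2 l0 l0) l0)) (s0 (s0 (s1 (s2 l0 l0) (s2 l0 l0)) (s1 l0 l0)) (s0 (s0 l0 l0) l0))) (s1 (s0 (s0 (s1 (s2 l0 l0) (s2 l0 l0)) (s1 (s2 l0 l0) (s2 l0 l0))) (s0 (s1 l0 l0) (s2 l0 l0))) (s0 (s0 (s1 (s2 l0 l0) (s2 l0 l0)) (s1 (s2 l0 l0) (s0 (s2 l0 l0) l0))) (s0 (s1 (s2 l0 l0) (s2 l0 l0)) (s0 l0 l0))))) 0 _ _ _ _ _ _ _ _ (by decide +kernel)

theorem c74 : Good (PR (sh G37 1)) 4722366682980761468928 4722366726686348673024 4722366668687110307840 4722366681915609579520 4722366516679627767808 4722366539219616137216 4722366482869645213696 4722366482869645213696 :=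
  run_sound (PS _) (s1 (s0 (s1 (s0 l0 (s2 l0 l0)) (s0 l0 (s0 l0 l0))) (s1 (s0 (s0 l0 l0) (s2 l0 l0)) (s0 (s1 l0 l0) (s0 l0 l0)))) (s0 (s1 (s0 l0 (s1 l0 l0)) (s0 l0 (s1 l0 l0))) (s1 (s0 (s1 l0 (s2 l0 l0)) (s1 l0 l0)) (s0 (s1 (s2 l0 l0) (s0 l0 l0)) (s1 l0 (s2 l0 l0)))))) 0 _ _ _ _ _ _ _ _ (by decide +kernel)

theorem c75 : Good (PR (sh G37 2)) 4722366651754631240089 4722366683255639375872 4722366668687110307840 4722366681915609579520 4722366516679627767808 4722366539219616137216 4722366482869645213696 4722366482869645213696 :=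
  run_sound (PS _) (s1 (s1 (s0 (s1 (s2 l0 l0) l0) (s0 l0 l0)) (s0 (s1 l0 l0) (s0 l0 l0))) (s1 (s0 (s1 l0 (s2 l0 l0)) (s0 l0 l0)) (s0 (s1 (s2 l0 l0) (s2 l0 l0)) (s0 l0 l0)))) 0 _ _ _ _ _ _ _ _ (by decide +kernel)

theorem c76 : Good (PR (sh G38 1)) 4722366682980761468928 4722366726686348673024 4722366668687110307840 4722366681915609579520 4722366539219616137216 4722366564508383576064 4722366482869645213696 4722366482869645213696 :=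
  run_sound (PS _) (s1 (s0 (s1 (s0 l0 (s2 l0 l0)) (s0 l0 (s1 l0 l0))) (s1 (s0 (s1 l0 l0) (s2 l0 l0)) (s0 (s1 l0 l0) (s0 l0 l0)))) (s0 (s1 (s0 l0 (s1 l0 l0)) (s0 l0 (s1 l0 l0))) (s1 (s0 (s1 l0 l0) (s1 l0 l0)) (s1 (s0 l0 l0) (s0 l0 l0))))) 0 _ _ _ _ _ _ _ _ (by decide +kernel)

theorem c77 : Good (PR (sh G38 2)) 4722366651754631240089 4722366683255639375872 4722366668687110307840 4722366681915609579520 4722366539219616137216 4722366564508383576064 4722366482869645213696 4722366482869645213696 :=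
  run_sound (PS _) (s1 (s1 (s0 (s1 l0 l0) (s2 l0 l0)) (s0 (s1 l0 l0) (s0 l0 l0))) (s1 (s0 (s1 l0 (s2 l0 l0)) (s1 l0 l0)) (s0 (s1 (s2 l0 l0) (s2 l0 l0)) (s1 l0 l0)))) 0 _ _ _ _ _ _ _ _ (by decide +kernel)

theorem c78 : Good (PR (sh G39 1)) 4722366682980761468928 4722366726686348673024 4722366668687110307840 4722366681915609579520 4722366564508383576064 4722366592820807991296 4722366482869645213696 4722366482869645213696 :=
  run_sound (PS _) (s1 (s0 (s1 (s0 (s2 l0 l0) (s1 l0 (s2 l0 l0))) (s0 (s2 l0 l0) (s2 (s1 l0 l0) l1))) (s1 (s1 (s0 l0 l0) (s0 (s2 l0 l0) l0)) (s2 (s1 (s0 l0 l0) (s0 l0 l0)) l1))) (s1 (s2 l1 l1) l1)) 0 _ _ _ _ _ _ _ _ (by decide +kernel)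

theorem c79 : Good (PR (sh G39 2)) 4722366651754631240089 4722366683255639375872 4722366668687110307840 4722366681915609579520 4722366564508383576064 4722366592820807991296 4722366482869645213696 4722366482869645213696 :=
  run_sound (PS _) (s2 (s1 (s0 (s1 (s0 (s1 l0 l0) (s0 l0 l0)) (s2 (s1 l0 l0) l1)) (s1 (s0 (s2 l0 l0) l0) (s2 (s0 l0 l0) l1))) (s2 l1 l1)) l1) 0 _ _ _ _ _ _ _ _ (by decide +kernel)

end Crest.Agent.R307.HS2
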