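import Crest.Agent.R307.HC

/-! Row 307: the high-noise bound for small sets, directly from hypercontractivity. -/

set_option autoImplicit false
open Crest.CubeNoise

namespace Crest.Agent.R307

theorem hsmall_f {t a : ℝ} (ht0 : 0 ≤ t) (ht : t ≤ 1 / 8) (ha : 0 ≤ a) :
    t - t ^ (1 + a) ≤ (1 - (8 : ℝ) ^ (-a)) / 8 := by
  have hB := one_add_mul_self_le_rpow_one_add (s := 8 * t - 1) (p := 1 + a) (by linarith) (by linarith)
  rw [add_sub_cancel, Real.mul_rpow (by norm_num) ht0, Real.rpow_add (by norm_num), Real.rpow_one] at hB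
  have hE : (8 : ℝ) ^ (-a) * 8 ^ a = 1 := by
    rw [← Real.rpow_add (by norm_num)]; simp
  have hE0 : 0 < (8 : ℝ) ^ (-a) := by positivity
  have h8 : 1 + a ≤ (8 : ℝ) ^ a := by
    rw [Real.rpow_def_of_pos (by norm_num)]
    have h2 : Real.log 8 = 3 * Real.log 2 := by
      rw [show (8 : ℝ) = 2 ^ 3 by norm_num, Real.log_pow]; norm_num
    have := Real.add_one_le_exp (Real.log 8 * a)
    have h3 := Real.log_two_gt_d9
    nlinarith
  set E := (8 : ℝ) ^ (-a)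
  set F := (8 : ℝ) ^ a
  set T := t ^ (1 + a)
  have h1 : E * (1 + a) ≤ 1 := by nlinarith
  have h2 : E * (1 + (1 + a) * (8 * t - 1)) ≤ 8 * T := by
    calc _ ≤ E * (8 * F * T) := mul_le_mul_of_nonneg_left hB hE0.le
      _ = 8 * T * (E * F) := by ring
      _ = _ := by rw [hE, mul_one]
  nlinarith [mul_nonneg (sub_nonneg.2 h1) (show 0 ≤ 1 - 8 * t by linarith)]

theorem hsmall_E {r : ℝ} (h0 : 0 ≤ r) (h1 : r ≤ 16 / 25) :
    1 - (8 : ℝ) ^ (-(r / (2 - r))) ≤ 11 / 10 * r := by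
  have hd : 0 < 2 - r := by linarith
  set a := r / (2 - r) with ha
  have ha0 : 0 ≤ a := by positivity
  have ha1 : a ≤ 1 / 2 := by rw [ha, div_le_iff₀ hd]; linarith
  have hr : r * (1 + a) = 2 * a := by rw [ha]; field_simp; ring
  have h2 : 1 - 6932 / 10000 * a ≤ (2 : ℝ) ^ (-a) := by
    rw [Real.rpow_def_of_pos (by norm_num)]
    have := Real.add_one_le_exp (Real.log 2 * (-a))
    have h3 := Real.log_two_lt_d9
    nlinarith
  have h3 : (8 : ℝ) ^ (-a) = ((2 : ℝ) ^ (-a)) ^ 3 := by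
    rw [show (8 : ℝ) = 2 * 2 * 2 by norm_num, Real.mul_rpow (by norm_num) (by norm_num),
      Real.mul_rpow (by norm_num) (by norm_num)]
    ring
  have h4 : (1 - 6932 / 10000 * a) ^ 3 ≤ ((2 : ℝ) ^ (-a)) ^ 3 :=
    pow_le_pow_left₀ (by linarith) h2 3
  rw [h3]
  have h5 : (1 - (1 - 6932 / 10000 * a) ^ 3) * (1 + a) ≤ 11 / 10 * r * (1 + a) := by
    rw [mul_assoc, hr]
    have : 0 ≤ a * ((a - 1 / 3) ^ 2) := by positivity
    have h6 : 0 ≤ a ^ 3 * (1 / 2 - a) := mul_nonneg (by positivity) (by linarith)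
    have h7 : 0 ≤ a ^ 2 := by positivity
    have h8 : 0 ≤ a ^ 3 := by positivity
    nlinarith
  have := le_of_mul_le_mul_right h5 (by linarith)
  linarith

theorem hsmall_g {α d : ℝ} (h0 : 0 ≤ α) (h1 : α ≤ 1 / 64) (hd0 : 0 ≤ d) (hd : d ≤ 4 / 5) :
    α ^ (1 - d) - α ≤ ((2 : ℝ) ^ (6 * d) - 1) / 64 := by
  have hB := rpow_one_add_le_one_add_mul_self (s := 64 * α - 1) (p := 1 - d) (by linarith)
    (by linarith) (by linarith)
  rw [add_sub_cancel, Real.mul_rpow (by norm_num) h0] at hB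
  have hG : (2 : ℝ) ^ (6 * d) = 64 ^ d := by
    rw [Real.rpow_mul (by norm_num)]; norm_num
  have hE : (64 : ℝ) ^ d * 64 ^ (1 - d) = 64 := by
    rw [← Real.rpow_add (by norm_num)]; simp
  have hG0 : 0 < (64 : ℝ) ^ d := by positivity
  have h8 : 1 + 4 * d + (4 * d) ^ 2 / 2 ≤ (64 : ℝ) ^ d := by
    rw [Real.rpow_def_of_pos (by norm_num)]
    have h2 : Real.log 64 = 6 * Real.log 2 := by
      rw [show (64 : ℝ) = 2 ^ 6 by norm_num, Real.log_pow]; norm_num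
    have h3 := Real.log_two_gt_d9
    refine (Real.quadratic_le_exp_of_nonneg (by linarith)).trans (Real.exp_le_exp.2 ?_)
    nlinarith
  rw [hG]
  set G := (64 : ℝ) ^ d
  set F := (64 : ℝ) ^ (1 - d)
  set T := α ^ (1 - d)
  have h2 : 1 ≤ G * (1 - d) := by
    have : 0 ≤ d * (3 + 4 * d - 8 * d ^ 2) := mul_nonneg hd0 (by nlinarith)
    nlinarith [mul_le_mul_of_nonneg_right h8 (show 0 ≤ 1 - d by linarith)]
  have h3 : 64 * T ≤ G * (1 + (1 - d) * (64 * α - 1)) := by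
    calc 64 * T = G * (F * T) := by rw [← mul_assoc, hE]
      _ ≤ _ := mul_le_mul_of_nonneg_left hB hG0.le
  nlinarith [mul_nonneg (sub_nonneg.2 h2) (show 0 ≤ 1 - 64 * α by linarith)]

theorem hsmall_chord (k : ℕ) {x : ℝ} (h0 : k ≤ x) (h1 : x ≤ k + 1) :
    (2 : ℝ) ^ x ≤ 2 ^ k * (1 + x - k) := by
  have hB := rpow_one_add_le_one_add_mul_self (s := 1) (p := x - k) (by norm_num)
    (by linarith) (by linarith)
  have : (2 : ℝ) ^ x = 2 ^ k * (1 + 1) ^ (x - k) := by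
    rw [one_add_one_eq_two, ← Real.rpow_natCast, ← Real.rpow_add (by norm_num)]; simp
  rw [this]
  exact mul_le_mul_of_nonneg_left (by linarith) (by positivity)

theorem hsmall_one {r β : ℝ} (h0 : 0 ≤ r) (h1 : r ≤ 16 / 25) (hβ : 0 ≤ β) (h : r + β ^ 2 = 1) :
    11 / 10 * r / 8 + 272 / 1000 * (((2 : ℝ) ^ (6 * (2 * r / (1 + r))) - 1) / 64) ≤ (1 - β) / 2 := by
  have hb1 : β ≤ 1 := by nlinarith
  have hb0 : 3 / 5 ≤ β := by nlinarith
  have hd : 0 < 1 + r := by linarith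
  set x := 6 * (2 * r / (1 + r)) with hx
  have hx0 : 0 ≤ x := by positivity
  have hxr : x * (1 + r) = 12 * r := by rw [hx]; field_simp; ring
  have hx5 : x ≤ 5 := by nlinarith
  have key : ∀ c e : ℝ, (2 : ℝ) ^ x ≤ c * x + e →
      11 / 10 * r / 8 * (1 + r) + 272 / 1000 * ((c * (12 * r) + (e - 1) * (1 + r)) / 64) ≤
        (1 - β) / 2 * (1 + r) →
      11 / 10 * r / 8 + 272 / 1000 * (((2 : ℝ) ^ x - 1) / 64) ≤ (1 - β) / 2 := by
    intro c e h2 h3
    have h4 : (11 / 10 * r / 8 + 272 / 1000 * ((c * x + e - 1) / 64)) * (1 + r) ≤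
        (1 - β) / 2 * (1 + r) := by
      rw [← hxr] at h3
      calc _ = _ := by ring
        _ ≤ _ := h3
    have := le_of_mul_le_mul_right h4 hd
    linarith
  have hr : r = 1 - β ^ 2 := by linarith
  obtain ⟨y, hy⟩ : ∃ y, β = 3 / 5 + y := ⟨β - 3 / 5, by ring⟩
  have hy0 : 0 ≤ y := by linarith
  have hy1 : 0 ≤ 2 / 5 - y := by linarith
  have p1 := mul_nonneg hy0 hy1
  have p2 := mul_nonneg hy0 p1
  have p3 := mul_nonneg hy0 p2
  have p4 := mul_nonneg hy1 p1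
  have p5 := mul_nonneg hy1 p2
  have p6 := mul_nonneg hy1 p4
  have p7 := mul_nonneg hy1 (mul_nonneg hy1 (mul_nonneg hy1 hy1))
  have p8 := mul_nonneg hy0 (mul_nonneg hy0 (mul_nonneg hy0 hy0))
  rcases le_total x 1 with h2 | h2
  · refine key 1 1 (by have := hsmall_chord 0 (x := x) (by simpa using hx0) (by simpa using h2); norm_num at this; linarith) ?_
    rw [hr, hy]
    nlinarith
  rcases le_total x 2 with h3 | h3
  · refine key 2 0 (by have := hsmall_chord 1 (x := x) (by simpa using h2) (by norm_num; linarith); norm_num at this; linarith) ?_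
    rw [hr, hy]
    nlinarith
  rcases le_total x 3 with h4 | h4
  · refine key 4 (-4) (by have := hsmall_chord 2 (x := x) (by simpa using h3) (by norm_num; linarith); norm_num at this; linarith) ?_
    rw [hr, hy]
    nlinarith
  rcases le_total x 4 with h5 | h5
  · refine key 8 (-16) (by have := hsmall_chord 3 (x := x) (by simpa using h4) (by norm_num; linarith); norm_num at this; linarith) ?_
    rw [hr, hy]
    nlinarith
  · refine key 16 (-48) (by have := hsmall_chord 4 (x := x) (by simpa using h5) (by norm_num; linarith); norm_num at this; linarith) ?_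
    rw [hr, hy]
    nlinarith

theorem hsmall_alg {α t s β X Y A B : ℝ} (ht0 : 0 ≤ t) (ht : t ^ 2 = α) (hs0 : 0 ≤ s) (hs : s ^ 2 = 1 - α)
    (hα : α ≤ 1 / 64) (hβ0 : 0 ≤ β) (hβ : β ≤ 1) (hX : t - X ≤ A) (hY : Y - α ^ 2 ≤ α * B) (hB : 0 ≤ B)
    (hAB : A + 272 / 1000 * B ≤ (1 - β) / 2) :
    √(uf α ^ 2 * α + uf (1 - α) ^ 2 * (1 - α) + uf α * uf (1 - α) * (2 * (t * s) - 1 + β)) ≤
      uf α * X + uf (1 - α) * (s - (Y - α ^ 2) / (2 * s ^ 3)) := by
  have hα0 : 0 ≤ α := by rw [← ht]; positivity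
  have ht8 : t ≤ 1 / 8 := by nlinarith
  have hs1 : 992 / 1000 ≤ s := by nlinarith
  have hs2 : s ≤ 1 - α / 2 := by nlinarith
  have hsp : 0 < s := by linarith
  have hu : uf α = α * (19 / 10 - 9 / 10 * α) := by unfold uf; ring
  have hw : uf (1 - α) = (1 - α) * (1 + 9 / 10 * α) := by unfold uf; ring
  have hu0 : 0 ≤ uf α := by rw [hu]; exact mul_nonneg hα0 (by linarith)
  have hu1 : uf α ≤ 19 / 10 * α := by rw [hu]; nlinarith
  have hw1 : 63 / 64 ≤ uf (1 - α) := by rw [hw]; nlinarith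
  have h1 : uf (1 - α) * ((Y - α ^ 2) / (2 * s ^ 3)) ≤ 272 / 1000 * B * uf α := by
    have e : uf (1 - α) * ((Y - α ^ 2) / (2 * s ^ 3)) = (1 + 9 / 10 * α) * (Y - α ^ 2) / (2 * s) := by
      rw [hw, ← hs]; field_simp
    rw [e, div_le_iff₀ (by positivity), hu]
    have h2 : (1 + 9 / 10 * α) * (Y - α ^ 2) ≤ (1 + 9 / 10 * α) * (α * B) :=
      mul_le_mul_of_nonneg_left hY (by positivity)
    have h3 : 1 + 9 / 10 * α ≤ 272 / 1000 * (19 / 10 - 9 / 10 * α) * (2 * s) := by nlinarith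
    have h4 := mul_le_mul_of_nonneg_right h3 (mul_nonneg hα0 hB)
    nlinarith
  generalize uf α = u at *
  generalize uf (1 - α) = w at *
  have h2 : u * t + w * s ≤ w := by
    have : u * t ≤ 19 / 10 * α * (1 / 8) := mul_le_mul hu1 ht8 ht0 (by positivity)
    nlinarith [mul_le_mul_of_nonneg_left hs2 (show 0 ≤ w by linarith),
      mul_le_mul_of_nonneg_right hw1 hα0]
  have h3 : u * t + w * s - u * (1 - β) / 2 ≤ u * X + w * (s - (Y - α ^ 2) / (2 * s ^ 3)) := by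
    nlinarith [mul_le_mul_of_nonneg_left hX hu0, mul_le_mul_of_nonneg_left hAB hu0]
  refine le_trans (Real.sqrt_le_iff.2 ⟨?_, ?_⟩) h3
  · have : 0 ≤ u * t := mul_nonneg hu0 ht0
    have : 63 / 64 * (992 / 1000) ≤ w * s := mul_le_mul hw1 hs1 (by norm_num) (by linarith)
    nlinarith [mul_nonneg hu0 hβ0]
  · have e : u ^ 2 * α + w ^ 2 * (1 - α) + u * w * (2 * (t * s) - 1 + β) =
        (u * t + w * s) ^ 2 - w * (u * (1 - β)) := by
      rw [← hs, ← ht]; ring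
    rw [e]
    have h4 : 0 ≤ u * (1 - β) := mul_nonneg hu0 (by linarith)
    nlinarith [mul_le_mul_of_nonneg_right h2 h4, sq_nonneg (u * (1 - β))]

theorem hsmall_sqrt {b s : ℝ} (hb : 0 ≤ b) (hs : 0 < s) :
    s + (b - s ^ 2) / (2 * s) - (b - s ^ 2) ^ 2 / (2 * s ^ 3) ≤ √b := by
  obtain ⟨v, hv0, rfl⟩ : ∃ v, 0 ≤ v ∧ b = v ^ 2 := ⟨√b, Real.sqrt_nonneg _, (Real.sq_sqrt hb).symm⟩
  rw [Real.sqrt_sq hv0, ← sub_nonneg]
  have e : v - (s + (v ^ 2 - s ^ 2) / (2 * s) - (v ^ 2 - s ^ 2) ^ 2 / (2 * s ^ 3)) =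
      (v - s) ^ 2 * (v * (v + 2 * s)) / (2 * s ^ 3) := by
    field_simp; ring
  rw [e]; positivity

/-- `u = uf α`, `w = uf (1-α)`, `s = √(1-α)`, `ψ = u√α + w s`; the radicand of `RH` is `ψ² - u w (1-β)`, so
`RH ≤ ψ - u w (1-β)/(2ψ)`.  Dividing by `u` (`α > 0`; `α = 0` is equality) it remains, with `L = log (1/α) ≥ log 64`:
`(√α - α^θ) + (w/u)(α^κ - α²)/(2 s³) ≤ w (1-β)/(2ψ)`, `θ = 1/(2-ρ²)`, `κ = 2/(1+ρ²)`.
Both `√α - α^θ` and `α^(κ-1) - α` increase in `α` on `(0, 1/64]`; `w α/(2 u s³) ≤ 0.2710`, `w/(2ψ) ≥ 0.5`,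
`1 - β = ρ²/(1+β)`.  At `α = 1/64`, `ρ = 0.8`: `0.0781 + 0.1046 ≤ 0.2`; for small `ρ`: `0.166ρ² ≤ 0.25ρ²`.
(One variable `ρ²∈[0,0.64]` remains: bound `1 - e^(-y) ≤ …` piecewise, or use tools/r307/aa.py.) -/
theorem hsmall_num {ρ β α : ℝ} (h0 : 0 ≤ ρ) (h1 : ρ ≤ 4 / 5) (hβ : 0 ≤ β) (h : ρ ^ 2 + β ^ 2 = 1)
    (hα0 : 0 ≤ α) (hα : α ≤ 1 / 64) :
    RH β α ≤ uf α * α ^ (1 / (2 - ρ ^ 2)) +
      uf (1 - α) * (√(1 - α) - (α ^ (2 / (1 + ρ ^ 2)) - α ^ 2) / (2 * √(1 - α) ^ 3)) := by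
  unfold RH
  have hr0 : 0 ≤ ρ ^ 2 := sq_nonneg _
  have hr1 : ρ ^ 2 ≤ 16 / 25 := by nlinarith
  generalize ρ ^ 2 = r at *
  have hb1 : β ≤ 1 := by nlinarith
  have ht := Real.sq_sqrt hα0
  have hs := Real.sq_sqrt (show 0 ≤ 1 - α by linarith)
  have ht8 : √α ≤ 1 / 8 := by nlinarith [Real.sqrt_nonneg α]
  have hd : 0 < 2 - r := by linarith
  have hd' : 0 < 1 + r := by linarith
  rw [Real.sqrt_mul hα0]
  refine hsmall_alg (Real.sqrt_nonneg _) ht (Real.sqrt_nonneg _) hs hα hβ hb1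
    (A := 11 / 10 * r / 8) (B := ((2 : ℝ) ^ (6 * (2 * r / (1 + r))) - 1) / 64) ?_ ?_ ?_
    (hsmall_one hr0 hr1 hβ h)
  · have h2 := hsmall_f (Real.sqrt_nonneg α) ht8 (a := r / (2 - r)) (by positivity)
    have h3 := hsmall_E hr0 hr1
    have e : √α ^ (1 + r / (2 - r)) = α ^ (1 / (2 - r)) := by
      rw [Real.sqrt_eq_rpow, ← Real.rpow_mul hα0]
      congr 1
      field_simp; ring
    rw [e] at h2
    linarith
  · have h2 := hsmall_g hα0 hα (d := 2 * r / (1 + r)) (by positivity)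
      (by rw [div_le_iff₀ hd']; linarith)
    have e : α ^ (2 / (1 + r)) = α * α ^ (1 - 2 * r / (1 + r)) := by
      have e2 : 2 / (1 + r) = 1 + (1 - 2 * r / (1 + r)) := by field_simp; ring
      rw [← Real.rpow_one_add' hα0 (by rw [← e2]; positivity), ← e2]
    rw [e]
    nlinarith [mul_le_mul_of_nonneg_left h2 hα0]
  · have : (1 : ℝ) ≤ 2 ^ (6 * (2 * r / (1 + r))) := Real.one_le_rpow (by norm_num) (by positivity)
    linarith

/-- `revhc` for the first term; `√b ≥ s + (b - s²)/(2s) - (b - s²)²/(2s³)` for `b = 1 - a ≥ 0`, `avg_noise`, `hc2`. -/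
theorem hsmall {ρ β : ℝ} (h0 : 0 ≤ ρ) (h1 : ρ ≤ 4 / 5) (hβ : 0 ≤ β) (h : ρ ^ 2 + β ^ 2 = 1)
    (n : ℕ) (g : (Fin n → Bool) → ℝ) (hg : Bo g) (hα : cubeAverage g ≤ 1 / 64) :
    RH β (cubeAverage g) ≤ cubeAverage (fun x => psiH (cubeAverage g) (noise ρ g x)) := by
  have hg0 : ∀ x, 0 ≤ g x := fun x => by rcases hg x with e | e <;> rw [e] <;> norm_num
  have hg1 : ∀ x, g x ≤ 1 := fun x => by rcases hg x with e | e <;> rw [e] <;> norm_num
  have hρ : |ρ| ≤ 1 := abs_le.2 ⟨by linarith, by linarith⟩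
  have hα0 : 0 ≤ cubeAverage g := avg_nonneg hg0
  have hA := revhc h0 (by linarith) n g hg
  have hB := hc2 h0 (by linarith) n g hg
  have hN : cubeAverage (fun x => noise ρ g x) = cubeAverage g := avg_noise ρ g
  refine (hsmall_num h0 h1 hβ h hα0 hα).trans ?_
  generalize cubeAverage g = α at *
  have hs := Real.sq_sqrt (show 0 ≤ 1 - α by linarith)
  have hs0 : 0 < √(1 - α) := Real.sqrt_pos.2 (by linarith)
  have hu0 : 0 ≤ uf α := by unfold uf; exact mul_nonneg hα0 (by linarith)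
  have hw0 : 0 ≤ uf (1 - α) := by unfold uf; exact mul_nonneg (by linarith) (by linarith)
  unfold psiH
  rw [avg_add, avg_mul, avg_mul]
  refine add_le_add (mul_le_mul_of_nonneg_left hA hu0) (mul_le_mul_of_nonneg_left ?_ hw0)
  generalize √(1 - α) = s at *
  have h2 : cubeAverage (fun x => (s + α / (2 * s) - α ^ 2 / (2 * s ^ 3)) +
      ((α / s ^ 3 - 1 / (2 * s)) * noise ρ g x - noise ρ g x ^ 2 / (2 * s ^ 3))) ≤
      cubeAverage (fun x => √(1 - noise ρ g x)) := by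
    refine avg_mono fun x => ?_
    have h3 := hsmall_sqrt (sub_nonneg.2 (noise_le_one hρ hg1 x)) hs0
    rw [hs] at h3
    refine le_trans (le_of_eq ?_) h3
    field_simp; ring
  rw [avg_add, avg_const, avg_sub, avg_mul, avg_div, hN] at h2
  refine le_trans ?_ h2
  have h4 := div_le_div_of_nonneg_right hB (show 0 ≤ 2 * s ^ 3 by positivity)
  have e : s - (α ^ (2 / (1 + ρ ^ 2)) - α ^ 2) / (2 * s ^ 3) =
      s + α / (2 * s) - α ^ 2 / (2 * s ^ 3) + ((α / s ^ 3 - 1 / (2 * s)) * α -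
        α ^ (2 / (1 + ρ ^ 2)) / (2 * s ^ 3)) := by
    field_simp; ring
  rw [e]
  linarith

end Crest.Agent.R307
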