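import Crest.Agent.R307.HReg
import Crest.Agent.R307.HX
import Crest.Agent.R307.HY
import Crest.Agent.R307.HK
import Crest.Agent.R307.HG
import Crest.Agent.R307.HS1
import Crest.Agent.R307.HS2

/-! Row 307: the regime `δ ≤ 5/8 α` (generated assembly). -/

set_option autoImplicit false
set_option maxRecDepth 100000

namespace Crest.Agent.R307
open AA

theorem hreg0 : Good QH 4722366518054017302528 4722366533447180091392 4722366482869645213696 4722366496888418467840 4722366482869645213696 4722366482869645213696 4722366482869645213696 4722366482869645213696 :=
  region HX.good0 HY.good0 HG.good0 HK.good0 HX.good1 HY.good1 HG.good1 HK.good1 HX.good2 HY.good2 HG.good2 HK.good2 HX.good3 HY.good3 HG.good3 HK.good3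
    HS1.good0 HS2.good0 HS2.good1 (by decide +kernel)

theorem hreg1 : Good QH 4722366518054017302528 4722366533447180091392 4722366496888418467840 4722366516679627767808 4722366482869645213696 4722366482869645213696 4722366482869645213696 4722366482869645213696 :=
  region HX.good4 HY.good4 HG.good4 HK.good4 HX.good5 HY.good5 HG.good5 HK.good5 HX.good6 HY.good6 HG.good6 HK.good6 HX.good7 HY.good7 HG.good7 HK.good7
    HS1.good1 HS2.good2 HS2.good3 (by decide +kernel)

theorem hreg2 : Good QH 4722366518054017302528 4722366533447180091392 4722366516679627767808 4722366539219616137216 4722366482869645213696 4722366482869645213696 4722366482869645213696 4722366482869645213696 :=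
  region HX.good8 HY.good8 HG.good8 HK.good8 HX.good9 HY.good9 HG.good9 HK.good9 HX.good10 HY.good10 HG.good10 HK.good10 HX.good11 HY.good11 HG.good11 HK.good11
    HS1.good2 HS2.good4 HS2.good5 (by decide +kernel)

theorem hreg3 : Good QH 4722366518054017302528 4722366533447180091392 4722366539219616137216 4722366564508383576064 4722366482869645213696 4722366482869645213696 4722366482869645213696 4722366482869645213696 :=
  region HX.good12 HY.good12 HG.good12 HK.good12 HX.good13 HY.good13 HG.good13 HK.good13 HX.good14 HY.good14 HG.good14 HK.good14 HX.good15 HY.good15 HG.good15 HK.good15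
    HS1.good3 HS2.good6 HS2.good7 (by decide +kernel)

theorem hreg4 : Good QH 4722366518054017302528 4722366533447180091392 4722366564508383576064 4722366592820807991296 4722366482869645213696 4722366482869645213696 4722366482869645213696 4722366482869645213696 :=
  region HX.good16 HY.good16 HG.good16 HK.good16 HX.good17 HY.good17 HG.good17 HK.good17 HX.good18 HY.good18 HG.good18 HK.good18 HX.good19 HY.good19 HG.good19 HK.good19
    HS1.good4 HS2.good8 HS2.good9 (by decide +kernel)

theorem hreg5 : Good QH 4722366533447180091392 4722366553238389391360 4722366482869645213696 4722366496888418467840 4722366482869645213696 4722366482869645213696 4722366482869645213696 4722366482869645213696 :=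
  region HX.good20 HY.good20 HG.good20 HK.good20 HX.good21 HY.good21 HG.good21 HK.good21 HX.good22 HY.good22 HG.good22 HK.good22 HX.good23 HY.good23 HG.good23 HK.good23
    HS1.good5 HS2.good10 HS2.good11 (by decide +kernel)

theorem hreg6 : Good QH 4722366533447180091392 4722366553238389391360 4722366496888418467840 4722366516679627767808 4722366482869645213696 4722366482869645213696 4722366482869645213696 4722366482869645213696 :=
  region HX.good24 HY.good24 HG.good24 HK.good24 HX.good25 HY.good25 HG.good25 HK.good25 HX.good26 HY.good26 HG.good26 HK.good26 HX.good27 HY.good27 HG.good27 HK.good27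
    HS1.good6 HS2.good12 HS2.good13 (by decide +kernel)

theorem hreg7 : Good QH 4722366533447180091392 4722366553238389391360 4722366516679627767808 4722366539219616137216 4722366482869645213696 4722366482869645213696 4722366482869645213696 4722366482869645213696 :=
  region HX.good28 HY.good28 HG.good28 HK.good28 HX.good29 HY.good29 HG.good29 HK.good29 HX.good30 HY.good30 HG.good30 HK.good30 HX.good31 HY.good31 HG.good31 HK.good31
    HS1.good7 HS2.good14 HS2.good15 (by decide +kernel)

theorem hreg8 : Good QH 4722366533447180091392 4722366553238389391360 4722366539219616137216 4722366564508383576064 4722366482869645213696 4722366482869645213696 4722366482869645213696 4722366482869645213696 :=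
  region HX.good32 HY.good32 HG.good32 HK.good32 HX.good33 HY.good33 HG.good33 HK.good33 HX.good34 HY.good34 HG.good34 HK.good34 HX.good35 HY.good35 HG.good35 HK.good35
    HS1.good8 HS2.good16 HS2.good17 (by decide +kernel)

theorem hreg9 : Good QH 4722366533447180091392 4722366553238389391360 4722366564508383576064 4722366592820807991296 4722366482869645213696 4722366482869645213696 4722366482869645213696 4722366482869645213696 :=
  region HX.good36 HY.good36 HG.good36 HK.good36 HX.good37 HY.good37 HG.good37 HK.good37 HX.good38 HY.good38 HG.good38 HK.good38 HX.good39 HY.good39 HG.good39 HK.good39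
    HS1.good9 HS2.good18 HS2.good19 (by decide +kernel)

theorem hreg10 : Good QH 4722366553238389391360 4722366575778377760768 4722366482869645213696 4722366496888418467840 4722366482869645213696 4722366482869645213696 4722366482869645213696 4722366482869645213696 :=
  region HX.good40 HY.good40 HG.good40 HK.good40 HX.good41 HY.good41 HG.good41 HK.good41 HX.good42 HY.good42 HG.good42 HK.good42 HX.good43 HY.good43 HG.good43 HK.good43
    HS1.good10 HS2.good20 HS2.good21 (by decide +kernel)

theorem hreg11 : Good QH 4722366553238389391360 4722366575778377760768 4722366496888418467840 4722366516679627767808 4722366482869645213696 4722366482869645213696 4722366482869645213696 4722366482869645213696 :=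
  region HX.good44 HY.good44 HG.good44 HK.good44 HX.good45 HY.good45 HG.good45 HK.good45 HX.good46 HY.good46 HG.good46 HK.good46 HX.good47 HY.good47 HG.good47 HK.good47
    HS1.good11 HS2.good22 HS2.good23 (by decide +kernel)

theorem hreg12 : Good QH 4722366553238389391360 4722366575778377760768 4722366516679627767808 4722366539219616137216 4722366482869645213696 4722366482869645213696 4722366482869645213696 4722366482869645213696 :=
  region HX.good48 HY.good48 HG.good48 HK.good48 HX.good49 HY.good49 HG.good49 HK.good49 HX.good50 HY.good50 HG.good50 HK.good50 HX.good51 HY.good51 HG.good51 HK.good51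
    HS1.good12 HS2.good24 HS2.good25 (by decide +kernel)

theorem hreg13 : Good QH 4722366553238389391360 4722366575778377760768 4722366539219616137216 4722366564508383576064 4722366482869645213696 4722366482869645213696 4722366482869645213696 4722366482869645213696 :=
  region HX.good52 HY.good52 HG.good52 HK.good52 HX.good53 HY.good53 HG.good53 HK.good53 HX.good54 HY.good54 HG.good54 HK.good54 HX.good55 HY.good55 HG.good55 HK.good55
    HS1.good13 HS2.good26 HS2.good27 (by decide +kernel)

theorem hreg14 : Good QH 4722366553238389391360 4722366575778377760768 4722366564508383576064 4722366592820807991296 4722366482869645213696 4722366482869645213696 4722366482869645213696 4722366482869645213696 :=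
  region HX.good56 HY.good56 HG.good56 HK.good56 HX.good57 HY.good57 HG.good57 HK.good57 HX.good58 HY.good58 HG.good58 HK.good58 HX.good59 HY.good59 HG.good59 HK.good59
    HS1.good14 HS2.good28 HS2.good29 (by decide +kernel)

theorem hreg15 : Good QH 4722366575778377760768 4722366601067145199616 4722366482869645213696 4722366496888418467840 4722366482869645213696 4722366482869645213696 4722366482869645213696 4722366482869645213696 :=
  region HX.good60 HY.good60 HG.good60 HK.good60 HX.good61 HY.good61 HG.good61 HK.good61 HX.good62 HY.good62 HG.good62 HK.good62 HX.good63 HY.good63 HG.good63 HK.good63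
    HS1.good15 HS2.good30 HS2.good31 (by decide +kernel)

theorem hreg16 : Good QH 4722366575778377760768 4722366601067145199616 4722366496888418467840 4722366516679627767808 4722366482869645213696 4722366482869645213696 4722366482869645213696 4722366482869645213696 :=
  region HX.good64 HY.good64 HG.good64 HK.good64 HX.good65 HY.good65 HG.good65 HK.good65 HX.good66 HY.good66 HG.good66 HK.good66 HX.good67 HY.good67 HG.good67 HK.good67
    HS1.good16 HS2.good32 HS2.good33 (by decide +kernel)

theorem hreg17 : Good QH 4722366575778377760768 4722366601067145199616 4722366516679627767808 4722366539219616137216 4722366482869645213696 4722366482869645213696 4722366482869645213696 4722366482869645213696 :=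
  region HX.good68 HY.good68 HG.good68 HK.good68 HX.good69 HY.good69 HG.good69 HK.good69 HX.good70 HY.good70 HG.good70 HK.good70 HX.good71 HY.good71 HG.good71 HK.good71
    HS1.good17 HS2.good34 HS2.good35 (by decide +kernel)

theorem hreg18 : Good QH 4722366575778377760768 4722366601067145199616 4722366539219616137216 4722366564508383576064 4722366482869645213696 4722366482869645213696 4722366482869645213696 4722366482869645213696 :=
  region HX.good72 HY.good72 HG.good72 HK.good72 HX.good73 HY.good73 HG.good73 HK.good73 HX.good74 HY.good74 HG.good74 HK.good74 HX.good75 HY.good75 HG.good75 HK.good75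
    HS1.good18 HS2.good36 HS2.good37 (by decide +kernel)

theorem hreg19 : Good QH 4722366575778377760768 4722366601067145199616 4722366564508383576064 4722366592820807991296 4722366482869645213696 4722366482869645213696 4722366482869645213696 4722366482869645213696 :=
  region HX.good76 HY.good76 HG.good76 HK.good76 HX.good77 HY.good77 HG.good77 HK.good77 HX.good78 HY.good78 HG.good78 HK.good78 HX.good79 HY.good79 HG.good79 HK.good79
    HS1.good19 HS2.good38 HS2.good39 (by decide +kernel)

theorem hreg20 : Good QH 4722366601067145199616 4722366626355912638464 4722366482869645213696 4722366496888418467840 4722366482869645213696 4722366482869645213696 4722366482869645213696 4722366482869645213696 :=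
  region HX.good80 HY.good80 HG.good80 HK.good80 HX.good81 HY.good81 HG.good81 HK.good81 HX.good82 HY.good82 HG.good82 HK.good82 HX.good83 HY.good83 HG.good83 HK.good83
    HS1.good20 HS2.good40 HS2.good41 (by decide +kernel)

theorem hreg21 : Good QH 4722366601067145199616 4722366626355912638464 4722366496888418467840 4722366516679627767808 4722366482869645213696 4722366482869645213696 4722366482869645213696 4722366482869645213696 :=
  region HX.good84 HY.good84 HG.good84 HK.good84 HX.good85 HY.good85 HG.good85 HK.good85 HX.good86 HY.good86 HG.good86 HK.good86 HX.good87 HY.good87 HG.good87 HK.good87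
    HS1.good21 HS2.good42 HS2.good43 (by decide +kernel)

theorem hreg22 : Good QH 4722366601067145199616 4722366626355912638464 4722366516679627767808 4722366539219616137216 4722366482869645213696 4722366482869645213696 4722366482869645213696 4722366482869645213696 :=
  region HX.good88 HY.good88 HG.good88 HK.good88 HX.good89 HY.good89 HG.good89 HK.good89 HX.good90 HY.good90 HG.good90 HK.good90 HX.good91 HY.good91 HG.good91 HK.good91
    HS1.good22 HS2.good44 HS2.good45 (by decide +kernel)

theorem hreg23 : Good QH 4722366601067145199616 4722366626355912638464 4722366539219616137216 4722366564508383576064 4722366482869645213696 4722366482869645213696 4722366482869645213696 4722366482869645213696 :=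
  region HX.good92 HY.good92 HG.good92 HK.good92 HX.good93 HY.good93 HG.good93 HK.good93 HX.good94 HY.good94 HG.good94 HK.good94 HX.good95 HY.good95 HG.good95 HK.good95
    HS1.good23 HS2.good46 HS2.good47 (by decide +kernel)

theorem hreg24 : Good QH 4722366601067145199616 4722366626355912638464 4722366564508383576064 4722366592820807991296 4722366482869645213696 4722366482869645213696 4722366482869645213696 4722366482869645213696 :=
  region HX.good96 HY.good96 HG.good96 HK.good96 HX.good97 HY.good97 HG.good97 HK.good97 HX.good98 HY.good98 HG.good98 HK.good98 HX.good99 HY.good99 HG.good99 HK.good99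
    HS1.good24 HS2.good48 HS2.good49 (by decide +kernel)

theorem hreg25 : Good QH 4722366626355912638464 4722366651644680077312 4722366482869645213696 4722366496888418467840 4722366482869645213696 4722366482869645213696 4722366482869645213696 4722366482869645213696 :=
  region HX.good100 HY.good100 HG.good100 HK.good100 HX.good101 HY.good101 HG.good101 HK.good101 HX.good102 HY.good102 HG.good102 HK.good102 HX.good103 HY.good103 HG.good103 HK.good103
    HS1.good25 HS2.good50 HS2.good51 (by decide +kernel)

theorem hreg26 : Good QH 4722366626355912638464 4722366651644680077312 4722366496888418467840 4722366516679627767808 4722366482869645213696 4722366482869645213696 4722366482869645213696 4722366482869645213696 :=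
  region HX.good104 HY.good104 HG.good104 HK.good104 HX.good105 HY.good105 HG.good105 HK.good105 HX.good106 HY.good106 HG.good106 HK.good106 HX.good107 HY.good107 HG.good107 HK.good107
    HS1.good26 HS2.good52 HS2.good53 (by decide +kernel)

theorem hreg27 : Good QH 4722366626355912638464 4722366651644680077312 4722366516679627767808 4722366539219616137216 4722366482869645213696 4722366482869645213696 4722366482869645213696 4722366482869645213696 :=
  region HX.good108 HY.good108 HG.good108 HK.good108 HX.good109 HY.good109 HG.good109 HK.good109 HX.good110 HY.good110 HG.good110 HK.good110 HX.good111 HY.good111 HG.good111 HK.good111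
    HS1.good27 HS2.good54 HS2.good55 (by decide +kernel)

theorem hreg28 : Good QH 4722366626355912638464 4722366651644680077312 4722366539219616137216 4722366564508383576064 4722366482869645213696 4722366482869645213696 4722366482869645213696 4722366482869645213696 :=
  region HX.good112 HY.good112 HG.good112 HK.good112 HX.good113 HY.good113 HG.good113 HK.good113 HX.good114 HY.good114 HG.good114 HK.good114 HX.good115 HY.good115 HG.good115 HK.good115
    HS1.good28 HS2.good56 HS2.good57 (by decide +kernel)

theorem hreg29 : Good QH 4722366626355912638464 4722366651644680077312 4722366564508383576064 4722366592820807991296 4722366482869645213696 4722366482869645213696 4722366482869645213696 4722366482869645213696 :=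
  region HX.good116 HY.good116 HG.good116 HK.good116 HX.good117 HY.good117 HG.good117 HK.good117 HX.good118 HY.good118 HG.good118 HK.good118 HX.good119 HY.good119 HG.good119 HK.good119
    HS1.good29 HS2.good58 HS2.good59 (by decide +kernel)

theorem hreg30 : Good QH 4722366651644680077312 4722366668687110307840 4722366482869645213696 4722366496888418467840 4722366482869645213696 4722366482869645213696 4722366482869645213696 4722366482869645213696 :=
  region HX.good120 HY.good120 HG.good120 HK.good120 HX.good121 HY.good121 HG.good121 HK.good121 HX.good122 HY.good122 HG.good122 HK.good122 HX.good123 HY.good123 HG.good123 HK.good123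
    HS1.good30 HS2.good60 HS2.good61 (by decide +kernel)

theorem hreg31 : Good QH 4722366651644680077312 4722366668687110307840 4722366496888418467840 4722366516679627767808 4722366482869645213696 4722366482869645213696 4722366482869645213696 4722366482869645213696 :=
  region HX.good124 HY.good124 HG.good124 HK.good124 HX.good125 HY.good125 HG.good125 HK.good125 HX.good126 HY.good126 HG.good126 HK.good126 HX.good127 HY.good127 HG.good127 HK.good127
    HS1.good31 HS2.good62 HS2.good63 (by decide +kernel)

theorem hreg32 : Good QH 4722366651644680077312 4722366668687110307840 4722366516679627767808 4722366539219616137216 4722366482869645213696 4722366482869645213696 4722366482869645213696 4722366482869645213696 :=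
  region HX.good128 HY.good128 HG.good128 HK.good128 HX.good129 HY.good129 HG.good129 HK.good129 HX.good130 HY.good130 HG.good130 HK.good130 HX.good131 HY.good131 HG.good131 HK.good131
    HS1.good32 HS2.good64 HS2.good65 (by decide +kernel)

theorem hreg33 : Good QH 4722366651644680077312 4722366668687110307840 4722366539219616137216 4722366564508383576064 4722366482869645213696 4722366482869645213696 4722366482869645213696 4722366482869645213696 :=
  region HX.good132 HY.good132 HG.good132 HK.good132 HX.good133 HY.good133 HG.good133 HK.good133 HX.good134 HY.good134 HG.good134 HK.good134 HX.good135 HY.good135 HG.good135 HK.good135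
    HS1.good33 HS2.good66 HS2.good67 (by decide +kernel)

theorem hreg34 : Good QH 4722366651644680077312 4722366668687110307840 4722366564508383576064 4722366592820807991296 4722366482869645213696 4722366482869645213696 4722366482869645213696 4722366482869645213696 :=
  region HX.good136 HY.good136 HG.good136 HK.good136 HX.good137 HY.good137 HG.good137 HK.good137 HX.good138 HY.good138 HG.good138 HK.good138 HX.good139 HY.good139 HG.good139 HK.good139
    HS1.good34 HS2.good68 HS2.good69 (by decide +kernel)

theorem hreg35 : Good QH 4722366668687110307840 4722366681915609579520 4722366482869645213696 4722366496888418467840 4722366482869645213696 4722366482869645213696 4722366482869645213696 4722366482869645213696 :=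
  region HX.good140 HY.good140 HG.good140 HK.good140 HX.good141 HY.good141 HG.good141 HK.good141 HX.good142 HY.good142 HG.good142 HK.good142 HX.good143 HY.good143 HG.good143 HK.good143
    HS1.good35 HS2.good70 HS2.good71 (by decide +kernel)

theorem hreg36 : Good QH 4722366668687110307840 4722366681915609579520 4722366496888418467840 4722366516679627767808 4722366482869645213696 4722366482869645213696 4722366482869645213696 4722366482869645213696 :=
  region HX.good144 HY.good144 HG.good144 HK.good144 HX.good145 HY.good145 HG.good145 HK.good145 HX.good146 HY.good146 HG.good146 HK.good146 HX.good147 HY.good147 HG.good147 HK.good147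
    HS1.good36 HS2.good72 HS2.good73 (by decide +kernel)

theorem hreg37 : Good QH 4722366668687110307840 4722366681915609579520 4722366516679627767808 4722366539219616137216 4722366482869645213696 4722366482869645213696 4722366482869645213696 4722366482869645213696 :=
  region HX.good148 HY.good148 HG.good148 HK.good148 HX.good149 HY.good149 HG.good149 HK.good149 HX.good150 HY.good150 HG.good150 HK.good150 HX.good151 HY.good151 HG.good151 HK.good151
    HS1.good37 HS2.good74 HS2.good75 (by decide +kernel)

theorem hreg38 : Good QH 4722366668687110307840 4722366681915609579520 4722366539219616137216 4722366564508383576064 4722366482869645213696 4722366482869645213696 4722366482869645213696 4722366482869645213696 :=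
  region HX.good152 HY.good152 HG.good152 HK.good152 HX.good153 HY.good153 HG.good153 HK.good153 HX.good154 HY.good154 HG.good154 HK.good154 HX.good155 HY.good155 HG.good155 HK.good155
    HS1.good38 HS2.good76 HS2.good77 (by decide +kernel)

theorem hreg39 : Good QH 4722366668687110307840 4722366681915609579520 4722366564508383576064 4722366592820807991296 4722366482869645213696 4722366482869645213696 4722366482869645213696 4722366482869645213696 :=
  region HX.good156 HY.good156 HG.good156 HK.good156 HX.good157 HY.good157 HG.good157 HK.good157 HX.good158 HY.good158 HG.good158 HK.good158 HX.good159 HY.good159 HG.good159 HK.good159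
    HS1.good39 HS2.good78 HS2.good79 (by decide +kernel)

theorem hregAll : Good QH 4722366518054017302528 4722366681915609579520 4722366482869645213696 4722366592820807991296 4722366482869645213696 4722366482869645213696 4722366482869645213696 4722366482869645213696 :=
  (Good.s0 (Good.s1 hreg0 (Good.s1 hreg1 (Good.s1 hreg2 (Good.s1 hreg3 hreg4)))) (Good.s0 (Good.s1 hreg5 (Good.s1 hreg6 (Good.s1 hreg7 (Good.s1 hreg8 hreg9)))) (Good.s0 (Good.s1 hreg10 (Good.s1 hreg11 (Good.s1 hreg12 (Good.s1 hreg13 hreg14)))) (Good.s0 (Good.s1 hreg15 (Good.s1 hreg16 (Good.s1 hreg17 (Good.s1 hreg18 hreg19)))) (Good.s0 (Good.s1 hreg20 (Good.s1 hreg21 (Good.s1 hreg22 (Good.s1 hreg23 hreg24)))) (Good.s0 (Good.s1 hreg25 (Good.s1 hreg26 (Good.s1 hreg27 (Good.s1 hreg28 hreg29)))) (Good.s0 (Good.s1 hreg30 (Good.s1 hreg31 (Good.s1 hreg32 (Good.s1 hreg33 hreg34)))) (Good.s1 hreg35 (Good.s1 hreg36 (Good.s1 hreg37 (Good.s1 hreg38 hreg39)))))))))))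

theorem hstepS {ρ β α δ : ℝ} (h0 : 0 ≤ ρ) (h1 : ρ ≤ 4 / 5) (hβ : 0 ≤ β) (h : ρ ^ 2 + β ^ 2 = 1)
    (hα0 : 1 / 64 ≤ α) (hα : α ≤ 1 / 2) (hδ0 : 0 ≤ δ) (hδ : δ ≤ 5 / 8 * α) (hδ4 : δ ≤ 1 / 4) : HS ρ β α δ := by
  have hα1 : 0 < α := by linarith
  have hs : √α ^ 2 = α := Real.sq_sqrt hα1.le
  have hs0 := Real.sqrt_nonneg α
  have s0 : 1 / 8 ≤ √α := by nlinarith
  have s1 : √α ≤ 5793 / 8192 := by nlinarith
  have w0 : 0 ≤ δ / α := div_nonneg hδ0 hα1.le
  have w1 : δ / α ≤ 5 / 8 := by rw [div_le_iff₀ hα1]; exact hδ
  have e : √α ^ 2 * (δ / α) = δ := by rw [hs]; field_simp
  have hz : (val 4722366482869645213696 ≤ (0 : ℝ) ∧ (0 : ℝ) ≤ val 4722366482869645213696) := by rw [val_O]; exact ⟨le_rfl, le_rfl⟩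
  obtain ⟨_, _, H⟩ := hregAll (√α) ((δ / α) ^ 2) 0 0 ⟨⟨le_trans (by norm_num [val]) s0, le_trans s1 (by norm_num [val])⟩,
    ⟨by rw [val_O]; positivity, le_trans (pow_le_pow_left₀ w0 w1 2) (by norm_num [val])⟩, hz, hz⟩
  have := H ρ β (δ / α) h0 h1 hβ h s0 (by rw [hs]; exact hα) w0 (by linarith) rfl (by rw [e]; exact hδ4)
  rwa [e, hs] at this

end Crest.Agent.R307
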