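import Crest.Agent.R307.AA

set_option autoImplicit false
set_option maxRecDepth 100000
set_option linter.unusedVariables false

namespace Crest.Agent.R307.HX
open Crest.Agent.R307.AA

noncomputable section

theorem k0 : |2 ^ 48 * (-1 / 1024 : ℝ) - (((4722366482594767306752 : ℕ) : ℝ) - 2 ^ 72)| ≤ ((0 : ℕ) : ℝ) := by norm_num [abs_le]
theorem k1 : |2 ^ 48 * (9 / 10 : ℝ) - (((4722366736197124253286 : ℕ) : ℝ) - 2 ^ 72)| ≤ ((1 : ℕ) : ℝ) := by norm_num [abs_le]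
theorem k2 : |2 ^ 48 * (1 / 10 : ℝ) - (((4722366511017142884761 : ℕ) : ℝ) - 2 ^ 72)| ≤ ((1 : ℕ) : ℝ) := by norm_num [abs_le]
theorem k3 : |2 ^ 48 * (1 : ℝ) - (((4722366764344621924352 : ℕ) : ℝ) - 2 ^ 72)| ≤ ((0 : ℕ) : ℝ) := by norm_num [abs_le]
theorem k4 : |2 ^ 48 * (19 / 10 : ℝ) - (((4722367017672100963942 : ℕ) : ℝ) - 2 ^ 72)| ≤ ((1 : ℕ) : ℝ) := by norm_num [abs_le]
theorem k5 : (1 / 2 : ℝ) = val 4722366623607133569024 := by norm_num [val]
theorem k6 : (4 : ℝ) = val 4722367608769552056320 := by norm_num [val]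
theorem k7 : |2 ^ 48 * (4 : ℝ) - (((4722367608769552056320 : ℕ) : ℝ) - 2 ^ 72)| ≤ ((0 : ℕ) : ℝ) := by norm_num [abs_le]
theorem k8 : |2 ^ 48 * (1 / 2 : ℝ) - (((4722366623607133569024 : ℕ) : ℝ) - 2 ^ 72)| ≤ ((0 : ℕ) : ℝ) := by norm_num [abs_le]
theorem k9 : (-1 / 2 : ℝ) = val 4722366342132156858368 := by norm_num [val]
theorem k10 : (2 : ℝ) = val 4722367045819598635008 := by norm_num [val]
theorem k11 : |2 ^ 48 * (2 : ℝ) - (((4722367045819598635008 : ℕ) : ℝ) - 2 ^ 72)| ≤ ((0 : ℕ) : ℝ) := by norm_num [abs_le]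
theorem k12 : |2 ^ 48 * (0 : ℝ) - (((4722366482869645213696 : ℕ) : ℝ) - 2 ^ 72)| ≤ ((0 : ℕ) : ℝ) := by norm_num [abs_le]
theorem k13 : |2 ^ 48 * (-9 / 10 : ℝ) - (((4722366229542166174105 : ℕ) : ℝ) - 2 ^ 72)| ≤ ((1 : ℕ) : ℝ) := by norm_num [abs_le]
theorem k14 : |2 ^ 48 * (9 / 5 : ℝ) - (((4722366989524603292876 : ℕ) : ℝ) - 2 ^ 72)| ≤ ((1 : ℕ) : ℝ) := by norm_num [abs_le]
def a_B14 (gs ps : ℕ) (z43 z88 z97 z481 z314 z259 z262 z275 z324 z327 z340 z290 z293 z355 z358 z376 z469 z470 z455 z456 z457 : AF) : Bool :=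
  invK z259 fun z303 =>
  mulK z262 z303 fun z304 =>
  mulK z290 z304 fun z307 =>
  mulK z97 z293 fun z308 =>
  mulK z275 z303 fun z305 =>
  smulK z305 4722366623607133569024 fun z306 =>
  mulK z308 z306 fun z309 =>
  subK z307 z309 fun z310 =>
  mulK z88 z310 fun z427 =>
  invK z324 fun z362 =>
  mulK z327 z362 fun z363 =>
  mulK z355 z363 fun z366 =>
  mulK z314 z358 fun z367 =>
  mulK z340 z362 fun z364 =>
  smulK z364 4722366623607133569024 fun z365 =>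
  mulK z367 z365 fun z368 =>
  subK z366 z368 fun z369 =>
  mulK z43 z369 fun z428 =>
  subK z427 z428 fun z429 =>
  mulK z293 z304 fun z311 =>
  mulK z290 z306 fun z312 =>
  subK z311 z312 fun z313 =>
  mulK z376 z313 fun z430 =>
  addK z429 z430 fun z431 =>
  normK z431 fun z497 =>
  mulK z481 z497 fun z458 =>
  addK z457 z458 fun z459 =>
  mulK z456 z459 fun z460 =>
  addK z455 z460 fun z461 =>
  normK z461 fun z501 =>
  sqrK z501 fun z471 =>
  mulK z470 z471 fun z472 =>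
  subK z469 z472 fun z473 =>
  posK z473 <|
  true

def a_R14 (gs ps : ℕ) (z43 z88 z97 z481 z314 z259 z262 z275 z324 z327 z340 z290 z293 z355 z358 z376 z469 z470 z455 z456 z457 : ℝ) : Prop :=
  invR z259 fun z303 =>
  letR (z262 * z303) fun z304 =>
  letR (z290 * z304) fun z307 =>
  letR (z97 * z293) fun z308 =>
  letR (z275 * z303) fun z305 =>
  letR ((1 / 2 : ℝ) * z305) fun z306 =>
  letR (z308 * z306) fun z309 =>
  letR (z307 - z309) fun z310 =>
  letR (z88 * z310) fun z427 =>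
  invR z324 fun z362 =>
  letR (z327 * z362) fun z363 =>
  letR (z355 * z363) fun z366 =>
  letR (z314 * z358) fun z367 =>
  letR (z340 * z362) fun z364 =>
  letR ((1 / 2 : ℝ) * z364) fun z365 =>
  letR (z367 * z365) fun z368 =>
  letR (z366 - z368) fun z369 =>
  letR (z43 * z369) fun z428 =>
  letR (z427 - z428) fun z429 =>
  letR (z293 * z304) fun z311 =>
  letR (z290 * z306) fun z312 =>
  letR (z311 - z312) fun z313 =>
  letR (z376 * z313) fun z430 =>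
  letR (z429 + z430) fun z431 =>
  letR z431 fun z497 =>
  letR (z481 * z497) fun z458 =>
  letR (z457 + z458) fun z459 =>
  letR (z456 * z459) fun z460 =>
  letR (z455 + z460) fun z461 =>
  letR z461 fun z501 =>
  letR (z501 ^ 2) fun z471 =>
  letR (z470 * z471) fun z472 =>
  letR (z469 - z472) fun z473 =>
  posR z473 <|
  True

theorem a_S14 {ε : Fin 4 → ℝ} (gs : ℕ) (hε : ∀ i, |ε i| ≤ 1) (ps : ℕ) (z43 z88 z97 z481 z314 z259 z262 z275 z324 z327 z340 z290 z293 z355 z358 z376 z469 z470 z455 z456 z457 : AF) (t43 t88 t97 t481 t314 t259 t262 t275 t324 t327 t340 t290 t293 t355 t358 t376 t469 t470 t455 t456 t457 : ℝ)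
    (g43 : Rel ε z43 t43) (g88 : Rel ε z88 t88) (g97 : Rel ε z97 t97) (g481 : Rel ε z481 t481) (g314 : Rel ε z314 t314) (g259 : Rel ε z259 t259) (g262 : Rel ε z262 t262) (g275 : Rel ε z275 t275) (g324 : Rel ε z324 t324) (g327 : Rel ε z327 t327) (g340 : Rel ε z340 t340) (g290 : Rel ε z290 t290) (g293 : Rel ε z293 t293) (g355 : Rel ε z355 t355) (g358 : Rel ε z358 t358) (g376 : Rel ε z376 t376) (g469 : Rel ε z469 t469) (g470 : Rel ε z470 t470) (g455 : Rel ε z455 t455) (g456 : Rel ε z456 t456) (g457 : Rel ε z457 t457) :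
    a_B14 gs ps z43 z88 z97 z481 z314 z259 z262 z275 z324 z327 z340 z290 z293 z355 z358 z376 z469 z470 z455 z456 z457 = true → a_R14 gs ps t43 t88 t97 t481 t314 t259 t262 t275 t324 t327 t340 t290 t293 t355 t358 t376 t469 t470 t455 t456 t457 := by
  delta a_B14 a_R14
  exact invS hε g259 fun z303 t303 g303 =>
  mulS hε g262 g303 fun z304 t304 g304 =>
  mulS hε g290 g304 fun z307 t307 g307 =>
  mulS hε g97 g293 fun z308 t308 g308 =>
  mulS hε g275 g303 fun z305 t305 g305 =>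
  smulS hε g305 k5 fun z306 t306 g306 =>
  mulS hε g308 g306 fun z309 t309 g309 =>
  subS g307 g309 fun z310 t310 g310 =>
  mulS hε g88 g310 fun z427 t427 g427 =>
  invS hε g324 fun z362 t362 g362 =>
  mulS hε g327 g362 fun z363 t363 g363 =>
  mulS hε g355 g363 fun z366 t366 g366 =>
  mulS hε g314 g358 fun z367 t367 g367 =>
  mulS hε g340 g362 fun z364 t364 g364 =>
  smulS hε g364 k5 fun z365 t365 g365 =>
  mulS hε g367 g365 fun z368 t368 g368 =>
  subS g366 g368 fun z369 t369 g369 =>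
  mulS hε g43 g369 fun z428 t428 g428 =>
  subS g427 g428 fun z429 t429 g429 =>
  mulS hε g293 g304 fun z311 t311 g311 =>
  mulS hε g290 g306 fun z312 t312 g312 =>
  subS g311 g312 fun z313 t313 g313 =>
  mulS hε g376 g313 fun z430 t430 g430 =>
  addS g429 g430 fun z431 t431 g431 =>
  normS g431 fun z497 t497 g497 =>
  mulS hε g481 g497 fun z458 t458 g458 =>
  addS g457 g458 fun z459 t459 g459 =>
  mulS hε g456 g459 fun z460 t460 g460 =>
  addS g455 g460 fun z461 t461 g461 =>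
  normS g461 fun z501 t501 g501 =>
  sqrS hε g501 fun z471 t471 g471 =>
  mulS hε g470 g471 fun z472 t472 g472 =>
  subS g469 g472 fun z473 t473 g473 =>
  posS hε g473 <|
  fun _ => trivial

def a_B13 (gs ps : ℕ) (z108 z499 z77 z476 z105 z145 z43 z193 z210 z488 z483 z138 z141 z154 z203 z206 z219 z169 z172 z234 z237 z374 z432 z119 z95 z88 z97 z481 z266 z314 z331 z372 z265 z259 z262 z275 z324 z327 z340 z290 z293 z355 z358 z376 z469 : AF) : Bool :=
  smulK z108 4722367045819598635008 fun z470 =>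
  mulK z77 z145 fun z411 =>
  mulK z43 z210 fun z412 =>
  subK z411 z412 fun z413 =>
  mulK z488 z483 fun z414 =>
  addK z413 z414 fun z415 =>
  invK z138 fun z182 =>
  mulK z141 z182 fun z183 =>
  mulK z169 z183 fun z186 =>
  mulK z476 z172 fun z187 =>
  mulK z154 z182 fun z184 =>
  smulK z184 4722366623607133569024 fun z185 =>
  mulK z187 z185 fun z188 =>
  subK z186 z188 fun z189 =>
  mulK z77 z189 fun z416 =>
  invK z203 fun z241 =>
  mulK z206 z241 fun z242 =>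
  mulK z234 z242 fun z245 =>
  mulK z193 z237 fun z246 =>
  mulK z219 z241 fun z243 =>
  smulK z243 4722366623607133569024 fun z244 =>
  mulK z246 z244 fun z247 =>
  subK z245 z247 fun z248 =>
  mulK z43 z248 fun z417 =>
  subK z416 z417 fun z418 =>
  mulK z172 z183 fun z190 =>
  mulK z169 z185 fun z191 =>
  subK z190 z191 fun z192 =>
  mulK z374 z192 fun z419 =>
  addK z418 z419 fun z420 =>
  normK z420 fun z496 =>
  mulK z105 z496 fun z454 =>
  addK z415 z454 fun z455 =>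
  mulK z432 z499 fun z456 =>
  mulK z88 z266 fun z421 =>
  mulK z43 z331 fun z422 =>
  subK z421 z422 fun z423 =>
  mulK z95 z423 fun z424 =>
  mulK z372 z265 fun z425 =>
  addK z424 z425 fun z426 =>
  mulK z119 z426 fun z457 =>
  a_B14 gs ps z43 z88 z97 z481 z314 z259 z262 z275 z324 z327 z340 z290 z293 z355 z358 z376 z469 z470 z455 z456 z457

def a_R13 (gs ps : ℕ) (z108 z499 z77 z476 z105 z145 z43 z193 z210 z488 z483 z138 z141 z154 z203 z206 z219 z169 z172 z234 z237 z374 z432 z119 z95 z88 z97 z481 z266 z314 z331 z372 z265 z259 z262 z275 z324 z327 z340 z290 z293 z355 z358 z376 z469 : ℝ) : Prop :=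
  letR ((2 : ℝ) * z108) fun z470 =>
  letR (z77 * z145) fun z411 =>
  letR (z43 * z210) fun z412 =>
  letR (z411 - z412) fun z413 =>
  letR (z488 * z483) fun z414 =>
  letR (z413 + z414) fun z415 =>
  invR z138 fun z182 =>
  letR (z141 * z182) fun z183 =>
  letR (z169 * z183) fun z186 =>
  letR (z476 * z172) fun z187 =>
  letR (z154 * z182) fun z184 =>
  letR ((1 / 2 : ℝ) * z184) fun z185 =>
  letR (z187 * z185) fun z188 =>
  letR (z186 - z188) fun z189 =>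
  letR (z77 * z189) fun z416 =>
  invR z203 fun z241 =>
  letR (z206 * z241) fun z242 =>
  letR (z234 * z242) fun z245 =>
  letR (z193 * z237) fun z246 =>
  letR (z219 * z241) fun z243 =>
  letR ((1 / 2 : ℝ) * z243) fun z244 =>
  letR (z246 * z244) fun z247 =>
  letR (z245 - z247) fun z248 =>
  letR (z43 * z248) fun z417 =>
  letR (z416 - z417) fun z418 =>
  letR (z172 * z183) fun z190 =>
  letR (z169 * z185) fun z191 =>
  letR (z190 - z191) fun z192 =>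
  letR (z374 * z192) fun z419 =>
  letR (z418 + z419) fun z420 =>
  letR z420 fun z496 =>
  letR (z105 * z496) fun z454 =>
  letR (z415 + z454) fun z455 =>
  letR (z432 * z499) fun z456 =>
  letR (z88 * z266) fun z421 =>
  letR (z43 * z331) fun z422 =>
  letR (z421 - z422) fun z423 =>
  letR (z95 * z423) fun z424 =>
  letR (z372 * z265) fun z425 =>
  letR (z424 + z425) fun z426 =>
  letR (z119 * z426) fun z457 =>
  a_R14 gs ps z43 z88 z97 z481 z314 z259 z262 z275 z324 z327 z340 z290 z293 z355 z358 z376 z469 z470 z455 z456 z457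

theorem a_S13 {ε : Fin 4 → ℝ} (gs : ℕ) (hε : ∀ i, |ε i| ≤ 1) (ps : ℕ) (z108 z499 z77 z476 z105 z145 z43 z193 z210 z488 z483 z138 z141 z154 z203 z206 z219 z169 z172 z234 z237 z374 z432 z119 z95 z88 z97 z481 z266 z314 z331 z372 z265 z259 z262 z275 z324 z327 z340 z290 z293 z355 z358 z376 z469 : AF) (t108 t499 t77 t476 t105 t145 t43 t193 t210 t488 t483 t138 t141 t154 t203 t206 t219 t169 t172 t234 t237 t374 t432 t119 t95 t88 t97 t481 t266 t314 t331 t372 t265 t259 t262 t275 t324 t327 t340 t290 t293 t355 t358 t376 t469 : ℝ)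
    (g108 : Rel ε z108 t108) (g499 : Rel ε z499 t499) (g77 : Rel ε z77 t77) (g476 : Rel ε z476 t476) (g105 : Rel ε z105 t105) (g145 : Rel ε z145 t145) (g43 : Rel ε z43 t43) (g193 : Rel ε z193 t193) (g210 : Rel ε z210 t210) (g488 : Rel ε z488 t488) (g483 : Rel ε z483 t483) (g138 : Rel ε z138 t138) (g141 : Rel ε z141 t141) (g154 : Rel ε z154 t154) (g203 : Rel ε z203 t203) (g206 : Rel ε z206 t206) (g219 : Rel ε z219 t219) (g169 : Rel ε z169 t169) (g172 : Rel ε z172 t172) (g234 : Rel ε z234 t234) (g237 : Rel ε z237 t237) (g374 : Rel ε z374 t374) (g432 : Rel ε z432 t432) (g119 : Rel ε z119 t119) (g95 : Rel ε z95 t95) (g88 : Rel ε z88 t88) (g97 : Rel ε z97 t97) (g481 : Rel ε z481 t481) (g266 : Rel ε z266 t266) (g314 : Rel ε z314 t314) (g331 : Rel ε z331 t331) (g372 : Rel ε z372 t372) (g265 : Rel ε z265 t265) (g259 : Rel ε z259 t259) (g262 : Rel ε z262 t262) (g275 : Rel ε z275 t275) (g324 : Rel ε z324 t324) (g327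 : Rel ε z327 t327) (g340 : Rel ε z340 t340) (g290 : Rel ε z290 t290) (g293 : Rel ε z293 t293) (g355 : Rel ε z355 t355) (g358 : Rel ε z358 t358) (g376 : Rel ε z376 t376) (g469 : Rel ε z469 t469) :
    a_B13 gs ps z108 z499 z77 z476 z105 z145 z43 z193 z210 z488 z483 z138 z141 z154 z203 z206 z219 z169 z172 z234 z237 z374 z432 z119 z95 z88 z97 z481 z266 z314 z331 z372 z265 z259 z262 z275 z324 z327 z340 z290 z293 z355 z358 z376 z469 = true → a_R13 gs ps t108 t499 t77 t476 t105 t145 t43 t193 t210 t488 t483 t138 t141 t154 t203 t206 t219 t169 t172 t234 t237 t374 t432 t119 t95 t88 t97 t481 t266 t314 t331 t372 t265 t259 t262 t275 t324 t327 t340 t290 t293 t355 t358 t376 t469 := by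
  delta a_B13 a_R13
  exact smulS hε g108 k10 fun z470 t470 g470 =>
  mulS hε g77 g145 fun z411 t411 g411 =>
  mulS hε g43 g210 fun z412 t412 g412 =>
  subS g411 g412 fun z413 t413 g413 =>
  mulS hε g488 g483 fun z414 t414 g414 =>
  addS g413 g414 fun z415 t415 g415 =>
  invS hε g138 fun z182 t182 g182 =>
  mulS hε g141 g182 fun z183 t183 g183 =>
  mulS hε g169 g183 fun z186 t186 g186 =>
  mulS hε g476 g172 fun z187 t187 g187 =>
  mulS hε g154 g182 fun z184 t184 g184 =>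
  smulS hε g184 k5 fun z185 t185 g185 =>
  mulS hε g187 g185 fun z188 t188 g188 =>
  subS g186 g188 fun z189 t189 g189 =>
  mulS hε g77 g189 fun z416 t416 g416 =>
  invS hε g203 fun z241 t241 g241 =>
  mulS hε g206 g241 fun z242 t242 g242 =>
  mulS hε g234 g242 fun z245 t245 g245 =>
  mulS hε g193 g237 fun z246 t246 g246 =>
  mulS hε g219 g241 fun z243 t243 g243 =>
  smulS hε g243 k5 fun z244 t244 g244 =>
  mulS hε g246 g244 fun z247 t247 g247 =>
  subS g245 g247 fun z248 t248 g248 =>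
  mulS hε g43 g248 fun z417 t417 g417 =>
  subS g416 g417 fun z418 t418 g418 =>
  mulS hε g172 g183 fun z190 t190 g190 =>
  mulS hε g169 g185 fun z191 t191 g191 =>
  subS g190 g191 fun z192 t192 g192 =>
  mulS hε g374 g192 fun z419 t419 g419 =>
  addS g418 g419 fun z420 t420 g420 =>
  normS g420 fun z496 t496 g496 =>
  mulS hε g105 g496 fun z454 t454 g454 =>
  addS g415 g454 fun z455 t455 g455 =>
  mulS hε g432 g499 fun z456 t456 g456 =>
  mulS hε g88 g266 fun z421 t421 g421 =>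
  mulS hε g43 g331 fun z422 t422 g422 =>
  subS g421 g422 fun z423 t423 g423 =>
  mulS hε g95 g423 fun z424 t424 g424 =>
  mulS hε g372 g265 fun z425 t425 g425 =>
  addS g424 g425 fun z426 t426 g426 =>
  mulS hε g119 g426 fun z457 t457 g457 =>
  a_S14 gs hε ps z43 z88 z97 z481 z314 z259 z262 z275 z324 z327 z340 z290 z293 z355 z358 z376 z469 z470 z455 z456 z457 t43 t88 t97 t481 t314 t259 t262 t275 t324 t327 t340 t290 t293 t355 t358 t376 t469 t470 t455 t456 t457 g43 g88 g97 g481 g314 g259 g262 g275 g324 g327 g340 g290 g293 g355 g358 g376 g469 g470 g455 g456 g457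

def a_B12 (gs ps : ℕ) (z7 z108 z499 z77 z476 z105 z145 z43 z193 z210 z488 z483 z138 z141 z154 z203 z206 z219 z169 z172 z234 z237 z374 z440 z432 z442 z119 z95 z88 z97 z481 z266 z314 z319 z321 z331 z372 z375 z265 z259 z262 z275 z285 z324 z327 z340 z341 z348 z350 z487 z448 : AF) : Bool :=
  sqrK z481 fun z449 =>
  mulK z265 z487 fun z288 =>
  mulK z97 z285 fun z286 =>
  mulK z266 z286 fun z289 =>
  subK z288 z289 fun z290 =>
  mulK z290 z487 fun z294 =>
  mulK z266 z487 fun z291 =>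
  mulK z265 z285 fun z292 =>
  subK z291 z292 fun z293 =>
  mulK z293 z286 fun z295 =>
  subK z294 z295 fun z296 =>
  mulK z88 z296 fun z406 =>
  mulK z319 z321 fun z330 =>
  mulK z341 z348 fun z349 =>
  mulK z330 z349 fun z353 =>
  mulK z314 z350 fun z351 =>
  mulK z331 z351 fun z354 =>
  subK z353 z354 fun z355 =>
  mulK z355 z349 fun z359 =>
  mulK z331 z349 fun z356 =>
  mulK z330 z350 fun z357 =>
  subK z356 z357 fun z358 =>
  mulK z358 z351 fun z360 =>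
  subK z359 z360 fun z361 =>
  mulK z43 z361 fun z407 =>
  subK z406 z407 fun z408 =>
  mulK z476 z375 fun z376 =>
  mulK z293 z487 fun z300 =>
  mulK z290 z285 fun z301 =>
  subK z300 z301 fun z302 =>
  mulK z376 z302 fun z409 =>
  addK z408 z409 fun z410 =>
  normK z410 fun z495 =>
  mulK z449 z495 fun z450 =>
  addK z448 z450 fun z451 =>
  normK z451 fun z500 =>
  mulK z442 z500 fun z452 =>
  addK z440 z452 fun z453 =>
  mulK z7 z453 fun z469 =>
  a_B13 gs ps z108 z499 z77 z476 z105 z145 z43 z193 z210 z488 z483 z138 z141 z154 z203 z206 z219 z169 z172 z234 z237 z374 z432 z119 z95 z88 z97 z481 z266 z314 z331 z372 z265 z259 z262 z275 z324 z327 z340 z290 z293 z355 z358 z376 z469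

def a_R12 (gs ps : ℕ) (z7 z108 z499 z77 z476 z105 z145 z43 z193 z210 z488 z483 z138 z141 z154 z203 z206 z219 z169 z172 z234 z237 z374 z440 z432 z442 z119 z95 z88 z97 z481 z266 z314 z319 z321 z331 z372 z375 z265 z259 z262 z275 z285 z324 z327 z340 z341 z348 z350 z487 z448 : ℝ) : Prop :=
  letR (z481 ^ 2) fun z449 =>
  letR (z265 * z487) fun z288 =>
  letR (z97 * z285) fun z286 =>
  letR (z266 * z286) fun z289 =>
  letR (z288 - z289) fun z290 =>
  letR (z290 * z487) fun z294 =>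
  letR (z266 * z487) fun z291 =>
  letR (z265 * z285) fun z292 =>
  letR (z291 - z292) fun z293 =>
  letR (z293 * z286) fun z295 =>
  letR (z294 - z295) fun z296 =>
  letR (z88 * z296) fun z406 =>
  letR (z319 * z321) fun z330 =>
  letR (z341 * z348) fun z349 =>
  letR (z330 * z349) fun z353 =>
  letR (z314 * z350) fun z351 =>
  letR (z331 * z351) fun z354 =>
  letR (z353 - z354) fun z355 =>
  letR (z355 * z349) fun z359 =>
  letR (z331 * z349) fun z356 =>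
  letR (z330 * z350) fun z357 =>
  letR (z356 - z357) fun z358 =>
  letR (z358 * z351) fun z360 =>
  letR (z359 - z360) fun z361 =>
  letR (z43 * z361) fun z407 =>
  letR (z406 - z407) fun z408 =>
  letR (z476 * z375) fun z376 =>
  letR (z293 * z487) fun z300 =>
  letR (z290 * z285) fun z301 =>
  letR (z300 - z301) fun z302 =>
  letR (z376 * z302) fun z409 =>
  letR (z408 + z409) fun z410 =>
  letR z410 fun z495 =>
  letR (z449 * z495) fun z450 =>
  letR (z448 + z450) fun z451 =>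
  letR z451 fun z500 =>
  letR (z442 * z500) fun z452 =>
  letR (z440 + z452) fun z453 =>
  letR (z7 * z453) fun z469 =>
  a_R13 gs ps z108 z499 z77 z476 z105 z145 z43 z193 z210 z488 z483 z138 z141 z154 z203 z206 z219 z169 z172 z234 z237 z374 z432 z119 z95 z88 z97 z481 z266 z314 z331 z372 z265 z259 z262 z275 z324 z327 z340 z290 z293 z355 z358 z376 z469

theorem a_S12 {ε : Fin 4 → ℝ} (gs : ℕ) (hε : ∀ i, |ε i| ≤ 1) (ps : ℕ) (z7 z108 z499 z77 z476 z105 z145 z43 z193 z210 z488 z483 z138 z141 z154 z203 z206 z219 z169 z172 z234 z237 z374 z440 z432 z442 z119 z95 z88 z97 z481 z266 z314 z319 z321 z331 z372 z375 z265 z259 z262 z275 z285 z324 z327 z340 z341 z348 z350 z487 z448 : AF) (t7 t108 t499 t77 t476 t105 t145 t43 t193 t210 t488 t483 t138 t141 t154 t203 t206 t219 t169 t172 t234 t237 t374 t440 t432 t442 t119 t95 t88 t97 t481 t266 t314 t319 t321 t331 t372 t375 t265 t259 t262 t275 t285 t324 t327 t340 t341 t348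 t350 t487 t448 : ℝ)
    (g7 : Rel ε z7 t7) (g108 : Rel ε z108 t108) (g499 : Rel ε z499 t499) (g77 : Rel ε z77 t77) (g476 : Rel ε z476 t476) (g105 : Rel ε z105 t105) (g145 : Rel ε z145 t145) (g43 : Rel ε z43 t43) (g193 : Rel ε z193 t193) (g210 : Rel ε z210 t210) (g488 : Rel ε z488 t488) (g483 : Rel ε z483 t483) (g138 : Rel ε z138 t138) (g141 : Rel ε z141 t141) (g154 : Rel ε z154 t154) (g203 : Rel ε z203 t203) (g206 : Rel ε z206 t206) (g219 : Rel ε z219 t219) (g169 : Rel ε z169 t169) (g172 : Rel ε z172 t172) (g234 : Rel ε z234 t234) (g237 : Rel ε z237 t237) (g374 : Rel ε z374 t374) (g440 : Rel ε z440 t440) (g432 : Rel ε z432 t432) (g442 : Rel ε z442 t442) (g119 : Rel ε z119 t119) (g95 : Rel ε z95 t95) (g88 : Rel ε z88 t88) (g97 : Rel ε z97 t97) (g481 : Rel ε z481 t481) (g266 : Rel ε z266 t266) (g314 : Rel ε z314 t314) (g319 : Rel ε z319 t319) (g321 : Rel ε z321 t321) (g331 : Rel ε z331 t331) (g372 : Rel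 ε z372 t372) (g375 : Rel ε z375 t375) (g265 : Rel ε z265 t265) (g259 : Rel ε z259 t259) (g262 : Rel ε z262 t262) (g275 : Rel ε z275 t275) (g285 : Rel ε z285 t285) (g324 : Rel ε z324 t324) (g327 : Rel ε z327 t327) (g340 : Rel ε z340 t340) (g341 : Rel ε z341 t341) (g348 : Rel ε z348 t348) (g350 : Rel ε z350 t350) (g487 : Rel ε z487 t487) (g448 : Rel ε z448 t448) :
    a_B12 gs ps z7 z108 z499 z77 z476 z105 z145 z43 z193 z210 z488 z483 z138 z141 z154 z203 z206 z219 z169 z172 z234 z237 z374 z440 z432 z442 z119 z95 z88 z97 z481 z266 z314 z319 z321 z331 z372 z375 z265 z259 z262 z275 z285 z324 z327 z340 z341 z348 z350 z487 z448 = true → a_R12 gs ps t7 t108 t499 t77 t476 t105 t145 t43 t193 t210 t488 t483 t138 t141 t154 t203 t206 t219 t169 t172 t234 t237 t374 t440 t432 t442 t119 t95 t88 t97 t481 t266 t314 t319 t321 t331 t372 t375 t265 t259 t262 t275 t285 t324 t327 t340 t341 t348 t350 t487 t448 := by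
  delta a_B12 a_R12
  exact sqrS hε g481 fun z449 t449 g449 =>
  mulS hε g265 g487 fun z288 t288 g288 =>
  mulS hε g97 g285 fun z286 t286 g286 =>
  mulS hε g266 g286 fun z289 t289 g289 =>
  subS g288 g289 fun z290 t290 g290 =>
  mulS hε g290 g487 fun z294 t294 g294 =>
  mulS hε g266 g487 fun z291 t291 g291 =>
  mulS hε g265 g285 fun z292 t292 g292 =>
  subS g291 g292 fun z293 t293 g293 =>
  mulS hε g293 g286 fun z295 t295 g295 =>
  subS g294 g295 fun z296 t296 g296 =>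
  mulS hε g88 g296 fun z406 t406 g406 =>
  mulS hε g319 g321 fun z330 t330 g330 =>
  mulS hε g341 g348 fun z349 t349 g349 =>
  mulS hε g330 g349 fun z353 t353 g353 =>
  mulS hε g314 g350 fun z351 t351 g351 =>
  mulS hε g331 g351 fun z354 t354 g354 =>
  subS g353 g354 fun z355 t355 g355 =>
  mulS hε g355 g349 fun z359 t359 g359 =>
  mulS hε g331 g349 fun z356 t356 g356 =>
  mulS hε g330 g350 fun z357 t357 g357 =>
  subS g356 g357 fun z358 t358 g358 =>
  mulS hε g358 g351 fun z360 t360 g360 =>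
  subS g359 g360 fun z361 t361 g361 =>
  mulS hε g43 g361 fun z407 t407 g407 =>
  subS g406 g407 fun z408 t408 g408 =>
  mulS hε g476 g375 fun z376 t376 g376 =>
  mulS hε g293 g487 fun z300 t300 g300 =>
  mulS hε g290 g285 fun z301 t301 g301 =>
  subS g300 g301 fun z302 t302 g302 =>
  mulS hε g376 g302 fun z409 t409 g409 =>
  addS g408 g409 fun z410 t410 g410 =>
  normS g410 fun z495 t495 g495 =>
  mulS hε g449 g495 fun z450 t450 g450 =>
  addS g448 g450 fun z451 t451 g451 =>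
  normS g451 fun z500 t500 g500 =>
  mulS hε g442 g500 fun z452 t452 g452 =>
  addS g440 g452 fun z453 t453 g453 =>
  mulS hε g7 g453 fun z469 t469 g469 =>
  a_S13 gs hε ps z108 z499 z77 z476 z105 z145 z43 z193 z210 z488 z483 z138 z141 z154 z203 z206 z219 z169 z172 z234 z237 z374 z432 z119 z95 z88 z97 z481 z266 z314 z331 z372 z265 z259 z262 z275 z324 z327 z340 z290 z293 z355 z358 z376 z469 t108 t499 t77 t476 t105 t145 t43 t193 t210 t488 t483 t138 t141 t154 t203 t206 t219 t169 t172 t234 t237 t374 t432 t119 t95 t88 t97 t481 t266 t314 t331 t372 t265 t259 t262 t275 t324 t327 t340 t290 t293 t355 t358 t376 t469 g108 g499 g77 g476 g105 g145 g43 g193 g210 g488 g483 g138 g141 g154 g203 g206 g219 g169 g172 g234 g237 g374 g432 g119 g95 g88 g97 g481 g266 g314 g331 g372 g265 g259 g262 g275 g324 g327 g340 g290 g293 g355 g358 g376 g469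

def a_B11 (gs ps : ℕ) (z7 z108 z499 z77 z476 z105 z145 z43 z193 z210 z488 z483 z138 z141 z154 z203 z206 z219 z169 z172 z234 z237 z374 z440 z432 z442 z119 z95 z88 z97 z481 z127 z266 z314 z319 z320 z321 z331 z372 z375 z265 z444 z445 z256 z259 z262 z275 z276 z283 z285 : AF) : Bool :=
  addK z266 z285 fun z287 =>
  mulK z88 z287 fun z400 =>
  mulK z314 z256 fun z322 =>
  rsubK z322 4722366764344621924352 0 fun z323 =>
  sqrtK z323 fun z324 =>
  addcK z324 4722366764344621924352 0 fun z325 =>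
  smulK z325 4722366623607133569024 fun z326 =>
  sqrtK z326 fun z327 =>
  invK z327 fun z328 =>
  mulK z127 z328 fun z340 =>
  addK z340 z320 fun z342 =>
  smulK z342 4722366623607133569024 fun z343 =>
  addK z327 z319 fun z341 =>
  sqrK z341 fun z344 =>
  sqrK z343 fun z345 =>
  mulK z314 z345 fun z346 =>
  subK z344 z346 fun z347 =>
  invK z347 fun z348 =>
  mulK z343 z348 fun z350 =>
  addK z331 z350 fun z352 =>
  mulK z43 z352 fun z401 =>
  subK z400 z401 fun z402 =>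
  normK z402 fun z493 =>
  mulK z95 z493 fun z403 =>
  mulK z276 z283 fun z284 =>
  normK z284 fun z487 =>
  subK z265 z487 fun z299 =>
  mulK z372 z299 fun z404 =>
  addK z403 z404 fun z405 =>
  normK z405 fun z494 =>
  smulK z494 4722367045819598635008 fun z446 =>
  mulK z445 z446 fun z447 =>
  addK z444 z447 fun z448 =>
  a_B12 gs ps z7 z108 z499 z77 z476 z105 z145 z43 z193 z210 z488 z483 z138 z141 z154 z203 z206 z219 z169 z172 z234 z237 z374 z440 z432 z442 z119 z95 z88 z97 z481 z266 z314 z319 z321 z331 z372 z375 z265 z259 z262 z275 z285 z324 z327 z340 z341 z348 z350 z487 z448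

def a_R11 (gs ps : ℕ) (z7 z108 z499 z77 z476 z105 z145 z43 z193 z210 z488 z483 z138 z141 z154 z203 z206 z219 z169 z172 z234 z237 z374 z440 z432 z442 z119 z95 z88 z97 z481 z127 z266 z314 z319 z320 z321 z331 z372 z375 z265 z444 z445 z256 z259 z262 z275 z276 z283 z285 : ℝ) : Prop :=
  letR (z266 + z285) fun z287 =>
  letR (z88 * z287) fun z400 =>
  letR (z314 * z256) fun z322 =>
  letR ((1 : ℝ) - z322) fun z323 =>
  letR (√z323) fun z324 =>
  letR (z324 + (1 : ℝ)) fun z325 =>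
  letR ((1 / 2 : ℝ) * z325) fun z326 =>
  letR (√z326) fun z327 =>
  invR z327 fun z328 =>
  letR (z127 * z328) fun z340 =>
  letR (z340 + z320) fun z342 =>
  letR ((1 / 2 : ℝ) * z342) fun z343 =>
  letR (z327 + z319) fun z341 =>
  letR (z341 ^ 2) fun z344 =>
  letR (z343 ^ 2) fun z345 =>
  letR (z314 * z345) fun z346 =>
  letR (z344 - z346) fun z347 =>
  invR z347 fun z348 =>
  letR (z343 * z348) fun z350 =>
  letR (z331 + z350) fun z352 =>
  letR (z43 * z352) fun z401 =>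
  letR (z400 - z401) fun z402 =>
  letR z402 fun z493 =>
  letR (z95 * z493) fun z403 =>
  letR (z276 * z283) fun z284 =>
  letR z284 fun z487 =>
  letR (z265 - z487) fun z299 =>
  letR (z372 * z299) fun z404 =>
  letR (z403 + z404) fun z405 =>
  letR z405 fun z494 =>
  letR ((2 : ℝ) * z494) fun z446 =>
  letR (z445 * z446) fun z447 =>
  letR (z444 + z447) fun z448 =>
  a_R12 gs ps z7 z108 z499 z77 z476 z105 z145 z43 z193 z210 z488 z483 z138 z141 z154 z203 z206 z219 z169 z172 z234 z237 z374 z440 z432 z442 z119 z95 z88 z97 z481 z266 z314 z319 z321 z331 z372 z375 z265 z259 z262 z275 z285 z324 z327 z340 z341 z348 z350 z487 z448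

theorem a_S11 {ε : Fin 4 → ℝ} (gs : ℕ) (hε : ∀ i, |ε i| ≤ 1) (ps : ℕ) (z7 z108 z499 z77 z476 z105 z145 z43 z193 z210 z488 z483 z138 z141 z154 z203 z206 z219 z169 z172 z234 z237 z374 z440 z432 z442 z119 z95 z88 z97 z481 z127 z266 z314 z319 z320 z321 z331 z372 z375 z265 z444 z445 z256 z259 z262 z275 z276 z283 z285 : AF) (t7 t108 t499 t77 t476 t105 t145 t43 t193 t210 t488 t483 t138 t141 t154 t203 t206 t219 t169 t172 t234 t237 t374 t440 t432 t442 t119 t95 t88 t97 t481 t127 t266 t314 t319 t320 t321 t331 t372 t375 t265 t444 t445 t256 t259 t262 t275 t276 t283 t285 : ℝ)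
    (g7 : Rel ε z7 t7) (g108 : Rel ε z108 t108) (g499 : Rel ε z499 t499) (g77 : Rel ε z77 t77) (g476 : Rel ε z476 t476) (g105 : Rel ε z105 t105) (g145 : Rel ε z145 t145) (g43 : Rel ε z43 t43) (g193 : Rel ε z193 t193) (g210 : Rel ε z210 t210) (g488 : Rel ε z488 t488) (g483 : Rel ε z483 t483) (g138 : Rel ε z138 t138) (g141 : Rel ε z141 t141) (g154 : Rel ε z154 t154) (g203 : Rel ε z203 t203) (g206 : Rel ε z206 t206) (g219 : Rel ε z219 t219) (g169 : Rel ε z169 t169) (g172 : Rel ε z172 t172) (g234 : Rel ε z234 t234) (g237 : Rel ε z237 t237) (g374 : Rel ε z374 t374) (g440 : Rel ε z440 t440) (g432 : Rel ε z432 t432) (g442 : Rel ε z442 t442) (g119 : Rel ε z119 t119) (g95 : Rel ε z95 t95) (g88 : Rel ε z88 t88) (g97 : Rel ε z97 t97) (g481 : Rel ε z481 t481) (g127 : Rel ε z127 t127) (g266 : Rel ε z266 t266) (g314 : Rel ε z314 t314) (g319 : Rel ε z319 t319) (g320 : Rel ε z320 t320) (g321 : Rel ε z321 t321) (g331 :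 Rel ε z331 t331) (g372 : Rel ε z372 t372) (g375 : Rel ε z375 t375) (g265 : Rel ε z265 t265) (g444 : Rel ε z444 t444) (g445 : Rel ε z445 t445) (g256 : Rel ε z256 t256) (g259 : Rel ε z259 t259) (g262 : Rel ε z262 t262) (g275 : Rel ε z275 t275) (g276 : Rel ε z276 t276) (g283 : Rel ε z283 t283) (g285 : Rel ε z285 t285) :
    a_B11 gs ps z7 z108 z499 z77 z476 z105 z145 z43 z193 z210 z488 z483 z138 z141 z154 z203 z206 z219 z169 z172 z234 z237 z374 z440 z432 z442 z119 z95 z88 z97 z481 z127 z266 z314 z319 z320 z321 z331 z372 z375 z265 z444 z445 z256 z259 z262 z275 z276 z283 z285 = true → a_R11 gs ps t7 t108 t499 t77 t476 t105 t145 t43 t193 t210 t488 t483 t138 t141 t154 t203 t206 t219 t169 t172 t234 t237 t374 t440 t432 t442 t119 t95 t88 t97 t481 t127 t266 t314 t319 t320 t321 t331 t372 t375 t265 t444 t445 t256 t259 t262 t275 t276 t283 t285 := by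
  delta a_B11 a_R11
  exact addS g266 g285 fun z287 t287 g287 =>
  mulS hε g88 g287 fun z400 t400 g400 =>
  mulS hε g314 g256 fun z322 t322 g322 =>
  rsubS g322 k3 fun z323 t323 g323 =>
  sqrtS hε g323 fun z324 t324 g324 =>
  addcS g324 k3 fun z325 t325 g325 =>
  smulS hε g325 k5 fun z326 t326 g326 =>
  sqrtS hε g326 fun z327 t327 g327 =>
  invS hε g327 fun z328 t328 g328 =>
  mulS hε g127 g328 fun z340 t340 g340 =>
  addS g340 g320 fun z342 t342 g342 =>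
  smulS hε g342 k5 fun z343 t343 g343 =>
  addS g327 g319 fun z341 t341 g341 =>
  sqrS hε g341 fun z344 t344 g344 =>
  sqrS hε g343 fun z345 t345 g345 =>
  mulS hε g314 g345 fun z346 t346 g346 =>
  subS g344 g346 fun z347 t347 g347 =>
  invS hε g347 fun z348 t348 g348 =>
  mulS hε g343 g348 fun z350 t350 g350 =>
  addS g331 g350 fun z352 t352 g352 =>
  mulS hε g43 g352 fun z401 t401 g401 =>
  subS g400 g401 fun z402 t402 g402 =>
  normS g402 fun z493 t493 g493 =>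
  mulS hε g95 g493 fun z403 t403 g403 =>
  mulS hε g276 g283 fun z284 t284 g284 =>
  normS g284 fun z487 t487 g487 =>
  subS g265 g487 fun z299 t299 g299 =>
  mulS hε g372 g299 fun z404 t404 g404 =>
  addS g403 g404 fun z405 t405 g405 =>
  normS g405 fun z494 t494 g494 =>
  smulS hε g494 k10 fun z446 t446 g446 =>
  mulS hε g445 g446 fun z447 t447 g447 =>
  addS g444 g447 fun z448 t448 g448 =>
  a_S12 gs hε ps z7 z108 z499 z77 z476 z105 z145 z43 z193 z210 z488 z483 z138 z141 z154 z203 z206 z219 z169 z172 z234 z237 z374 z440 z432 z442 z119 z95 z88 z97 z481 z266 z314 z319 z321 z331 z372 z375 z265 z259 z262 z275 z285 z324 z327 z340 z341 z348 z350 z487 z448 t7 t108 t499 t77 t476 t105 t145 t43 t193 t210 t488 t483 t138 t141 t154 t203 t206 t219 t169 t172 t234 t237 t374 t440 t432 t442 t119 t95 t88 t97 t481 t266 t314 t319 t321 t331 t372 t375 t265 t259 t262 t275 t285 t324 t327 t340 t341 t348 t350 t487 t448 g7 g108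 g499 g77 g476 g105 g145 g43 g193 g210 g488 g483 g138 g141 g154 g203 g206 g219 g169 g172 g234 g237 g374 g440 g432 g442 g119 g95 g88 g97 g481 g266 g314 g319 g321 g331 g372 g375 g265 g259 g262 g275 g285 g324 g327 g340 g341 g348 g350 g487 g448

def a_B10 (gs ps : ℕ) (z7 z108 z499 z77 z476 z105 z145 z43 z193 z210 z488 z483 z138 z141 z154 z203 z206 z219 z169 z172 z234 z237 z374 z440 z432 z442 z119 z443 z95 z88 z97 z253 z254 z255 z481 z127 z266 z314 z319 z320 z321 z331 z397 z372 : AF) : Bool :=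
  mulK z95 z372 fun z375 =>
  mulK z253 z255 fun z265 =>
  mulK z127 z265 fun z297 =>
  addK z297 z266 fun z298 =>
  mulK z375 z298 fun z398 =>
  addK z397 z398 fun z399 =>
  normK z399 fun z492 =>
  mulK z443 z492 fun z444 =>
  mulK z119 z481 fun z445 =>
  sqrK z127 fun z256 =>
  mulK z97 z256 fun z257 =>
  rsubK z257 4722366764344621924352 0 fun z258 =>
  sqrtK z258 fun z259 =>
  addcK z259 4722366764344621924352 0 fun z260 =>
  smulK z260 4722366623607133569024 fun z261 =>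
  sqrtK z261 fun z262 =>
  invK z262 fun z263 =>
  mulK z127 z263 fun z275 =>
  addK z275 z254 fun z277 =>
  smulK z277 4722366623607133569024 fun z278 =>
  addK z262 z253 fun z276 =>
  sqrK z276 fun z279 =>
  sqrK z278 fun z280 =>
  mulK z97 z280 fun z281 =>
  subK z279 z281 fun z282 =>
  invK z282 fun z283 =>
  mulK z278 z283 fun z285 =>
  a_B11 gs ps z7 z108 z499 z77 z476 z105 z145 z43 z193 z210 z488 z483 z138 z141 z154 z203 z206 z219 z169 z172 z234 z237 z374 z440 z432 z442 z119 z95 z88 z97 z481 z127 z266 z314 z319 z320 z321 z331 z372 z375 z265 z444 z445 z256 z259 z262 z275 z276 z283 z285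

def a_R10 (gs ps : ℕ) (z7 z108 z499 z77 z476 z105 z145 z43 z193 z210 z488 z483 z138 z141 z154 z203 z206 z219 z169 z172 z234 z237 z374 z440 z432 z442 z119 z443 z95 z88 z97 z253 z254 z255 z481 z127 z266 z314 z319 z320 z321 z331 z397 z372 : ℝ) : Prop :=
  letR (z95 * z372) fun z375 =>
  letR (z253 * z255) fun z265 =>
  letR (z127 * z265) fun z297 =>
  letR (z297 + z266) fun z298 =>
  letR (z375 * z298) fun z398 =>
  letR (z397 + z398) fun z399 =>
  letR z399 fun z492 =>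
  letR (z443 * z492) fun z444 =>
  letR (z119 * z481) fun z445 =>
  letR (z127 ^ 2) fun z256 =>
  letR (z97 * z256) fun z257 =>
  letR ((1 : ℝ) - z257) fun z258 =>
  letR (√z258) fun z259 =>
  letR (z259 + (1 : ℝ)) fun z260 =>
  letR ((1 / 2 : ℝ) * z260) fun z261 =>
  letR (√z261) fun z262 =>
  invR z262 fun z263 =>
  letR (z127 * z263) fun z275 =>
  letR (z275 + z254) fun z277 =>
  letR ((1 / 2 : ℝ) * z277) fun z278 =>
  letR (z262 + z253) fun z276 =>
  letR (z276 ^ 2) fun z279 =>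
  letR (z278 ^ 2) fun z280 =>
  letR (z97 * z280) fun z281 =>
  letR (z279 - z281) fun z282 =>
  invR z282 fun z283 =>
  letR (z278 * z283) fun z285 =>
  a_R11 gs ps z7 z108 z499 z77 z476 z105 z145 z43 z193 z210 z488 z483 z138 z141 z154 z203 z206 z219 z169 z172 z234 z237 z374 z440 z432 z442 z119 z95 z88 z97 z481 z127 z266 z314 z319 z320 z321 z331 z372 z375 z265 z444 z445 z256 z259 z262 z275 z276 z283 z285

theorem a_S10 {ε : Fin 4 → ℝ} (gs : ℕ) (hε : ∀ i, |ε i| ≤ 1) (ps : ℕ) (z7 z108 z499 z77 z476 z105 z145 z43 z193 z210 z488 z483 z138 z141 z154 z203 z206 z219 z169 z172 z234 z237 z374 z440 z432 z442 z119 z443 z95 z88 z97 z253 z254 z255 z481 z127 z266 z314 z319 z320 z321 z331 z397 z372 : AF) (t7 t108 t499 t77 t476 t105 t145 t43 t193 t210 t488 t483 t138 t141 t154 t203 t206 t219 t169 t172 t234 t237 t374 t440 t432 t442 t119 t443 t95 t88 t97 t253 t254 t255 t481 t127 t266 t314 t319 t320 t321 t331 t397 t372 :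 ℝ)
    (g7 : Rel ε z7 t7) (g108 : Rel ε z108 t108) (g499 : Rel ε z499 t499) (g77 : Rel ε z77 t77) (g476 : Rel ε z476 t476) (g105 : Rel ε z105 t105) (g145 : Rel ε z145 t145) (g43 : Rel ε z43 t43) (g193 : Rel ε z193 t193) (g210 : Rel ε z210 t210) (g488 : Rel ε z488 t488) (g483 : Rel ε z483 t483) (g138 : Rel ε z138 t138) (g141 : Rel ε z141 t141) (g154 : Rel ε z154 t154) (g203 : Rel ε z203 t203) (g206 : Rel ε z206 t206) (g219 : Rel ε z219 t219) (g169 : Rel ε z169 t169) (g172 : Rel ε z172 t172) (g234 : Rel ε z234 t234) (g237 : Rel ε z237 t237) (g374 : Rel ε z374 t374) (g440 : Rel ε z440 t440) (g432 : Rel ε z432 t432) (g442 : Rel ε z442 t442) (g119 : Rel ε z119 t119) (g443 : Rel ε z443 t443) (g95 : Rel ε z95 t95) (g88 : Rel ε z88 t88) (g97 : Rel ε z97 t97) (g253 : Rel ε z253 t253) (g254 : Rel ε z254 t254) (g255 : Rel ε z255 t255) (g481 : Rel ε z481 t481) (g127 : Rel ε z127 t127) (g266 : Rel ε z266 t266) (g314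 : Rel ε z314 t314) (g319 : Rel ε z319 t319) (g320 : Rel ε z320 t320) (g321 : Rel ε z321 t321) (g331 : Rel ε z331 t331) (g397 : Rel ε z397 t397) (g372 : Rel ε z372 t372) :
    a_B10 gs ps z7 z108 z499 z77 z476 z105 z145 z43 z193 z210 z488 z483 z138 z141 z154 z203 z206 z219 z169 z172 z234 z237 z374 z440 z432 z442 z119 z443 z95 z88 z97 z253 z254 z255 z481 z127 z266 z314 z319 z320 z321 z331 z397 z372 = true → a_R10 gs ps t7 t108 t499 t77 t476 t105 t145 t43 t193 t210 t488 t483 t138 t141 t154 t203 t206 t219 t169 t172 t234 t237 t374 t440 t432 t442 t119 t443 t95 t88 t97 t253 t254 t255 t481 t127 t266 t314 t319 t320 t321 t331 t397 t372 := by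
  delta a_B10 a_R10
  exact mulS hε g95 g372 fun z375 t375 g375 =>
  mulS hε g253 g255 fun z265 t265 g265 =>
  mulS hε g127 g265 fun z297 t297 g297 =>
  addS g297 g266 fun z298 t298 g298 =>
  mulS hε g375 g298 fun z398 t398 g398 =>
  addS g397 g398 fun z399 t399 g399 =>
  normS g399 fun z492 t492 g492 =>
  mulS hε g443 g492 fun z444 t444 g444 =>
  mulS hε g119 g481 fun z445 t445 g445 =>
  sqrS hε g127 fun z256 t256 g256 =>
  mulS hε g97 g256 fun z257 t257 g257 =>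
  rsubS g257 k3 fun z258 t258 g258 =>
  sqrtS hε g258 fun z259 t259 g259 =>
  addcS g259 k3 fun z260 t260 g260 =>
  smulS hε g260 k5 fun z261 t261 g261 =>
  sqrtS hε g261 fun z262 t262 g262 =>
  invS hε g262 fun z263 t263 g263 =>
  mulS hε g127 g263 fun z275 t275 g275 =>
  addS g275 g254 fun z277 t277 g277 =>
  smulS hε g277 k5 fun z278 t278 g278 =>
  addS g262 g253 fun z276 t276 g276 =>
  sqrS hε g276 fun z279 t279 g279 =>
  sqrS hε g278 fun z280 t280 g280 =>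
  mulS hε g97 g280 fun z281 t281 g281 =>
  subS g279 g281 fun z282 t282 g282 =>
  invS hε g282 fun z283 t283 g283 =>
  mulS hε g278 g283 fun z285 t285 g285 =>
  a_S11 gs hε ps z7 z108 z499 z77 z476 z105 z145 z43 z193 z210 z488 z483 z138 z141 z154 z203 z206 z219 z169 z172 z234 z237 z374 z440 z432 z442 z119 z95 z88 z97 z481 z127 z266 z314 z319 z320 z321 z331 z372 z375 z265 z444 z445 z256 z259 z262 z275 z276 z283 z285 t7 t108 t499 t77 t476 t105 t145 t43 t193 t210 t488 t483 t138 t141 t154 t203 t206 t219 t169 t172 t234 t237 t374 t440 t432 t442 t119 t95 t88 t97 t481 t127 t266 t314 t319 t320 t321 t331 t372 t375 t265 t444 t445 t256 t259 t262 t275 t276 t283 t285 g7 g108 g499 g77 g476 g105 g145 g43 g193 g210 g488 g483 g138 g141 g154 g203 g206 g219 g169 g172 g234 g237 g374 g440 g432 g442 g119 g95 g88 g97 g481 g127 g266 g314 g319 g320 g321 g331 g372 g375 g265 g444 g445 g256 g259 g262 g275 g276 g283 g285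

def a_B9 (gs ps : ℕ) (x1 z7 z108 z499 z66 z33 z77 z476 z105 z145 z43 z193 z210 z89 z488 z483 z138 z141 z154 z203 z206 z219 z169 z172 z234 z237 z374 z440 z432 z442 z119 z443 z64 z61 z373 z95 z96 z88 z97 z253 z254 z255 z481 z127 z266 z274 : AF) : Bool :=
  mulK z88 z274 fun z393 =>
  mulK z43 z97 fun z314 =>
  rsubK z314 4722366764344621924352 0 fun z315 =>
  sqrtK z315 fun z316 =>
  addcK z316 4722366764344621924352 0 fun z317 =>
  smulK z317 4722366623607133569024 fun z318 =>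
  sqrtK z318 fun z319 =>
  invK z319 fun z320 =>
  invK z316 fun z321 =>
  mulK z320 z321 fun z329 =>
  mulK z329 z320 fun z332 =>
  smulK z319 4722367608769552056320 fun z333 =>
  addcK z333 4722367608769552056320 0 fun z334 =>
  invK z334 fun z335 =>
  rsubK z335 4722366623607133569024 0 fun z336 =>
  mulK z332 z336 fun z337 =>
  smulK z329 4722366342132156858368 fun z331 =>
  mulK z127 z331 fun z338 =>
  addK z337 z338 fun z339 =>
  mulK z43 z339 fun z394 =>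
  subK z393 z394 fun z395 =>
  normK z395 fun z491 =>
  mulK z96 z491 fun z396 =>
  addK z373 z396 fun z397 =>
  mulK z66 z61 fun z82 =>
  mulK x1 z64 fun z83 =>
  addcK z83 4722366764344621924352 0 fun z84 =>
  mulK z33 z84 fun z85 =>
  subK z82 z85 fun z86 =>
  normK z86 fun z475 =>
  mulK z475 z89 fun z372 =>
  a_B10 gs ps z7 z108 z499 z77 z476 z105 z145 z43 z193 z210 z488 z483 z138 z141 z154 z203 z206 z219 z169 z172 z234 z237 z374 z440 z432 z442 z119 z443 z95 z88 z97 z253 z254 z255 z481 z127 z266 z314 z319 z320 z321 z331 z397 z372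

def a_R9 (gs ps : ℕ) (W z7 z108 z499 z66 z33 z77 z476 z105 z145 z43 z193 z210 z89 z488 z483 z138 z141 z154 z203 z206 z219 z169 z172 z234 z237 z374 z440 z432 z442 z119 z443 z64 z61 z373 z95 z96 z88 z97 z253 z254 z255 z481 z127 z266 z274 : ℝ) : Prop :=
  letR (z88 * z274) fun z393 =>
  letR (z43 * z97) fun z314 =>
  letR ((1 : ℝ) - z314) fun z315 =>
  letR (√z315) fun z316 =>
  letR (z316 + (1 : ℝ)) fun z317 =>
  letR ((1 / 2 : ℝ) * z317) fun z318 =>
  letR (√z318) fun z319 =>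
  invR z319 fun z320 =>
  invR z316 fun z321 =>
  letR (z320 * z321) fun z329 =>
  letR (z329 * z320) fun z332 =>
  letR ((4 : ℝ) * z319) fun z333 =>
  letR (z333 + (4 : ℝ)) fun z334 =>
  invR z334 fun z335 =>
  letR ((1 / 2 : ℝ) - z335) fun z336 =>
  letR (z332 * z336) fun z337 =>
  letR ((-1 / 2 : ℝ) * z329) fun z331 =>
  letR (z127 * z331) fun z338 =>
  letR (z337 + z338) fun z339 =>
  letR (z43 * z339) fun z394 =>
  letR (z393 - z394) fun z395 =>
  letR z395 fun z491 =>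
  letR (z96 * z491) fun z396 =>
  letR (z373 + z396) fun z397 =>
  letR (z66 * z61) fun z82 =>
  letR (W * z64) fun z83 =>
  letR (z83 + (1 : ℝ)) fun z84 =>
  letR (z33 * z84) fun z85 =>
  letR (z82 - z85) fun z86 =>
  letR z86 fun z475 =>
  letR (z475 * z89) fun z372 =>
  a_R10 gs ps z7 z108 z499 z77 z476 z105 z145 z43 z193 z210 z488 z483 z138 z141 z154 z203 z206 z219 z169 z172 z234 z237 z374 z440 z432 z442 z119 z443 z95 z88 z97 z253 z254 z255 z481 z127 z266 z314 z319 z320 z321 z331 z397 z372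

theorem a_S9 {ε : Fin 4 → ℝ} (gs : ℕ) (hε : ∀ i, |ε i| ≤ 1) (ps : ℕ) (x1 z7 z108 z499 z66 z33 z77 z476 z105 z145 z43 z193 z210 z89 z488 z483 z138 z141 z154 z203 z206 z219 z169 z172 z234 z237 z374 z440 z432 z442 z119 z443 z64 z61 z373 z95 z96 z88 z97 z253 z254 z255 z481 z127 z266 z274 : AF) (W t7 t108 t499 t66 t33 t77 t476 t105 t145 t43 t193 t210 t89 t488 t483 t138 t141 t154 t203 t206 t219 t169 t172 t234 t237 t374 t440 t432 t442 t119 t443 t64 t61 t373 t95 t96 t88 t97 t253 t254 t255 t481 t127 t266 t274 : ℝ)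
    (h1 : Rel ε x1 W) (g7 : Rel ε z7 t7) (g108 : Rel ε z108 t108) (g499 : Rel ε z499 t499) (g66 : Rel ε z66 t66) (g33 : Rel ε z33 t33) (g77 : Rel ε z77 t77) (g476 : Rel ε z476 t476) (g105 : Rel ε z105 t105) (g145 : Rel ε z145 t145) (g43 : Rel ε z43 t43) (g193 : Rel ε z193 t193) (g210 : Rel ε z210 t210) (g89 : Rel ε z89 t89) (g488 : Rel ε z488 t488) (g483 : Rel ε z483 t483) (g138 : Rel ε z138 t138) (g141 : Rel ε z141 t141) (g154 : Rel ε z154 t154) (g203 : Rel ε z203 t203) (g206 : Rel ε z206 t206) (g219 : Rel ε z219 t219) (g169 : Rel ε z169 t169) (g172 : Rel ε z172 t172) (g234 : Rel ε z234 t234) (g237 : Rel ε z237 t237) (g374 : Rel ε z374 t374) (g440 : Rel ε z440 t440) (g432 : Rel ε z432 t432) (g442 : Rel ε z442 t442) (g119 : Rel ε z119 t119) (g443 : Rel ε z443 t443) (g64 : Rel ε z64 t64) (g61 : Rel ε z61 t61) (g373 : Rel ε z373 t373) (g95 : Rel ε z95 t95) (g96 : Rel ε z96 t96) (g88 : Rel ε z88 t88) (g97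 : Rel ε z97 t97) (g253 : Rel ε z253 t253) (g254 : Rel ε z254 t254) (g255 : Rel ε z255 t255) (g481 : Rel ε z481 t481) (g127 : Rel ε z127 t127) (g266 : Rel ε z266 t266) (g274 : Rel ε z274 t274) :
    a_B9 gs ps x1 z7 z108 z499 z66 z33 z77 z476 z105 z145 z43 z193 z210 z89 z488 z483 z138 z141 z154 z203 z206 z219 z169 z172 z234 z237 z374 z440 z432 z442 z119 z443 z64 z61 z373 z95 z96 z88 z97 z253 z254 z255 z481 z127 z266 z274 = true → a_R9 gs ps W t7 t108 t499 t66 t33 t77 t476 t105 t145 t43 t193 t210 t89 t488 t483 t138 t141 t154 t203 t206 t219 t169 t172 t234 t237 t374 t440 t432 t442 t119 t443 t64 t61 t373 t95 t96 t88 t97 t253 t254 t255 t481 t127 t266 t274 := by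
  delta a_B9 a_R9
  exact mulS hε g88 g274 fun z393 t393 g393 =>
  mulS hε g43 g97 fun z314 t314 g314 =>
  rsubS g314 k3 fun z315 t315 g315 =>
  sqrtS hε g315 fun z316 t316 g316 =>
  addcS g316 k3 fun z317 t317 g317 =>
  smulS hε g317 k5 fun z318 t318 g318 =>
  sqrtS hε g318 fun z319 t319 g319 =>
  invS hε g319 fun z320 t320 g320 =>
  invS hε g316 fun z321 t321 g321 =>
  mulS hε g320 g321 fun z329 t329 g329 =>
  mulS hε g329 g320 fun z332 t332 g332 =>
  smulS hε g319 k6 fun z333 t333 g333 =>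
  addcS g333 k7 fun z334 t334 g334 =>
  invS hε g334 fun z335 t335 g335 =>
  rsubS g335 k8 fun z336 t336 g336 =>
  mulS hε g332 g336 fun z337 t337 g337 =>
  smulS hε g329 k9 fun z331 t331 g331 =>
  mulS hε g127 g331 fun z338 t338 g338 =>
  addS g337 g338 fun z339 t339 g339 =>
  mulS hε g43 g339 fun z394 t394 g394 =>
  subS g393 g394 fun z395 t395 g395 =>
  normS g395 fun z491 t491 g491 =>
  mulS hε g96 g491 fun z396 t396 g396 =>
  addS g373 g396 fun z397 t397 g397 =>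
  mulS hε g66 g61 fun z82 t82 g82 =>
  mulS hε h1 g64 fun z83 t83 g83 =>
  addcS g83 k3 fun z84 t84 g84 =>
  mulS hε g33 g84 fun z85 t85 g85 =>
  subS g82 g85 fun z86 t86 g86 =>
  normS g86 fun z475 t475 g475 =>
  mulS hε g475 g89 fun z372 t372 g372 =>
  a_S10 gs hε ps z7 z108 z499 z77 z476 z105 z145 z43 z193 z210 z488 z483 z138 z141 z154 z203 z206 z219 z169 z172 z234 z237 z374 z440 z432 z442 z119 z443 z95 z88 z97 z253 z254 z255 z481 z127 z266 z314 z319 z320 z321 z331 z397 z372 t7 t108 t499 t77 t476 t105 t145 t43 t193 t210 t488 t483 t138 t141 t154 t203 t206 t219 t169 t172 t234 t237 t374 t440 t432 t442 t119 t443 t95 t88 t97 t253 t254 t255 t481 t127 t266 t314 t319 t320 t321 t331 t397 t372 g7 g108 g499 g77 g476 g105 g145 g43 g193 g210 g488 g483 g138 g141 g154 g203 g206 g219 g169 g172 g234 g237 g374 g440 g432 g442 g119 g443 g95 g88 g97 g253 g254 g255 g481 g127 g266 g314 g319 g320 g321 g331 g397 g372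

def a_B8 (gs ps : ℕ) (x1 x2 z7 z44 z108 z114 z499 z66 z33 z77 z476 z105 z107 z145 z43 z193 z210 z89 z488 z483 z138 z141 z154 z203 z206 z219 z169 z172 z234 z237 z374 z440 z92 z432 z442 z109 z119 z443 z64 z61 z81 z373 z95 : AF) : Bool :=
  sqrK z95 fun z96 =>
  mulK x1 z81 fun z87 =>
  addcK z87 4722366764344621924352 0 fun z88 =>
  mulK z96 z476 fun z97 =>
  rsubK z97 4722366764344621924352 0 fun z249 =>
  sqrtK z249 fun z250 =>
  addcK z250 4722366764344621924352 0 fun z251 =>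
  smulK z251 4722366623607133569024 fun z252 =>
  sqrtK z252 fun z253 =>
  invK z253 fun z254 =>
  invK z250 fun z255 =>
  mulK z254 z255 fun z264 =>
  mulK z264 z254 fun z267 =>
  smulK z253 4722367608769552056320 fun z268 =>
  addcK z268 4722367608769552056320 0 fun z269 =>
  invK z269 fun z270 =>
  rsubK z270 4722366623607133569024 0 fun z271 =>
  mulK z267 z271 fun z272 =>
  mulK z109 z107 fun z120 =>
  addK z120 z105 fun z121 =>
  mulK z92 z121 fun z122 =>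
  mulK z44 z109 fun z123 =>
  addK z122 z123 fun z124 =>
  normK z124 fun z480 =>
  mulK z480 z114 fun z125 =>
  normK z125 fun z481 =>
  mulK x2 z481 fun z126 =>
  normK z126 fun z482 =>
  addcK z482 4722366764344621924352 0 fun z127 =>
  smulK z264 4722366342132156858368 fun z266 =>
  mulK z127 z266 fun z273 =>
  addK z272 z273 fun z274 =>
  a_B9 gs ps x1 z7 z108 z499 z66 z33 z77 z476 z105 z145 z43 z193 z210 z89 z488 z483 z138 z141 z154 z203 z206 z219 z169 z172 z234 z237 z374 z440 z432 z442 z119 z443 z64 z61 z373 z95 z96 z88 z97 z253 z254 z255 z481 z127 z266 z274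

def a_R8 (gs ps : ℕ) (W e z7 z44 z108 z114 z499 z66 z33 z77 z476 z105 z107 z145 z43 z193 z210 z89 z488 z483 z138 z141 z154 z203 z206 z219 z169 z172 z234 z237 z374 z440 z92 z432 z442 z109 z119 z443 z64 z61 z81 z373 z95 : ℝ) : Prop :=
  letR (z95 ^ 2) fun z96 =>
  letR (W * z81) fun z87 =>
  letR (z87 + (1 : ℝ)) fun z88 =>
  letR (z96 * z476) fun z97 =>
  letR ((1 : ℝ) - z97) fun z249 =>
  letR (√z249) fun z250 =>
  letR (z250 + (1 : ℝ)) fun z251 =>
  letR ((1 / 2 : ℝ) * z251) fun z252 =>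
  letR (√z252) fun z253 =>
  invR z253 fun z254 =>
  invR z250 fun z255 =>
  letR (z254 * z255) fun z264 =>
  letR (z264 * z254) fun z267 =>
  letR ((4 : ℝ) * z253) fun z268 =>
  letR (z268 + (4 : ℝ)) fun z269 =>
  invR z269 fun z270 =>
  letR ((1 / 2 : ℝ) - z270) fun z271 =>
  letR (z267 * z271) fun z272 =>
  letR (z109 * z107) fun z120 =>
  letR (z120 + z105) fun z121 =>
  letR (z92 * z121) fun z122 =>
  letR (z44 * z109) fun z123 =>
  letR (z122 + z123) fun z124 =>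
  letR z124 fun z480 =>
  letR (z480 * z114) fun z125 =>
  letR z125 fun z481 =>
  letR (e * z481) fun z126 =>
  letR z126 fun z482 =>
  letR (z482 + (1 : ℝ)) fun z127 =>
  letR ((-1 / 2 : ℝ) * z264) fun z266 =>
  letR (z127 * z266) fun z273 =>
  letR (z272 + z273) fun z274 =>
  a_R9 gs ps W z7 z108 z499 z66 z33 z77 z476 z105 z145 z43 z193 z210 z89 z488 z483 z138 z141 z154 z203 z206 z219 z169 z172 z234 z237 z374 z440 z432 z442 z119 z443 z64 z61 z373 z95 z96 z88 z97 z253 z254 z255 z481 z127 z266 z274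

theorem a_S8 {ε : Fin 4 → ℝ} (gs : ℕ) (hε : ∀ i, |ε i| ≤ 1) (ps : ℕ) (x1 x2 z7 z44 z108 z114 z499 z66 z33 z77 z476 z105 z107 z145 z43 z193 z210 z89 z488 z483 z138 z141 z154 z203 z206 z219 z169 z172 z234 z237 z374 z440 z92 z432 z442 z109 z119 z443 z64 z61 z81 z373 z95 : AF) (W e t7 t44 t108 t114 t499 t66 t33 t77 t476 t105 t107 t145 t43 t193 t210 t89 t488 t483 t138 t141 t154 t203 t206 t219 t169 t172 t234 t237 t374 t440 t92 t432 t442 t109 t119 t443 t64 t61 t81 t373 t95 : ℝ)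
    (h1 : Rel ε x1 W) (h2 : Rel ε x2 e) (g7 : Rel ε z7 t7) (g44 : Rel ε z44 t44) (g108 : Rel ε z108 t108) (g114 : Rel ε z114 t114) (g499 : Rel ε z499 t499) (g66 : Rel ε z66 t66) (g33 : Rel ε z33 t33) (g77 : Rel ε z77 t77) (g476 : Rel ε z476 t476) (g105 : Rel ε z105 t105) (g107 : Rel ε z107 t107) (g145 : Rel ε z145 t145) (g43 : Rel ε z43 t43) (g193 : Rel ε z193 t193) (g210 : Rel ε z210 t210) (g89 : Rel ε z89 t89) (g488 : Rel ε z488 t488) (g483 : Rel ε z483 t483) (g138 : Rel ε z138 t138) (g141 : Rel ε z141 t141) (g154 : Rel ε z154 t154) (g203 : Rel ε z203 t203) (g206 : Rel ε z206 t206) (g219 : Rel ε z219 t219) (g169 : Rel ε z169 t169) (g172 : Rel ε z172 t172) (g234 : Rel ε z234 t234) (g237 : Rel ε z237 t237) (g374 : Rel ε z374 t374) (g440 : Rel ε z440 t440) (g92 : Rel ε z92 t92) (g432 : Rel ε z432 t432) (g442 : Rel ε z442 t442) (g109 : Rel ε z109 t109) (g119 : Rel ε z119 t119) (g443 : Rel ε z443 t443) (g64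 : Rel ε z64 t64) (g61 : Rel ε z61 t61) (g81 : Rel ε z81 t81) (g373 : Rel ε z373 t373) (g95 : Rel ε z95 t95) :
    a_B8 gs ps x1 x2 z7 z44 z108 z114 z499 z66 z33 z77 z476 z105 z107 z145 z43 z193 z210 z89 z488 z483 z138 z141 z154 z203 z206 z219 z169 z172 z234 z237 z374 z440 z92 z432 z442 z109 z119 z443 z64 z61 z81 z373 z95 = true → a_R8 gs ps W e t7 t44 t108 t114 t499 t66 t33 t77 t476 t105 t107 t145 t43 t193 t210 t89 t488 t483 t138 t141 t154 t203 t206 t219 t169 t172 t234 t237 t374 t440 t92 t432 t442 t109 t119 t443 t64 t61 t81 t373 t95 := by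
  delta a_B8 a_R8
  exact sqrS hε g95 fun z96 t96 g96 =>
  mulS hε h1 g81 fun z87 t87 g87 =>
  addcS g87 k3 fun z88 t88 g88 =>
  mulS hε g96 g476 fun z97 t97 g97 =>
  rsubS g97 k3 fun z249 t249 g249 =>
  sqrtS hε g249 fun z250 t250 g250 =>
  addcS g250 k3 fun z251 t251 g251 =>
  smulS hε g251 k5 fun z252 t252 g252 =>
  sqrtS hε g252 fun z253 t253 g253 =>
  invS hε g253 fun z254 t254 g254 =>
  invS hε g250 fun z255 t255 g255 =>
  mulS hε g254 g255 fun z264 t264 g264 =>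
  mulS hε g264 g254 fun z267 t267 g267 =>
  smulS hε g253 k6 fun z268 t268 g268 =>
  addcS g268 k7 fun z269 t269 g269 =>
  invS hε g269 fun z270 t270 g270 =>
  rsubS g270 k8 fun z271 t271 g271 =>
  mulS hε g267 g271 fun z272 t272 g272 =>
  mulS hε g109 g107 fun z120 t120 g120 =>
  addS g120 g105 fun z121 t121 g121 =>
  mulS hε g92 g121 fun z122 t122 g122 =>
  mulS hε g44 g109 fun z123 t123 g123 =>
  addS g122 g123 fun z124 t124 g124 =>
  normS g124 fun z480 t480 g480 =>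
  mulS hε g480 g114 fun z125 t125 g125 =>
  normS g125 fun z481 t481 g481 =>
  mulS hε h2 g481 fun z126 t126 g126 =>
  normS g126 fun z482 t482 g482 =>
  addcS g482 k3 fun z127 t127 g127 =>
  smulS hε g264 k9 fun z266 t266 g266 =>
  mulS hε g127 g266 fun z273 t273 g273 =>
  addS g272 g273 fun z274 t274 g274 =>
  a_S9 gs hε ps x1 z7 z108 z499 z66 z33 z77 z476 z105 z145 z43 z193 z210 z89 z488 z483 z138 z141 z154 z203 z206 z219 z169 z172 z234 z237 z374 z440 z432 z442 z119 z443 z64 z61 z373 z95 z96 z88 z97 z253 z254 z255 z481 z127 z266 z274 W t7 t108 t499 t66 t33 t77 t476 t105 t145 t43 t193 t210 t89 t488 t483 t138 t141 t154 t203 t206 t219 t169 t172 t234 t237 t374 t440 t432 t442 t119 t443 t64 t61 t373 t95 t96 t88 t97 t253 t254 t255 t481 t127 t266 t274 h1 g7 g108 g499 g66 g33 g77 g476 g105 g145 g43 g193 g210 g89 g488 g483 g138 g141 g154 g203 g206 g219 g169 g172 g234 g237 g374 g440 g432 g442 g119 g443 g64 g61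 g373 g95 g96 g88 g97 g253 g254 g255 g481 g127 g266 g274

def a_B7 (gs ps : ℕ) (x1 x2 z7 z44 z50 z99 z108 z113 z114 z499 z37 z66 z33 z42 z77 z476 z105 z107 z145 z43 z193 z210 z89 z488 z483 z138 z141 z154 z203 z206 z219 z169 z172 z234 z237 z374 z440 : AF) : Bool :=
  rsubK z44 4722366764344621924352 0 fun z92 =>
  invK z92 fun z93 =>
  mulK z99 z93 fun z432 =>
  sqrtK z92 fun z94 =>
  invK z94 fun z441 =>
  mulK z432 z441 fun z442 =>
  addcK x2 4722367045819598635008 0 fun z109 =>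
  mulK z109 z94 fun z115 =>
  addK z113 z94 fun z116 =>
  invK z116 fun z117 =>
  mulK z115 z117 fun z118 =>
  normK z118 fun z479 =>
  rsubK z479 4722366482869645213696 0 fun z119 =>
  sqrK z119 fun z443 =>
  invK z50 fun z52 =>
  mulK z44 z52 fun z57 =>
  mulK z44 z57 fun z62 =>
  mulK (cst 4722366229542166174105 1) z62 fun z64 =>
  mulK z66 z64 fun z78 =>
  addK z37 z78 fun z79 =>
  mulK (cst 4722366989524603292876 1) z44 fun z59 =>
  addcK z59 4722366511017142884761 1 fun z60 =>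
  mulK z57 z60 fun z61 =>
  mulK z33 z61 fun z80 =>
  subK z79 z80 fun z81 =>
  mulK z81 z42 fun z373 =>
  mulK z44 z93 fun z95 =>
  a_B8 gs ps x1 x2 z7 z44 z108 z114 z499 z66 z33 z77 z476 z105 z107 z145 z43 z193 z210 z89 z488 z483 z138 z141 z154 z203 z206 z219 z169 z172 z234 z237 z374 z440 z92 z432 z442 z109 z119 z443 z64 z61 z81 z373 z95

def a_R7 (gs ps : ℕ) (W e z7 z44 z50 z99 z108 z113 z114 z499 z37 z66 z33 z42 z77 z476 z105 z107 z145 z43 z193 z210 z89 z488 z483 z138 z141 z154 z203 z206 z219 z169 z172 z234 z237 z374 z440 : ℝ) : Prop :=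
  letR ((1 : ℝ) - z44) fun z92 =>
  invR z92 fun z93 =>
  letR (z99 * z93) fun z432 =>
  letR (√z92) fun z94 =>
  invR z94 fun z441 =>
  letR (z432 * z441) fun z442 =>
  letR (e + (2 : ℝ)) fun z109 =>
  letR (z109 * z94) fun z115 =>
  letR (z113 + z94) fun z116 =>
  invR z116 fun z117 =>
  letR (z115 * z117) fun z118 =>
  letR z118 fun z479 =>
  letR ((0 : ℝ) - z479) fun z119 =>
  letR (z119 ^ 2) fun z443 =>
  invR z50 fun z52 =>
  letR (z44 * z52) fun z57 =>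
  letR (z44 * z57) fun z62 =>
  letR ((-9 / 10 : ℝ) * z62) fun z64 =>
  letR (z66 * z64) fun z78 =>
  letR (z37 + z78) fun z79 =>
  letR ((9 / 5 : ℝ) * z44) fun z59 =>
  letR (z59 + (1 / 10 : ℝ)) fun z60 =>
  letR (z57 * z60) fun z61 =>
  letR (z33 * z61) fun z80 =>
  letR (z79 - z80) fun z81 =>
  letR (z81 * z42) fun z373 =>
  letR (z44 * z93) fun z95 =>
  a_R8 gs ps W e z7 z44 z108 z114 z499 z66 z33 z77 z476 z105 z107 z145 z43 z193 z210 z89 z488 z483 z138 z141 z154 z203 z206 z219 z169 z172 z234 z237 z374 z440 z92 z432 z442 z109 z119 z443 z64 z61 z81 z373 z95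

theorem a_S7 {ε : Fin 4 → ℝ} (gs : ℕ) (hε : ∀ i, |ε i| ≤ 1) (ps : ℕ) (x1 x2 z7 z44 z50 z99 z108 z113 z114 z499 z37 z66 z33 z42 z77 z476 z105 z107 z145 z43 z193 z210 z89 z488 z483 z138 z141 z154 z203 z206 z219 z169 z172 z234 z237 z374 z440 : AF) (W e t7 t44 t50 t99 t108 t113 t114 t499 t37 t66 t33 t42 t77 t476 t105 t107 t145 t43 t193 t210 t89 t488 t483 t138 t141 t154 t203 t206 t219 t169 t172 t234 t237 t374 t440 : ℝ)
    (h1 : Rel ε x1 W) (h2 : Rel ε x2 e) (g7 : Rel ε z7 t7) (g44 : Rel ε z44 t44) (g50 : Rel ε z50 t50) (g99 : Rel ε z99 t99) (g108 : Rel ε z108 t108) (g113 : Rel ε z113 t113) (g114 : Rel ε z114 t114) (g499 : Rel ε z499 t499) (g37 : Rel ε z37 t37) (g66 : Rel ε z66 t66) (g33 : Rel ε z33 t33) (g42 : Rel ε z42 t42) (g77 : Rel ε z77 t77) (g476 : Rel ε z476 t476) (g105 : Rel ε z105 t105) (g107 : Rel ε z107 t107) (g145 : Rel ε z145 t145) (g43 : Rel ε z43 t43) (g193 : Rel ε z193 t193) (g210 : Rel ε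 z210 t210) (g89 : Rel ε z89 t89) (g488 : Rel ε z488 t488) (g483 : Rel ε z483 t483) (g138 : Rel ε z138 t138) (g141 : Rel ε z141 t141) (g154 : Rel ε z154 t154) (g203 : Rel ε z203 t203) (g206 : Rel ε z206 t206) (g219 : Rel ε z219 t219) (g169 : Rel ε z169 t169) (g172 : Rel ε z172 t172) (g234 : Rel ε z234 t234) (g237 : Rel ε z237 t237) (g374 : Rel ε z374 t374) (g440 : Rel ε z440 t440) :
    a_B7 gs ps x1 x2 z7 z44 z50 z99 z108 z113 z114 z499 z37 z66 z33 z42 z77 z476 z105 z107 z145 z43 z193 z210 z89 z488 z483 z138 z141 z154 z203 z206 z219 z169 z172 z234 z237 z374 z440 = true → a_R7 gs ps W e t7 t44 t50 t99 t108 t113 t114 t499 t37 t66 t33 t42 t77 t476 t105 t107 t145 t43 t193 t210 t89 t488 t483 t138 t141 t154 t203 t206 t219 t169 t172 t234 t237 t374 t440 := by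
  delta a_B7 a_R7
  exact rsubS g44 k3 fun z92 t92 g92 =>
  invS hε g92 fun z93 t93 g93 =>
  mulS hε g99 g93 fun z432 t432 g432 =>
  sqrtS hε g92 fun z94 t94 g94 =>
  invS hε g94 fun z441 t441 g441 =>
  mulS hε g432 g441 fun z442 t442 g442 =>
  addcS h2 k11 fun z109 t109 g109 =>
  mulS hε g109 g94 fun z115 t115 g115 =>
  addS g113 g94 fun z116 t116 g116 =>
  invS hε g116 fun z117 t117 g117 =>
  mulS hε g115 g117 fun z118 t118 g118 =>
  normS g118 fun z479 t479 g479 =>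
  rsubS g479 k12 fun z119 t119 g119 =>
  sqrS hε g119 fun z443 t443 g443 =>
  invS hε g50 fun z52 t52 g52 =>
  mulS hε g44 g52 fun z57 t57 g57 =>
  mulS hε g44 g57 fun z62 t62 g62 =>
  mulS hε (cst_rel k13) g62 fun z64 t64 g64 =>
  mulS hε g66 g64 fun z78 t78 g78 =>
  addS g37 g78 fun z79 t79 g79 =>
  mulS hε (cst_rel k14) g44 fun z59 t59 g59 =>
  addcS g59 k2 fun z60 t60 g60 =>
  mulS hε g57 g60 fun z61 t61 g61 =>
  mulS hε g33 g61 fun z80 t80 g80 =>
  subS g79 g80 fun z81 t81 g81 =>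
  mulS hε g81 g42 fun z373 t373 g373 =>
  mulS hε g44 g93 fun z95 t95 g95 =>
  a_S8 gs hε ps x1 x2 z7 z44 z108 z114 z499 z66 z33 z77 z476 z105 z107 z145 z43 z193 z210 z89 z488 z483 z138 z141 z154 z203 z206 z219 z169 z172 z234 z237 z374 z440 z92 z432 z442 z109 z119 z443 z64 z61 z81 z373 z95 W e t7 t44 t108 t114 t499 t66 t33 t77 t476 t105 t107 t145 t43 t193 t210 t89 t488 t483 t138 t141 t154 t203 t206 t219 t169 t172 t234 t237 t374 t440 t92 t432 t442 t109 t119 t443 t64 t61 t81 t373 t95 h1 h2 g7 g44 g108 g114 g499 g66 g33 g77 g476 g105 g107 g145 g43 g193 g210 g89 g488 g483 g138 g141 g154 g203 g206 g219 g169 g172 g234 g237 g374 g440 g92 g432 g442 g109 g119 g443 g64 g61 g81 g373 g95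

def a_B6 (gs ps : ℕ) (x1 x2 z7 z44 z50 z99 z108 z113 z114 z499 z37 z66 z33 z42 z77 z476 z105 z107 z145 z43 z193 z198 z200 z210 z89 z488 z483 z138 z141 z154 z164 z203 z206 z219 z220 z227 z229 z485 z437 : AF) : Bool :=
  sqrK z105 fun z438 =>
  mulK z483 z485 fun z167 =>
  mulK z476 z164 fun z165 =>
  mulK z145 z165 fun z168 =>
  subK z167 z168 fun z169 =>
  mulK z169 z485 fun z173 =>
  mulK z145 z485 fun z170 =>
  mulK z483 z164 fun z171 =>
  subK z170 z171 fun z172 =>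
  mulK z172 z165 fun z174 =>
  subK z173 z174 fun z175 =>
  mulK z77 z175 fun z388 =>
  mulK z198 z200 fun z209 =>
  mulK z220 z227 fun z228 =>
  mulK z209 z228 fun z232 =>
  mulK z193 z229 fun z230 =>
  mulK z210 z230 fun z233 =>
  subK z232 z233 fun z234 =>
  mulK z234 z228 fun z238 =>
  mulK z210 z228 fun z235 =>
  mulK z209 z229 fun z236 =>
  subK z235 z236 fun z237 =>
  mulK z237 z230 fun z239 =>
  subK z238 z239 fun z240 =>
  mulK z43 z240 fun z389 =>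
  subK z388 z389 fun z390 =>
  mulK z476 z488 fun z374 =>
  mulK z172 z485 fun z179 =>
  mulK z169 z164 fun z180 =>
  subK z179 z180 fun z181 =>
  mulK z374 z181 fun z391 =>
  addK z390 z391 fun z392 =>
  normK z392 fun z490 =>
  mulK z438 z490 fun z439 =>
  addK z437 z439 fun z440 =>
  a_B7 gs ps x1 x2 z7 z44 z50 z99 z108 z113 z114 z499 z37 z66 z33 z42 z77 z476 z105 z107 z145 z43 z193 z210 z89 z488 z483 z138 z141 z154 z203 z206 z219 z169 z172 z234 z237 z374 z440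

def a_R6 (gs ps : ℕ) (W e z7 z44 z50 z99 z108 z113 z114 z499 z37 z66 z33 z42 z77 z476 z105 z107 z145 z43 z193 z198 z200 z210 z89 z488 z483 z138 z141 z154 z164 z203 z206 z219 z220 z227 z229 z485 z437 : ℝ) : Prop :=
  letR (z105 ^ 2) fun z438 =>
  letR (z483 * z485) fun z167 =>
  letR (z476 * z164) fun z165 =>
  letR (z145 * z165) fun z168 =>
  letR (z167 - z168) fun z169 =>
  letR (z169 * z485) fun z173 =>
  letR (z145 * z485) fun z170 =>
  letR (z483 * z164) fun z171 =>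
  letR (z170 - z171) fun z172 =>
  letR (z172 * z165) fun z174 =>
  letR (z173 - z174) fun z175 =>
  letR (z77 * z175) fun z388 =>
  letR (z198 * z200) fun z209 =>
  letR (z220 * z227) fun z228 =>
  letR (z209 * z228) fun z232 =>
  letR (z193 * z229) fun z230 =>
  letR (z210 * z230) fun z233 =>
  letR (z232 - z233) fun z234 =>
  letR (z234 * z228) fun z238 =>
  letR (z210 * z228) fun z235 =>
  letR (z209 * z229) fun z236 =>
  letR (z235 - z236) fun z237 =>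
  letR (z237 * z230) fun z239 =>
  letR (z238 - z239) fun z240 =>
  letR (z43 * z240) fun z389 =>
  letR (z388 - z389) fun z390 =>
  letR (z476 * z488) fun z374 =>
  letR (z172 * z485) fun z179 =>
  letR (z169 * z164) fun z180 =>
  letR (z179 - z180) fun z181 =>
  letR (z374 * z181) fun z391 =>
  letR (z390 + z391) fun z392 =>
  letR z392 fun z490 =>
  letR (z438 * z490) fun z439 =>
  letR (z437 + z439) fun z440 =>
  a_R7 gs ps W e z7 z44 z50 z99 z108 z113 z114 z499 z37 z66 z33 z42 z77 z476 z105 z107 z145 z43 z193 z210 z89 z488 z483 z138 z141 z154 z203 z206 z219 z169 z172 z234 z237 z374 z440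

theorem a_S6 {ε : Fin 4 → ℝ} (gs : ℕ) (hε : ∀ i, |ε i| ≤ 1) (ps : ℕ) (x1 x2 z7 z44 z50 z99 z108 z113 z114 z499 z37 z66 z33 z42 z77 z476 z105 z107 z145 z43 z193 z198 z200 z210 z89 z488 z483 z138 z141 z154 z164 z203 z206 z219 z220 z227 z229 z485 z437 : AF) (W e t7 t44 t50 t99 t108 t113 t114 t499 t37 t66 t33 t42 t77 t476 t105 t107 t145 t43 t193 t198 t200 t210 t89 t488 t483 t138 t141 t154 t164 t203 t206 t219 t220 t227 t229 t485 t437 : ℝ)
    (h1 : Rel ε x1 W) (h2 : Rel ε x2 e) (g7 : Rel ε z7 t7) (g44 : Rel ε z44 t44) (g50 : Rel ε z50 t50) (g99 : Rel ε z99 t99) (g108 : Rel ε z108 t108) (g113 : Rel ε z113 t113) (g114 : Rel ε z114 t114) (g499 : Rel ε z499 t499) (g37 : Rel ε z37 t37) (g66 : Rel ε z66 t66) (g33 : Rel ε z33 t33) (g42 : Rel ε z42 t42) (g77 : Rel ε z77 t77) (g476 : Rel ε z476 t476) (g105 : Rel ε z105 t105) (g107 : Rel ε z107 t107) (g145 : Rel ε z145 t145) (g43 : Rel ε z43 t43) (g193 : Rel ε z193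 t193) (g198 : Rel ε z198 t198) (g200 : Rel ε z200 t200) (g210 : Rel ε z210 t210) (g89 : Rel ε z89 t89) (g488 : Rel ε z488 t488) (g483 : Rel ε z483 t483) (g138 : Rel ε z138 t138) (g141 : Rel ε z141 t141) (g154 : Rel ε z154 t154) (g164 : Rel ε z164 t164) (g203 : Rel ε z203 t203) (g206 : Rel ε z206 t206) (g219 : Rel ε z219 t219) (g220 : Rel ε z220 t220) (g227 : Rel ε z227 t227) (g229 : Rel ε z229 t229) (g485 : Rel ε z485 t485) (g437 : Rel ε z437 t437) :
    a_B6 gs ps x1 x2 z7 z44 z50 z99 z108 z113 z114 z499 z37 z66 z33 z42 z77 z476 z105 z107 z145 z43 z193 z198 z200 z210 z89 z488 z483 z138 z141 z154 z164 z203 z206 z219 z220 z227 z229 z485 z437 = true → a_R6 gs ps W e t7 t44 t50 t99 t108 t113 t114 t499 t37 t66 t33 t42 t77 t476 t105 t107 t145 t43 t193 t198 t200 t210 t89 t488 t483 t138 t141 t154 t164 t203 t206 t219 t220 t227 t229 t485 t437 := by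
  delta a_B6 a_R6
  exact sqrS hε g105 fun z438 t438 g438 =>
  mulS hε g483 g485 fun z167 t167 g167 =>
  mulS hε g476 g164 fun z165 t165 g165 =>
  mulS hε g145 g165 fun z168 t168 g168 =>
  subS g167 g168 fun z169 t169 g169 =>
  mulS hε g169 g485 fun z173 t173 g173 =>
  mulS hε g145 g485 fun z170 t170 g170 =>
  mulS hε g483 g164 fun z171 t171 g171 =>
  subS g170 g171 fun z172 t172 g172 =>
  mulS hε g172 g165 fun z174 t174 g174 =>
  subS g173 g174 fun z175 t175 g175 =>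
  mulS hε g77 g175 fun z388 t388 g388 =>
  mulS hε g198 g200 fun z209 t209 g209 =>
  mulS hε g220 g227 fun z228 t228 g228 =>
  mulS hε g209 g228 fun z232 t232 g232 =>
  mulS hε g193 g229 fun z230 t230 g230 =>
  mulS hε g210 g230 fun z233 t233 g233 =>
  subS g232 g233 fun z234 t234 g234 =>
  mulS hε g234 g228 fun z238 t238 g238 =>
  mulS hε g210 g228 fun z235 t235 g235 =>
  mulS hε g209 g229 fun z236 t236 g236 =>
  subS g235 g236 fun z237 t237 g237 =>
  mulS hε g237 g230 fun z239 t239 g239 =>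
  subS g238 g239 fun z240 t240 g240 =>
  mulS hε g43 g240 fun z389 t389 g389 =>
  subS g388 g389 fun z390 t390 g390 =>
  mulS hε g476 g488 fun z374 t374 g374 =>
  mulS hε g172 g485 fun z179 t179 g179 =>
  mulS hε g169 g164 fun z180 t180 g180 =>
  subS g179 g180 fun z181 t181 g181 =>
  mulS hε g374 g181 fun z391 t391 g391 =>
  addS g390 g391 fun z392 t392 g392 =>
  normS g392 fun z490 t490 g490 =>
  mulS hε g438 g490 fun z439 t439 g439 =>
  addS g437 g439 fun z440 t440 g440 =>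
  a_S7 gs hε ps x1 x2 z7 z44 z50 z99 z108 z113 z114 z499 z37 z66 z33 z42 z77 z476 z105 z107 z145 z43 z193 z210 z89 z488 z483 z138 z141 z154 z203 z206 z219 z169 z172 z234 z237 z374 z440 W e t7 t44 t50 t99 t108 t113 t114 t499 t37 t66 t33 t42 t77 t476 t105 t107 t145 t43 t193 t210 t89 t488 t483 t138 t141 t154 t203 t206 t219 t169 t172 t234 t237 t374 t440 h1 h2 g7 g44 g50 g99 g108 g113 g114 g499 g37 g66 g33 g42 g77 g476 g105 g107 g145 g43 g193 g210 g89 g488 g483 g138 g141 g154 g203 g206 g219 g169 g172 g234 g237 g374 g440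

def a_B5 (gs ps : ℕ) (x1 x2 z7 z44 z50 z99 z108 z113 z114 z499 z37 z66 z33 z42 z77 z476 z105 z107 z145 z43 z193 z198 z199 z200 z210 z89 z488 z483 z382 z135 z138 z141 z154 z157 z155 : AF) : Bool :=
  sqrK z155 fun z158 =>
  sqrK z157 fun z159 =>
  mulK z476 z159 fun z160 =>
  subK z158 z160 fun z161 =>
  invK z161 fun z162 =>
  mulK z157 z162 fun z164 =>
  addK z145 z164 fun z166 =>
  mulK z77 z166 fun z383 =>
  mulK z193 z135 fun z201 =>
  rsubK z201 4722366764344621924352 0 fun z202 =>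
  sqrtK z202 fun z203 =>
  addcK z203 4722366764344621924352 0 fun z204 =>
  smulK z204 4722366623607133569024 fun z205 =>
  sqrtK z205 fun z206 =>
  invK z206 fun z207 =>
  mulK z107 z207 fun z219 =>
  addK z219 z199 fun z221 =>
  smulK z221 4722366623607133569024 fun z222 =>
  addK z206 z198 fun z220 =>
  sqrK z220 fun z223 =>
  sqrK z222 fun z224 =>
  mulK z193 z224 fun z225 =>
  subK z223 z225 fun z226 =>
  invK z226 fun z227 =>
  mulK z222 z227 fun z229 =>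
  addK z210 z229 fun z231 =>
  mulK z43 z231 fun z384 =>
  subK z383 z384 fun z385 =>
  mulK z155 z162 fun z163 =>
  normK z163 fun z485 =>
  subK z483 z485 fun z178 =>
  mulK z488 z178 fun z386 =>
  addK z385 z386 fun z387 =>
  normK z387 fun z489 =>
  smulK z489 4722367045819598635008 fun z435 =>
  mulK z105 z435 fun z436 =>
  addK z382 z436 fun z437 =>
  a_B6 gs ps x1 x2 z7 z44 z50 z99 z108 z113 z114 z499 z37 z66 z33 z42 z77 z476 z105 z107 z145 z43 z193 z198 z200 z210 z89 z488 z483 z138 z141 z154 z164 z203 z206 z219 z220 z227 z229 z485 z437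

def a_R5 (gs ps : ℕ) (W e z7 z44 z50 z99 z108 z113 z114 z499 z37 z66 z33 z42 z77 z476 z105 z107 z145 z43 z193 z198 z199 z200 z210 z89 z488 z483 z382 z135 z138 z141 z154 z157 z155 : ℝ) : Prop :=
  letR (z155 ^ 2) fun z158 =>
  letR (z157 ^ 2) fun z159 =>
  letR (z476 * z159) fun z160 =>
  letR (z158 - z160) fun z161 =>
  invR z161 fun z162 =>
  letR (z157 * z162) fun z164 =>
  letR (z145 + z164) fun z166 =>
  letR (z77 * z166) fun z383 =>
  letR (z193 * z135) fun z201 =>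
  letR ((1 : ℝ) - z201) fun z202 =>
  letR (√z202) fun z203 =>
  letR (z203 + (1 : ℝ)) fun z204 =>
  letR ((1 / 2 : ℝ) * z204) fun z205 =>
  letR (√z205) fun z206 =>
  invR z206 fun z207 =>
  letR (z107 * z207) fun z219 =>
  letR (z219 + z199) fun z221 =>
  letR ((1 / 2 : ℝ) * z221) fun z222 =>
  letR (z206 + z198) fun z220 =>
  letR (z220 ^ 2) fun z223 =>
  letR (z222 ^ 2) fun z224 =>
  letR (z193 * z224) fun z225 =>
  letR (z223 - z225) fun z226 =>
  invR z226 fun z227 =>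
  letR (z222 * z227) fun z229 =>
  letR (z210 + z229) fun z231 =>
  letR (z43 * z231) fun z384 =>
  letR (z383 - z384) fun z385 =>
  letR (z155 * z162) fun z163 =>
  letR z163 fun z485 =>
  letR (z483 - z485) fun z178 =>
  letR (z488 * z178) fun z386 =>
  letR (z385 + z386) fun z387 =>
  letR z387 fun z489 =>
  letR ((2 : ℝ) * z489) fun z435 =>
  letR (z105 * z435) fun z436 =>
  letR (z382 + z436) fun z437 =>
  a_R6 gs ps W e z7 z44 z50 z99 z108 z113 z114 z499 z37 z66 z33 z42 z77 z476 z105 z107 z145 z43 z193 z198 z200 z210 z89 z488 z483 z138 z141 z154 z164 z203 z206 z219 z220 z227 z229 z485 z437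

theorem a_S5 {ε : Fin 4 → ℝ} (gs : ℕ) (hε : ∀ i, |ε i| ≤ 1) (ps : ℕ) (x1 x2 z7 z44 z50 z99 z108 z113 z114 z499 z37 z66 z33 z42 z77 z476 z105 z107 z145 z43 z193 z198 z199 z200 z210 z89 z488 z483 z382 z135 z138 z141 z154 z157 z155 : AF) (W e t7 t44 t50 t99 t108 t113 t114 t499 t37 t66 t33 t42 t77 t476 t105 t107 t145 t43 t193 t198 t199 t200 t210 t89 t488 t483 t382 t135 t138 t141 t154 t157 t155 : ℝ)
    (h1 : Rel ε x1 W) (h2 : Rel ε x2 e) (g7 : Rel ε z7 t7) (g44 : Rel ε z44 t44) (g50 : Rel ε z50 t50) (g99 : Rel ε z99 t99) (g108 : Rel ε z108 t108) (g113 : Rel ε z113 t113) (g114 : Rel ε z114 t114) (g499 : Rel ε z499 t499) (g37 : Rel ε z37 t37) (g66 : Rel ε z66 t66) (g33 : Rel ε z33 t33) (g42 : Rel ε z42 t42) (g77 : Rel ε z77 t77) (g476 : Rel ε z476 t476) (g105 : Rel ε z105 t105) (g107 : Rel ε z107 t107) (g145 : Rel ε z145 t145) (g43 : Rel ε z43 t43) (g193 : Rel ε z193 t193) (g198 : Rel ε z198 t198) (g199 : Rel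 ε z199 t199) (g200 : Rel ε z200 t200) (g210 : Rel ε z210 t210) (g89 : Rel ε z89 t89) (g488 : Rel ε z488 t488) (g483 : Rel ε z483 t483) (g382 : Rel ε z382 t382) (g135 : Rel ε z135 t135) (g138 : Rel ε z138 t138) (g141 : Rel ε z141 t141) (g154 : Rel ε z154 t154) (g157 : Rel ε z157 t157) (g155 : Rel ε z155 t155) :
    a_B5 gs ps x1 x2 z7 z44 z50 z99 z108 z113 z114 z499 z37 z66 z33 z42 z77 z476 z105 z107 z145 z43 z193 z198 z199 z200 z210 z89 z488 z483 z382 z135 z138 z141 z154 z157 z155 = true → a_R5 gs ps W e t7 t44 t50 t99 t108 t113 t114 t499 t37 t66 t33 t42 t77 t476 t105 t107 t145 t43 t193 t198 t199 t200 t210 t89 t488 t483 t382 t135 t138 t141 t154 t157 t155 := by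
  delta a_B5 a_R5
  exact sqrS hε g155 fun z158 t158 g158 =>
  sqrS hε g157 fun z159 t159 g159 =>
  mulS hε g476 g159 fun z160 t160 g160 =>
  subS g158 g160 fun z161 t161 g161 =>
  invS hε g161 fun z162 t162 g162 =>
  mulS hε g157 g162 fun z164 t164 g164 =>
  addS g145 g164 fun z166 t166 g166 =>
  mulS hε g77 g166 fun z383 t383 g383 =>
  mulS hε g193 g135 fun z201 t201 g201 =>
  rsubS g201 k3 fun z202 t202 g202 =>
  sqrtS hε g202 fun z203 t203 g203 =>
  addcS g203 k3 fun z204 t204 g204 =>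
  smulS hε g204 k5 fun z205 t205 g205 =>
  sqrtS hε g205 fun z206 t206 g206 =>
  invS hε g206 fun z207 t207 g207 =>
  mulS hε g107 g207 fun z219 t219 g219 =>
  addS g219 g199 fun z221 t221 g221 =>
  smulS hε g221 k5 fun z222 t222 g222 =>
  addS g206 g198 fun z220 t220 g220 =>
  sqrS hε g220 fun z223 t223 g223 =>
  sqrS hε g222 fun z224 t224 g224 =>
  mulS hε g193 g224 fun z225 t225 g225 =>
  subS g223 g225 fun z226 t226 g226 =>
  invS hε g226 fun z227 t227 g227 =>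
  mulS hε g222 g227 fun z229 t229 g229 =>
  addS g210 g229 fun z231 t231 g231 =>
  mulS hε g43 g231 fun z384 t384 g384 =>
  subS g383 g384 fun z385 t385 g385 =>
  mulS hε g155 g162 fun z163 t163 g163 =>
  normS g163 fun z485 t485 g485 =>
  subS g483 g485 fun z178 t178 g178 =>
  mulS hε g488 g178 fun z386 t386 g386 =>
  addS g385 g386 fun z387 t387 g387 =>
  normS g387 fun z489 t489 g489 =>
  smulS hε g489 k10 fun z435 t435 g435 =>
  mulS hε g105 g435 fun z436 t436 g436 =>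
  addS g382 g436 fun z437 t437 g437 =>
  a_S6 gs hε ps x1 x2 z7 z44 z50 z99 z108 z113 z114 z499 z37 z66 z33 z42 z77 z476 z105 z107 z145 z43 z193 z198 z200 z210 z89 z488 z483 z138 z141 z154 z164 z203 z206 z219 z220 z227 z229 z485 z437 W e t7 t44 t50 t99 t108 t113 t114 t499 t37 t66 t33 t42 t77 t476 t105 t107 t145 t43 t193 t198 t200 t210 t89 t488 t483 t138 t141 t154 t164 t203 t206 t219 t220 t227 t229 t485 t437 h1 h2 g7 g44 g50 g99 g108 g113 g114 g499 g37 g66 g33 g42 g77 g476 g105 g107 g145 g43 g193 g198 g200 g210 g89 g488 g483 g138 g141 g154 g164 g203 g206 g219 g220 g227 g229 g485 g437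

def a_B4 (gs ps : ℕ) (x1 x2 z7 z44 z50 z99 z108 z113 z114 z499 z37 z66 z33 z42 z77 z476 z132 z133 z134 z105 z107 z145 z43 z193 z198 z199 z200 z210 z380 z75 : AF) : Bool :=
  sqrtK z42 fun z89 =>
  mulK z75 z89 fun z370 =>
  normK z370 fun z488 =>
  mulK z132 z134 fun z144 =>
  normK z144 fun z483 =>
  mulK z107 z483 fun z176 =>
  addK z176 z145 fun z177 =>
  normK z177 fun z486 =>
  mulK z488 z486 fun z381 =>
  addK z380 z381 fun z382 =>
  sqrK z107 fun z135 =>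
  mulK z476 z135 fun z136 =>
  rsubK z136 4722366764344621924352 0 fun z137 =>
  sqrtK z137 fun z138 =>
  addcK z138 4722366764344621924352 0 fun z139 =>
  smulK z139 4722366623607133569024 fun z140 =>
  sqrtK z140 fun z141 =>
  invK z141 fun z142 =>
  mulK z107 z142 fun z154 =>
  addK z154 z133 fun z156 =>
  smulK z156 4722366623607133569024 fun z157 =>
  addK z141 z132 fun z155 =>
  a_B5 gs ps x1 x2 z7 z44 z50 z99 z108 z113 z114 z499 z37 z66 z33 z42 z77 z476 z105 z107 z145 z43 z193 z198 z199 z200 z210 z89 z488 z483 z382 z135 z138 z141 z154 z157 z155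

def a_R4 (gs ps : ℕ) (W e z7 z44 z50 z99 z108 z113 z114 z499 z37 z66 z33 z42 z77 z476 z132 z133 z134 z105 z107 z145 z43 z193 z198 z199 z200 z210 z380 z75 : ℝ) : Prop :=
  letR (√z42) fun z89 =>
  letR (z75 * z89) fun z370 =>
  letR z370 fun z488 =>
  letR (z132 * z134) fun z144 =>
  letR z144 fun z483 =>
  letR (z107 * z483) fun z176 =>
  letR (z176 + z145) fun z177 =>
  letR z177 fun z486 =>
  letR (z488 * z486) fun z381 =>
  letR (z380 + z381) fun z382 =>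
  letR (z107 ^ 2) fun z135 =>
  letR (z476 * z135) fun z136 =>
  letR ((1 : ℝ) - z136) fun z137 =>
  letR (√z137) fun z138 =>
  letR (z138 + (1 : ℝ)) fun z139 =>
  letR ((1 / 2 : ℝ) * z139) fun z140 =>
  letR (√z140) fun z141 =>
  invR z141 fun z142 =>
  letR (z107 * z142) fun z154 =>
  letR (z154 + z133) fun z156 =>
  letR ((1 / 2 : ℝ) * z156) fun z157 =>
  letR (z141 + z132) fun z155 =>
  a_R5 gs ps W e z7 z44 z50 z99 z108 z113 z114 z499 z37 z66 z33 z42 z77 z476 z105 z107 z145 z43 z193 z198 z199 z200 z210 z89 z488 z483 z382 z135 z138 z141 z154 z157 z155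

theorem a_S4 {ε : Fin 4 → ℝ} (gs : ℕ) (hε : ∀ i, |ε i| ≤ 1) (ps : ℕ) (x1 x2 z7 z44 z50 z99 z108 z113 z114 z499 z37 z66 z33 z42 z77 z476 z132 z133 z134 z105 z107 z145 z43 z193 z198 z199 z200 z210 z380 z75 : AF) (W e t7 t44 t50 t99 t108 t113 t114 t499 t37 t66 t33 t42 t77 t476 t132 t133 t134 t105 t107 t145 t43 t193 t198 t199 t200 t210 t380 t75 : ℝ)
    (h1 : Rel ε x1 W) (h2 : Rel ε x2 e) (g7 : Rel ε z7 t7) (g44 : Rel ε z44 t44) (g50 : Rel ε z50 t50) (g99 : Rel ε z99 t99) (g108 : Rel ε z108 t108) (g113 : Rel ε z113 t113) (g114 : Rel ε z114 t114) (g499 : Rel ε z499 t499) (g37 : Rel ε z37 t37) (g66 : Rel ε z66 t66) (g33 : Rel ε z33 t33) (g42 : Rel ε z42 t42) (g77 : Rel ε z77 t77) (g476 : Rel ε z476 t476) (g132 : Rel ε z132 t132) (g133 : Rel ε z133 t133) (g134 : Rel ε z134 t134) (g105 : Rel ε z105 t105) (g107 : Rel ε z107 t107) (g145 : Rel ε z145 t145) (g43 : Rel ε z43 t43) (g193 : Rel ε z193 t193) (g198 : Rel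 ε z198 t198) (g199 : Rel ε z199 t199) (g200 : Rel ε z200 t200) (g210 : Rel ε z210 t210) (g380 : Rel ε z380 t380) (g75 : Rel ε z75 t75) :
    a_B4 gs ps x1 x2 z7 z44 z50 z99 z108 z113 z114 z499 z37 z66 z33 z42 z77 z476 z132 z133 z134 z105 z107 z145 z43 z193 z198 z199 z200 z210 z380 z75 = true → a_R4 gs ps W e t7 t44 t50 t99 t108 t113 t114 t499 t37 t66 t33 t42 t77 t476 t132 t133 t134 t105 t107 t145 t43 t193 t198 t199 t200 t210 t380 t75 := by
  delta a_B4 a_R4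
  exact sqrtS hε g42 fun z89 t89 g89 =>
  mulS hε g75 g89 fun z370 t370 g370 =>
  normS g370 fun z488 t488 g488 =>
  mulS hε g132 g134 fun z144 t144 g144 =>
  normS g144 fun z483 t483 g483 =>
  mulS hε g107 g483 fun z176 t176 g176 =>
  addS g176 g145 fun z177 t177 g177 =>
  normS g177 fun z486 t486 g486 =>
  mulS hε g488 g486 fun z381 t381 g381 =>
  addS g380 g381 fun z382 t382 g382 =>
  sqrS hε g107 fun z135 t135 g135 =>
  mulS hε g476 g135 fun z136 t136 g136 =>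
  rsubS g136 k3 fun z137 t137 g137 =>
  sqrtS hε g137 fun z138 t138 g138 =>
  addcS g138 k3 fun z139 t139 g139 =>
  smulS hε g139 k5 fun z140 t140 g140 =>
  sqrtS hε g140 fun z141 t141 g141 =>
  invS hε g141 fun z142 t142 g142 =>
  mulS hε g107 g142 fun z154 t154 g154 =>
  addS g154 g133 fun z156 t156 g156 =>
  smulS hε g156 k5 fun z157 t157 g157 =>
  addS g141 g132 fun z155 t155 g155 =>
  a_S5 gs hε ps x1 x2 z7 z44 z50 z99 z108 z113 z114 z499 z37 z66 z33 z42 z77 z476 z105 z107 z145 z43 z193 z198 z199 z200 z210 z89 z488 z483 z382 z135 z138 z141 z154 z157 z155 W e t7 t44 t50 t99 t108 t113 t114 t499 t37 t66 t33 t42 t77 t476 t105 t107 t145 t43 t193 t198 t199 t200 t210 t89 t488 t483 t382 t135 t138 t141 t154 t157 t155 h1 h2 g7 g44 g50 g99 g108 g113 g114 g499 g37 g66 g33 g42 g77 g476 g105 g107 g145 g43 g193 g198 g199 g200 g210 g89 g488 g483 g382 g135 g138 g141 g154 g157 g155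

def a_B3 (gs ps : ℕ) (x1 x2 z7 z44 z50 z99 z108 z113 z114 z499 z37 z66 z55 z33 z56 z42 z77 z476 z132 z133 z134 z105 z107 z145 z378 : AF) : Bool :=
  parK gs 0 fun z8 =>
  sqrK z8 fun z43 =>
  mulK z43 z476 fun z193 =>
  rsubK z193 4722366764344621924352 0 fun z194 =>
  sqrtK z194 fun z195 =>
  addcK z195 4722366764344621924352 0 fun z196 =>
  smulK z196 4722366623607133569024 fun z197 =>
  sqrtK z197 fun z198 =>
  invK z198 fun z199 =>
  invK z195 fun z200 =>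
  mulK z199 z200 fun z208 =>
  mulK z208 z199 fun z211 =>
  smulK z198 4722367608769552056320 fun z212 =>
  addcK z212 4722367608769552056320 0 fun z213 =>
  invK z213 fun z214 =>
  rsubK z214 4722366623607133569024 0 fun z215 =>
  mulK z211 z215 fun z216 =>
  smulK z208 4722366342132156858368 fun z210 =>
  mulK z107 z210 fun z217 =>
  addK z216 z217 fun z218 =>
  mulK z43 z218 fun z379 =>
  subK z378 z379 fun z380 =>
  mulK z66 z56 fun z71 =>
  mulK x1 z55 fun z72 =>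
  addcK z72 4722366764344621924352 0 fun z73 =>
  mulK z33 z73 fun z74 =>
  addK z71 z74 fun z75 =>
  a_B4 gs ps x1 x2 z7 z44 z50 z99 z108 z113 z114 z499 z37 z66 z33 z42 z77 z476 z132 z133 z134 z105 z107 z145 z43 z193 z198 z199 z200 z210 z380 z75

def a_R3 (gs ps : ℕ) (W e z7 z44 z50 z99 z108 z113 z114 z499 z37 z66 z55 z33 z56 z42 z77 z476 z132 z133 z134 z105 z107 z145 z378 : ℝ) : Prop :=
  letR (parV gs 0) fun z8 =>
  letR (z8 ^ 2) fun z43 =>
  letR (z43 * z476) fun z193 =>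
  letR ((1 : ℝ) - z193) fun z194 =>
  letR (√z194) fun z195 =>
  letR (z195 + (1 : ℝ)) fun z196 =>
  letR ((1 / 2 : ℝ) * z196) fun z197 =>
  letR (√z197) fun z198 =>
  invR z198 fun z199 =>
  invR z195 fun z200 =>
  letR (z199 * z200) fun z208 =>
  letR (z208 * z199) fun z211 =>
  letR ((4 : ℝ) * z198) fun z212 =>
  letR (z212 + (4 : ℝ)) fun z213 =>
  invR z213 fun z214 =>
  letR ((1 / 2 : ℝ) - z214) fun z215 =>
  letR (z211 * z215) fun z216 =>
  letR ((-1 / 2 : ℝ) * z208) fun z210 =>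
  letR (z107 * z210) fun z217 =>
  letR (z216 + z217) fun z218 =>
  letR (z43 * z218) fun z379 =>
  letR (z378 - z379) fun z380 =>
  letR (z66 * z56) fun z71 =>
  letR (W * z55) fun z72 =>
  letR (z72 + (1 : ℝ)) fun z73 =>
  letR (z33 * z73) fun z74 =>
  letR (z71 + z74) fun z75 =>
  a_R4 gs ps W e z7 z44 z50 z99 z108 z113 z114 z499 z37 z66 z33 z42 z77 z476 z132 z133 z134 z105 z107 z145 z43 z193 z198 z199 z200 z210 z380 z75

theorem a_S3 {ε : Fin 4 → ℝ} (gs : ℕ) (hε : ∀ i, |ε i| ≤ 1) (ps : ℕ) (x1 x2 z7 z44 z50 z99 z108 z113 z114 z499 z37 z66 z55 z33 z56 z42 z77 z476 z132 z133 z134 z105 z107 z145 z378 : AF) (W e t7 t44 t50 t99 t108 t113 t114 t499 t37 t66 t55 t33 t56 t42 t77 t476 t132 t133 t134 t105 t107 t145 t378 : ℝ)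
    (h1 : Rel ε x1 W) (h2 : Rel ε x2 e) (g7 : Rel ε z7 t7) (g44 : Rel ε z44 t44) (g50 : Rel ε z50 t50) (g99 : Rel ε z99 t99) (g108 : Rel ε z108 t108) (g113 : Rel ε z113 t113) (g114 : Rel ε z114 t114) (g499 : Rel ε z499 t499) (g37 : Rel ε z37 t37) (g66 : Rel ε z66 t66) (g55 : Rel ε z55 t55) (g33 : Rel ε z33 t33) (g56 : Rel ε z56 t56) (g42 : Rel ε z42 t42) (g77 : Rel ε z77 t77) (g476 : Rel ε z476 t476) (g132 : Rel ε z132 t132) (g133 : Rel ε z133 t133) (g134 : Rel ε z134 t134) (g105 : Rel ε z105 t105) (g107 : Rel ε z107 t107) (g145 : Rel ε z145 t145) (g378 : Rel ε z378 t378) :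
    a_B3 gs ps x1 x2 z7 z44 z50 z99 z108 z113 z114 z499 z37 z66 z55 z33 z56 z42 z77 z476 z132 z133 z134 z105 z107 z145 z378 = true → a_R3 gs ps W e t7 t44 t50 t99 t108 t113 t114 t499 t37 t66 t55 t33 t56 t42 t77 t476 t132 t133 t134 t105 t107 t145 t378 := by
  delta a_B3 a_R3
  exact parS fun z8 t8 g8 =>
  sqrS hε g8 fun z43 t43 g43 =>
  mulS hε g43 g476 fun z193 t193 g193 =>
  rsubS g193 k3 fun z194 t194 g194 =>
  sqrtS hε g194 fun z195 t195 g195 =>
  addcS g195 k3 fun z196 t196 g196 =>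
  smulS hε g196 k5 fun z197 t197 g197 =>
  sqrtS hε g197 fun z198 t198 g198 =>
  invS hε g198 fun z199 t199 g199 =>
  invS hε g195 fun z200 t200 g200 =>
  mulS hε g199 g200 fun z208 t208 g208 =>
  mulS hε g208 g199 fun z211 t211 g211 =>
  smulS hε g198 k6 fun z212 t212 g212 =>
  addcS g212 k7 fun z213 t213 g213 =>
  invS hε g213 fun z214 t214 g214 =>
  rsubS g214 k8 fun z215 t215 g215 =>
  mulS hε g211 g215 fun z216 t216 g216 =>
  smulS hε g208 k9 fun z210 t210 g210 =>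
  mulS hε g107 g210 fun z217 t217 g217 =>
  addS g216 g217 fun z218 t218 g218 =>
  mulS hε g43 g218 fun z379 t379 g379 =>
  subS g378 g379 fun z380 t380 g380 =>
  mulS hε g66 g56 fun z71 t71 g71 =>
  mulS hε h1 g55 fun z72 t72 g72 =>
  addcS g72 k3 fun z73 t73 g73 =>
  mulS hε g33 g73 fun z74 t74 g74 =>
  addS g71 g74 fun z75 t75 g75 =>
  a_S4 gs hε ps x1 x2 z7 z44 z50 z99 z108 z113 z114 z499 z37 z66 z33 z42 z77 z476 z132 z133 z134 z105 z107 z145 z43 z193 z198 z199 z200 z210 z380 z75 W e t7 t44 t50 t99 t108 t113 t114 t499 t37 t66 t33 t42 t77 t476 t132 t133 t134 t105 t107 t145 t43 t193 t198 t199 t200 t210 t380 t75 h1 h2 g7 g44 g50 g99 g108 g113 g114 g499 g37 g66 g33 g42 g77 g476 g132 g133 g134 g105 g107 g145 g43 g193 g198 g199 g200 g210 g380 g75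

def a_B2 (gs ps : ℕ) (x0 x1 x2 z3 z4 z5 z6 z7 z44 z50 z99 z108 z113 z114 z499 z37 z66 z55 z33 z56 z474 z42 : AF) : Bool :=
  mulK z474 z42 fun z371 =>
  mulK x1 z474 fun z76 =>
  addcK z76 4722366764344621924352 0 fun z77 =>
  invK z42 fun z90 =>
  mulK x1 z90 fun z91 =>
  normK z91 fun z476 =>
  rsubK z476 4722366764344621924352 0 fun z128 =>
  sqrtK z128 fun z129 =>
  addcK z129 4722366764344621924352 0 fun z130 =>
  smulK z130 4722366623607133569024 fun z131 =>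
  sqrtK z131 fun z132 =>
  invK z132 fun z133 =>
  invK z129 fun z134 =>
  mulK z133 z134 fun z143 =>
  mulK z143 z133 fun z146 =>
  smulK z132 4722367608769552056320 fun z147 =>
  addcK z147 4722367608769552056320 0 fun z148 =>
  invK z148 fun z149 =>
  rsubK z149 4722366623607133569024 0 fun z150 =>
  mulK z146 z150 fun z151 =>
  mulK z4 x0 fun z100 =>
  addK z3 z100 fun z101 =>
  mulK z5 x1 fun z102 =>
  addK z101 z102 fun z103 =>
  mulK z6 x2 fun z104 =>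
  addK z103 z104 fun z105 =>
  mulK z105 x2 fun z106 =>
  normK z106 fun z478 =>
  addcK z478 4722366764344621924352 0 fun z107 =>
  smulK z143 4722366342132156858368 fun z145 =>
  mulK z107 z145 fun z152 =>
  addK z151 z152 fun z153 =>
  normK z153 fun z484 =>
  mulK z77 z484 fun z377 =>
  addK z371 z377 fun z378 =>
  a_B3 gs ps x1 x2 z7 z44 z50 z99 z108 z113 z114 z499 z37 z66 z55 z33 z56 z42 z77 z476 z132 z133 z134 z105 z107 z145 z378

def a_R2 (gs ps : ℕ) (sg W e z3 z4 z5 z6 z7 z44 z50 z99 z108 z113 z114 z499 z37 z66 z55 z33 z56 z474 z42 : ℝ) : Prop :=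
  letR (z474 * z42) fun z371 =>
  letR (W * z474) fun z76 =>
  letR (z76 + (1 : ℝ)) fun z77 =>
  invR z42 fun z90 =>
  letR (W * z90) fun z91 =>
  letR z91 fun z476 =>
  letR ((1 : ℝ) - z476) fun z128 =>
  letR (√z128) fun z129 =>
  letR (z129 + (1 : ℝ)) fun z130 =>
  letR ((1 / 2 : ℝ) * z130) fun z131 =>
  letR (√z131) fun z132 =>
  invR z132 fun z133 =>
  invR z129 fun z134 =>
  letR (z133 * z134) fun z143 =>
  letR (z143 * z133) fun z146 =>
  letR ((4 : ℝ) * z132) fun z147 =>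
  letR (z147 + (4 : ℝ)) fun z148 =>
  invR z148 fun z149 =>
  letR ((1 / 2 : ℝ) - z149) fun z150 =>
  letR (z146 * z150) fun z151 =>
  letR (z4 * sg) fun z100 =>
  letR (z3 + z100) fun z101 =>
  letR (z5 * W) fun z102 =>
  letR (z101 + z102) fun z103 =>
  letR (z6 * e) fun z104 =>
  letR (z103 + z104) fun z105 =>
  letR (z105 * e) fun z106 =>
  letR z106 fun z478 =>
  letR (z478 + (1 : ℝ)) fun z107 =>
  letR ((-1 / 2 : ℝ) * z143) fun z145 =>
  letR (z107 * z145) fun z152 =>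
  letR (z151 + z152) fun z153 =>
  letR z153 fun z484 =>
  letR (z77 * z484) fun z377 =>
  letR (z371 + z377) fun z378 =>
  a_R3 gs ps W e z7 z44 z50 z99 z108 z113 z114 z499 z37 z66 z55 z33 z56 z42 z77 z476 z132 z133 z134 z105 z107 z145 z378

theorem a_S2 {ε : Fin 4 → ℝ} (gs : ℕ) (hε : ∀ i, |ε i| ≤ 1) (ps : ℕ) (x0 x1 x2 z3 z4 z5 z6 z7 z44 z50 z99 z108 z113 z114 z499 z37 z66 z55 z33 z56 z474 z42 : AF) (sg W e t3 t4 t5 t6 t7 t44 t50 t99 t108 t113 t114 t499 t37 t66 t55 t33 t56 t474 t42 : ℝ)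
    (h0 : Rel ε x0 sg) (h1 : Rel ε x1 W) (h2 : Rel ε x2 e) (g3 : Rel ε z3 t3) (g4 : Rel ε z4 t4) (g5 : Rel ε z5 t5) (g6 : Rel ε z6 t6) (g7 : Rel ε z7 t7) (g44 : Rel ε z44 t44) (g50 : Rel ε z50 t50) (g99 : Rel ε z99 t99) (g108 : Rel ε z108 t108) (g113 : Rel ε z113 t113) (g114 : Rel ε z114 t114) (g499 : Rel ε z499 t499) (g37 : Rel ε z37 t37) (g66 : Rel ε z66 t66) (g55 : Rel ε z55 t55) (g33 : Rel ε z33 t33) (g56 : Rel ε z56 t56) (g474 : Rel ε z474 t474) (g42 : Rel ε z42 t42) :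
    a_B2 gs ps x0 x1 x2 z3 z4 z5 z6 z7 z44 z50 z99 z108 z113 z114 z499 z37 z66 z55 z33 z56 z474 z42 = true → a_R2 gs ps sg W e t3 t4 t5 t6 t7 t44 t50 t99 t108 t113 t114 t499 t37 t66 t55 t33 t56 t474 t42 := by
  delta a_B2 a_R2
  exact mulS hε g474 g42 fun z371 t371 g371 =>
  mulS hε h1 g474 fun z76 t76 g76 =>
  addcS g76 k3 fun z77 t77 g77 =>
  invS hε g42 fun z90 t90 g90 =>
  mulS hε h1 g90 fun z91 t91 g91 =>
  normS g91 fun z476 t476 g476 =>
  rsubS g476 k3 fun z128 t128 g128 =>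
  sqrtS hε g128 fun z129 t129 g129 =>
  addcS g129 k3 fun z130 t130 g130 =>
  smulS hε g130 k5 fun z131 t131 g131 =>
  sqrtS hε g131 fun z132 t132 g132 =>
  invS hε g132 fun z133 t133 g133 =>
  invS hε g129 fun z134 t134 g134 =>
  mulS hε g133 g134 fun z143 t143 g143 =>
  mulS hε g143 g133 fun z146 t146 g146 =>
  smulS hε g132 k6 fun z147 t147 g147 =>
  addcS g147 k7 fun z148 t148 g148 =>
  invS hε g148 fun z149 t149 g149 =>
  rsubS g149 k8 fun z150 t150 g150 =>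
  mulS hε g146 g150 fun z151 t151 g151 =>
  mulS hε g4 h0 fun z100 t100 g100 =>
  addS g3 g100 fun z101 t101 g101 =>
  mulS hε g5 h1 fun z102 t102 g102 =>
  addS g101 g102 fun z103 t103 g103 =>
  mulS hε g6 h2 fun z104 t104 g104 =>
  addS g103 g104 fun z105 t105 g105 =>
  mulS hε g105 h2 fun z106 t106 g106 =>
  normS g106 fun z478 t478 g478 =>
  addcS g478 k3 fun z107 t107 g107 =>
  smulS hε g143 k9 fun z145 t145 g145 =>
  mulS hε g107 g145 fun z152 t152 g152 =>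
  addS g151 g152 fun z153 t153 g153 =>
  normS g153 fun z484 t484 g484 =>
  mulS hε g77 g484 fun z377 t377 g377 =>
  addS g371 g377 fun z378 t378 g378 =>
  a_S3 gs hε ps x1 x2 z7 z44 z50 z99 z108 z113 z114 z499 z37 z66 z55 z33 z56 z42 z77 z476 z132 z133 z134 z105 z107 z145 z378 W e t7 t44 t50 t99 t108 t113 t114 t499 t37 t66 t55 t33 t56 t42 t77 t476 t132 t133 t134 t105 t107 t145 t378 h1 h2 g7 g44 g50 g99 g108 g113 g114 g499 g37 g66 g55 g33 g56 g42 g77 g476 g132 g133 g134 g105 g107 g145 g378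

def a_B1 (gs ps : ℕ) (x0 x1 x2 z3 z4 z5 z6 z7 z44 z50 z51 z99 z108 z113 z114 z499 : AF) : Bool :=
  parK gs 4 fun z12 =>
  parK gs 5 fun z13 =>
  mulK z13 x0 fun z34 =>
  addK z12 z34 fun z35 =>
  parK gs 6 fun z14 =>
  mulK z14 x1 fun z36 =>
  addK z35 z36 fun z37 =>
  mulK x1 z37 fun z65 =>
  addcK z65 4722366764344621924352 0 fun z66 =>
  mulK (cst 4722367017672100963942 1) z51 fun z54 =>
  rsubK z54 4722366764344621924352 0 fun z55 =>
  mulK z66 z55 fun z67 =>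
  addK z37 z67 fun z68 =>
  parK gs 1 fun z9 =>
  parK gs 2 fun z10 =>
  mulK z10 x0 fun z30 =>
  addK z9 z30 fun z31 =>
  parK gs 3 fun z11 =>
  mulK z11 x1 fun z32 =>
  addK z31 z32 fun z33 =>
  addcK z55 4722366764344621924352 0 fun z56 =>
  mulK z33 z56 fun z69 =>
  addK z68 z69 fun z70 =>
  normK z70 fun z474 =>
  parK gs 7 fun z15 =>
  parK gs 8 fun z16 =>
  mulK z16 x0 fun z38 =>
  addK z15 z38 fun z39 =>
  parK gs 9 fun z17 =>
  mulK z17 x1 fun z40 =>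
  addK z39 z40 fun z41 =>
  rsubK z41 4722366764344621924352 0 fun z42 =>
  a_B2 gs ps x0 x1 x2 z3 z4 z5 z6 z7 z44 z50 z99 z108 z113 z114 z499 z37 z66 z55 z33 z56 z474 z42

def a_R1 (gs ps : ℕ) (sg W e z3 z4 z5 z6 z7 z44 z50 z51 z99 z108 z113 z114 z499 : ℝ) : Prop :=
  letR (parV gs 4) fun z12 =>
  letR (parV gs 5) fun z13 =>
  letR (z13 * sg) fun z34 =>
  letR (z12 + z34) fun z35 =>
  letR (parV gs 6) fun z14 =>
  letR (z14 * W) fun z36 =>
  letR (z35 + z36) fun z37 =>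
  letR (W * z37) fun z65 =>
  letR (z65 + (1 : ℝ)) fun z66 =>
  letR ((19 / 10 : ℝ) * z51) fun z54 =>
  letR ((1 : ℝ) - z54) fun z55 =>
  letR (z66 * z55) fun z67 =>
  letR (z37 + z67) fun z68 =>
  letR (parV gs 1) fun z9 =>
  letR (parV gs 2) fun z10 =>
  letR (z10 * sg) fun z30 =>
  letR (z9 + z30) fun z31 =>
  letR (parV gs 3) fun z11 =>
  letR (z11 * W) fun z32 =>
  letR (z31 + z32) fun z33 =>
  letR (z55 + (1 : ℝ)) fun z56 =>
  letR (z33 * z56) fun z69 =>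
  letR (z68 + z69) fun z70 =>
  letR z70 fun z474 =>
  letR (parV gs 7) fun z15 =>
  letR (parV gs 8) fun z16 =>
  letR (z16 * sg) fun z38 =>
  letR (z15 + z38) fun z39 =>
  letR (parV gs 9) fun z17 =>
  letR (z17 * W) fun z40 =>
  letR (z39 + z40) fun z41 =>
  letR ((1 : ℝ) - z41) fun z42 =>
  a_R2 gs ps sg W e z3 z4 z5 z6 z7 z44 z50 z99 z108 z113 z114 z499 z37 z66 z55 z33 z56 z474 z42

theorem a_S1 {ε : Fin 4 → ℝ} (gs : ℕ) (hε : ∀ i, |ε i| ≤ 1) (ps : ℕ) (x0 x1 x2 z3 z4 z5 z6 z7 z44 z50 z51 z99 z108 z113 z114 z499 : AF) (sg W e t3 t4 t5 t6 t7 t44 t50 t51 t99 t108 t113 t114 t499 : ℝ)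
    (h0 : Rel ε x0 sg) (h1 : Rel ε x1 W) (h2 : Rel ε x2 e) (g3 : Rel ε z3 t3) (g4 : Rel ε z4 t4) (g5 : Rel ε z5 t5) (g6 : Rel ε z6 t6) (g7 : Rel ε z7 t7) (g44 : Rel ε z44 t44) (g50 : Rel ε z50 t50) (g51 : Rel ε z51 t51) (g99 : Rel ε z99 t99) (g108 : Rel ε z108 t108) (g113 : Rel ε z113 t113) (g114 : Rel ε z114 t114) (g499 : Rel ε z499 t499) :
    a_B1 gs ps x0 x1 x2 z3 z4 z5 z6 z7 z44 z50 z51 z99 z108 z113 z114 z499 = true → a_R1 gs ps sg W e t3 t4 t5 t6 t7 t44 t50 t51 t99 t108 t113 t114 t499 := by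
  delta a_B1 a_R1
  exact parS fun z12 t12 g12 =>
  parS fun z13 t13 g13 =>
  mulS hε g13 h0 fun z34 t34 g34 =>
  addS g12 g34 fun z35 t35 g35 =>
  parS fun z14 t14 g14 =>
  mulS hε g14 h1 fun z36 t36 g36 =>
  addS g35 g36 fun z37 t37 g37 =>
  mulS hε h1 g37 fun z65 t65 g65 =>
  addcS g65 k3 fun z66 t66 g66 =>
  mulS hε (cst_rel k4) g51 fun z54 t54 g54 =>
  rsubS g54 k3 fun z55 t55 g55 =>
  mulS hε g66 g55 fun z67 t67 g67 =>
  addS g37 g67 fun z68 t68 g68 =>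
  parS fun z9 t9 g9 =>
  parS fun z10 t10 g10 =>
  mulS hε g10 h0 fun z30 t30 g30 =>
  addS g9 g30 fun z31 t31 g31 =>
  parS fun z11 t11 g11 =>
  mulS hε g11 h1 fun z32 t32 g32 =>
  addS g31 g32 fun z33 t33 g33 =>
  addcS g55 k3 fun z56 t56 g56 =>
  mulS hε g33 g56 fun z69 t69 g69 =>
  addS g68 g69 fun z70 t70 g70 =>
  normS g70 fun z474 t474 g474 =>
  parS fun z15 t15 g15 =>
  parS fun z16 t16 g16 =>
  mulS hε g16 h0 fun z38 t38 g38 =>
  addS g15 g38 fun z39 t39 g39 =>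
  parS fun z17 t17 g17 =>
  mulS hε g17 h1 fun z40 t40 g40 =>
  addS g39 g40 fun z41 t41 g41 =>
  rsubS g41 k3 fun z42 t42 g42 =>
  a_S2 gs hε ps x0 x1 x2 z3 z4 z5 z6 z7 z44 z50 z99 z108 z113 z114 z499 z37 z66 z55 z33 z56 z474 z42 sg W e t3 t4 t5 t6 t7 t44 t50 t99 t108 t113 t114 t499 t37 t66 t55 t33 t56 t474 t42 h0 h1 h2 g3 g4 g5 g6 g7 g44 g50 g99 g108 g113 g114 g499 g37 g66 g55 g33 g56 g474 g42

def a_B (gs ps : ℕ) (x0 x1 x2 x3 : AF) : Bool :=
  parK ps 0 fun z3 =>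
  parK ps 1 fun z4 =>
  parK ps 2 fun z5 =>
  parK ps 3 fun z6 =>
  parK ps 4 fun z7 =>
  addcK z7 4722366482594767306752 0 fun z467 =>
  posK z467 <|
  parK gs 10 fun z18 =>
  sqrK x0 fun z44 =>
  mulK (cst 4722366736197124253286 1) z44 fun z46 =>
  addcK z46 4722366511017142884761 1 fun z48 =>
  mulK z44 z48 fun z49 =>
  rsubK z49 4722366764344621924352 0 fun z50 =>
  mulK z50 x0 fun z98 =>
  normK z98 fun z477 =>
  rsubK z46 4722367017672100963942 1 fun z47 =>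
  invK z47 fun z51 =>
  mulK z477 z51 fun z99 =>
  parK gs 11 fun z19 =>
  mulK z99 z19 fun z462 =>
  addcK x2 4722366764344621924352 0 fun z108 =>
  sqrK z108 fun z110 =>
  mulK z44 z110 fun z111 =>
  rsubK z111 4722366764344621924352 0 fun z112 =>
  sqrtK z112 fun z113 =>
  mulK z108 z113 fun z433 =>
  normK z433 fun z498 =>
  invK z112 fun z114 =>
  mulK z498 z114 fun z434 =>
  normK z434 fun z499 =>
  sqrK z499 fun z463 =>
  mulK z463 z499 fun z464 =>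
  mulK z462 z464 fun z465 =>
  addK z18 z465 fun z466 =>
  subK z466 z7 fun z468 =>
  posK z468 <|
  a_B1 gs ps x0 x1 x2 z3 z4 z5 z6 z7 z44 z50 z51 z99 z108 z113 z114 z499

def a_R (gs ps : ℕ) (sg W e u3 : ℝ) : Prop :=
  letR (parV ps 0) fun z3 =>
  letR (parV ps 1) fun z4 =>
  letR (parV ps 2) fun z5 =>
  letR (parV ps 3) fun z6 =>
  letR (parV ps 4) fun z7 =>
  letR (z7 + (-1 / 1024 : ℝ)) fun z467 =>
  posR z467 <|
  letR (parV gs 10) fun z18 =>
  letR (sg ^ 2) fun z44 =>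
  letR ((9 / 10 : ℝ) * z44) fun z46 =>
  letR (z46 + (1 / 10 : ℝ)) fun z48 =>
  letR (z44 * z48) fun z49 =>
  letR ((1 : ℝ) - z49) fun z50 =>
  letR (z50 * sg) fun z98 =>
  letR z98 fun z477 =>
  letR ((19 / 10 : ℝ) - z46) fun z47 =>
  invR z47 fun z51 =>
  letR (z477 * z51) fun z99 =>
  letR (parV gs 11) fun z19 =>
  letR (z99 * z19) fun z462 =>
  letR (e + (1 : ℝ)) fun z108 =>
  letR (z108 ^ 2) fun z110 =>
  letR (z44 * z110) fun z111 =>
  letR ((1 : ℝ) - z111) fun z112 =>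
  letR (√z112) fun z113 =>
  letR (z108 * z113) fun z433 =>
  letR z433 fun z498 =>
  invR z112 fun z114 =>
  letR (z498 * z114) fun z434 =>
  letR z434 fun z499 =>
  letR (z499 ^ 2) fun z463 =>
  letR (z463 * z499) fun z464 =>
  letR (z462 * z464) fun z465 =>
  letR (z18 + z465) fun z466 =>
  letR (z466 - z7) fun z468 =>
  posR z468 <|
  a_R1 gs ps sg W e z3 z4 z5 z6 z7 z44 z50 z51 z99 z108 z113 z114 z499

theorem a_S {ε : Fin 4 → ℝ} (gs : ℕ) (hε : ∀ i, |ε i| ≤ 1) (ps : ℕ) (x0 x1 x2 x3 : AF) (sg W e u3 : ℝ)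
    (h0 : Rel ε x0 sg) (h1 : Rel ε x1 W) (h2 : Rel ε x2 e) (h3 : Rel ε x3 u3) :
    a_B gs ps x0 x1 x2 x3 = true → a_R gs ps sg W e u3 := by
  delta a_B a_R
  exact parS fun z3 t3 g3 =>
  parS fun z4 t4 g4 =>
  parS fun z5 t5 g5 =>
  parS fun z6 t6 g6 =>
  parS fun z7 t7 g7 =>
  addcS g7 k0 fun z467 t467 g467 =>
  posS hε g467 <|
  parS fun z18 t18 g18 =>
  sqrS hε h0 fun z44 t44 g44 =>
  mulS hε (cst_rel k1) g44 fun z46 t46 g46 =>
  addcS g46 k2 fun z48 t48 g48 =>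
  mulS hε g44 g48 fun z49 t49 g49 =>
  rsubS g49 k3 fun z50 t50 g50 =>
  mulS hε g50 h0 fun z98 t98 g98 =>
  normS g98 fun z477 t477 g477 =>
  rsubS g46 k4 fun z47 t47 g47 =>
  invS hε g47 fun z51 t51 g51 =>
  mulS hε g477 g51 fun z99 t99 g99 =>
  parS fun z19 t19 g19 =>
  mulS hε g99 g19 fun z462 t462 g462 =>
  addcS h2 k3 fun z108 t108 g108 =>
  sqrS hε g108 fun z110 t110 g110 =>
  mulS hε g44 g110 fun z111 t111 g111 =>
  rsubS g111 k3 fun z112 t112 g112 =>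
  sqrtS hε g112 fun z113 t113 g113 =>
  mulS hε g108 g113 fun z433 t433 g433 =>
  normS g433 fun z498 t498 g498 =>
  invS hε g112 fun z114 t114 g114 =>
  mulS hε g498 g114 fun z434 t434 g434 =>
  normS g434 fun z499 t499 g499 =>
  sqrS hε g499 fun z463 t463 g463 =>
  mulS hε g463 g499 fun z464 t464 g464 =>
  mulS hε g462 g464 fun z465 t465 g465 =>
  addS g18 g465 fun z466 t466 g466 =>
  subS g466 g7 fun z468 t468 g468 =>
  posS hε g468 <|
  a_S1 gs hε ps x0 x1 x2 z3 z4 z5 z6 z7 z44 z50 z51 z99 z108 z113 z114 z499 sg W e t3 t4 t5 t6 t7 t44 t50 t51 t99 t108 t113 t114 t499 h0 h1 h2 g3 g4 g5 g6 g7 g44 g50 g51 g99 g108 g113 g114 g499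

/- obtain ⟨p0, p1, p2, p3, kp, al, a9, w, uh, iu, Th, e1, bq, y, ib, ey, K, n, nW, uE, m, uO, lE, ik2, lE1, le, kk2, Z, C1, R1, iR1, iC1, hR1, up, q, io1, AE1, r, Zr, C2, R2, iR2, iC2, hR2, io2, AE2, lo, ik, lo1, ie1, Ao1, Au, qq1, Cs1, X1, iX1, qX1, So1, Se1, iD1, In1, bo1, Cs2, X2, iX2, qX2, So2, Se2, iD2, In2, bo2, Ie1, be1, Bu, ZI1, Je1, Jo1, ge1, ie2, Ie2, ZI2, Je2, Jo2, ge2, Zl, go1, Cu, bc, ibc, Tb, sb, e2, ep, iw, aw, wE, wO, tE, tE1, th, t2, te, Zt, C3, R3, iR3, iC3, hR3, uw, qt, io3, AE3, Ztr, C4, R4, iR4, iC4, hR4, io4, AE4, tO, tO1, tt, ie3, Ao3, Aw, qq3, Cs3, X3, iX3, qX3, So3, Se3, iD3, In3, bo3, Cs4, X4, iX4, qX4, So4, Se4, iD4, In4, bo4, Ie3, be3, Bw, ZI3, Je3, Jo3, ge3, ie4, Ie4, ZI4, Je4, Jo4, ge4, Ztt, go3, Cw, P0, Du, iCs1, xe1, xn1, he1, iCs2, xe2, xn2, he2, ho1, Eu, Dw, iCs3, xe3, xn3, he3, iCs4, xe4, xn4, he4, ho3, Ew, P1, c0, h_al, h_a9, h_w, h_uh, p_iu, h_iu, h_Th, h_e1, h_bq,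 h_y, p_ib, h_ib, h_ey, h_K, c1, h_n, h_nW, h_uE, h_m, h_uO, h_lE, h_ik2, h_lE1, h_le, p_kk2, h_kk2, h_Z, h_C1, h_R1, p_iR1, h_iR1, p_iC1, h_iC1, h_hR1, p_35, h_up, h_q, h_io1, h_AE1, h_r, h_Zr, h_C2, h_R2, p_iR2, h_iR2, p_iC2, h_iC2, h_hR2, p_49, h_io2, h_AE2, h_lo, h_ik, h_lo1, h_ie1, h_Ao1, h_Au, h_qq1, h_Cs1, h_X1, p_iX1, h_iX1, h_qX1, h_So1, h_Se1, p_iD1, h_iD1, h_In1, h_bo1, h_Cs2, h_X2, p_iX2, h_iX2, h_qX2, h_So2, h_Se2, p_iD2, h_iD2, h_In2, h_bo2, h_Ie1, h_be1, h_Bu, h_ZI1, h_Je1, h_Jo1, h_ge1, h_ie2, h_Ie2, h_ZI2, h_Je2, h_Jo2, h_ge2, h_Zl, h_go1, h_Cu, h_bc, p_ibc, h_ibc, h_Tb, h_sb, p_sb, h_e2, p_104, h_ep, p_iw, h_iw, h_aw, h_wE, h_wO, h_tE, h_tE1, h_th, h_t2, h_te, h_Zt, h_C3, h_R3, p_iR3, h_iR3, p_iC3, h_iC3, h_hR3, p_124, h_uw, h_qt, h_io3, h_AE3, h_Ztr, h_C4, h_R4, p_iR4, h_iR4, p_iC4, h_iC4, h_hR4, p_137, h_io4, h_AE4, h_tO, h_tO1, h_tt, h_ie3, h_Ao3, h_Aw, h_qq3, h_Cs3, h_X3, p_iX3, h_iX3,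 h_qX3, h_So3, h_Se3, p_iD3, h_iD3, h_In3, h_bo3, h_Cs4, h_X4, p_iX4, h_iX4, h_qX4, h_So4, h_Se4, p_iD4, h_iD4, h_In4, h_bo4, h_Ie3, h_be3, h_Bw, h_ZI3, h_Je3, h_Jo3, h_ge3, h_ie4, h_Ie4, h_ZI4, h_Je4, h_Jo4, h_ge4, h_Ztt, h_go3, h_Cw, h_P0, h_Du, p_iCs1, h_iCs1, h_xe1, h_xn1, h_he1, p_iCs2, h_iCs2, h_xe2, h_xn2, h_he2, h_ho1, h_Eu, h_Dw, p_iCs3, h_iCs3, h_xe3, h_xn3, h_he3, p_iCs4, h_iCs4, h_xe4, h_xn4, h_he4, h_ho3, h_Ew, h_P1, c2⟩ := h -/
def a_Spec (rho m0 m1 m2 n0 n1 n2 k0 k1 k2 ku kw A0 A1 B0 B1 g0 g1 g2 g3 g4 g5 sg W e : ℝ) : Prop :=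
  ∃ p0 p1 p2 p3 kp al a9 w uh iu Th e1 bq y ib ey K n nW uE m uO lE ik2 lE1 le kk2 Z C1 R1 iR1 iC1 hR1 up q io1 AE1 r Zr C2 R2 iR2 iC2 hR2 io2 AE2 lo ik lo1 ie1 Ao1 Au qq1 Cs1 X1 iX1 qX1 So1 Se1 iD1 In1 bo1 Cs2 X2 iX2 qX2 So2 Se2 iD2 In2 bo2 Ie1 be1 Bu ZI1 Je1 Jo1 ge1 ie2 Ie2 ZI2 Je2 Jo2 ge2 Zl go1 Cu bc ibc Tb sb e2 ep iw aw wE wO tE tE1 th t2 te Zt C3 R3 iR3 iC3 hR3 uw qt io3 AE3 Ztr C4 R4 iR4 iC4 hR4 io4 AE4 tO tO1 tt ie3 Ao3 Aw qq3 Cs3 X3 iX3 qX3 So3 Se3 iD3 In3 bo3 Cs4 X4 iX4 qX4 So4 Se4 iD4 In4 bo4 Ie3 be3 Bw ZI3 Je3 Jo3 ge3 ie4 Ie4 ZI4 Je4 Jo4 ge4 Ztt go3 Cw P0 Du iCs1 xe1 xn1 he1 iCs2 xe2 xn2 he2 ho1 Eu Dw iCs3 xe3 xn3 he3 iCs4 xe4 xn4 he4 ho3 Ew P1 : ℝ,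
    0 ≤ (kp + (-1 / 1024 : ℝ)) ∧
    al = (sg ^ 2) ∧
    a9 = ((9 / 10 : ℝ) * al) ∧
    w = ((1 : ℝ) - (al * (a9 + (1 / 10 : ℝ)))) ∧
    uh = ((19 / 10 : ℝ) - a9) ∧
    0 < uh ∧
    iu = (uh⁻¹) ∧
    Th = ((w * sg) * iu) ∧
    e1 = (e + (1 : ℝ)) ∧
    bq = ((1 : ℝ) - (al * (e1 ^ 2))) ∧
    y = (√bq) ∧
    0 < bq ∧
    ib = (bq⁻¹) ∧
    ey = ((e1 * y) * ib) ∧
    K = (ku + ((Th * kw) * ((ey ^ 2) * ey))) ∧
    0 ≤ (K - kp) ∧
    n = ((n0 + (n1 * sg)) + (n2 * W)) ∧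
    nW = ((W * n) + (1 : ℝ)) ∧
    uE = ((1 : ℝ) - ((19 / 10 : ℝ) * iu)) ∧
    m = ((m0 + (m1 * sg)) + (m2 * W)) ∧
    uO = (uE + (1 : ℝ)) ∧
    lE = ((n + (nW * uE)) + (m * uO)) ∧
    ik2 = ((1 : ℝ) - ((k0 + (k1 * sg)) + (k2 * W))) ∧
    lE1 = (lE * ik2) ∧
    le = ((W * lE) + (1 : ℝ)) ∧
    0 < ik2 ∧
    kk2 = (ik2⁻¹) ∧
    Z = (W * kk2) ∧
    C1 = (√((1 : ℝ) - Z)) ∧
    R1 = (√((1 / 2 : ℝ) * (C1 + (1 : ℝ)))) ∧
    0 < R1 ∧
    iR1 = (R1⁻¹) ∧
    0 < C1 ∧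
    iC1 = (C1⁻¹) ∧
    hR1 = (iR1 * iC1) ∧
    0 < (((4 : ℝ) * R1) + (4 : ℝ)) ∧
    up = (((p0 + (p1 * sg)) + (p2 * W)) + (p3 * e)) ∧
    q = ((up * e) + (1 : ℝ)) ∧
    io1 = ((-1 / 2 : ℝ) * hR1) ∧
    AE1 = (((hR1 * iR1) * ((1 / 2 : ℝ) - ((((4 : ℝ) * R1) + (4 : ℝ))⁻¹))) + (q * io1)) ∧
    r = (rho ^ 2) ∧
    Zr = (r * Z) ∧
    C2 = (√((1 : ℝ) - Zr)) ∧
    R2 = (√((1 / 2 : ℝ) * (C2 + (1 : ℝ)))) ∧
    0 < R2 ∧
    iR2 = (R2⁻¹) ∧
    0 < C2 ∧
    iC2 = (C2⁻¹) ∧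
    hR2 = (iR2 * iC2) ∧
    0 < (((4 : ℝ) * R2) + (4 : ℝ)) ∧
    io2 = ((-1 / 2 : ℝ) * hR2) ∧
    AE2 = (((hR2 * iR2) * ((1 / 2 : ℝ) - ((((4 : ℝ) * R2) + (4 : ℝ))⁻¹))) + (q * io2)) ∧
    lo = ((nW * uO) + (m * ((W * uE) + (1 : ℝ)))) ∧
    ik = (√ik2) ∧
    lo1 = (lo * ik) ∧
    ie1 = (R1 * iC1) ∧
    Ao1 = ((q * ie1) + io1) ∧
    Au = (((lE1 + (le * AE1)) - (r * AE2)) + (lo1 * Ao1)) ∧
    qq1 = (q ^ 2) ∧
    Cs1 = (√((1 : ℝ) - (Z * qq1))) ∧
    X1 = (√((1 / 2 : ℝ) * (Cs1 + (1 : ℝ)))) ∧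
    0 < X1 ∧
    iX1 = (X1⁻¹) ∧
    qX1 = (q * iX1) ∧
    So1 = ((1 / 2 : ℝ) * (qX1 + iR1)) ∧
    Se1 = (X1 + R1) ∧
    0 < ((Se1 ^ 2) - (Z * (So1 ^ 2))) ∧
    iD1 = (((Se1 ^ 2) - (Z * (So1 ^ 2)))⁻¹) ∧
    In1 = (So1 * iD1) ∧
    bo1 = (io1 + In1) ∧
    Cs2 = (√((1 : ℝ) - (Zr * qq1))) ∧
    X2 = (√((1 / 2 : ℝ) * (Cs2 + (1 : ℝ)))) ∧
    0 < X2 ∧
    iX2 = (X2⁻¹) ∧
    qX2 = (q * iX2) ∧
    So2 = ((1 / 2 : ℝ) * (qX2 + iR2)) ∧
    Se2 = (X2 + R2) ∧
    0 < ((Se2 ^ 2) - (Zr * (So2 ^ 2))) ∧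
    iD2 = (((Se2 ^ 2) - (Zr * (So2 ^ 2)))⁻¹) ∧
    In2 = (So2 * iD2) ∧
    bo2 = (io2 + In2) ∧
    Ie1 = (Se1 * iD1) ∧
    be1 = (ie1 - Ie1) ∧
    Bu = (((le * bo1) - (r * bo2)) + (lo1 * be1)) ∧
    ZI1 = (Z * In1) ∧
    Je1 = ((ie1 * Ie1) - (io1 * ZI1)) ∧
    Jo1 = ((io1 * Ie1) - (ie1 * In1)) ∧
    ge1 = ((Je1 * Ie1) - (Jo1 * ZI1)) ∧
    ie2 = (R2 * iC2) ∧
    Ie2 = (Se2 * iD2) ∧
    ZI2 = (Zr * In2) ∧
    Je2 = ((ie2 * Ie2) - (io2 * ZI2)) ∧
    Jo2 = ((io2 * Ie2) - (ie2 * In2)) ∧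
    ge2 = ((Je2 * Ie2) - (Jo2 * ZI2)) ∧
    Zl = (Z * lo1) ∧
    go1 = ((Jo1 * Ie1) - (Je1 * In1)) ∧
    Cu = (((le * ge1) - (r * ge2)) + (Zl * go1)) ∧
    bc = ((1 : ℝ) - al) ∧
    0 < bc ∧
    ibc = (bc⁻¹) ∧
    Tb = (Th * ibc) ∧
    sb = (√bc) ∧
    0 < sb ∧
    e2 = (e + (2 : ℝ)) ∧
    0 < (y + sb) ∧
    ep = ((0 : ℝ) - ((e2 * sb) * ((y + sb)⁻¹))) ∧
    0 < w ∧
    iw = (w⁻¹) ∧
    aw = (al * iw) ∧
    wE = ((-9 / 10 : ℝ) * (al * aw)) ∧
    wO = (aw * (((9 / 5 : ℝ) * al) + (1 / 10 : ℝ))) ∧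
    tE = ((n + (nW * wE)) - (m * wO)) ∧
    tE1 = (tE * ik2) ∧
    th = (al * ibc) ∧
    t2 = (th ^ 2) ∧
    te = ((W * tE) + (1 : ℝ)) ∧
    Zt = (t2 * Z) ∧
    C3 = (√((1 : ℝ) - Zt)) ∧
    R3 = (√((1 / 2 : ℝ) * (C3 + (1 : ℝ)))) ∧
    0 < R3 ∧
    iR3 = (R3⁻¹) ∧
    0 < C3 ∧
    iC3 = (C3⁻¹) ∧
    hR3 = (iR3 * iC3) ∧
    0 < (((4 : ℝ) * R3) + (4 : ℝ)) ∧
    uw = (((bc * ((e2 * q) + up)) + (al * e2)) * ib) ∧
    qt = ((e * uw) + (1 : ℝ)) ∧
    io3 = ((-1 / 2 : ℝ) * hR3) ∧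
    AE3 = (((hR3 * iR3) * ((1 / 2 : ℝ) - ((((4 : ℝ) * R3) + (4 : ℝ))⁻¹))) + (qt * io3)) ∧
    Ztr = (r * Zt) ∧
    C4 = (√((1 : ℝ) - Ztr)) ∧
    R4 = (√((1 / 2 : ℝ) * (C4 + (1 : ℝ)))) ∧
    0 < R4 ∧
    iR4 = (R4⁻¹) ∧
    0 < C4 ∧
    iC4 = (C4⁻¹) ∧
    hR4 = (iR4 * iC4) ∧
    0 < (((4 : ℝ) * R4) + (4 : ℝ)) ∧
    io4 = ((-1 / 2 : ℝ) * hR4) ∧
    AE4 = (((hR4 * iR4) * ((1 / 2 : ℝ) - ((((4 : ℝ) * R4) + (4 : ℝ))⁻¹))) + (qt * io4)) ∧
    tO = ((nW * wO) - (m * ((W * wE) + (1 : ℝ)))) ∧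
    tO1 = (tO * ik) ∧
    tt = (th * tO1) ∧
    ie3 = (R3 * iC3) ∧
    Ao3 = ((qt * ie3) + io3) ∧
    Aw = ((tE1 + (t2 * ((te * AE3) - (r * AE4)))) + (tt * Ao3)) ∧
    qq3 = (qt ^ 2) ∧
    Cs3 = (√((1 : ℝ) - (Zt * qq3))) ∧
    X3 = (√((1 / 2 : ℝ) * (Cs3 + (1 : ℝ)))) ∧
    0 < X3 ∧
    iX3 = (X3⁻¹) ∧
    qX3 = (qt * iX3) ∧
    So3 = ((1 / 2 : ℝ) * (qX3 + iR3)) ∧
    Se3 = (X3 + R3) ∧
    0 < ((Se3 ^ 2) - (Zt * (So3 ^ 2))) ∧
    iD3 = (((Se3 ^ 2) - (Zt * (So3 ^ 2)))⁻¹) ∧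
    In3 = (So3 * iD3) ∧
    bo3 = (io3 + In3) ∧
    Cs4 = (√((1 : ℝ) - (Ztr * qq3))) ∧
    X4 = (√((1 / 2 : ℝ) * (Cs4 + (1 : ℝ)))) ∧
    0 < X4 ∧
    iX4 = (X4⁻¹) ∧
    qX4 = (qt * iX4) ∧
    So4 = ((1 / 2 : ℝ) * (qX4 + iR4)) ∧
    Se4 = (X4 + R4) ∧
    0 < ((Se4 ^ 2) - (Ztr * (So4 ^ 2))) ∧
    iD4 = (((Se4 ^ 2) - (Ztr * (So4 ^ 2)))⁻¹) ∧
    In4 = (So4 * iD4) ∧
    bo4 = (io4 + In4) ∧
    Ie3 = (Se3 * iD3) ∧
    be3 = (ie3 - Ie3) ∧
    Bw = ((th * ((te * bo3) - (r * bo4))) + (tO1 * be3)) ∧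
    ZI3 = (Zt * In3) ∧
    Je3 = ((ie3 * Ie3) - (io3 * ZI3)) ∧
    Jo3 = ((io3 * Ie3) - (ie3 * In3)) ∧
    ge3 = ((Je3 * Ie3) - (Jo3 * ZI3)) ∧
    ie4 = (R4 * iC4) ∧
    Ie4 = (Se4 * iD4) ∧
    ZI4 = (Ztr * In4) ∧
    Je4 = ((ie4 * Ie4) - (io4 * ZI4)) ∧
    Jo4 = ((io4 * Ie4) - (ie4 * In4)) ∧
    ge4 = ((Je4 * Ie4) - (Jo4 * ZI4)) ∧
    Ztt = (Z * tt) ∧
    go3 = ((Jo3 * Ie3) - (Je3 * In3)) ∧
    Cw = (((te * ge3) - (r * ge4)) + (Ztt * go3)) ∧
    P0 = (((Au + (up * ((2 : ℝ) * Bu))) + ((up ^ 2) * Cu)) + ((Tb * (sb⁻¹)) * ((((ep ^ 2) * Aw) + ((ep * uw) * ((2 : ℝ) * Bw))) + ((uw ^ 2) * Cw)))) ∧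
    Du = (((le * io1) - (r * io2)) + (lo1 * ie1)) ∧
    0 < Cs1 ∧
    iCs1 = (Cs1⁻¹) ∧
    xe1 = (X1 * iCs1) ∧
    xn1 = ((1 / 2 : ℝ) * (qX1 * iCs1)) ∧
    he1 = ((Je1 * xe1) - ((Z * Jo1) * xn1)) ∧
    0 < Cs2 ∧
    iCs2 = (Cs2⁻¹) ∧
    xe2 = (X2 * iCs2) ∧
    xn2 = ((1 / 2 : ℝ) * (qX2 * iCs2)) ∧
    he2 = ((Je2 * xe2) - ((Zr * Jo2) * xn2)) ∧
    ho1 = ((Jo1 * xe1) - (Je1 * xn1)) ∧
    Eu = (((le * he1) - (r * he2)) + (Zl * ho1)) ∧
    Dw = ((th * ((te * io3) - (r * io4))) + (tO1 * ie3)) ∧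
    0 < Cs3 ∧
    iCs3 = (Cs3⁻¹) ∧
    xe3 = (X3 * iCs3) ∧
    xn3 = ((1 / 2 : ℝ) * (qX3 * iCs3)) ∧
    he3 = ((Je3 * xe3) - ((Zt * Jo3) * xn3)) ∧
    0 < Cs4 ∧
    iCs4 = (Cs4⁻¹) ∧
    xe4 = (X4 * iCs4) ∧
    xn4 = ((1 / 2 : ℝ) * (qX4 * iCs4)) ∧
    he4 = ((Je4 * xe4) - ((Ztr * Jo4) * xn4)) ∧
    ho3 = ((Jo3 * xe3) - (Je3 * xn3)) ∧
    Ew = (((te * he3) - (r * he4)) + (Ztt * ho3)) ∧
    P1 = ((Du + (up * Eu)) + ((Tb * ey) * ((ep * Dw) + (uw * Ew)))) ∧
    0 ≤ ((kp * P0) - (((2 : ℝ) * e1) * (P1 ^ 2)))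

theorem a_E {gs ps : ℕ} {sg W e u3 : ℝ} (h : a_R gs ps sg W e u3) : a_Spec (parV gs 0) (parV gs 1) (parV gs 2) (parV gs 3) (parV gs 4) (parV gs 5) (parV gs 6) (parV gs 7) (parV gs 8) (parV gs 9) (parV gs 10) (parV gs 11) (parV gs 12) (parV gs 13) (parV gs 14) (parV gs 15) (parV gs 16) (parV gs 17) (parV gs 18) (parV gs 19) (parV gs 20) (parV gs 21) sg W e := by
  delta a_R at h
  exact letR_ex h fun p0 _ h =>
  letR_ex h fun p1 _ h =>
  letR_ex h fun p2 _ h =>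
  letR_ex h fun p3 _ h =>
  letR_ex h fun kp _ h =>
  letR_in h fun h =>
  posR_ex h fun q1 h =>
  letR_in h fun h =>
  letR_ex h fun al q2 h =>
  letR_ex h fun a9 q3 h =>
  letR_in h fun h =>
  letR_in h fun h =>
  letR_ex h fun w q4 h =>
  letR_in h fun h =>
  letR_in h fun h =>
  letR_ex h fun uh q5 h =>
  invR_ex h fun q6 h =>
  letR_ex h fun iu q7 h =>
  letR_ex h fun Th q8 h =>
  letR_in h fun h =>
  letR_in h fun h =>
  letR_ex h fun e1 q9 h =>
  letR_in h fun h =>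
  letR_in h fun h =>
  letR_ex h fun bq q10 h =>
  letR_ex h fun y q11 h =>
  letR_in h fun h =>
  letR_in h fun h =>
  invR_ex h fun q12 h =>
  letR_ex h fun ib q13 h =>
  letR_ex h fun ey q14 h =>
  letR_in h fun h =>
  letR_in h fun h =>
  letR_in h fun h =>
  letR_in h fun h =>
  letR_ex h fun K q15 h =>
  letR_in h fun h =>
  posR_ex h fun q16 h =>
  (by delta a_R1 at h; exact
  letR_in h fun h =>
  letR_in h fun h =>
  letR_in h fun h =>
  letR_in h fun h =>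
  letR_in h fun h =>
  letR_in h fun h =>
  letR_ex h fun n q17 h =>
  letR_in h fun h =>
  letR_ex h fun nW q18 h =>
  letR_in h fun h =>
  letR_ex h fun uE q19 h =>
  letR_in h fun h =>
  letR_in h fun h =>
  letR_in h fun h =>
  letR_in h fun h =>
  letR_in h fun h =>
  letR_in h fun h =>
  letR_in h fun h =>
  letR_in h fun h =>
  letR_ex h fun m q20 h =>
  letR_ex h fun uO q21 h =>
  letR_in h fun h =>
  letR_ex h fun lE q22 h =>
  letR_in h fun h =>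
  letR_in h fun h =>
  letR_in h fun h =>
  letR_in h fun h =>
  letR_in h fun h =>
  letR_in h fun h =>
  letR_in h fun h =>
  letR_in h fun h =>
  letR_ex h fun ik2 q23 h =>
  (by delta a_R2 at h; exact
  letR_ex h fun lE1 q24 h =>
  letR_in h fun h =>
  letR_ex h fun le q25 h =>
  invR_ex h fun q26 h =>
  letR_ex h fun kk2 q27 h =>
  letR_ex h fun Z q28 h =>
  letR_in h fun h =>
  letR_in h fun h =>
  letR_ex h fun C1 q29 h =>
  letR_in h fun h =>
  letR_in h fun h =>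
  letR_ex h fun R1 q30 h =>
  invR_ex h fun q31 h =>
  letR_ex h fun iR1 q32 h =>
  invR_ex h fun q33 h =>
  letR_ex h fun iC1 q34 h =>
  letR_ex h fun hR1 q35 h =>
  letR_in h fun h =>
  letR_in h fun h =>
  letR_in h fun h =>
  invR_ex h fun q36 h =>
  letR_in h fun h =>
  letR_in h fun h =>
  letR_in h fun h =>
  letR_in h fun h =>
  letR_in h fun h =>
  letR_in h fun h =>
  letR_in h fun h =>
  letR_in h fun h =>
  letR_ex h fun up q37 h =>
  letR_in h fun h =>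
  letR_in h fun h =>
  letR_ex h fun q q38 h =>
  letR_ex h fun io1 q39 h =>
  letR_in h fun h =>
  letR_ex h fun AE1 q40 h =>
  letR_in h fun h =>
  letR_in h fun h =>
  letR_in h fun h =>
  (by delta a_R3 at h; exact
  letR_in h fun h =>
  letR_ex h fun r q41 h =>
  letR_ex h fun Zr q42 h =>
  letR_in h fun h =>
  letR_ex h fun C2 q43 h =>
  letR_in h fun h =>
  letR_in h fun h =>
  letR_ex h fun R2 q44 h =>
  invR_ex h fun q45 h =>
  letR_ex h fun iR2 q46 h =>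
  invR_ex h fun q47 h =>
  letR_ex h fun iC2 q48 h =>
  letR_ex h fun hR2 q49 h =>
  letR_in h fun h =>
  letR_in h fun h =>
  letR_in h fun h =>
  invR_ex h fun q50 h =>
  letR_in h fun h =>
  letR_in h fun h =>
  letR_in h fun h =>
  letR_ex h fun io2 q51 h =>
  letR_in h fun h =>
  letR_ex h fun AE2 q52 h =>
  letR_in h fun h =>
  letR_in h fun h =>
  letR_in h fun h =>
  letR_in h fun h =>
  letR_in h fun h =>
  letR_in h fun h =>
  letR_ex h fun lo q53 h =>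
  (by delta a_R4 at h; exact
  letR_ex h fun ik q54 h =>
  letR_ex h fun lo1 q55 h =>
  letR_in h fun h =>
  letR_ex h fun ie1 q56 h =>
  letR_in h fun h =>
  letR_in h fun h =>
  letR_ex h fun Ao1 q57 h =>
  letR_in h fun h =>
  letR_in h fun h =>
  letR_ex h fun Au q58 h =>
  letR_ex h fun qq1 q59 h =>
  letR_in h fun h =>
  letR_in h fun h =>
  letR_ex h fun Cs1 q60 h =>
  letR_in h fun h =>
  letR_in h fun h =>
  letR_ex h fun X1 q61 h =>
  invR_ex h fun q62 h =>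
  letR_ex h fun iX1 q63 h =>
  letR_ex h fun qX1 q64 h =>
  letR_in h fun h =>
  letR_ex h fun So1 q65 h =>
  letR_ex h fun Se1 q66 h =>
  (by delta a_R5 at h; exact
  letR_in h fun h =>
  letR_in h fun h =>
  letR_in h fun h =>
  letR_in h fun h =>
  invR_ex h fun q67 h =>
  letR_ex h fun iD1 q68 h =>
  letR_ex h fun In1 q69 h =>
  letR_ex h fun bo1 q70 h =>
  letR_in h fun h =>
  letR_in h fun h =>
  letR_in h fun h =>
  letR_ex h fun Cs2 q71 h =>
  letR_in h fun h =>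
  letR_in h fun h =>
  letR_ex h fun X2 q72 h =>
  invR_ex h fun q73 h =>
  letR_ex h fun iX2 q74 h =>
  letR_ex h fun qX2 q75 h =>
  letR_in h fun h =>
  letR_ex h fun So2 q76 h =>
  letR_ex h fun Se2 q77 h =>
  letR_in h fun h =>
  letR_in h fun h =>
  letR_in h fun h =>
  letR_in h fun h =>
  invR_ex h fun q78 h =>
  letR_ex h fun iD2 q79 h =>
  letR_ex h fun In2 q80 h =>
  letR_ex h fun bo2 q81 h =>
  letR_in h fun h =>
  letR_in h fun h =>
  letR_ex h fun Ie1 q82 h =>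
  letR_in h fun h =>
  letR_ex h fun be1 q83 h =>
  letR_in h fun h =>
  letR_ex h fun Bu q84 h =>
  letR_in h fun h =>
  letR_in h fun h =>
  letR_in h fun h =>
  letR_in h fun h =>
  (by delta a_R6 at h; exact
  letR_in h fun h =>
  letR_in h fun h =>
  letR_ex h fun ZI1 q85 h =>
  letR_in h fun h =>
  letR_ex h fun Je1 q86 h =>
  letR_in h fun h =>
  letR_in h fun h =>
  letR_in h fun h =>
  letR_ex h fun Jo1 q87 h =>
  letR_in h fun h =>
  letR_ex h fun ge1 q88 h =>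
  letR_in h fun h =>
  letR_ex h fun ie2 q89 h =>
  letR_ex h fun Ie2 q90 h =>
  letR_in h fun h =>
  letR_ex h fun ZI2 q91 h =>
  letR_in h fun h =>
  letR_ex h fun Je2 q92 h =>
  letR_in h fun h =>
  letR_in h fun h =>
  letR_in h fun h =>
  letR_ex h fun Jo2 q93 h =>
  letR_in h fun h =>
  letR_ex h fun ge2 q94 h =>
  letR_in h fun h =>
  letR_in h fun h =>
  letR_ex h fun Zl q95 h =>
  letR_in h fun h =>
  letR_in h fun h =>
  letR_ex h fun go1 q96 h =>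
  letR_in h fun h =>
  letR_ex h fun Cu q97 h =>
  letR_in h fun h =>
  letR_in h fun h =>
  letR_in h fun h =>
  (by delta a_R7 at h; exact
  letR_ex h fun bc q98 h =>
  invR_ex h fun q99 h =>
  letR_ex h fun ibc q100 h =>
  letR_ex h fun Tb q101 h =>
  letR_ex h fun sb q102 h =>
  invR_ex h fun q103 h =>
  letR_in h fun h =>
  letR_in h fun h =>
  letR_ex h fun e2 q104 h =>
  letR_in h fun h =>
  letR_in h fun h =>
  invR_ex h fun q105 h =>
  letR_in h fun h =>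
  letR_in h fun h =>
  letR_in h fun h =>
  letR_ex h fun ep q106 h =>
  letR_in h fun h =>
  invR_ex h fun q107 h =>
  letR_ex h fun iw q108 h =>
  letR_ex h fun aw q109 h =>
  letR_in h fun h =>
  letR_ex h fun wE q110 h =>
  letR_in h fun h =>
  letR_in h fun h =>
  letR_in h fun h =>
  letR_in h fun h =>
  letR_ex h fun wO q111 h =>
  letR_in h fun h =>
  letR_ex h fun tE q112 h =>
  letR_ex h fun tE1 q113 h =>
  letR_ex h fun th q114 h =>
  (by delta a_R8 at h; exact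
  letR_ex h fun t2 q115 h =>
  letR_in h fun h =>
  letR_ex h fun te q116 h =>
  letR_ex h fun Zt q117 h =>
  letR_in h fun h =>
  letR_ex h fun C3 q118 h =>
  letR_in h fun h =>
  letR_in h fun h =>
  letR_ex h fun R3 q119 h =>
  invR_ex h fun q120 h =>
  letR_ex h fun iR3 q121 h =>
  invR_ex h fun q122 h =>
  letR_ex h fun iC3 q123 h =>
  letR_ex h fun hR3 q124 h =>
  letR_in h fun h =>
  letR_in h fun h =>
  letR_in h fun h =>
  invR_ex h fun q125 h =>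
  letR_in h fun h =>
  letR_in h fun h =>
  letR_in h fun h =>
  letR_in h fun h =>
  letR_in h fun h =>
  letR_in h fun h =>
  letR_in h fun h =>
  letR_in h fun h =>
  letR_in h fun h =>
  letR_ex h fun uw q126 h =>
  letR_in h fun h =>
  letR_in h fun h =>
  letR_in h fun h =>
  letR_ex h fun qt q127 h =>
  letR_ex h fun io3 q128 h =>
  letR_in h fun h =>
  letR_ex h fun AE3 q129 h =>
  (by delta a_R9 at h; exact
  letR_in h fun h =>
  letR_ex h fun Ztr q130 h =>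
  letR_in h fun h =>
  letR_ex h fun C4 q131 h =>
  letR_in h fun h =>
  letR_in h fun h =>
  letR_ex h fun R4 q132 h =>
  invR_ex h fun q133 h =>
  letR_ex h fun iR4 q134 h =>
  invR_ex h fun q135 h =>
  letR_ex h fun iC4 q136 h =>
  letR_ex h fun hR4 q137 h =>
  letR_in h fun h =>
  letR_in h fun h =>
  letR_in h fun h =>
  invR_ex h fun q138 h =>
  letR_in h fun h =>
  letR_in h fun h =>
  letR_in h fun h =>
  letR_ex h fun io4 q139 h =>
  letR_in h fun h =>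
  letR_ex h fun AE4 q140 h =>
  letR_in h fun h =>
  letR_in h fun h =>
  letR_in h fun h =>
  letR_in h fun h =>
  letR_in h fun h =>
  letR_in h fun h =>
  letR_in h fun h =>
  letR_in h fun h =>
  letR_in h fun h =>
  letR_ex h fun tO q141 h =>
  letR_in h fun h =>
  letR_ex h fun tO1 q142 h =>
  (by delta a_R10 at h; exact
  letR_ex h fun tt q143 h =>
  letR_ex h fun ie3 q144 h =>
  letR_in h fun h =>
  letR_ex h fun Ao3 q145 h =>
  letR_in h fun h =>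
  letR_ex h fun Aw q146 h =>
  letR_in h fun h =>
  letR_in h fun h =>
  letR_in h fun h =>
  letR_ex h fun qq3 q147 h =>
  letR_in h fun h =>
  letR_in h fun h =>
  letR_ex h fun Cs3 q148 h =>
  letR_in h fun h =>
  letR_in h fun h =>
  letR_ex h fun X3 q149 h =>
  invR_ex h fun q150 h =>
  letR_ex h fun iX3 q151 h =>
  letR_ex h fun qX3 q152 h =>
  letR_in h fun h =>
  letR_ex h fun So3 q153 h =>
  letR_ex h fun Se3 q154 h =>
  letR_in h fun h =>
  letR_in h fun h =>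
  letR_in h fun h =>
  letR_in h fun h =>
  invR_ex h fun q155 h =>
  letR_ex h fun iD3 q156 h =>
  letR_ex h fun In3 q157 h =>
  (by delta a_R11 at h; exact
  letR_ex h fun bo3 q158 h =>
  letR_in h fun h =>
  letR_in h fun h =>
  letR_in h fun h =>
  letR_ex h fun Cs4 q159 h =>
  letR_in h fun h =>
  letR_in h fun h =>
  letR_ex h fun X4 q160 h =>
  invR_ex h fun q161 h =>
  letR_ex h fun iX4 q162 h =>
  letR_ex h fun qX4 q163 h =>
  letR_in h fun h =>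
  letR_ex h fun So4 q164 h =>
  letR_ex h fun Se4 q165 h =>
  letR_in h fun h =>
  letR_in h fun h =>
  letR_in h fun h =>
  letR_in h fun h =>
  invR_ex h fun q166 h =>
  letR_ex h fun iD4 q167 h =>
  letR_ex h fun In4 q168 h =>
  letR_ex h fun bo4 q169 h =>
  letR_in h fun h =>
  letR_in h fun h =>
  letR_in h fun h =>
  letR_in h fun h =>
  letR_ex h fun Ie3 q170 h =>
  letR_in h fun h =>
  letR_ex h fun be3 q171 h =>
  letR_in h fun h =>
  letR_ex h fun Bw q172 h =>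
  letR_in h fun h =>
  letR_in h fun h =>
  letR_in h fun h =>
  letR_in h fun h =>
  (by delta a_R12 at h; exact
  letR_in h fun h =>
  letR_in h fun h =>
  letR_ex h fun ZI3 q173 h =>
  letR_in h fun h =>
  letR_ex h fun Je3 q174 h =>
  letR_in h fun h =>
  letR_in h fun h =>
  letR_in h fun h =>
  letR_ex h fun Jo3 q175 h =>
  letR_in h fun h =>
  letR_ex h fun ge3 q176 h =>
  letR_in h fun h =>
  letR_ex h fun ie4 q177 h =>
  letR_ex h fun Ie4 q178 h =>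
  letR_in h fun h =>
  letR_ex h fun ZI4 q179 h =>
  letR_in h fun h =>
  letR_ex h fun Je4 q180 h =>
  letR_in h fun h =>
  letR_in h fun h =>
  letR_in h fun h =>
  letR_ex h fun Jo4 q181 h =>
  letR_in h fun h =>
  letR_ex h fun ge4 q182 h =>
  letR_in h fun h =>
  letR_in h fun h =>
  letR_ex h fun Ztt q183 h =>
  letR_in h fun h =>
  letR_in h fun h =>
  letR_ex h fun go3 q184 h =>
  letR_in h fun h =>
  letR_ex h fun Cw q185 h =>
  letR_in h fun h =>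
  letR_in h fun h =>
  letR_in h fun h =>
  letR_in h fun h =>
  letR_in h fun h =>
  letR_ex h fun P0 q186 h =>
  letR_in h fun h =>
  (by delta a_R13 at h; exact
  letR_in h fun h =>
  letR_in h fun h =>
  letR_in h fun h =>
  letR_in h fun h =>
  letR_in h fun h =>
  letR_ex h fun Du q187 h =>
  invR_ex h fun q188 h =>
  letR_ex h fun iCs1 q189 h =>
  letR_ex h fun xe1 q190 h =>
  letR_in h fun h =>
  letR_in h fun h =>
  letR_in h fun h =>
  letR_ex h fun xn1 q191 h =>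
  letR_in h fun h =>
  letR_ex h fun he1 q192 h =>
  letR_in h fun h =>
  invR_ex h fun q193 h =>
  letR_ex h fun iCs2 q194 h =>
  letR_ex h fun xe2 q195 h =>
  letR_in h fun h =>
  letR_in h fun h =>
  letR_in h fun h =>
  letR_ex h fun xn2 q196 h =>
  letR_in h fun h =>
  letR_ex h fun he2 q197 h =>
  letR_in h fun h =>
  letR_in h fun h =>
  letR_in h fun h =>
  letR_in h fun h =>
  letR_ex h fun ho1 q198 h =>
  letR_in h fun h =>
  letR_ex h fun Eu q199 h =>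
  letR_in h fun h =>
  letR_in h fun h =>
  letR_in h fun h =>
  letR_in h fun h =>
  letR_in h fun h =>
  letR_in h fun h =>
  letR_in h fun h =>
  letR_in h fun h =>
  letR_in h fun h =>
  letR_ex h fun Dw q200 h =>
  letR_in h fun h =>
  (by delta a_R14 at h; exact
  invR_ex h fun q201 h =>
  letR_ex h fun iCs3 q202 h =>
  letR_ex h fun xe3 q203 h =>
  letR_in h fun h =>
  letR_in h fun h =>
  letR_in h fun h =>
  letR_ex h fun xn3 q204 h =>
  letR_in h fun h =>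
  letR_ex h fun he3 q205 h =>
  letR_in h fun h =>
  invR_ex h fun q206 h =>
  letR_ex h fun iCs4 q207 h =>
  letR_ex h fun xe4 q208 h =>
  letR_in h fun h =>
  letR_in h fun h =>
  letR_in h fun h =>
  letR_ex h fun xn4 q209 h =>
  letR_in h fun h =>
  letR_ex h fun he4 q210 h =>
  letR_in h fun h =>
  letR_in h fun h =>
  letR_in h fun h =>
  letR_in h fun h =>
  letR_ex h fun ho3 q211 h =>
  letR_in h fun h =>
  letR_ex h fun Ew q212 h =>
  letR_in h fun h =>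
  letR_in h fun h =>
  letR_in h fun h =>
  letR_in h fun h =>
  letR_ex h fun P1 q213 h =>
  letR_in h fun h =>
  letR_in h fun h =>
  letR_in h fun h =>
  letR_in h fun h =>
  posR_ex h fun q214 h =>
  ⟨p0, p1, p2, p3, kp, al, a9, w, uh, iu, Th, e1, bq, y, ib, ey, K, n, nW, uE, m, uO, lE, ik2, lE1, le, kk2, Z, C1, R1, iR1, iC1, hR1, up, q, io1, AE1, r, Zr, C2, R2, iR2, iC2, hR2, io2, AE2, lo, ik, lo1, ie1, Ao1, Au, qq1, Cs1, X1, iX1, qX1, So1, Se1, iD1, In1, bo1, Cs2, X2, iX2, qX2, So2, Se2, iD2, In2, bo2, Ie1, be1, Bu, ZI1, Je1, Jo1, ge1, ie2, Ie2, ZI2, Je2, Jo2, ge2, Zl, go1, Cu, bc, ibc, Tb, sb, e2, ep, iw, aw, wE, wO, tE, tE1, th, t2, te, Zt, C3, R3, iR3, iC3, hR3, uw, qt, io3, AE3, Ztr, C4, R4, iR4, iC4, hR4, io4, AE4, tO, tO1, tt, ie3, Ao3, Aw, qq3, Cs3, X3, iX3, qX3, So3, Se3, iD3, In3, bo3, Cs4, X4, iX4, qX4, So4, Se4, iD4, In4, bo4, Ie3, be3, Bw, ZI3, Je3, Jo3, ge3, ie4, Ie4, ZI4, Je4, Jo4,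 ge4, Ztt, go3, Cw, P0, Du, iCs1, xe1, xn1, he1, iCs2, xe2, xn2, he2, ho1, Eu, Dw, iCs3, xe3, xn3, he3, iCs4, xe4, xn4, he4, ho3, Ew, P1, q1, q2, q3, q4, q5, q6, q7, q8, q9, q10, q11, q12, q13, q14, q15, q16, q17, q18, q19, q20, q21, q22, q23, q24, q25, q26, q27, q28, q29, q30, q31, q32, q33, q34, q35, q36, q37, q38, q39, q40, q41, q42, q43, q44, q45, q46, q47, q48, q49, q50, q51, q52, q53, q54, q55, q56, q57, q58, q59, q60, q61, q62, q63, q64, q65, q66, q67, q68, q69, q70, q71, q72, q73, q74, q75, q76, q77, q78, q79, q80, q81, q82, q83, q84, q85, q86, q87, q88, q89, q90, q91, q92, q93, q94, q95, q96, q97, q98, q99, q100, q101, q102, q103, q104, q105, q106, q107, q108, q109, q110, q111, q112, q113, q114, q115, q116, q117, q118, q119, q120, q121, q122, q123, q124, q125, q126, q127, q128, q129, q130, q131, q132, q133, q134, q135, q136, q137, q138, q139, q140, q141, q142, q143, q144, q145, q146, q147, q148,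 q149, q150, q151, q152, q153, q154, q155, q156, q157, q158, q159, q160, q161, q162, q163, q164, q165, q166, q167, q168, q169, q170, q171, q172, q173, q174, q175, q176, q177, q178, q179, q180, q181, q182, q183, q184, q185, q186, q187, q188, q189, q190, q191, q192, q193, q194, q195, q196, q197, q198, q199, q200, q201, q202, q203, q204, q205, q206, q207, q208, q209, q210, q211, q212, q213, q214⟩))))))))))))))

theorem k15 : |2 ^ 48 * (-1 / 16 : ℝ) - (((4722366465277459169280 : ℕ) : ℝ) - 2 ^ 72)| ≤ ((0 : ℕ) : ℝ) := by norm_num [abs_le]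
theorem k16 : |2 ^ 48 * (-1 / 16384 : ℝ) - (((4722366482852465344512 : ℕ) : ℝ) - 2 ^ 72)| ≤ ((0 : ℕ) : ℝ) := by norm_num [abs_le]
def x_B (gs ps : ℕ) (x0 x1 x2 x3 : AF) : Bool :=
  sqrK x0 fun z25 =>
  sqrK z25 fun z26 =>
  mulK x1 z26 fun z27 =>
  addcK z27 4722366465277459169280 0 fun z28 =>
  addcK z28 4722366482852465344512 0 fun z29 =>
  posK z29 <|
  true

def x_R (gs ps : ℕ) (sg W e u3 : ℝ) : Prop :=
  letR (sg ^ 2) fun z25 =>
  letR (z25 ^ 2) fun z26 =>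
  letR (W * z26) fun z27 =>
  letR (z27 + (-1 / 16 : ℝ)) fun z28 =>
  letR (z28 + (-1 / 16384 : ℝ)) fun z29 =>
  posR z29 <|
  True

theorem x_S {ε : Fin 4 → ℝ} (gs : ℕ) (hε : ∀ i, |ε i| ≤ 1) (ps : ℕ) (x0 x1 x2 x3 : AF) (sg W e u3 : ℝ)
    (h0 : Rel ε x0 sg) (h1 : Rel ε x1 W) (h2 : Rel ε x2 e) (h3 : Rel ε x3 u3) :
    x_B gs ps x0 x1 x2 x3 = true → x_R gs ps sg W e u3 := by
  delta x_B x_R
  exact sqrS hε h0 fun z25 t25 g25 =>
  sqrS hε g25 fun z26 t26 g26 =>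
  mulS hε h1 g26 fun z27 t27 g27 =>
  addcS g27 k15 fun z28 t28 g28 =>
  addcS g28 k16 fun z29 t29 g29 =>
  posS hε g29 <|
  fun _ => trivial

/- obtain ⟨c0⟩ := h -/
def x_Spec (rho m0 m1 m2 n0 n1 n2 k0 k1 k2 ku kw A0 A1 B0 B1 g0 g1 g2 g3 g4 g5 sg W e : ℝ) : Prop :=
  0 ≤ (((W * ((sg ^ 2) ^ 2)) + (-1 / 16 : ℝ)) + (-1 / 16384 : ℝ))

theorem x_E {gs ps : ℕ} {sg W e u3 : ℝ} (h : x_R gs ps sg W e u3) : x_Spec (parV gs 0) (parV gs 1) (parV gs 2) (parV gs 3) (parV gs 4) (parV gs 5) (parV gs 6) (parV gs 7) (parV gs 8) (parV gs 9) (parV gs 10) (parV gs 11) (parV gs 12) (parV gs 13) (parV gs 14) (parV gs 15) (parV gs 16) (parV gs 17) (parV gs 18) (parV gs 19) (parV gs 20) (parV gs 21) sg W e := by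
  delta x_R at h
  exact letR_in h fun h =>
  letR_in h fun h =>
  letR_in h fun h =>
  letR_in h fun h =>
  letR_in h fun h =>
  posR_ex h fun q1 h =>
  q1

theorem k17 : |2 ^ 48 * (-1 / 2 : ℝ) - (((4722366342132156858368 : ℕ) : ℝ) - 2 ^ 72)| ≤ ((0 : ℕ) : ℝ) := by norm_num [abs_le]
def y_B (gs ps : ℕ) (x0 x1 x2 x3 : AF) : Bool :=
  addcK x2 4722366764344621924352 0 fun z25 =>
  mulK x0 z25 fun z26 =>
  sqrK z26 fun z27 =>
  addcK z27 4722366342132156858368 0 fun z28 =>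
  posK z28 <|
  true

def y_R (gs ps : ℕ) (sg W e u3 : ℝ) : Prop :=
  letR (e + (1 : ℝ)) fun z25 =>
  letR (sg * z25) fun z26 =>
  letR (z26 ^ 2) fun z27 =>
  letR (z27 + (-1 / 2 : ℝ)) fun z28 =>
  posR z28 <|
  True

theorem y_S {ε : Fin 4 → ℝ} (gs : ℕ) (hε : ∀ i, |ε i| ≤ 1) (ps : ℕ) (x0 x1 x2 x3 : AF) (sg W e u3 : ℝ)
    (h0 : Rel ε x0 sg) (h1 : Rel ε x1 W) (h2 : Rel ε x2 e) (h3 : Rel ε x3 u3) :
    y_B gs ps x0 x1 x2 x3 = true → y_R gs ps sg W e u3 := by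
  delta y_B y_R
  exact addcS h2 k3 fun z25 t25 g25 =>
  mulS hε h0 g25 fun z26 t26 g26 =>
  sqrS hε g26 fun z27 t27 g27 =>
  addcS g27 k17 fun z28 t28 g28 =>
  posS hε g28 <|
  fun _ => trivial

/- obtain ⟨c0⟩ := h -/
def y_Spec (rho m0 m1 m2 n0 n1 n2 k0 k1 k2 ku kw A0 A1 B0 B1 g0 g1 g2 g3 g4 g5 sg W e : ℝ) : Prop :=
  0 ≤ (((sg * (e + (1 : ℝ))) ^ 2) + (-1 / 2 : ℝ))

theorem y_E {gs ps : ℕ} {sg W e u3 : ℝ} (h : y_R gs ps sg W e u3) : y_Spec (parV gs 0) (parV gs 1) (parV gs 2) (parV gs 3) (parV gs 4) (parV gs 5) (parV gs 6) (parV gs 7) (parV gs 8) (parV gs 9) (parV gs 10) (parV gs 11) (parV gs 12) (parV gs 13) (parV gs 14) (parV gs 15) (parV gs 16) (parV gs 17) (parV gs 18) (parV gs 19) (parV gs 20) (parV gs 21) sg W e := by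
  delta y_R at h
  exact letR_in h fun h =>
  letR_in h fun h =>
  letR_in h fun h =>
  letR_in h fun h =>
  posR_ex h fun q1 h =>
  q1

def PB (gs : ℕ) : Prog := fun j ps x0 x1 x2 x3 =>
  Nat.rec (motive := fun _ => Bool) (a_B gs ps x0 x1 x2 x3) (fun j _ => Nat.rec (motive := fun _ => Bool) (x_B gs ps x0 x1 x2 x3) (fun j _ => y_B gs ps x0 x1 x2 x3) j) j

def PR (gs : ℕ) : ℕ → ℕ → ℝ → ℝ → ℝ → ℝ → Prop := fun j ps sg W e u3 =>
  Nat.rec (motive := fun _ => Prop) (a_R gs ps sg W e u3) (fun j _ => Nat.rec (motive := fun _ => Prop) (x_R gs ps sg W e u3) (fun j _ => y_R gs ps sg W e u3) j) j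

theorem PS (gs : ℕ) : Sound (PB gs) (PR gs) := fun _ hε j => match j with
  | 0 => a_S gs hε
  | 1 => x_S gs hε
  | _ + 2 => y_S gs hε

theorem PE {j gs ps : ℕ} {sg W e u3 : ℝ} : PR gs j ps sg W e u3 → a_Spec (parV gs 0) (parV gs 1) (parV gs 2) (parV gs 3) (parV gs 4) (parV gs 5) (parV gs 6) (parV gs 7) (parV gs 8) (parV gs 9) (parV gs 10) (parV gs 11) (parV gs 12) (parV gs 13) (parV gs 14) (parV gs 15) (parV gs 16) (parV gs 17) (parV gs 18) (parV gs 19) (parV gs 20) (parV gs 21) sg W e ∨ x_Spec (parV gs 0) (parV gs 1) (parV gs 2) (parV gs 3) (parV gs 4) (parV gs 5) (parV gs 6) (parV gs 7) (parV gs 8) (parV gs 9) (parV gs 10) (parV gs 11) (parV gs 12) (parV gs 13) (parV gs 14) (parV gs 15) (parV gs 16) (parV gs 17) (parV gs 18) (parV gs 19) (parV gs 20) (parV gs 21) sg W e ∨ y_Spec (parV gs 0) (parV gs 1) (parV gs 2) (parV gs 3) (parV gs 4) (parV gs 5) (parV gs 6) (parV gs 7) (parV gs 8) (parV gs 9) (parV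 gs 10) (parV gs 11) (parV gs 12) (parV gs 13) (parV gs 14) (parV gs 15) (parV gs 16) (parV gs 17) (parV gs 18) (parV gs 19) (parV gs 20) (parV gs 21) sg W e := match j with
  | 0 => fun h => Or.inl (@a_E gs ps sg W e u3 h)
  | 1 => fun h => Or.inr (Or.inl (@x_E gs ps sg W e u3 h))
  | _ + 2 => fun h => Or.inr (Or.inr (@y_E gs ps sg W e u3 h))

theorem of_good {gs l0 h0 l1 h1 l2 h2 l3 h3 : ℕ} (h : Good (PR gs) l0 h0 l1 h1 l2 h2 l3 h3) {sg W e u3 : ℝ}
    (hb : InBox l0 h0 l1 h1 l2 h2 l3 h3 sg W e u3) : a_Spec (parV gs 0) (parV gs 1) (parV gs 2) (parV gs 3) (parV gs 4) (parV gs 5) (parV gs 6) (parV gs 7) (parV gs 8) (parV gs 9) (parV gs 10) (parV gs 11) (parV gs 12) (parV gs 13) (parV gs 14) (parV gs 15) (parV gs 16) (parV gs 17) (parV gs 18) (parV gs 19) (parV gs 20) (parV gs 21) sg W e ∨ x_Spec (parV gs 0) (parV gs 1) (parV gs 2) (parV gs 3) (parV gs 4) (parV gs 5) (parV gs 6) (parV gs 7) (parV gs 8) (parV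 gs 9) (parV gs 10) (parV gs 11) (parV gs 12) (parV gs 13) (parV gs 14) (parV gs 15) (parV gs 16) (parV gs 17) (parV gs 18) (parV gs 19) (parV gs 20) (parV gs 21) sg W e ∨ y_Spec (parV gs 0) (parV gs 1) (parV gs 2) (parV gs 3) (parV gs 4) (parV gs 5) (parV gs 6) (parV gs 7) (parV gs 8) (parV gs 9) (parV gs 10) (parV gs 11) (parV gs 12) (parV gs 13) (parV gs 14) (parV gs 15) (parV gs 16) (parV gs 17) (parV gs 18) (parV gs 19) (parV gs 20) (parV gs 21) sg W e := by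
  obtain ⟨j, ps, h⟩ := h sg W e u3 hb
  exact PE h

def l0 : Tree := Tree.leaf 0
def l1 : Tree := Tree.leaf 1
def l2 : Tree := Tree.leaf 2

end

end Crest.Agent.R307.HX
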