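import Crest.Agent.R307.HPair
import Crest.Agent.R307.HBb
import Crest.Agent.R307.HXP

/-! Row 307: the chart `x = (a0 + a1)/2 = σ² (1 + e)²`. -/

set_option autoImplicit false

namespace Crest.Agent.R307

theorem HXm_uf_nonneg {α : ℝ} (h0 : 0 ≤ α) (h1 : α ≤ 1) : 0 ≤ uf α := by
  unfold uf; nlinarith

/-- the end game, with the values of `FB` and `FB'` at the reference point as hypotheses -/
theorem HXm_fin {ρ u w U0 U1 W0 W1 σ z q τ y ku kw K kp e Z P0 P1 : ℝ} (h0 : 0 ≤ ρ) (h1 : ρ < 1)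
    (hσ : 0 < σ) (hσ2 : σ ^ 2 ≤ 1 / 2) (hu : 0 < u) (hw : 0 < w) (hU0 : 0 ≤ U0) (hU1 : 0 ≤ U1)
    (hW0 : 0 ≤ W0) (hW1 : 0 ≤ W1) (hz0 : 0 ≤ z) (hz1 : 0 < 1 - z) (hZ : z ^ 2 = Z) (hτ : 0 ≤ τ)
    (hq0 : 0 < 1 + z * q) (hq1 : 0 < 1 - z * q) (ha0 : σ ^ 2 * τ ^ 2 * (1 + z * q) < 1)
    (ha1 : σ ^ 2 * τ ^ 2 * (1 - z * q) < 1) (hy : 0 < y) (hy2 : y ^ 2 = 1 - (σ * τ) ^ 2)
    (hku : Kap ρ (U0 / u) (U1 / u) ku) (hkw : Kap ρ (W1 / w) (W0 / w) kw)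
    (hK : u * K = u * ku + w * kw * (σ * τ / y) ^ 3) (hkp : 0 < kp) (hkK : kp ≤ K)
    (hP : 2 * τ * P1 ^ 2 ≤ kp * P0)
    (hF : FB ρ u w U0 (U1 / (2 * (σ * √(1 - z)))) W0 W1 (σ ^ 2 * (1 + z)) (σ * √(1 - z))
      (σ ^ 2 * τ ^ 2 * (1 + z * q)) (σ ^ 2 * τ ^ 2 * (1 - z * q)) = u * σ * e ^ 2 * Z * P0)
    (hF' : ∀ φ : ℝ, 0 < τ → σ * √(1 - z) * φ = σ * τ * √(1 - z * q) →
      FB' ρ u w U0 (U1 / (2 * (σ * √(1 - z)))) W0 W1 (σ ^ 2 * (1 + z)) (σ * √(1 - z))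
      (σ ^ 2 * τ ^ 2 * (1 + z * q)) (σ ^ 2 * τ ^ 2 * (1 - z * q)) φ = u * e * z * P1 / (σ * τ))
    {b0 b1 : ℝ} (hb00 : 0 ≤ b0) (hb01 : b0 ≤ 1) (hb10 : 0 ≤ b1) (hb11 : b1 ≤ 1)
    (hb : b0 + b1 = 2 * (σ * τ) ^ 2) :
    0 ≤ FB ρ u w U0 (U1 / (2 * (σ * √(1 - z)))) W0 W1 (σ ^ 2 * (1 + z)) (σ * √(1 - z)) b0 b1 := by
  have hZ0 : 0 ≤ Z := hZ ▸ sq_nonneg z
  have hP0 : 0 ≤ P0 := by
    have : 0 ≤ kp * P0 := le_trans (by positivity) hP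
    exact nonneg_of_mul_nonneg_right this hkp |> fun h => h
  rcases hτ.eq_or_lt with hτ0 | hτ0
  · subst hτ0
    rw [mul_zero, zero_pow two_ne_zero, mul_zero] at hb
    have e0 : b0 = 0 := by linarith only [hb, hb00, hb10]
    have e1 : b1 = 0 := by linarith only [hb, hb00, hb10]
    have e2 : σ ^ 2 * (0 : ℝ) ^ 2 * (1 + z * q) = 0 := by ring
    have e3 : σ ^ 2 * (0 : ℝ) ^ 2 * (1 - z * q) = 0 := by ring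
    rw [e2, e3] at hF
    rw [e0, e1, hF]
    positivity
  have hs : 0 < √(1 - z) := Real.sqrt_pos.2 hz1
  have hs' : 0 < √(1 - z * q) := Real.sqrt_pos.2 hq1
  have hs2 : √(1 - z) ^ 2 = 1 - z := Real.sq_sqrt hz1.le
  have hφ : σ * √(1 - z) * (τ * √(1 - z * q) / √(1 - z)) = σ * τ * √(1 - z * q) := by
    field_simp
  have hφ2 : (σ * √(1 - z) * (τ * √(1 - z * q) / √(1 - z))) ^ 2 = σ ^ 2 * τ ^ 2 * (1 - z * q) := by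
    rw [hφ, mul_pow, mul_pow, Real.sq_sqrt hq1.le]
  have hx : √((σ * τ) ^ 2) = σ * τ := Real.sqrt_sq (by positivity)
  have hx' : √(1 - (σ * τ) ^ 2) = y := by rw [← hy2]; exact Real.sqrt_sq hy.le
  have hκ : u * ku / ((σ * τ) ^ 2 * √((σ * τ) ^ 2)) +
      w * kw / ((1 - (σ * τ) ^ 2) * √(1 - (σ * τ) ^ 2)) = u * K / (σ * τ) ^ 3 := by
    rw [hx, hx', ← hy2, hK]
    field_simp
  have hK0 : 0 < K := hkp.trans_le hkK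
  have hσ0 : 0 < σ ^ 2 := pow_pos hσ 2
  have g1 : σ ^ 2 * (1 + z) < 1 := by
    have : σ ^ 2 * (1 + z) < σ ^ 2 * 2 := mul_lt_mul_of_pos_left (by linarith only [hz1]) hσ0
    linarith only [this, hσ2]
  have g2 : σ * √(1 - z) < 1 := by
    refine lt_of_pow_lt_pow_left₀ 2 zero_le_one ?_
    rw [mul_pow, hs2]
    have : σ ^ 2 * (1 - z) ≤ σ ^ 2 * 1 := mul_le_mul_of_nonneg_left (by linarith only [hz0]) hσ0.le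
    linarith only [this, hσ2]
  have g3 : Kap ρ (U0 / u) (2 * (σ * √(1 - z)) * (U1 / (2 * (σ * √(1 - z)))) / u) ku := by
    have : 2 * (σ * √(1 - z)) * (U1 / (2 * (σ * √(1 - z)))) = U1 :=
      mul_div_cancel₀ _ (by positivity)
    rw [this]; exact hku
  have g4 : (σ * τ) ^ 2 < 1 := by linarith only [hy2, pow_pos hy 2]
  have g5 : σ ^ 2 * τ ^ 2 * (1 + z * q) +
      (σ * √(1 - z) * (τ * √(1 - z * q) / √(1 - z))) ^ 2 = 2 * (σ * τ) ^ 2 := by rw [hφ2]; ring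
  have g6 : (σ * √(1 - z) * (τ * √(1 - z * q) / √(1 - z))) ^ 2 < 1 := by rw [hφ2]; exact ha1
  have g7 : 0 < u * ku / ((σ * τ) ^ 2 * √((σ * τ) ^ 2)) +
      w * kw / ((1 - (σ * τ) ^ 2) * √(1 - (σ * τ) ^ 2)) := by rw [hκ]; positivity
  refine FB_nonneg_of_ref h0 h1 hu hw hU0 (div_nonneg hU1 (by positivity)) hW0 hW1
    (mul_pos hσ0 (by linarith only [hz0])) g1 (mul_pos hσ hs).le g2 g3 hkw
    (pow_pos (mul_pos hσ hτ0) 2) g4 (div_pos (mul_pos hτ0 hs') hs) g5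
    (mul_pos (mul_pos hσ0 (pow_pos hτ0 2)) hq0) ha0 g6 g7 ?_ hb00 hb01 hb10 hb11 hb
  · rw [hκ, hφ2, hF, hF' _ hτ0 hφ]
    have h2 : 2 * τ * P1 ^ 2 ≤ K * P0 := hP.trans (mul_le_mul_of_nonneg_right hkK hP0)
    have e1 : 2 * (u * e * z * P1 / (σ * τ)) ^ 2 =
        u ^ 2 * e ^ 2 * Z / (σ ^ 2 * τ ^ 3) * (2 * τ * P1 ^ 2) := by
      rw [← hZ]; field_simp
    have e2 : u * K / (σ * τ) ^ 3 * (u * σ * e ^ 2 * Z * P0) =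
        u ^ 2 * e ^ 2 * Z / (σ ^ 2 * τ ^ 3) * (K * P0) := by
      field_simp
    rw [e1, e2]
    exact mul_le_mul_of_nonneg_left h2 (by positivity)

theorem HXm_tau {al e e1 e2 bq bc ibc y sb th ep : ℝ} (h_e1 : e1 = e + 1) (h_e2 : e2 = e + 2)
    (h_bq : bq = 1 - al * e1 ^ 2) (h_bc : bc = 1 - al) (hy2 : y ^ 2 = bq) (hsb2 : sb ^ 2 = bc)
    (p_sb : 0 < sb) (p : 0 < y + sb) (h_ibc : ibc = bc⁻¹) (h_th : th = al * ibc)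
    (h_ep : ep = 0 - e2 * sb * (y + sb)⁻¹) : y / sb - 1 = e * th * ep := by
  have h : (y - sb) * (y + sb) = -(al * e * e2) := by
    have : (y - sb) * (y + sb) = y ^ 2 - sb ^ 2 := by ring
    rw [this, hy2, hsb2, h_bq, h_bc, h_e1, h_e2]; ring
  have h' : y - sb = -(al * e * e2) / (y + sb) := by rw [eq_div_iff p.ne', h]
  have e3 : y / sb - 1 = (y - sb) / sb := by field_simp
  rw [e3, h', h_th, h_ibc, h_ep, ← hsb2]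
  field_simp
  ring

theorem HXm_q {al e e1 e2 bq bc ib y sb q up uw qt : ℝ} (h_e1 : e1 = e + 1) (h_e2 : e2 = e + 2)
    (h_bq : bq = 1 - al * e1 ^ 2) (h_bc : bc = 1 - al) (hy2 : y ^ 2 = bq) (hsb2 : sb ^ 2 = bc)
    (p_ib : 0 < bq) (p_ibc : 0 < bc) (h_ib : ib = bq⁻¹) (h_q : q = up * e + 1)
    (h_uw : uw = (bc * (e2 * q + up) + al * e2) * ib) (h_qt : qt = e * uw + 1) :
    e1 ^ 2 * q = (y / sb) ^ 2 * qt := by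
  rw [div_pow, hy2, hsb2, h_qt, h_uw, h_ib]
  field_simp
  rw [h_bq, h_bc, h_q, h_e1, h_e2]
  ring

/-- Destructure the Spec (pattern in the comment above `HX.a_Spec`); `z = ω / √ik2 = ω / ik`, `z² = Z`, `z lo1 = ω lo`, `z tO1 = ω tO`,
`le = 1 + Z lE1`.  `pairF_of` four times, `coef_of`, and `FB_pairs` with `τ = 1 + e`, `τ' = y / sb`
(`τ' - 1 = e th ep`, `q - 1 = up e`, `qt - 1 = e uw`, `τ² q = τ'² qt`) give, with `u = al uh`,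
`FBv (ref) = u σ e² Z P0`, `FB' = u e z P1 / (σ (1 + e))` and `u ku / (x √x) + w kw / ((1-x) √(1-x)) = u K / (σ (1+e))³`;
the last check and `0 < kp ≤ K` give `0 ≤ P0` and the hypothesis `hP` of `FB_nonneg_of_ref` (`φ = τ √(1 - z q) / √(1 - z)`).
If `e = -1` then `b0 = b1 = 0` is the reference point itself and `0 ≤ P0` suffices. -/
theorem HX_main {rho m0 m1 m2 n0 n1 n2 k0 k1 k2 ku kw A0 A1 B0 B1 g0 g1 g2 g3 g4 g5 σ ω e : ℝ} (h0 : 0 ≤ rho) (h1 : rho < 1)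
    (hσ : 0 < σ) (hσ2 : σ ^ 2 ≤ 1 / 2) (hω : 0 ≤ ω) (hω1 : ω ≤ 1) (he : -1 ≤ e)
    (hμ0 : 0 ≤ muv (af3 m0 m1 m2 σ (ω ^ 2)) (af3 n0 n1 n2 σ (ω ^ 2)) ω)
    (hμ1 : 0 ≤ muv (af3 m0 m1 m2 σ (ω ^ 2)) (af3 n0 n1 n2 σ (ω ^ 2)) (-ω))
    (hK : Kv rho (af3 m0 m1 m2 σ (ω ^ 2)) (af3 n0 n1 n2 σ (ω ^ 2)) σ ω ku kw)
    (h : HX.a_Spec rho m0 m1 m2 n0 n1 n2 k0 k1 k2 ku kw A0 A1 B0 B1 g0 g1 g2 g3 g4 g5 σ (ω ^ 2) e)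
    {b0 b1 : ℝ} (hb00 : 0 ≤ b0) (hb01 : b0 ≤ 1) (hb10 : 0 ≤ b1) (hb11 : b1 ≤ 1) (hb : b0 + b1 = 2 * (σ * (1 + e)) ^ 2) :
    0 ≤ FBv rho (af3 m0 m1 m2 σ (ω ^ 2)) (af3 n0 n1 n2 σ (ω ^ 2)) (1 - af3 k0 k1 k2 σ (ω ^ 2)) σ ω b0 b1 := by
  obtain ⟨p0, p1, p2, p3, kp, al, a9, w, h⟩ := h
  obtain ⟨uh, iu, Th, e1, bq, y, ib, ey, h⟩ := h
  obtain ⟨K, n, nW, uE, m, uO, lE, ik2, h⟩ := h
  obtain ⟨lE1, le, kk2, Z, C1, R1, iR1, iC1, h⟩ := h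
  obtain ⟨hR1, up, q, io1, AE1, r, Zr, C2, h⟩ := h
  obtain ⟨R2, iR2, iC2, hR2, io2, AE2, lo, ik, h⟩ := h
  obtain ⟨lo1, ie1, Ao1, Au, qq1, Cs1, X1, iX1, h⟩ := h
  obtain ⟨qX1, So1, Se1, iD1, In1, bo1, Cs2, X2, h⟩ := h
  obtain ⟨iX2, qX2, So2, Se2, iD2, In2, bo2, Ie1, h⟩ := h
  obtain ⟨be1, Bu, ZI1, Je1, Jo1, ge1, ie2, Ie2, h⟩ := h
  obtain ⟨ZI2, Je2, Jo2, ge2, Zl, go1, Cu, bc, h⟩ := h
  obtain ⟨ibc, Tb, sb, e2, ep, iw, aw, wE, h⟩ := h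
  obtain ⟨wO, tE, tE1, th, t2, te, Zt, C3, h⟩ := h
  obtain ⟨R3, iR3, iC3, hR3, uw, qt, io3, AE3, h⟩ := h
  obtain ⟨Ztr, C4, R4, iR4, iC4, hR4, io4, AE4, h⟩ := h
  obtain ⟨tO, tO1, tt, ie3, Ao3, Aw, qq3, Cs3, h⟩ := h
  obtain ⟨X3, iX3, qX3, So3, Se3, iD3, In3, bo3, h⟩ := h
  obtain ⟨Cs4, X4, iX4, qX4, So4, Se4, iD4, In4, h⟩ := h
  obtain ⟨bo4, Ie3, be3, Bw, ZI3, Je3, Jo3, ge3, h⟩ := h
  obtain ⟨ie4, Ie4, ZI4, Je4, Jo4, ge4, Ztt, go3, h⟩ := h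
  obtain ⟨Cw, P0, Du, iCs1, xe1, xn1, he1, iCs2, h⟩ := h
  obtain ⟨xe2, xn2, he2, ho1, Eu, Dw, iCs3, xe3, h⟩ := h
  obtain ⟨xn3, he3, iCs4, xe4, xn4, he4, ho3, Ew, h⟩ := h
  obtain ⟨P1, c0, h_al, h_a9, h_w, h_uh, p_iu, h_iu, h⟩ := h
  obtain ⟨h_Th, h_e1, h_bq, h_y, p_ib, h_ib, h_ey, h_K, h⟩ := h
  obtain ⟨c1, h_n, h_nW, h_uE, h_m, h_uO, h_lE, h_ik2, h⟩ := h
  obtain ⟨h_lE1, h_le, p_kk2, h_kk2, h_Z, h_C1, h_R1, p_iR1, h⟩ := h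
  obtain ⟨h_iR1, p_iC1, h_iC1, h_hR1, p_35, h_up, h_q, h_io1, h⟩ := h
  obtain ⟨h_AE1, h_r, h_Zr, h_C2, h_R2, p_iR2, h_iR2, p_iC2, h⟩ := h
  obtain ⟨h_iC2, h_hR2, p_49, h_io2, h_AE2, h_lo, h_ik, h_lo1, h⟩ := h
  obtain ⟨h_ie1, h_Ao1, h_Au, h_qq1, h_Cs1, h_X1, p_iX1, h_iX1, h⟩ := h
  obtain ⟨h_qX1, h_So1, h_Se1, p_iD1, h_iD1, h_In1, h_bo1, h_Cs2, h⟩ := h
  obtain ⟨h_X2, p_iX2, h_iX2, h_qX2, h_So2, h_Se2, p_iD2, h_iD2, h⟩ := h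
  obtain ⟨h_In2, h_bo2, h_Ie1, h_be1, h_Bu, h_ZI1, h_Je1, h_Jo1, h⟩ := h
  obtain ⟨h_ge1, h_ie2, h_Ie2, h_ZI2, h_Je2, h_Jo2, h_ge2, h_Zl, h⟩ := h
  obtain ⟨h_go1, h_Cu, h_bc, p_ibc, h_ibc, h_Tb, h_sb, p_sb, h⟩ := h
  obtain ⟨h_e2, p_104, h_ep, p_iw, h_iw, h_aw, h_wE, h_wO, h⟩ := h
  obtain ⟨h_tE, h_tE1, h_th, h_t2, h_te, h_Zt, h_C3, h_R3, h⟩ := h
  obtain ⟨p_iR3, h_iR3, p_iC3, h_iC3, h_hR3, p_124, h_uw, h_qt, h⟩ := h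
  obtain ⟨h_io3, h_AE3, h_Ztr, h_C4, h_R4, p_iR4, h_iR4, p_iC4, h⟩ := h
  obtain ⟨h_iC4, h_hR4, p_137, h_io4, h_AE4, h_tO, h_tO1, h_tt, h⟩ := h
  obtain ⟨h_ie3, h_Ao3, h_Aw, h_qq3, h_Cs3, h_X3, p_iX3, h_iX3, h⟩ := h
  obtain ⟨h_qX3, h_So3, h_Se3, p_iD3, h_iD3, h_In3, h_bo3, h_Cs4, h⟩ := h
  obtain ⟨h_X4, p_iX4, h_iX4, h_qX4, h_So4, h_Se4, p_iD4, h_iD4, h⟩ := h
  obtain ⟨h_In4, h_bo4, h_Ie3, h_be3, h_Bw, h_ZI3, h_Je3, h_Jo3, h⟩ := h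
  obtain ⟨h_ge3, h_ie4, h_Ie4, h_ZI4, h_Je4, h_Jo4, h_ge4, h_Ztt, h⟩ := h
  obtain ⟨h_go3, h_Cw, h_P0, h_Du, p_iCs1, h_iCs1, h_xe1, h_xn1, h⟩ := h
  obtain ⟨h_he1, p_iCs2, h_iCs2, h_xe2, h_xn2, h_he2, h_ho1, h_Eu, h⟩ := h
  obtain ⟨h_Dw, p_iCs3, h_iCs3, h_xe3, h_xn3, h_he3, p_iCs4, h_iCs4, h⟩ := h
  obtain ⟨h_xe4, h_xn4, h_he4, h_ho3, h_Ew, h_P1, c2⟩ := h
  have hm : af3 m0 m1 m2 σ (ω ^ 2) = m := h_m.symm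
  have hn : af3 n0 n1 n2 σ (ω ^ 2) = n := h_n.symm
  have hk : 1 - af3 k0 k1 k2 σ (ω ^ 2) = ik2 := h_ik2.symm
  rw [hm, hn] at hμ0 hμ1 hK
  rw [hm, hn, hk]
  obtain ⟨c_u, c_w, c_U0, c_U1, c_W1, c_W0⟩ := coef_of (ω := ω) rfl h_al h_a9 h_uh p_iu h_iu h_w p_iw
    h_iw h_aw h_uE h_uO h_wE h_wO h_nW h_lE h_lo h_le h_tE h_tO h_te
  have hik : 0 < ik := h_ik ▸ Real.sqrt_pos.2 p_kk2
  have hik2 : ik ^ 2 = ik2 := h_ik ▸ Real.sq_sqrt p_kk2.le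
  obtain ⟨z, hz⟩ : ∃ z, z = ω / ik := ⟨_, rfl⟩
  have hZ : z ^ 2 = Z := by rw [hz, div_pow, hik2, h_Z, h_kk2, div_eq_mul_inv]
  have hz0 : 0 ≤ z := hz ▸ div_nonneg hω hik.le
  have hzlo : ω * lo = z * lo1 := by rw [hz, h_lo1, div_mul_eq_mul_div, ← mul_assoc, mul_div_cancel_right₀ _ hik.ne']
  have hztO : ω * tO = z * tO1 := by rw [hz, h_tO1, div_mul_eq_mul_div, ← mul_assoc, mul_div_cancel_right₀ _ hik.ne']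
  have hkk : kk2 * ik2 = 1 := h_kk2 ▸ inv_mul_cancel₀ p_kk2.ne'
  have hle : le = 1 + Z * lE1 := by
    rw [h_le, h_Z, h_lE1]; linear_combination (-(ω ^ 2 * lE)) * hkk
  have hte : te = 1 + Z * tE1 := by
    rw [h_te, h_Z, h_tE1]; linear_combination (-(ω ^ 2 * tE)) * hkk
  have Q1 := pairF_of h_C1 h_R1 h_iR1 p_iC1 h_iC1 h_hR1 h_io1 h_ie1 h_qq1 h_Cs1 p_iCs1 h_X1 h_iX1
    h_qX1 h_So1 h_Se1 h_iD1 h_In1 h_Ie1 h_ZI1 h_Je1 h_Jo1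
  have Q2 := pairF_of h_C2 h_R2 h_iR2 p_iC2 h_iC2 h_hR2 h_io2 h_ie2 h_qq1 h_Cs2 p_iCs2 h_X2 h_iX2
    h_qX2 h_So2 h_Se2 h_iD2 h_In2 h_Ie2 h_ZI2 h_Je2 h_Jo2
  have Q3 := pairF_of h_C3 h_R3 h_iR3 p_iC3 h_iC3 h_hR3 h_io3 h_ie3 h_qq3 h_Cs3 p_iCs3 h_X3 h_iX3
    h_qX3 h_So3 h_Se3 h_iD3 h_In3 h_Ie3 h_ZI3 h_Je3 h_Jo3
  have Q4 := pairF_of h_C4 h_R4 h_iR4 p_iC4 h_iC4 h_hR4 h_io4 h_ie4 h_qq3 h_Cs4 p_iCs4 h_X4 h_iX4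
    h_qX4 h_So4 h_Se4 h_iD4 h_In4 h_Ie4 h_ZI4 h_Je4 h_Jo4
  rw [← h_AE1, ← h_Ao1, ← h_be1, ← h_bo1, ← h_ge1, ← h_go1, ← h_iCs1, ← h_xe1, ← h_xn1, ← h_he1,
    ← h_ho1] at Q1
  rw [← h_AE2, ← h_bo2, ← h_ge2, ← h_iCs2, ← h_xe2, ← h_xn2, ← h_he2, h_Zr] at Q2
  rw [← h_AE3, ← h_Ao3, ← h_be3, ← h_bo3, ← h_ge3, ← h_go3, ← h_iCs3, ← h_xe3, ← h_xn3, ← h_he3,
    ← h_ho3, h_Zt] at Q3
  rw [← h_AE4, ← h_bo4, ← h_ge4, ← h_iCs4, ← h_xe4, ← h_xn4, ← h_he4, h_Ztr, h_Zt] at Q4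
  have hy : 0 < y := h_y ▸ Real.sqrt_pos.2 p_ib
  have hy2 : y ^ 2 = bq := h_y ▸ Real.sq_sqrt p_ib.le
  have hsb2 : sb ^ 2 = bc := h_sb ▸ Real.sq_sqrt p_ibc.le
  have he1 : 0 ≤ e1 := by rw [h_e1]; exact neg_le_iff_add_nonneg.1 he |> fun h => by linarith only [h]
  have hs : σ ^ 2 + sb ^ 2 = 1 := by rw [hsb2, h_bc, h_al]; ring
  have hth : th * sb ^ 2 = σ ^ 2 := by
    rw [hsb2, h_th, h_ibc, mul_assoc, inv_mul_cancel₀ p_ibc.ne', mul_one, h_al]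
  have hsy : sb ^ 2 * (y / sb) ^ 2 = y ^ 2 := by
    rw [← mul_pow, mul_div_cancel₀ _ p_sb.ne']
  have hab : σ ^ 2 * e1 ^ 2 + sb ^ 2 * (y / sb) ^ 2 = 1 := by
    rw [hsy, hy2, h_bq, h_al]; ring
  have hq := HXm_q h_e1 h_e2 h_bq h_bc hy2 hsb2 p_ib p_ibc h_ib h_q h_uw h_qt
  have hτ' := HXm_tau h_e1 h_e2 h_bq h_bc hy2 hsb2 p_sb p_104 h_ibc h_th h_ep
  obtain ⟨hF, hF'⟩ := FB_pairs (u := al * uh) (w := w) hσ p_sb hs hth h_t2 h_r hZ he1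
    (div_nonneg hy.le p_sb.le) hab hq hle hte h_tt h_Zl h_Ztt Q1 Q2 Q3 Q4
  rw [← h_Au, ← h_Bu, ← h_Cu, ← h_Aw, ← h_Bw, ← h_Cw] at hF
  rw [← h_Du, ← h_Eu, ← h_Dw, ← h_Ew] at hF'
  have d1 : e1 - 1 = e := by rw [h_e1]; ring
  have d2 : q - 1 = up * e := by rw [h_q]; ring
  have d3 : qt - 1 = e * uw := by rw [h_qt]; ring
  rw [hτ', d1, d2, d3] at hF hF'
  obtain ⟨hz1, hq1, -⟩ := Q1 (-z) (by rw [neg_sq, hZ])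
  obtain ⟨-, hq0, -⟩ := Q1 z hZ
  obtain ⟨-, hq2, -⟩ := Q3 (th * z) (by rw [mul_pow, hZ, h_t2])
  obtain ⟨-, hq3, -⟩ := Q3 (-(th * z)) (by rw [neg_sq, mul_pow, hZ, h_t2])
  have hal : 0 < al := h_al ▸ pow_pos hσ 2
  have hσω : 0 ≤ σ ^ 2 * ω := mul_nonneg (sq_nonneg σ) hω
  have hσω' : σ ^ 2 * ω ≤ σ ^ 2 := mul_le_of_le_one_right (sq_nonneg σ) hω1
  have hσ0 : 0 ≤ σ ^ 2 := sq_nonneg σ
  have nU0 := mul_nonneg hμ0 (HXm_uf_nonneg (α := σ ^ 2 + σ ^ 2 * ω)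
    (by linarith only [hσω, hσ0]) (by linarith only [hσω', hσ2]))
  have nU1 := mul_nonneg hμ1 (HXm_uf_nonneg (α := σ ^ 2 - σ ^ 2 * ω)
    (by linarith only [hσω']) (by linarith only [hσω, hσ2]))
  have nW0 := mul_nonneg hμ0 (HXm_uf_nonneg (α := 1 - (σ ^ 2 + σ ^ 2 * ω))
    (by linarith only [hσω', hσ2]) (by linarith only [hσω, hσ0]))
  have nW1 := mul_nonneg hμ1 (HXm_uf_nonneg (α := 1 - (σ ^ 2 - σ ^ 2 * ω))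
    (by linarith only [hσω, hσ2]) (by linarith only [hσω']))
  unfold Kv at hK
  unfold FBv
  rw [hzlo] at c_U0 c_U1
  rw [hztO] at c_W0 c_W1
  rw [c_U0] at nU0
  rw [c_U1] at nU1
  rw [c_W0] at nW0
  rw [c_W1] at nW1
  rw [c_U0, c_U1, c_W0, c_W1, c_u, c_w] at hK ⊢
  rw [← h_ik, ← hz]
  have hy0 : 0 < y ^ 2 := pow_pos hy 2
  refine HXm_fin (q := q) (τ := e1) (y := y) (K := K) (kp := kp) (e := e) (P0 := P0) (P1 := P1)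
    h0 h1 hσ hσ2 (mul_pos hal p_iu) p_iw nU0 nU1 nW0 nW1 hz0 (by linarith only [hz1]) hZ he1 hq0
    (by linarith only [hq1]) ?_ ?_ hy ?_ hK.1 hK.2 ?_ (by linarith only [c0])
    (by linarith only [c1]) (by linarith only [c2]) ?_ ?_ hb00 hb01 hb10 hb11 ?_
  · have : 1 - σ ^ 2 * e1 ^ 2 * (1 + z * q) = y ^ 2 * (1 + -(th * z) * qt) := by
      linear_combination (-1 : ℝ) * hab - σ ^ 2 * z * hq + (y / sb) ^ 2 * qt * z * hth +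
        (1 - th * z * qt) * hsy
    linarith only [this, mul_pos hy0 hq3]
  · have : 1 - σ ^ 2 * e1 ^ 2 * (1 - z * q) = y ^ 2 * (1 + th * z * qt) := by
      linear_combination (-1 : ℝ) * hab + σ ^ 2 * z * hq - (y / sb) ^ 2 * qt * z * hth +
        (1 + th * z * qt) * hsy
    linarith only [this, mul_pos hy0 hq2]
  · rw [hy2, h_bq, h_al]; ring
  · rw [h_K, h_Th, h_ey, h_ib, h_iu, ← hy2, h_al]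
    clear * - hy p_iu
    field_simp
  · rw [hF, h_P0, h_Tb, h_Th, h_th, h_ibc, h_iu, ← hsb2, h_al]
    clear * - p_sb p_iu
    field_simp
  · intro φ hτ0 hφ
    rw [hF' φ hτ0 (div_pos hy p_sb) hφ, h_P1, h_Tb, h_Th, h_th, h_ey, h_ib, h_ibc, h_iu, ← hsb2,
      ← hy2, h_al]
    clear * - p_sb p_iu hy hτ0 hσ
    field_simp
  · rw [hb, h_e1, add_comm e 1]

end Crest.Agent.R307
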