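import Crest.Agent.R307.LSbT0
import Crest.Agent.R307.LSbT1
import Crest.Agent.R307.LSbT2

set_option autoImplicit false
set_option maxRecDepth 100000
set_option linter.unusedVariables false

namespace Crest.Agent.R307.LSb
open Crest.Agent.R307.AA

theorem good0 : Good (PR 5708991111106206445171612063539352321921122304) 4722366201391950221211 4722366342133571071931 4722366482866990777935 4722366764345635828575 4722366482867980688683 4722366764347763517005 4722366482869645213696 4722366482869645213696 :=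
  (Good.s0 (Good.s2 (Good.s1 c0 (Good.s2 c1 c2)) (Good.s1 c3 (Good.s1 c4 c5))) (Good.s2 (Good.s1 c6 c7) (Good.s1 (Good.s0 c8 c9) (Good.s0 (Good.s2 c10 c11) (Good.s2 c12 (Good.s1 (Good.s0 c13 c14) c15))))))

theorem main0 (m y r : ℝ) (a0 : (-281477694992485 / 281474976710656 : ℝ) ≤ m) (b0 : m ≤ (-140736074141765 / 281474976710656 : ℝ)) (a1 : (-2654435761 / 281474976710656 : ℝ) ≤ y) (b1 : y ≤ (281475990614879 / 281474976710656 : ℝ)) (a2 : (-1664525013 / 281474976710656 : ℝ) ≤ r) (b2 : r ≤ (281478118303309 / 281474976710656 : ℝ)) :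
    z0_Spec (1 : ℝ) (1 : ℝ) m y r ∨ z1_Spec (1 : ℝ) (1 : ℝ) m y r ∨ z2_Spec (1 : ℝ) (1 : ℝ) m y r ∨ z3_Spec (1 : ℝ) (1 : ℝ) m y r ∨ z4_Spec (1 : ℝ) (1 : ℝ) m y r := by
  have h := @of_good _ _ _ _ _ _ _ _ _ good0 m y r 0 ⟨⟨le_trans (by norm_num [val]) a0, le_trans b0 (by norm_num [val])⟩, ⟨le_trans (by norm_num [val]) a1, le_trans b1 (by norm_num [val])⟩, ⟨le_trans (by norm_num [val]) a2, le_trans b2 (by norm_num [val])⟩, ⟨by norm_num [val], by norm_num [val]⟩⟩
  have e0 : parV 5708991111106206445171612063539352321921122304 0 = (1 : ℝ) := by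
    rw [parV, show parN 5708991111106206445171612063539352321921122304 0 = 4722366764344621924352 by decide +kernel]; norm_num [val]
  have e1 : parV 5708991111106206445171612063539352321921122304 1 = (1 : ℝ) := by
    rw [parV, show parN 5708991111106206445171612063539352321921122304 1 = 4722366764344621924352 by decide +kernel]; norm_num [val]
  rw [e0, e1] at h
  exact h

theorem good1 : Good (PR 5708990770829031821091683427793134653288742912) 4722366342130424807561 4722366623609369637001 4722366482866990777935 4722366764345635828575 4722366482867980688683 4722366764347763517005 4722366482869645213696 4722366482869645213696 :=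
  (Good.s0 (Good.s2 c16 (Good.s0 (Good.s1 c17 (Good.s1 c18 c19)) (Good.s1 c20 (Good.s1 c21 (Good.s2 c22 (Good.s2 c23 c24)))))) (Good.s2 (Good.s0 c25 (Good.s1 c26 c27)) (Good.s0 (Good.s1 (Good.s2 c28 (Good.s2 c29 (Good.s0 c30 c31))) (Good.s1 (Good.s2 c32 c33) (Good.s2 c34 c35))) (Good.s1 (Good.s2 (Good.s2 c36 (Good.s1 c37 (Good.s0 c38 (Good.s2 (Good.s0 c39 c40) c41)))) (Good.s2 (Good.s0 c42 (Good.s1 c43 (Good.s1 c44 (Good.s2 c45 c46)))) c47)) (Good.s1 (Good.s2 c48 (Good.s2 c49 c50)) (Good.s2 c51 c52))))))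

theorem main1 (m y r : ℝ) (a0 : (-140739220406135 / 281474976710656 : ℝ) ≤ m) (b0 : m ≤ (140739724423305 / 281474976710656 : ℝ)) (a1 : (-2654435761 / 281474976710656 : ℝ) ≤ y) (b1 : y ≤ (281475990614879 / 281474976710656 : ℝ)) (a2 : (-1664525013 / 281474976710656 : ℝ) ≤ r) (b2 : r ≤ (281478118303309 / 281474976710656 : ℝ)) :
    z0_Spec (32769 / 65536 : ℝ) (1 / 65536 : ℝ) m y r ∨ z1_Spec (32769 / 65536 : ℝ) (1 / 65536 : ℝ) m y r ∨ z2_Spec (32769 / 65536 : ℝ) (1 / 65536 : ℝ) m y r ∨ z3_Spec (32769 / 65536 : ℝ) (1 / 65536 : ℝ) m y r ∨ z4_Spec (32769 / 65536 : ℝ) (1 / 65536 : ℝ) m y r := by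
  have h := @of_good _ _ _ _ _ _ _ _ _ good1 m y r 0 ⟨⟨le_trans (by norm_num [val]) a0, le_trans b0 (by norm_num [val])⟩, ⟨le_trans (by norm_num [val]) a1, le_trans b1 (by norm_num [val])⟩, ⟨le_trans (by norm_num [val]) a2, le_trans b2 (by norm_num [val])⟩, ⟨by norm_num [val], by norm_num [val]⟩⟩
  have e0 : parV 5708990770829031821091683427793134653288742912 0 = (32769 / 65536 : ℝ) := by
    rw [parV, show parN 5708990770829031821091683427793134653288742912 0 = 4722366623611428536320 by decide +kernel]; norm_num [val]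
  have e1 : parV 5708990770829031821091683427793134653288742912 1 = (1 / 65536 : ℝ) := by
    rw [parV, show parN 5708990770829031821091683427793134653288742912 1 = 4722366482873940180992 by decide +kernel]; norm_num [val]
  rw [e0, e1] at h
  exact h

theorem good2 : Good (PR 5708990430541472603294685136790137458384699392) 4722366623605515535035 4722366764347071414095 4722366482866990777935 4722366764345635828575 4722366482867980688683 4722366764347763517005 4722366482869645213696 4722366482869645213696 :=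
  (Good.s0 (Good.s2 (Good.s1 (Good.s2 c53 (Good.s0 (Good.s2 c54 (Good.s1 c55 (Good.s0 c56 c57))) (Good.s2 c58 (Good.s1 c59 (Good.s0 c60 c61))))) (Good.s0 (Good.s2 c62 (Good.s1 c63 (Good.s1 c64 c65))) (Good.s2 c66 (Good.s1 (Good.s0 c67 c68) c69)))) (Good.s1 (Good.s2 (Good.s0 (Good.s2 (Good.s1 c70 (Good.s0 c71 (Good.s2 c72 c73))) (Good.s0 (Good.s1 c74 (Good.s0 c75 (Good.s2 (Good.s1 c76 c77) c78))) (Good.s1 c79 c80))) (Good.s2 (Good.s0 c81 c82) (Good.s0 c83 c84))) (Good.s0 (Good.s2 (Good.s0 (Good.s1 c85 (Good.s1 c86 c87)) (Good.s1 c88 c89)) c90) (Good.s2 c91 c92))) (Good.s0 (Good.s2 (Good.s1 (Good.s0 c93 c94) c95) (Good.s1 (Good.s0 c96 c97) (Good.s1 c98 c99))) (Good.s2 (Good.s1 (Good.s0 c100 c101) c102) (Good.s1 c103 c104))))) (Good.s2 (Good.s1 c105 (Good.s2 c106 (Good.s1 c107 c108))) (Good.s1 (Good.s2 c109 c110) (Good.s2 (Good.s1 c111 c112) c113))))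

theorem main2 (m y r : ℝ) (a0 : (140735870321339 / 281474976710656 : ℝ) ≤ m) (b0 : m ≤ (281477426200399 / 281474976710656 : ℝ)) (a1 : (-2654435761 / 281474976710656 : ℝ) ≤ y) (b1 : y ≤ (281475990614879 / 281474976710656 : ℝ)) (a2 : (-1664525013 / 281474976710656 : ℝ) ≤ r) (b2 : r ≤ (281478118303309 / 281474976710656 : ℝ)) :
    z0_Spec (1 : ℝ) (-1 : ℝ) m y r ∨ z1_Spec (1 : ℝ) (-1 : ℝ) m y r ∨ z2_Spec (1 : ℝ) (-1 : ℝ) m y r ∨ z3_Spec (1 : ℝ) (-1 : ℝ) m y r ∨ z4_Spec (1 : ℝ) (-1 : ℝ) m y r := by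
  have h := @of_good _ _ _ _ _ _ _ _ _ good2 m y r 0 ⟨⟨le_trans (by norm_num [val]) a0, le_trans b0 (by norm_num [val])⟩, ⟨le_trans (by norm_num [val]) a1, le_trans b1 (by norm_num [val])⟩, ⟨le_trans (by norm_num [val]) a2, le_trans b2 (by norm_num [val])⟩, ⟨by norm_num [val], by norm_num [val]⟩⟩
  have e0 : parV 5708990430541472603294685136790137458384699392 0 = (1 : ℝ) := by
    rw [parV, show parN 5708990430541472603294685136790137458384699392 0 = 4722366764344621924352 by decide +kernel]; norm_num [val]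
  have e1 : parV 5708990430541472603294685136790137458384699392 1 = (-1 : ℝ) := by
    rw [parV, show parN 5708990430541472603294685136790137458384699392 1 = 4722366201394668503040 by decide +kernel]; norm_num [val]
  rw [e0, e1] at h
  exact h

end Crest.Agent.R307.LSb
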