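import Crest.Agent.R307.LInf

/-! Row 307, low-noise step: the scalar certificate. -/

set_option autoImplicit false

namespace Crest.Agent.R307

/-- the conclusion of `lstep` -/
def LConcl (ρ β μ m δ : ℝ) : Prop :=
  ∃ A1 A2 A3 A4 B0 B1 C : ℝ, 0 ≤ A1 ∧ 0 ≤ A2 ∧ 0 ≤ A3 ∧ 0 ≤ A4 ∧ B0 ^ 2 ≤ A1 * A2 ∧ B1 ^ 2 ≤ A3 * A4 ∧
    2 * β * Yf m ≤ β * (Yf (m + δ) * B0 + Yf (m - δ) * B1) + C * δ ∧
    ∀ a0 a1 : ℝ, 0 ≤ a0 → a0 ≤ 1 → 0 ≤ a1 → a1 ≤ 1 →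
      A1 * nf a0 + A2 * nf (1 - a0) + A3 * nf a1 + A4 * nf (1 - a1) + C * (a0 - a1) ≤
        μ * (nf ((1 + ρ) / 2 * a0 + (1 - ρ) / 2 * a1) + nf ((1 - ρ) / 2 * a0 + (1 + ρ) / 2 * a1)) +
        (nf (1 - ((1 + ρ) / 2 * a0 + (1 - ρ) / 2 * a1)) +
          nf (1 - ((1 - ρ) / 2 * a0 + (1 + ρ) / 2 * a1))) / μ

theorem sc_gm {x y z x' y' z' p q : ℝ} (hx : 0 ≤ x) (hy : 0 ≤ y) (hx' : 0 ≤ x') (hy' : 0 ≤ y')
    (h : z ^ 2 ≤ x * y) (h' : z' ^ 2 ≤ x' * y') (hp : 0 ≤ p) (hq : 0 ≤ q) :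
    (p * z + q * z') ^ 2 ≤ (p * x + q * x') * (p * y + q * y') := by
  have h1 : 2 * (z * z') ≤ x * y' + x' * y := by
    have h2 : (2 * (z * z')) ^ 2 ≤ (x * y' + x' * y) ^ 2 := by
      have h3 : z ^ 2 * z' ^ 2 ≤ (x * y) * (x' * y') :=
        mul_le_mul h h' (sq_nonneg _) (mul_nonneg hx hy)
      nlinarith [sq_nonneg (x * y' - x' * y)]
    exact (abs_le_of_sq_le_sq' h2 (by positivity : 0 ≤ x * y' + x' * y)).2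
  have e1 := mul_le_mul_of_nonneg_left h (mul_nonneg hp hp)
  have e2 := mul_le_mul_of_nonneg_left h' (mul_nonneg hq hq)
  have e3 := mul_le_mul_of_nonneg_left h1 (mul_nonneg hp hq)
  nlinarith

theorem sc_sqrt {d X i j : ℝ} (h : 0 ≤ d * X + 1) (hi : i = (√(d * X + 1) + 1)⁻¹) (hj : j = X * i) :
    √(d * X + 1) = 1 + d * X / 2 - d ^ 2 * j ^ 2 / 2 := by
  set B := √(d * X + 1) with hB
  have hB0 : 0 ≤ B := Real.sqrt_nonneg _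
  have hB2 : B ^ 2 = d * X + 1 := Real.sq_sqrt h
  have hp : B + 1 ≠ 0 := by positivity
  have h1 : d * j = B - 1 := by
    rw [hj, hi]; field_simp; nlinarith
  have h2 : d ^ 2 * j ^ 2 = (B - 1) ^ 2 := by rw [← h1]; ring
  rw [h2]; nlinarith

/-- one end of the `β`-range -/
theorem sc_end {m d sh c0 E1 E2 Y0 Y1 ep en f1 g2 f2 f3 L G0 G1 X0 X1 i0 i1 j0 j1 base : ℝ}
    (hE2 : Y0 + Y1 - 2 * Yf m = -(d ^ 2 * E2)) (hE1 : Y0 - Y1 = -(2 * d * E1))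
    (hb : base = sh * c0 - E2) (h2 : f2 = g2 - d * ep) (h3 : f3 = f1 + d * en) (hL : L = f1 + g2)
    (p1 : 0 ≤ d * f1 + 1) (p2 : 0 ≤ d * f2 + 1) (p3 : 0 ≤ 1 - d * f3) (p4 : 0 ≤ 1 - d * g2)
    (hG0 : G0 = f1 * f2 - ep) (hX0 : X0 = L + d * G0) (hi0 : i0 = (√(d * X0 + 1) + 1)⁻¹)
    (hj0 : j0 = X0 * i0) (hG1 : G1 = f3 * g2 - en) (hX1 : X1 = d * G1 - L)
    (hi1 : i1 = (√(d * X1 + 1) + 1)⁻¹) (hj1 : j1 = X1 * i1)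
    (hT : 0 ≤ base - L * E1 + 1 / 2 * (Y0 * (G0 - j0 ^ 2) + Y1 * (G1 - j1 ^ 2))) :
    ∃ B0 B1 : ℝ, B0 ^ 2 ≤ (d * f1 + 1) * (d * f2 + 1) ∧ B1 ^ 2 ≤ (1 - d * f3) * (1 - d * g2) ∧
      2 * Yf m ≤ Y0 * B0 + Y1 * B1 + d ^ 2 * (sh * c0) := by
  have e0 : d * X0 + 1 = (d * f1 + 1) * (d * f2 + 1) := by
    rw [hX0, hG0, hL, h2]; ring
  have e1 : d * X1 + 1 = (1 - d * f3) * (1 - d * g2) := by
    rw [hX1, hG1, hL, h3]; ring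
  have q0 : 0 ≤ d * X0 + 1 := e0 ▸ mul_nonneg p1 p2
  have q1 : 0 ≤ d * X1 + 1 := e1 ▸ mul_nonneg p3 p4
  refine ⟨√(d * X0 + 1), √(d * X1 + 1), by rw [Real.sq_sqrt q0, e0], by rw [Real.sq_sqrt q1, e1], ?_⟩
  rw [sc_sqrt q0 hi0 hj0, sc_sqrt q1 hi1 hj1]
  have hT' := mul_nonneg (sq_nonneg d) hT
  have k1 : 2 * Yf m = Y0 + Y1 + d ^ 2 * E2 := by linarith
  have k2 : Y0 = Y1 - 2 * d * E1 := by linarith
  have key : Y0 * (1 + d * X0 / 2 - d ^ 2 * j0 ^ 2 / 2) + Y1 * (1 + d * X1 / 2 - d ^ 2 * j1 ^ 2 / 2) +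
      d ^ 2 * (sh * c0) - (Y0 + Y1 + d ^ 2 * E2) =
      d ^ 2 * (base - L * E1 + 1 / 2 * (Y0 * (G0 - j0 ^ 2) + Y1 * (G1 - j1 ^ 2))) := by
    rw [hX0, hX1, hb, k2]; ring
  linarith

theorem sc_rho {ρ β : ℝ} (h : ρ ^ 2 + β ^ 2 = 1) : ρ ≤ 1 := by nlinarith [sq_nonneg β, sq_nonneg (ρ - 1)]

theorem sc_conv {b0 b1 β : ℝ} (hb : b0 < b1) (hb0 : b0 ≤ β) (hb1 : β ≤ b1) :
    ∃ p q : ℝ, 0 ≤ p ∧ 0 ≤ q ∧ p = 1 - q ∧ β = p * b0 + q * b1 := by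
  have hd : 0 < b1 - b0 := by linarith
  exact ⟨(b1 - β) / (b1 - b0), (β - b0) / (b1 - b0), div_nonneg (by linarith) hd.le,
    div_nonneg (by linarith) hd.le, by field_simp; ring, by field_simp; ring⟩

theorem sc_core {ρ β μ m d r b0 b1 SL Sv SRn SRp S0 S1 S2 w tau t : ℝ}
    {rw rr sh a1 sa f1a sb g2a eh ep dp f2a an en dn f3a c0 mm dd m4 md d4 E2 base La E1 Y0u Y0 G0a X0a
      i0a j0a Y1u Y1 G1a X1a i1a j1a f1b g2b f2b f3b Lb G0b X0b i0b j0b G1b X1b i1b j1b : ℝ}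
    (h0 : 0 ≤ ρ) (hβ0 : 0 ≤ β) (hβ : β ≤ 3 / 5) (h : ρ ^ 2 + β ^ 2 = 1) (hμ : 1 ≤ μ) (hr : r = μ⁻¹)
    (hb : b0 < b1) (hb0 : b0 ≤ β) (hb1 : β ≤ b1) (ht0 : 0 ≤ t) (ht : t = d * tau) (hw : 0 ≤ w)
    (hV : LValid ρ β t SL Sv SRn SRp S0 S1 S2)
    (H : 0 ≤ ((1 : ℝ) - Sv) ∧
    rw = (r * w) ∧
    rr = (r ^ 2) ∧
    0 ≤ ((1 : ℝ) - (rw + (rr * SL))) ∧
    0 < ((t ^ 2) + (1 : ℝ)) ∧
    sh = (((2 : ℝ) * tau) * (((t ^ 2) + (1 : ℝ))⁻¹)) ∧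
    a1 = ((rr * S1) + ((3 / 8 : ℝ) * rw)) ∧
    sa = (sh * a1) ∧
    f1a = (b0 * sa) ∧
    0 ≤ ((d * f1a) + (1 : ℝ)) ∧
    sb = (sh * S2) ∧
    g2a = (b0 * sb) ∧
    eh = (tau * sh) ∧
    ep = (eh * SRp) ∧
    dp = (d * ep) ∧
    f2a = (g2a - dp) ∧
    0 ≤ ((d * f2a) + (1 : ℝ)) ∧
    an = ((rr * SRn) + rw) ∧
    en = (eh * an) ∧
    dn = (d * en) ∧
    f3a = (f1a + dn) ∧
    0 ≤ ((1 : ℝ) - (d * f3a)) ∧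
    0 ≤ ((1 : ℝ) - (d * g2a)) ∧
    c0 = ((r * S0) + ((9 / 16 : ℝ) * w)) ∧
    mm = (m ^ 2) ∧
    dd = (d ^ 2) ∧
    m4 = (mm ^ 2) ∧
    md = (mm * dd) ∧
    d4 = (dd ^ 2) ∧
    E2 = ((((((9 / 5 : ℝ) * mm) + (3 / 2 : ℝ)) + ((3 / 10 : ℝ) * dd)) + ((3 : ℝ) * (m4 + md))) + ((1 / 5 : ℝ) * d4)) ∧
    base = ((sh * c0) - E2) ∧
    La = (f1a + g2a) ∧
    E1 = (m * ((((3 / 5 : ℝ) * (((mm + dd) + m4) + d4)) + (3 / 2 : ℝ)) + ((2 : ℝ) * md))) ∧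
    Y0u = ((m + d) ^ 2) ∧
    Y0 = ((1 : ℝ) - (Y0u * ((Y0u * (((1 / 10 : ℝ) * Y0u) + (3 / 20 : ℝ))) + (3 / 4 : ℝ)))) ∧
    G0a = ((f1a * f2a) - ep) ∧
    X0a = (La + (d * G0a)) ∧
    0 < ((√((d * X0a) + (1 : ℝ))) + (1 : ℝ)) ∧
    i0a = (((√((d * X0a) + (1 : ℝ))) + (1 : ℝ))⁻¹) ∧
    j0a = (X0a * i0a) ∧
    Y1u = ((m - d) ^ 2) ∧
    Y1 = ((1 : ℝ) - (Y1u * ((Y1u * (((1 / 10 : ℝ) * Y1u) + (3 / 20 : ℝ))) + (3 / 4 : ℝ)))) ∧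
    G1a = ((f3a * g2a) - en) ∧
    X1a = ((d * G1a) - La) ∧
    0 < ((√((d * X1a) + (1 : ℝ))) + (1 : ℝ)) ∧
    i1a = (((√((d * X1a) + (1 : ℝ))) + (1 : ℝ))⁻¹) ∧
    j1a = (X1a * i1a) ∧
    0 ≤ ((base - (La * E1)) + ((1 / 2 : ℝ) * ((Y0 * (G0a - (j0a ^ 2))) + (Y1 * (G1a - (j1a ^ 2)))))) ∧
    f1b = (b1 * sa) ∧
    0 ≤ ((d * f1b) + (1 : ℝ)) ∧
    g2b = (b1 * sb) ∧
    f2b = (g2b - dp) ∧
    0 ≤ ((d * f2b) + (1 : ℝ)) ∧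
    f3b = (f1b + dn) ∧
    0 ≤ ((1 : ℝ) - (d * f3b)) ∧
    0 ≤ ((1 : ℝ) - (d * g2b)) ∧
    Lb = (f1b + g2b) ∧
    G0b = ((f1b * f2b) - ep) ∧
    X0b = (Lb + (d * G0b)) ∧
    0 < ((√((d * X0b) + (1 : ℝ))) + (1 : ℝ)) ∧
    i0b = (((√((d * X0b) + (1 : ℝ))) + (1 : ℝ))⁻¹) ∧
    j0b = (X0b * i0b) ∧
    G1b = ((f3b * g2b) - en) ∧
    X1b = ((d * G1b) - Lb) ∧
    0 < ((√((d * X1b) + (1 : ℝ))) + (1 : ℝ)) ∧
    i1b = (((√((d * X1b) + (1 : ℝ))) + (1 : ℝ))⁻¹) ∧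
    j1b = (X1b * i1b) ∧
    0 ≤ ((base - (Lb * E1)) + ((1 / 2 : ℝ) * ((Y0 * (G0b - (j0b ^ 2))) + (Y1 * (G1b - (j1b ^ 2))))))) :
    LConcl ρ β μ m d := by
  obtain ⟨hSv, hrw, hrr, hSL, -, hsh, ha1, hsa, hf1a, p1a, hsb, hg2a, heh, hep, hdp, hf2a, p2a, han, hen,
    hdn, hf3a, p3a, p4a, hc0, hmm, hdd, hm4, hmd, hd4, hE2, hbase, hLa, hE1, hY0u, hY0, hG0a, hX0a, -,
    hi0a, hj0a, hY1u, hY1, hG1a, hX1a, -, hi1a, hj1a, hTa, hf1b, p1b, hg2b, hf2b, p2b, hf3b, p3b, p4b,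
    hLb, hG0b, hX0b, -, hi0b, hj0b, hG1b, hX1b, -, hi1b, hj1b, hTb⟩ := H
  have hμ0 : 0 < μ := lt_of_lt_of_le one_pos hμ
  have hr0 : 0 < r := hr ▸ inv_pos.2 hμ0
  have hrμ : μ * r = 1 := hr ▸ mul_inv_cancel₀ hμ0.ne'
  have hρ1 : ρ ≤ 1 := sc_rho h
  have eY0 : Y0 = Yf (m + d) := by rw [hY0, hY0u, Yf]; ring
  have eY1 : Y1 = Yf (m - d) := by rw [hY1, hY1u, Yf]; ring
  have eE2 : Y0 + Y1 - 2 * Yf m = -(d ^ 2 * E2) := by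
    rw [eY0, eY1, hE2, hm4, hmd, hd4, hmm, hdd]; simp only [Yf]; ring
  have eE1 : Y0 - Y1 = -(2 * d * E1) := by
    rw [eY0, eY1, hE1, hm4, hmd, hd4, hmm, hdd]; simp only [Yf]; ring
  obtain ⟨B0a, B1a, ua, va, wa⟩ := sc_end eE2 eE1 hbase (hdp ▸ hf2a) (hdn ▸ hf3a) hLa p1a p2a p3a p4a
    hG0a hX0a hi0a hj0a hG1a hX1a hi1a hj1a hTa
  obtain ⟨B0b, B1b, ub, vb, wb⟩ := sc_end eE2 eE1 hbase (hdp ▸ hf2b) (hdn ▸ hf3b) hLb p1b p2b p3b p4b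
    hG0b hX0b hi0b hj0b hG1b hX1b hi1b hj1b hTb
  obtain ⟨p, q, hp, hq, q', hβe⟩ := sc_conv hb hb0 hb1
  have hs : sT t = d * sh := by
    rw [hsh, sT, add_comm (t ^ 2) 1, div_eq_mul_inv]
    have : 2 * t = d * (2 * tau) := by rw [ht]; ring
    rw [this]; ring
  have V := (((LValid.zero ρ β t).add_smul hV hr0.le).add_smul (valid_inf h0 hβ0 hβ h ht0) hw).mono h0 hρ1
    (Ln' := μ) (Lp' := μ⁻¹) (by
      have : μ * (rw + rr * SL) = w + r * SL := by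
        rw [hrw, hrr]; linear_combination (w + r * SL) * hrμ
      linarith only [this, mul_nonneg hμ0.le hSL]) (by rw [← hr]; linarith only [mul_nonneg hr0.le hSv])
  have PW := V.pointwise
  have eA1 : μ + sT t * β * (0 + r * S1 + w * (3 / 8)) = μ * (p * (d * f1a + 1) + q * (d * f1b + 1)) := by
    rw [hs, hf1a, hf1b, hsa, ha1, hrw, hrr, hβe, q']
    linear_combination (-(d * sh * ((1 - q) * b0 + q * b1) * (r * S1 + w * (3 / 8)))) * hrμ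
  have eA2 : μ⁻¹ - t * sT t * (0 + r * SRp + w * 0) + sT t * β * (0 + r * S2 + w * 0) =
      r * (p * (d * f2a + 1) + q * (d * f2b + 1)) := by
    rw [hs, ← hr, hf2a, hf2b, hg2a, hg2b, hsb, hdp, hep, heh, hβe, q', ht]; ring
  have eA3 : μ - t * sT t * (0 + r * SRn + w * 1) - sT t * β * (0 + r * S1 + w * (3 / 8)) =
      μ * (p * (1 - d * f3a) + q * (1 - d * f3b)) := by
    rw [hs, hf3a, hf3b, hf1a, hf1b, hsa, ha1, hdn, hen, heh, han, hrw, hrr, hβe, q', ht]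
    linear_combination (d * sh * ((1 - q) * b0 + q * b1) * (r * S1 + w * (3 / 8)) +
      d * tau * (d * sh) * (r * SRn + w)) * hrμ
  have eA4 : μ⁻¹ - sT t * β * (0 + r * S2 + w * 0) = r * (p * (1 - d * g2a) + q * (1 - d * g2b)) := by
    rw [hs, ← hr, hg2a, hg2b, hsb, hβe, q']; ring
  rw [eA1, eA2, eA3, eA4] at PW
  have g0 := sc_gm p1a p2a p1b p2b ua ub hp hq
  have g1 := sc_gm p3a p4a p3b p4b va vb hp hq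
  refine ⟨_, _, _, _, p * B0a + q * B0b, p * B1a + q * B1b, _, ?_, ?_, ?_, ?_, ?_, ?_, ?_, PW⟩
  · exact mul_nonneg hμ0.le (add_nonneg (mul_nonneg hp p1a) (mul_nonneg hq p1b))
  · exact mul_nonneg hr0.le (add_nonneg (mul_nonneg hp p2a) (mul_nonneg hq p2b))
  · exact mul_nonneg hμ0.le (add_nonneg (mul_nonneg hp p3a) (mul_nonneg hq p3b))
  · exact mul_nonneg hr0.le (add_nonneg (mul_nonneg hp p4a) (mul_nonneg hq p4b))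
  · calc _ ≤ _ := g0
      _ = _ := by linear_combination (-((p * (d * f1a + 1) + q * (d * f1b + 1)) *
          (p * (d * f2a + 1) + q * (d * f2b + 1)))) * hrμ
  · calc _ ≤ _ := g1
      _ = _ := by linear_combination (-((p * (1 - d * f3a) + q * (1 - d * f3b)) *
          (p * (1 - d * g2a) + q * (1 - d * g2b)))) * hrμ
  · rw [← eY0, ← eY1, hs]
    have k : 2 * Yf m ≤ Y0 * (p * B0a + q * B0b) + Y1 * (p * B1a + q * B1b) + d ^ 2 * (sh * c0) := by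
      have a := mul_le_mul_of_nonneg_left wa hp
      have b := mul_le_mul_of_nonneg_left wb hq
      rw [q'] at a ⊢
      linarith only [a, b]
    have k2 := mul_le_mul_of_nonneg_left k hβ0
    rw [hc0] at k2
    linarith only [k2]

end Crest.Agent.R307
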