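import Crest.Agent.R307.LMem
import Crest.Agent.R307.LScal
import Crest.Agent.R307.LSa
import Crest.Agent.R307.LSb

/-! Row 307, low-noise step: assembly of the scalar programs (generated). -/

set_option autoImplicit false
set_option linter.unusedVariables false
set_option maxRecDepth 10000

namespace Crest.Agent.R307

theorem LValid.congr' {ρ β t Ln Lp Rn Rp c0 c1 c2 Ln' Lp' Rn' Rp' c0' c1' c2' : ℝ}
    (h : LValid ρ β t Ln Lp Rn Rp c0 c1 c2) (e1 : Ln' = Ln) (e2 : Lp' = Lp) (e3 : Rn' = Rn) (e4 : Rp' = Rp)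
    (e5 : c0' = c0) (e6 : c1' = c1) (e7 : c2' = c2) : LValid ρ β t Ln' Lp' Rn' Rp' c0' c1' c2' := by
  subst e1 e2 e3 e4 e5 e6 e7; exact h

theorem LSa_y0 {ρ β μ m y r ca cb δ ta tb pw qw pa0 pb0 pa1 pb1 pa2 pb2 pa3 pb3 pa4 pb4 d v0 v1 v2 v3 v4 w w38 SL Sv SRn SRp S0 S1 S2 tau t rw rr sh a1 sa f1a sb g2a eh ep dp f2a an en dn f3a c0 mm dd m4 md d4 E2 base La E1 Y0u Y0 G0a X0a i0a j0a Y1u Y1 G1a X1a i1a j1a f1b g2b f2b f3b Lb G0b X0b i0b j0b G1b X1b i1b j1b : ℝ} (h0 : 0 ≤ ρ) (hβ0 : 0 ≤ β) (hβ : β ≤ 3 / 5) (h : ρ ^ 2 + β ^ 2 = 1)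
    (hμ : 1 ≤ μ) (hr : r = μ⁻¹) (hb0 : (0 : ℝ) ≤ β) (hb1 : β ≤ (3 / 8 : ℝ)) (hδ0 : 0 ≤ δ) (hδ : δ = y * (ca + cb * m))
    (e0 : d = (y * (ca + (cb * m))))
    (e1 : v0 = (pa0 + (pb0 * r)))
    (e2 : 0 ≤ v0)
    (e3 : v1 = (pa1 + (pb1 * r)))
    (e4 : 0 ≤ v1)
    (e5 : v2 = (pa2 + (pb2 * r)))
    (e6 : 0 ≤ v2)
    (e7 : v3 = (pa3 + (pb3 * r)))
    (e8 : 0 ≤ v3)
    (e9 : v4 = (pa4 + (pb4 * r)))
    (e10 : 0 ≤ v4)
    (e11 : w = (pw + (qw * r)))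
    (e12 : 0 ≤ w)
    (e13 : w38 = (((3 : ℝ) * v0) + v1))
    (e14 : SL = (((w38 + ((5 / 4 : ℝ) * v2)) + v3) + ((3 : ℝ) * v4)))
    (e15 : Sv = ((((v0 + v1) + v2) + v3) + v4))
    (e16 : SRn = (((w38 + ((5 / 8 : ℝ) * v2)) + ((5 / 8 : ℝ) * v3)) + ((15 / 8 : ℝ) * v4)))
    (e17 : SRp = ((((v0 + ((1 / 2 : ℝ) * v1)) + v2) + v3) + v4))
    (e18 : S0 = ((((((483 / 128 : ℝ) * v0) + ((213 / 128 : ℝ) * v1)) + ((473 / 256 : ℝ) * v2)) + ((897 / 512 : ℝ) * v3)) + ((837 / 256 : ℝ) * v4)))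
    (e19 : S1 = ((((((21 / 16 : ℝ) * v0) + ((15 / 32 : ℝ) * v1)) + ((105 / 256 : ℝ) * v2)) + ((3 / 8 : ℝ) * v3)) + ((9 / 8 : ℝ) * v4)))
    (e20 : S2 = ((((((-7 / 16 : ℝ) * v0) + ((-5 / 16 : ℝ) * v1)) + ((-15 / 32 : ℝ) * v2)) + ((-15 / 32 : ℝ) * v3)) + ((-29 / 64 : ℝ) * v4)))
    (e21 : tau = (ta + (tb * d)))
    (e22 : 0 ≤ tau)
    (e23 : t = (d * tau))
    (e24 : 0 ≤ ((5 / 32 : ℝ) - t))
    (H : 0 ≤ ((1 : ℝ) - Sv) ∧
      rw = (r * w) ∧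
      rr = (r ^ 2) ∧
      0 ≤ ((1 : ℝ) - (rw + (rr * SL))) ∧
      0 < ((t ^ 2) + (1 : ℝ)) ∧
      sh = (((2 : ℝ) * tau) * (((t ^ 2) + (1 : ℝ))⁻¹)) ∧
      a1 = ((rr * S1) + ((3 / 8 : ℝ) * rw)) ∧
      sa = (sh * a1) ∧
      f1a = ((0 : ℝ) * sa) ∧
      0 ≤ ((d * f1a) + (1 : ℝ)) ∧
      sb = (sh * S2) ∧
      g2a = ((0 : ℝ) * sb) ∧
      eh = (tau * sh) ∧
      ep = (eh * SRp) ∧
      dp = (d * ep) ∧
      f2a = (g2a - dp) ∧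
      0 ≤ ((d * f2a) + (1 : ℝ)) ∧
      an = ((rr * SRn) + rw) ∧
      en = (eh * an) ∧
      dn = (d * en) ∧
      f3a = (f1a + dn) ∧
      0 ≤ ((1 : ℝ) - (d * f3a)) ∧
      0 ≤ ((1 : ℝ) - (d * g2a)) ∧
      c0 = ((r * S0) + ((9 / 16 : ℝ) * w)) ∧
      mm = (m ^ 2) ∧
      dd = (d ^ 2) ∧
      m4 = (mm ^ 2) ∧
      md = (mm * dd) ∧
      d4 = (dd ^ 2) ∧
      E2 = ((((((9 / 5 : ℝ) * mm) + (3 / 2 : ℝ)) + ((3 / 10 : ℝ) * dd)) + ((3 : ℝ) * (m4 + md))) + ((1 / 5 : ℝ) * d4)) ∧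
      base = ((sh * c0) - E2) ∧
      La = (f1a + g2a) ∧
      E1 = (m * ((((3 / 5 : ℝ) * (((mm + dd) + m4) + d4)) + (3 / 2 : ℝ)) + ((2 : ℝ) * md))) ∧
      Y0u = ((m + d) ^ 2) ∧
      Y0 = ((1 : ℝ) - (Y0u * ((Y0u * (((1 / 10 : ℝ) * Y0u) + (3 / 20 : ℝ))) + (3 / 4 : ℝ)))) ∧
      G0a = ((f1a * f2a) - ep) ∧
      X0a = (La + (d * G0a)) ∧
      0 < ((√((d * X0a) + (1 : ℝ))) + (1 : ℝ)) ∧
      i0a = (((√((d * X0a) + (1 : ℝ))) + (1 : ℝ))⁻¹) ∧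
      j0a = (X0a * i0a) ∧
      Y1u = ((m - d) ^ 2) ∧
      Y1 = ((1 : ℝ) - (Y1u * ((Y1u * (((1 / 10 : ℝ) * Y1u) + (3 / 20 : ℝ))) + (3 / 4 : ℝ)))) ∧
      G1a = ((f3a * g2a) - en) ∧
      X1a = ((d * G1a) - La) ∧
      0 < ((√((d * X1a) + (1 : ℝ))) + (1 : ℝ)) ∧
      i1a = (((√((d * X1a) + (1 : ℝ))) + (1 : ℝ))⁻¹) ∧
      j1a = (X1a * i1a) ∧
      0 ≤ ((base - (La * E1)) + ((1 / 2 : ℝ) * ((Y0 * (G0a - (j0a ^ 2))) + (Y1 * (G1a - (j1a ^ 2)))))) ∧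
      f1b = ((3 / 8 : ℝ) * sa) ∧
      0 ≤ ((d * f1b) + (1 : ℝ)) ∧
      g2b = ((3 / 8 : ℝ) * sb) ∧
      f2b = (g2b - dp) ∧
      0 ≤ ((d * f2b) + (1 : ℝ)) ∧
      f3b = (f1b + dn) ∧
      0 ≤ ((1 : ℝ) - (d * f3b)) ∧
      0 ≤ ((1 : ℝ) - (d * g2b)) ∧
      Lb = (f1b + g2b) ∧
      G0b = ((f1b * f2b) - ep) ∧
      X0b = (Lb + (d * G0b)) ∧
      0 < ((√((d * X0b) + (1 : ℝ))) + (1 : ℝ)) ∧
      i0b = (((√((d * X0b) + (1 : ℝ))) + (1 : ℝ))⁻¹) ∧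
      j0b = (X0b * i0b) ∧
      G1b = ((f3b * g2b) - en) ∧
      X1b = ((d * G1b) - Lb) ∧
      0 < ((√((d * X1b) + (1 : ℝ))) + (1 : ℝ)) ∧
      i1b = (((√((d * X1b) + (1 : ℝ))) + (1 : ℝ))⁻¹) ∧
      j1b = (X1b * i1b) ∧
      0 ≤ ((base - (Lb * E1)) + ((1 / 2 : ℝ) * ((Y0 * (G0b - (j0b ^ 2))) + (Y1 * (G1b - (j1b ^ 2))))))) : LConcl ρ β μ m δ := by
  have hd : δ = d := hδ.trans e0.symm
  rw [hd] at hδ0 ⊢
  have ht0 : (0 : ℝ) ≤ t := by rw [e23]; exact mul_nonneg hδ0 e22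
  have ht1 : t ≤ (5 / 32 : ℝ) := by linarith only [e24]
  exact sc_core h0 hβ0 hβ h hμ hr (by norm_num) hb0 hb1 (by linarith only [ht0]) e23 e12
    (((((((LValid.zero ρ β t).add_smul (mema0_0 h0 hβ0 h hb0 hb1 ht0 ht1) e2).add_smul (mema0_1 h0 hβ0 h hb0 hb1 ht0 ht1) e4).add_smul (mema0_2 h0 hβ0 h hb0 hb1 ht0 ht1) e6).add_smul (mema0_3 h0 hβ0 h hb0 hb1 ht0 ht1) e8).add_smul (mema0_4 h0 hβ0 h hb0 hb1 ht0 ht1) e10).congr'
      (by linarith only [e13, e14, e15, e16, e17, e18, e19, e20]) (by linarith only [e13, e14, e15, e16, e17, e18, e19, e20]) (by linarith only [e13, e14, e15, e16, e17, e18, e19, e20]) (by linarith only [e13, e14, e15, e16, e17, e18, e19, e20]) (by linarith only [e13, e14, e15, e16, e17, e18, e19, e20]) (by linarith only [e13, e14, e15, e16, e17, e18, e19, e20]) (by linarith only [e13, e14, e15, e16, e17, e18, e19, e20])) H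

theorem LSa_z0 {ρ β μ m y r ca cb δ : ℝ} (h0 : 0 ≤ ρ) (hβ0 : 0 ≤ β) (hβ : β ≤ 3 / 5) (h : ρ ^ 2 + β ^ 2 = 1)
    (hμ : 1 ≤ μ) (hr : r = μ⁻¹) (hb0 : (0 : ℝ) ≤ β) (hb1 : β ≤ (3 / 8 : ℝ)) (hδ0 : 0 ≤ δ) (hδ : δ = y * (ca + cb * m))
    (H : LSa.z0_Spec ca cb m y r) : LConcl ρ β μ m δ :=
  Exists.elim H fun ta H => Exists.elim H fun tb H => Exists.elim H fun pw H => Exists.elim H fun qw H => Exists.elim H fun pa0 H => Exists.elim H fun pb0 H => Exists.elim H fun pa1 H => Exists.elim H fun pb1 H => Exists.elim H fun pa2 H => Exists.elim H fun pb2 H => Exists.elim H fun pa3 H => Exists.elim H fun pb3 H => Exists.elim H fun pa4 H => Exists.elim H fun pb4 H => Exists.elim H fun d H => Exists.elim H fun v0 H => Exists.elim H fun v1 H => Exists.elim H fun v2 H => Exists.elim H fun v3 H => Exists.elim H fun v4 H => Exists.elim H fun w H => Exists.elim H fun w38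 H => Exists.elim H fun SL H => Exists.elim H fun Sv H => Exists.elim H fun SRn H => Exists.elim H fun SRp H => Exists.elim H fun S0 H => Exists.elim H fun S1 H => Exists.elim H fun S2 H => Exists.elim H fun tau H => Exists.elim H fun t H => Exists.elim H fun rw H => Exists.elim H fun rr H => Exists.elim H fun sh H => Exists.elim H fun a1 H => Exists.elim H fun sa H => Exists.elim H fun f1a H => Exists.elim H fun sb H => Exists.elim H fun g2a H => Exists.elim H fun eh H => Exists.elim H fun ep H => Exists.elim H fun dp H => Exists.elim H fun f2a H => Exists.elim H fun an H => Exists.elim H fun en H => Exists.elim H fun dn H => Exists.elim H fun f3a H => Exists.elim H fun c0 H => Exists.elim H fun mm H => Exists.elim H fun dd H => Exists.elim H fun m4 H => Exists.elim H fun md H => Exists.elim H fun d4 H => Exists.elim H fun E2 H => Exists.elim H fun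 base H => Exists.elim H fun La H => Exists.elim H fun E1 H => Exists.elim H fun Y0u H => Exists.elim H fun Y0 H => Exists.elim H fun G0a H => Exists.elim H fun X0a H => Exists.elim H fun i0a H => Exists.elim H fun j0a H => Exists.elim H fun Y1u H => Exists.elim H fun Y1 H => Exists.elim H fun G1a H => Exists.elim H fun X1a H => Exists.elim H fun i1a H => Exists.elim H fun j1a H => Exists.elim H fun f1b H => Exists.elim H fun g2b H => Exists.elim H fun f2b H => Exists.elim H fun f3b H => Exists.elim H fun Lb H => Exists.elim H fun G0b H => Exists.elim H fun X0b H => Exists.elim H fun i0b H => Exists.elim H fun j0b H => Exists.elim H fun G1b H => Exists.elim H fun X1b H => Exists.elim H fun i1b H => Exists.elim H fun j1b H =>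
  And.elim (fun e0 H => And.elim (fun e1 H => And.elim (fun e2 H => And.elim (fun e3 H => And.elim (fun e4 H => And.elim (fun e5 H => And.elim (fun e6 H => And.elim (fun e7 H => And.elim (fun e8 H => And.elim (fun e9 H => And.elim (fun e10 H => And.elim (fun e11 H => And.elim (fun e12 H => And.elim (fun e13 H => And.elim (fun e14 H => And.elim (fun e15 H => And.elim (fun e16 H => And.elim (fun e17 H => And.elim (fun e18 H => And.elim (fun e19 H => And.elim (fun e20 H => And.elim (fun e21 H => And.elim (fun e22 H => And.elim (fun e23 H => And.elim (fun e24 H =>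
  @LSa_y0 ρ β μ m y r ca cb δ ta tb pw qw pa0 pb0 pa1 pb1 pa2 pb2 pa3 pb3 pa4 pb4 d v0 v1 v2 v3 v4 w w38 SL Sv SRn SRp S0 S1 S2 tau t rw rr sh a1 sa f1a sb g2a eh ep dp f2a an en dn f3a c0 mm dd m4 md d4 E2 base La E1 Y0u Y0 G0a X0a i0a j0a Y1u Y1 G1a X1a i1a j1a f1b g2b f2b f3b Lb G0b X0b i0b j0b G1b X1b i1b j1b h0 hβ0 hβ h hμ hr hb0 hb1 hδ0 hδ e0 e1 e2 e3 e4 e5 e6 e7 e8 e9 e10 e11 e12 e13 e14 e15 e16 e17 e18 e19 e20 e21 e22 e23 e24 H) H) H) H) H) H) H) H) H) H) H) H) H) H) H) H) H) H) H) H) H) H) H) H) H) H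

theorem LSa_y1 {ρ β μ m y r ca cb δ ta tb pw qw pa0 pb0 pa1 pb1 pa2 pb2 pa3 pb3 d v0 v1 v2 v3 w w32 SL w37 Sv SRn SRp S0 S1 S2 tau t rw rr sh a1 sa f1a sb g2a eh ep dp f2a an en dn f3a c0 mm dd m4 md d4 E2 base La E1 Y0u Y0 G0a X0a i0a j0a Y1u Y1 G1a X1a i1a j1a f1b g2b f2b f3b Lb G0b X0b i0b j0b G1b X1b i1b j1b : ℝ} (h0 : 0 ≤ ρ) (hβ0 : 0 ≤ β) (hβ : β ≤ 3 / 5) (h : ρ ^ 2 + β ^ 2 = 1)
    (hμ : 1 ≤ μ) (hr : r = μ⁻¹) (hb0 : (0 : ℝ) ≤ β) (hb1 : β ≤ (3 / 8 : ℝ)) (hδ0 : 0 ≤ δ) (hδ : δ = y * (ca + cb * m))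
    (e0 : d = (y * (ca + (cb * m))))
    (e1 : v0 = (pa0 + (pb0 * r)))
    (e2 : 0 ≤ v0)
    (e3 : v1 = (pa1 + (pb1 * r)))
    (e4 : 0 ≤ v1)
    (e5 : v2 = (pa2 + (pb2 * r)))
    (e6 : 0 ≤ v2)
    (e7 : v3 = (pa3 + (pb3 * r)))
    (e8 : 0 ≤ v3)
    (e9 : w = (pw + (qw * r)))
    (e10 : 0 ≤ w)
    (e11 : w32 = ((7 / 4 : ℝ) * v3))
    (e12 : SL = (((((3 / 2 : ℝ) * v0) + v1) + v2) + w32))
    (e13 : w37 = ((v0 + v1) + v2))
    (e14 : Sv = (w37 + v3))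
    (e15 : SRn = (((((39 / 32 : ℝ) * v0) + ((3 / 8 : ℝ) * v1)) + v2) + w32))
    (e16 : SRp = (w37 + ((1 / 2 : ℝ) * v3)))
    (e17 : S0 = (((((1179 / 512 : ℝ) * v0) + ((51 / 32 : ℝ) * v1)) + ((253 / 128 : ℝ) * v2)) + ((1239 / 512 : ℝ) * v3)))
    (e18 : S1 = (((((51 / 128 : ℝ) * v0) + ((3 / 16 : ℝ) * v1)) + ((3 / 8 : ℝ) * v2)) + ((63 / 128 : ℝ) * v3)))
    (e19 : S2 = (((((-3 / 8 : ℝ) * v0) + ((-29 / 64 : ℝ) * v1)) + ((-19 / 64 : ℝ) * v2)) + ((-21 / 64 : ℝ) * v3)))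
    (e20 : tau = (ta + (tb * d)))
    (e21 : t = (d * tau))
    (e22 : 0 ≤ (t + (-5 / 32 : ℝ)))
    (e23 : 0 ≤ ((5 / 16 : ℝ) - t))
    (H : 0 ≤ ((1 : ℝ) - Sv) ∧
      rw = (r * w) ∧
      rr = (r ^ 2) ∧
      0 ≤ ((1 : ℝ) - (rw + (rr * SL))) ∧
      0 < ((t ^ 2) + (1 : ℝ)) ∧
      sh = (((2 : ℝ) * tau) * (((t ^ 2) + (1 : ℝ))⁻¹)) ∧
      a1 = ((rr * S1) + ((3 / 8 : ℝ) * rw)) ∧
      sa = (sh * a1) ∧
      f1a = ((0 : ℝ) * sa) ∧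
      0 ≤ ((d * f1a) + (1 : ℝ)) ∧
      sb = (sh * S2) ∧
      g2a = ((0 : ℝ) * sb) ∧
      eh = (tau * sh) ∧
      ep = (eh * SRp) ∧
      dp = (d * ep) ∧
      f2a = (g2a - dp) ∧
      0 ≤ ((d * f2a) + (1 : ℝ)) ∧
      an = ((rr * SRn) + rw) ∧
      en = (eh * an) ∧
      dn = (d * en) ∧
      f3a = (f1a + dn) ∧
      0 ≤ ((1 : ℝ) - (d * f3a)) ∧
      0 ≤ ((1 : ℝ) - (d * g2a)) ∧
      c0 = ((r * S0) + ((9 / 16 : ℝ) * w)) ∧
      mm = (m ^ 2) ∧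
      dd = (d ^ 2) ∧
      m4 = (mm ^ 2) ∧
      md = (mm * dd) ∧
      d4 = (dd ^ 2) ∧
      E2 = ((((((9 / 5 : ℝ) * mm) + (3 / 2 : ℝ)) + ((3 / 10 : ℝ) * dd)) + ((3 : ℝ) * (m4 + md))) + ((1 / 5 : ℝ) * d4)) ∧
      base = ((sh * c0) - E2) ∧
      La = (f1a + g2a) ∧
      E1 = (m * ((((3 / 5 : ℝ) * (((mm + dd) + m4) + d4)) + (3 / 2 : ℝ)) + ((2 : ℝ) * md))) ∧
      Y0u = ((m + d) ^ 2) ∧
      Y0 = ((1 : ℝ) - (Y0u * ((Y0u * (((1 / 10 : ℝ) * Y0u) + (3 / 20 : ℝ))) + (3 / 4 : ℝ)))) ∧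
      G0a = ((f1a * f2a) - ep) ∧
      X0a = (La + (d * G0a)) ∧
      0 < ((√((d * X0a) + (1 : ℝ))) + (1 : ℝ)) ∧
      i0a = (((√((d * X0a) + (1 : ℝ))) + (1 : ℝ))⁻¹) ∧
      j0a = (X0a * i0a) ∧
      Y1u = ((m - d) ^ 2) ∧
      Y1 = ((1 : ℝ) - (Y1u * ((Y1u * (((1 / 10 : ℝ) * Y1u) + (3 / 20 : ℝ))) + (3 / 4 : ℝ)))) ∧
      G1a = ((f3a * g2a) - en) ∧
      X1a = ((d * G1a) - La) ∧
      0 < ((√((d * X1a) + (1 : ℝ))) + (1 : ℝ)) ∧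
      i1a = (((√((d * X1a) + (1 : ℝ))) + (1 : ℝ))⁻¹) ∧
      j1a = (X1a * i1a) ∧
      0 ≤ ((base - (La * E1)) + ((1 / 2 : ℝ) * ((Y0 * (G0a - (j0a ^ 2))) + (Y1 * (G1a - (j1a ^ 2)))))) ∧
      f1b = ((3 / 8 : ℝ) * sa) ∧
      0 ≤ ((d * f1b) + (1 : ℝ)) ∧
      g2b = ((3 / 8 : ℝ) * sb) ∧
      f2b = (g2b - dp) ∧
      0 ≤ ((d * f2b) + (1 : ℝ)) ∧
      f3b = (f1b + dn) ∧
      0 ≤ ((1 : ℝ) - (d * f3b)) ∧
      0 ≤ ((1 : ℝ) - (d * g2b)) ∧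
      Lb = (f1b + g2b) ∧
      G0b = ((f1b * f2b) - ep) ∧
      X0b = (Lb + (d * G0b)) ∧
      0 < ((√((d * X0b) + (1 : ℝ))) + (1 : ℝ)) ∧
      i0b = (((√((d * X0b) + (1 : ℝ))) + (1 : ℝ))⁻¹) ∧
      j0b = (X0b * i0b) ∧
      G1b = ((f3b * g2b) - en) ∧
      X1b = ((d * G1b) - Lb) ∧
      0 < ((√((d * X1b) + (1 : ℝ))) + (1 : ℝ)) ∧
      i1b = (((√((d * X1b) + (1 : ℝ))) + (1 : ℝ))⁻¹) ∧
      j1b = (X1b * i1b) ∧
      0 ≤ ((base - (Lb * E1)) + ((1 / 2 : ℝ) * ((Y0 * (G0b - (j0b ^ 2))) + (Y1 * (G1b - (j1b ^ 2))))))) : LConcl ρ β μ m δ := by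
  have hd : δ = d := hδ.trans e0.symm
  rw [hd] at hδ0 ⊢
  have ht0 : (5 / 32 : ℝ) ≤ t := by linarith only [e22]
  have ht1 : t ≤ (5 / 16 : ℝ) := by linarith only [e23]
  exact sc_core h0 hβ0 hβ h hμ hr (by norm_num) hb0 hb1 (by linarith only [ht0]) e21 e10
    ((((((LValid.zero ρ β t).add_smul (mema1_0 h0 hβ0 h hb0 hb1 ht0 ht1) e2).add_smul (mema1_1 h0 hβ0 h hb0 hb1 ht0 ht1) e4).add_smul (mema1_2 h0 hβ0 h hb0 hb1 ht0 ht1) e6).add_smul (mema1_3 h0 hβ0 h hb0 hb1 ht0 ht1) e8).congr'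
      (by linarith only [e11, e12, e13, e14, e15, e16, e17, e18, e19]) (by linarith only [e11, e12, e13, e14, e15, e16, e17, e18, e19]) (by linarith only [e11, e12, e13, e14, e15, e16, e17, e18, e19]) (by linarith only [e11, e12, e13, e14, e15, e16, e17, e18, e19]) (by linarith only [e11, e12, e13, e14, e15, e16, e17, e18, e19]) (by linarith only [e11, e12, e13, e14, e15, e16, e17, e18, e19]) (by linarith only [e11, e12, e13, e14, e15, e16, e17, e18, e19])) H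

theorem LSa_z1 {ρ β μ m y r ca cb δ : ℝ} (h0 : 0 ≤ ρ) (hβ0 : 0 ≤ β) (hβ : β ≤ 3 / 5) (h : ρ ^ 2 + β ^ 2 = 1)
    (hμ : 1 ≤ μ) (hr : r = μ⁻¹) (hb0 : (0 : ℝ) ≤ β) (hb1 : β ≤ (3 / 8 : ℝ)) (hδ0 : 0 ≤ δ) (hδ : δ = y * (ca + cb * m))
    (H : LSa.z1_Spec ca cb m y r) : LConcl ρ β μ m δ :=
  Exists.elim H fun ta H => Exists.elim H fun tb H => Exists.elim H fun pw H => Exists.elim H fun qw H => Exists.elim H fun pa0 H => Exists.elim H fun pb0 H => Exists.elim H fun pa1 H => Exists.elim H fun pb1 H => Exists.elim H fun pa2 H => Exists.elim H fun pb2 H => Exists.elim H fun pa3 H => Exists.elim H fun pb3 H => Exists.elim H fun d H => Exists.elim H fun v0 H => Exists.elim H fun v1 H => Exists.elim H fun v2 H => Exists.elim H fun v3 H => Exists.elim H fun w H => Exists.elim H fun w32 H => Exists.elim H fun SL H => Exists.elim H fun w37 H => Exists.elim H fun Sv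 H => Exists.elim H fun SRn H => Exists.elim H fun SRp H => Exists.elim H fun S0 H => Exists.elim H fun S1 H => Exists.elim H fun S2 H => Exists.elim H fun tau H => Exists.elim H fun t H => Exists.elim H fun rw H => Exists.elim H fun rr H => Exists.elim H fun sh H => Exists.elim H fun a1 H => Exists.elim H fun sa H => Exists.elim H fun f1a H => Exists.elim H fun sb H => Exists.elim H fun g2a H => Exists.elim H fun eh H => Exists.elim H fun ep H => Exists.elim H fun dp H => Exists.elim H fun f2a H => Exists.elim H fun an H => Exists.elim H fun en H => Exists.elim H fun dn H => Exists.elim H fun f3a H => Exists.elim H fun c0 H => Exists.elim H fun mm H => Exists.elim H fun dd H => Exists.elim H fun m4 H => Exists.elim H fun md H => Exists.elim H fun d4 H => Exists.elim H fun E2 H => Exists.elim H fun base H => Exists.elim H fun La H => Exists.elim H fun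 E1 H => Exists.elim H fun Y0u H => Exists.elim H fun Y0 H => Exists.elim H fun G0a H => Exists.elim H fun X0a H => Exists.elim H fun i0a H => Exists.elim H fun j0a H => Exists.elim H fun Y1u H => Exists.elim H fun Y1 H => Exists.elim H fun G1a H => Exists.elim H fun X1a H => Exists.elim H fun i1a H => Exists.elim H fun j1a H => Exists.elim H fun f1b H => Exists.elim H fun g2b H => Exists.elim H fun f2b H => Exists.elim H fun f3b H => Exists.elim H fun Lb H => Exists.elim H fun G0b H => Exists.elim H fun X0b H => Exists.elim H fun i0b H => Exists.elim H fun j0b H => Exists.elim H fun G1b H => Exists.elim H fun X1b H => Exists.elim H fun i1b H => Exists.elim H fun j1b H =>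
  And.elim (fun e0 H => And.elim (fun e1 H => And.elim (fun e2 H => And.elim (fun e3 H => And.elim (fun e4 H => And.elim (fun e5 H => And.elim (fun e6 H => And.elim (fun e7 H => And.elim (fun e8 H => And.elim (fun e9 H => And.elim (fun e10 H => And.elim (fun e11 H => And.elim (fun e12 H => And.elim (fun e13 H => And.elim (fun e14 H => And.elim (fun e15 H => And.elim (fun e16 H => And.elim (fun e17 H => And.elim (fun e18 H => And.elim (fun e19 H => And.elim (fun e20 H => And.elim (fun e21 H => And.elim (fun e22 H => And.elim (fun e23 H =>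
  @LSa_y1 ρ β μ m y r ca cb δ ta tb pw qw pa0 pb0 pa1 pb1 pa2 pb2 pa3 pb3 d v0 v1 v2 v3 w w32 SL w37 Sv SRn SRp S0 S1 S2 tau t rw rr sh a1 sa f1a sb g2a eh ep dp f2a an en dn f3a c0 mm dd m4 md d4 E2 base La E1 Y0u Y0 G0a X0a i0a j0a Y1u Y1 G1a X1a i1a j1a f1b g2b f2b f3b Lb G0b X0b i0b j0b G1b X1b i1b j1b h0 hβ0 hβ h hμ hr hb0 hb1 hδ0 hδ e0 e1 e2 e3 e4 e5 e6 e7 e8 e9 e10 e11 e12 e13 e14 e15 e16 e17 e18 e19 e20 e21 e22 e23 H) H) H) H) H) H) H) H) H) H) H) H) H) H) H) H) H) H) H) H) H) H) H) H) H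

theorem LSa_y2 {ρ β μ m y r ca cb δ ta tb pw qw pa0 pb0 pa1 pb1 pa2 pb2 d v0 v1 v2 w w28 SL Sv SRn SRp S0 S1 S2 tau t rw rr sh a1 sa f1a sb g2a eh ep dp f2a an en dn f3a c0 mm dd m4 md d4 E2 base La E1 Y0u Y0 G0a X0a i0a j0a Y1u Y1 G1a X1a i1a j1a f1b g2b f2b f3b Lb G0b X0b i0b j0b G1b X1b i1b j1b : ℝ} (h0 : 0 ≤ ρ) (hβ0 : 0 ≤ β) (hβ : β ≤ 3 / 5) (h : ρ ^ 2 + β ^ 2 = 1)
    (hμ : 1 ≤ μ) (hr : r = μ⁻¹) (hb0 : (0 : ℝ) ≤ β) (hb1 : β ≤ (3 / 8 : ℝ)) (hδ0 : 0 ≤ δ) (hδ : δ = y * (ca + cb * m))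
    (e0 : d = (y * (ca + (cb * m))))
    (e1 : v0 = (pa0 + (pb0 * r)))
    (e2 : 0 ≤ v0)
    (e3 : v1 = (pa1 + (pb1 * r)))
    (e4 : 0 ≤ v1)
    (e5 : v2 = (pa2 + (pb2 * r)))
    (e6 : 0 ≤ v2)
    (e7 : w = (pw + (qw * r)))
    (e8 : 0 ≤ w)
    (e9 : w28 = (v0 + v1))
    (e10 : SL = (w28 + ((3 : ℝ) * v2)))
    (e11 : Sv = (w28 + v2))
    (e12 : SRn = ((((5 / 8 : ℝ) * v0) + v1) + ((15 / 8 : ℝ) * v2)))
    (e13 : SRp = ((v0 + ((1 / 4 : ℝ) * v1)) + v2))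
    (e14 : S0 = ((((457 / 256 : ℝ) * v0) + ((3 / 2 : ℝ) * v1)) + ((425 / 128 : ℝ) * v2)))
    (e15 : S1 = ((((13 / 64 : ℝ) * v0) + ((25 / 64 : ℝ) * v1)) + ((33 / 64 : ℝ) * v2)))
    (e16 : S2 = ((((-7 / 16 : ℝ) * v0) + ((-1 / 8 : ℝ) * v1)) + ((-7 / 16 : ℝ) * v2)))
    (e17 : tau = (ta + (tb * d)))
    (e18 : t = (d * tau))
    (e19 : 0 ≤ (t + (-5 / 16 : ℝ)))
    (e20 : 0 ≤ ((1 / 2 : ℝ) - t))
    (H : 0 ≤ ((1 : ℝ) - Sv) ∧
      rw = (r * w) ∧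
      rr = (r ^ 2) ∧
      0 ≤ ((1 : ℝ) - (rw + (rr * SL))) ∧
      0 < ((t ^ 2) + (1 : ℝ)) ∧
      sh = (((2 : ℝ) * tau) * (((t ^ 2) + (1 : ℝ))⁻¹)) ∧
      a1 = ((rr * S1) + ((3 / 8 : ℝ) * rw)) ∧
      sa = (sh * a1) ∧
      f1a = ((0 : ℝ) * sa) ∧
      0 ≤ ((d * f1a) + (1 : ℝ)) ∧
      sb = (sh * S2) ∧
      g2a = ((0 : ℝ) * sb) ∧
      eh = (tau * sh) ∧
      ep = (eh * SRp) ∧
      dp = (d * ep) ∧
      f2a = (g2a - dp) ∧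
      0 ≤ ((d * f2a) + (1 : ℝ)) ∧
      an = ((rr * SRn) + rw) ∧
      en = (eh * an) ∧
      dn = (d * en) ∧
      f3a = (f1a + dn) ∧
      0 ≤ ((1 : ℝ) - (d * f3a)) ∧
      0 ≤ ((1 : ℝ) - (d * g2a)) ∧
      c0 = ((r * S0) + ((9 / 16 : ℝ) * w)) ∧
      mm = (m ^ 2) ∧
      dd = (d ^ 2) ∧
      m4 = (mm ^ 2) ∧
      md = (mm * dd) ∧
      d4 = (dd ^ 2) ∧
      E2 = ((((((9 / 5 : ℝ) * mm) + (3 / 2 : ℝ)) + ((3 / 10 : ℝ) * dd)) + ((3 : ℝ) * (m4 + md))) + ((1 / 5 : ℝ) * d4)) ∧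
      base = ((sh * c0) - E2) ∧
      La = (f1a + g2a) ∧
      E1 = (m * ((((3 / 5 : ℝ) * (((mm + dd) + m4) + d4)) + (3 / 2 : ℝ)) + ((2 : ℝ) * md))) ∧
      Y0u = ((m + d) ^ 2) ∧
      Y0 = ((1 : ℝ) - (Y0u * ((Y0u * (((1 / 10 : ℝ) * Y0u) + (3 / 20 : ℝ))) + (3 / 4 : ℝ)))) ∧
      G0a = ((f1a * f2a) - ep) ∧
      X0a = (La + (d * G0a)) ∧
      0 < ((√((d * X0a) + (1 : ℝ))) + (1 : ℝ)) ∧
      i0a = (((√((d * X0a) + (1 : ℝ))) + (1 : ℝ))⁻¹) ∧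
      j0a = (X0a * i0a) ∧
      Y1u = ((m - d) ^ 2) ∧
      Y1 = ((1 : ℝ) - (Y1u * ((Y1u * (((1 / 10 : ℝ) * Y1u) + (3 / 20 : ℝ))) + (3 / 4 : ℝ)))) ∧
      G1a = ((f3a * g2a) - en) ∧
      X1a = ((d * G1a) - La) ∧
      0 < ((√((d * X1a) + (1 : ℝ))) + (1 : ℝ)) ∧
      i1a = (((√((d * X1a) + (1 : ℝ))) + (1 : ℝ))⁻¹) ∧
      j1a = (X1a * i1a) ∧
      0 ≤ ((base - (La * E1)) + ((1 / 2 : ℝ) * ((Y0 * (G0a - (j0a ^ 2))) + (Y1 * (G1a - (j1a ^ 2)))))) ∧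
      f1b = ((3 / 8 : ℝ) * sa) ∧
      0 ≤ ((d * f1b) + (1 : ℝ)) ∧
      g2b = ((3 / 8 : ℝ) * sb) ∧
      f2b = (g2b - dp) ∧
      0 ≤ ((d * f2b) + (1 : ℝ)) ∧
      f3b = (f1b + dn) ∧
      0 ≤ ((1 : ℝ) - (d * f3b)) ∧
      0 ≤ ((1 : ℝ) - (d * g2b)) ∧
      Lb = (f1b + g2b) ∧
      G0b = ((f1b * f2b) - ep) ∧
      X0b = (Lb + (d * G0b)) ∧
      0 < ((√((d * X0b) + (1 : ℝ))) + (1 : ℝ)) ∧
      i0b = (((√((d * X0b) + (1 : ℝ))) + (1 : ℝ))⁻¹) ∧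
      j0b = (X0b * i0b) ∧
      G1b = ((f3b * g2b) - en) ∧
      X1b = ((d * G1b) - Lb) ∧
      0 < ((√((d * X1b) + (1 : ℝ))) + (1 : ℝ)) ∧
      i1b = (((√((d * X1b) + (1 : ℝ))) + (1 : ℝ))⁻¹) ∧
      j1b = (X1b * i1b) ∧
      0 ≤ ((base - (Lb * E1)) + ((1 / 2 : ℝ) * ((Y0 * (G0b - (j0b ^ 2))) + (Y1 * (G1b - (j1b ^ 2))))))) : LConcl ρ β μ m δ := by
  have hd : δ = d := hδ.trans e0.symm
  rw [hd] at hδ0 ⊢
  have ht0 : (5 / 16 : ℝ) ≤ t := by linarith only [e19]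
  have ht1 : t ≤ (1 / 2 : ℝ) := by linarith only [e20]
  exact sc_core h0 hβ0 hβ h hμ hr (by norm_num) hb0 hb1 (by linarith only [ht0]) e18 e8
    (((((LValid.zero ρ β t).add_smul (mema2_0 h0 hβ0 h hb0 hb1 ht0 ht1) e2).add_smul (mema2_1 h0 hβ0 h hb0 hb1 ht0 ht1) e4).add_smul (mema2_2 h0 hβ0 h hb0 hb1 ht0 ht1) e6).congr'
      (by linarith only [e9, e10, e11, e12, e13, e14, e15, e16]) (by linarith only [e9, e10, e11, e12, e13, e14, e15, e16]) (by linarith only [e9, e10, e11, e12, e13, e14, e15, e16]) (by linarith only [e9, e10, e11, e12, e13, e14, e15, e16]) (by linarith only [e9, e10, e11, e12, e13, e14, e15, e16]) (by linarith only [e9, e10, e11, e12, e13, e14, e15, e16]) (by linarith only [e9, e10, e11, e12, e13, e14, e15, e16])) H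

theorem LSa_z2 {ρ β μ m y r ca cb δ : ℝ} (h0 : 0 ≤ ρ) (hβ0 : 0 ≤ β) (hβ : β ≤ 3 / 5) (h : ρ ^ 2 + β ^ 2 = 1)
    (hμ : 1 ≤ μ) (hr : r = μ⁻¹) (hb0 : (0 : ℝ) ≤ β) (hb1 : β ≤ (3 / 8 : ℝ)) (hδ0 : 0 ≤ δ) (hδ : δ = y * (ca + cb * m))
    (H : LSa.z2_Spec ca cb m y r) : LConcl ρ β μ m δ :=
  Exists.elim H fun ta H => Exists.elim H fun tb H => Exists.elim H fun pw H => Exists.elim H fun qw H => Exists.elim H fun pa0 H => Exists.elim H fun pb0 H => Exists.elim H fun pa1 H => Exists.elim H fun pb1 H => Exists.elim H fun pa2 H => Exists.elim H fun pb2 H => Exists.elim H fun d H => Exists.elim H fun v0 H => Exists.elim H fun v1 H => Exists.elim H fun v2 H => Exists.elim H fun w H => Exists.elim H fun w28 H => Exists.elim H fun SL H => Exists.elim H fun Sv H => Exists.elim H fun SRn H => Exists.elim H fun SRp H => Exists.elim H fun S0 H => Exists.elim H fun S1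 H => Exists.elim H fun S2 H => Exists.elim H fun tau H => Exists.elim H fun t H => Exists.elim H fun rw H => Exists.elim H fun rr H => Exists.elim H fun sh H => Exists.elim H fun a1 H => Exists.elim H fun sa H => Exists.elim H fun f1a H => Exists.elim H fun sb H => Exists.elim H fun g2a H => Exists.elim H fun eh H => Exists.elim H fun ep H => Exists.elim H fun dp H => Exists.elim H fun f2a H => Exists.elim H fun an H => Exists.elim H fun en H => Exists.elim H fun dn H => Exists.elim H fun f3a H => Exists.elim H fun c0 H => Exists.elim H fun mm H => Exists.elim H fun dd H => Exists.elim H fun m4 H => Exists.elim H fun md H => Exists.elim H fun d4 H => Exists.elim H fun E2 H => Exists.elim H fun base H => Exists.elim H fun La H => Exists.elim H fun E1 H => Exists.elim H fun Y0u H => Exists.elim H fun Y0 H => Exists.elim H fun G0a H => Exists.elim H fun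 X0a H => Exists.elim H fun i0a H => Exists.elim H fun j0a H => Exists.elim H fun Y1u H => Exists.elim H fun Y1 H => Exists.elim H fun G1a H => Exists.elim H fun X1a H => Exists.elim H fun i1a H => Exists.elim H fun j1a H => Exists.elim H fun f1b H => Exists.elim H fun g2b H => Exists.elim H fun f2b H => Exists.elim H fun f3b H => Exists.elim H fun Lb H => Exists.elim H fun G0b H => Exists.elim H fun X0b H => Exists.elim H fun i0b H => Exists.elim H fun j0b H => Exists.elim H fun G1b H => Exists.elim H fun X1b H => Exists.elim H fun i1b H => Exists.elim H fun j1b H =>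
  And.elim (fun e0 H => And.elim (fun e1 H => And.elim (fun e2 H => And.elim (fun e3 H => And.elim (fun e4 H => And.elim (fun e5 H => And.elim (fun e6 H => And.elim (fun e7 H => And.elim (fun e8 H => And.elim (fun e9 H => And.elim (fun e10 H => And.elim (fun e11 H => And.elim (fun e12 H => And.elim (fun e13 H => And.elim (fun e14 H => And.elim (fun e15 H => And.elim (fun e16 H => And.elim (fun e17 H => And.elim (fun e18 H => And.elim (fun e19 H => And.elim (fun e20 H =>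
  @LSa_y2 ρ β μ m y r ca cb δ ta tb pw qw pa0 pb0 pa1 pb1 pa2 pb2 d v0 v1 v2 w w28 SL Sv SRn SRp S0 S1 S2 tau t rw rr sh a1 sa f1a sb g2a eh ep dp f2a an en dn f3a c0 mm dd m4 md d4 E2 base La E1 Y0u Y0 G0a X0a i0a j0a Y1u Y1 G1a X1a i1a j1a f1b g2b f2b f3b Lb G0b X0b i0b j0b G1b X1b i1b j1b h0 hβ0 hβ h hμ hr hb0 hb1 hδ0 hδ e0 e1 e2 e3 e4 e5 e6 e7 e8 e9 e10 e11 e12 e13 e14 e15 e16 e17 e18 e19 e20 H) H) H) H) H) H) H) H) H) H) H) H) H) H) H) H) H) H) H) H) H) H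

theorem LSa_y3 {ρ β μ m y r ca cb δ ta tb pw qw pa0 pb0 pa1 pb1 pa2 pb2 pa3 pb3 d v0 v1 v2 v3 w w31 SL Sv SRn SRp S0 S1 S2 tau t rw rr sh a1 sa f1a sb g2a eh ep dp f2a an en dn f3a c0 mm dd m4 md d4 E2 base La E1 Y0u Y0 G0a X0a i0a j0a Y1u Y1 G1a X1a i1a j1a f1b g2b f2b f3b Lb G0b X0b i0b j0b G1b X1b i1b j1b : ℝ} (h0 : 0 ≤ ρ) (hβ0 : 0 ≤ β) (hβ : β ≤ 3 / 5) (h : ρ ^ 2 + β ^ 2 = 1)
    (hμ : 1 ≤ μ) (hr : r = μ⁻¹) (hb0 : (0 : ℝ) ≤ β) (hb1 : β ≤ (3 / 8 : ℝ)) (hδ0 : 0 ≤ δ) (hδ : δ = y * (ca + cb * m))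
    (e0 : d = (y * (ca + (cb * m))))
    (e1 : v0 = (pa0 + (pb0 * r)))
    (e2 : 0 ≤ v0)
    (e3 : v1 = (pa1 + (pb1 * r)))
    (e4 : 0 ≤ v1)
    (e5 : v2 = (pa2 + (pb2 * r)))
    (e6 : 0 ≤ v2)
    (e7 : v3 = (pa3 + (pb3 * r)))
    (e8 : 0 ≤ v3)
    (e9 : w = (pw + (qw * r)))
    (e10 : 0 ≤ w)
    (e11 : w31 = ((3 / 2 : ℝ) * v0))
    (e12 : SL = (((w31 + v1) + v2) + ((9 / 4 : ℝ) * v3)))
    (e13 : Sv = (((v0 + v1) + v2) + v3))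
    (e14 : SRn = (((w31 + ((5 / 8 : ℝ) * v1)) + v2) + ((45 / 32 : ℝ) * v3)))
    (e15 : SRp = (((((3 / 8 : ℝ) * v0) + v1) + ((1 / 2 : ℝ) * v2)) + v3))
    (e16 : S0 = (((((1085 / 512 : ℝ) * v0) + ((925 / 512 : ℝ) * v1)) + ((877 / 512 : ℝ) * v2)) + ((179 / 64 : ℝ) * v3)))
    (e17 : S1 = (((((45 / 128 : ℝ) * v0) + ((1 / 8 : ℝ) * v1)) + ((13 / 64 : ℝ) * v2)) + ((45 / 128 : ℝ) * v3)))
    (e18 : S2 = (((((-1 / 8 : ℝ) * v0) + ((-17 / 64 : ℝ) * v1)) + ((-7 / 64 : ℝ) * v2)) + ((-7 / 32 : ℝ) * v3)))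
    (e19 : tau = (ta + (tb * d)))
    (e20 : t = (d * tau))
    (e21 : 0 ≤ (t + (-1 / 2 : ℝ)))
    (e22 : 0 ≤ ((3 / 4 : ℝ) - t))
    (H : 0 ≤ ((1 : ℝ) - Sv) ∧
      rw = (r * w) ∧
      rr = (r ^ 2) ∧
      0 ≤ ((1 : ℝ) - (rw + (rr * SL))) ∧
      0 < ((t ^ 2) + (1 : ℝ)) ∧
      sh = (((2 : ℝ) * tau) * (((t ^ 2) + (1 : ℝ))⁻¹)) ∧
      a1 = ((rr * S1) + ((3 / 8 : ℝ) * rw)) ∧
      sa = (sh * a1) ∧
      f1a = ((0 : ℝ) * sa) ∧
      0 ≤ ((d * f1a) + (1 : ℝ)) ∧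
      sb = (sh * S2) ∧
      g2a = ((0 : ℝ) * sb) ∧
      eh = (tau * sh) ∧
      ep = (eh * SRp) ∧
      dp = (d * ep) ∧
      f2a = (g2a - dp) ∧
      0 ≤ ((d * f2a) + (1 : ℝ)) ∧
      an = ((rr * SRn) + rw) ∧
      en = (eh * an) ∧
      dn = (d * en) ∧
      f3a = (f1a + dn) ∧
      0 ≤ ((1 : ℝ) - (d * f3a)) ∧
      0 ≤ ((1 : ℝ) - (d * g2a)) ∧
      c0 = ((r * S0) + ((9 / 16 : ℝ) * w)) ∧
      mm = (m ^ 2) ∧
      dd = (d ^ 2) ∧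
      m4 = (mm ^ 2) ∧
      md = (mm * dd) ∧
      d4 = (dd ^ 2) ∧
      E2 = ((((((9 / 5 : ℝ) * mm) + (3 / 2 : ℝ)) + ((3 / 10 : ℝ) * dd)) + ((3 : ℝ) * (m4 + md))) + ((1 / 5 : ℝ) * d4)) ∧
      base = ((sh * c0) - E2) ∧
      La = (f1a + g2a) ∧
      E1 = (m * ((((3 / 5 : ℝ) * (((mm + dd) + m4) + d4)) + (3 / 2 : ℝ)) + ((2 : ℝ) * md))) ∧
      Y0u = ((m + d) ^ 2) ∧
      Y0 = ((1 : ℝ) - (Y0u * ((Y0u * (((1 / 10 : ℝ) * Y0u) + (3 / 20 : ℝ))) + (3 / 4 : ℝ)))) ∧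
      G0a = ((f1a * f2a) - ep) ∧
      X0a = (La + (d * G0a)) ∧
      0 < ((√((d * X0a) + (1 : ℝ))) + (1 : ℝ)) ∧
      i0a = (((√((d * X0a) + (1 : ℝ))) + (1 : ℝ))⁻¹) ∧
      j0a = (X0a * i0a) ∧
      Y1u = ((m - d) ^ 2) ∧
      Y1 = ((1 : ℝ) - (Y1u * ((Y1u * (((1 / 10 : ℝ) * Y1u) + (3 / 20 : ℝ))) + (3 / 4 : ℝ)))) ∧
      G1a = ((f3a * g2a) - en) ∧
      X1a = ((d * G1a) - La) ∧
      0 < ((√((d * X1a) + (1 : ℝ))) + (1 : ℝ)) ∧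
      i1a = (((√((d * X1a) + (1 : ℝ))) + (1 : ℝ))⁻¹) ∧
      j1a = (X1a * i1a) ∧
      0 ≤ ((base - (La * E1)) + ((1 / 2 : ℝ) * ((Y0 * (G0a - (j0a ^ 2))) + (Y1 * (G1a - (j1a ^ 2)))))) ∧
      f1b = ((3 / 8 : ℝ) * sa) ∧
      0 ≤ ((d * f1b) + (1 : ℝ)) ∧
      g2b = ((3 / 8 : ℝ) * sb) ∧
      f2b = (g2b - dp) ∧
      0 ≤ ((d * f2b) + (1 : ℝ)) ∧
      f3b = (f1b + dn) ∧
      0 ≤ ((1 : ℝ) - (d * f3b)) ∧
      0 ≤ ((1 : ℝ) - (d * g2b)) ∧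
      Lb = (f1b + g2b) ∧
      G0b = ((f1b * f2b) - ep) ∧
      X0b = (Lb + (d * G0b)) ∧
      0 < ((√((d * X0b) + (1 : ℝ))) + (1 : ℝ)) ∧
      i0b = (((√((d * X0b) + (1 : ℝ))) + (1 : ℝ))⁻¹) ∧
      j0b = (X0b * i0b) ∧
      G1b = ((f3b * g2b) - en) ∧
      X1b = ((d * G1b) - Lb) ∧
      0 < ((√((d * X1b) + (1 : ℝ))) + (1 : ℝ)) ∧
      i1b = (((√((d * X1b) + (1 : ℝ))) + (1 : ℝ))⁻¹) ∧
      j1b = (X1b * i1b) ∧
      0 ≤ ((base - (Lb * E1)) + ((1 / 2 : ℝ) * ((Y0 * (G0b - (j0b ^ 2))) + (Y1 * (G1b - (j1b ^ 2))))))) : LConcl ρ β μ m δ := by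
  have hd : δ = d := hδ.trans e0.symm
  rw [hd] at hδ0 ⊢
  have ht0 : (1 / 2 : ℝ) ≤ t := by linarith only [e21]
  have ht1 : t ≤ (3 / 4 : ℝ) := by linarith only [e22]
  exact sc_core h0 hβ0 hβ h hμ hr (by norm_num) hb0 hb1 (by linarith only [ht0]) e20 e10
    ((((((LValid.zero ρ β t).add_smul (mema3_0 h0 hβ0 h hb0 hb1 ht0 ht1) e2).add_smul (mema3_1 h0 hβ0 h hb0 hb1 ht0 ht1) e4).add_smul (mema3_2 h0 hβ0 h hb0 hb1 ht0 ht1) e6).add_smul (mema3_3 h0 hβ0 h hb0 hb1 ht0 ht1) e8).congr'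
      (by linarith only [e11, e12, e13, e14, e15, e16, e17, e18]) (by linarith only [e11, e12, e13, e14, e15, e16, e17, e18]) (by linarith only [e11, e12, e13, e14, e15, e16, e17, e18]) (by linarith only [e11, e12, e13, e14, e15, e16, e17, e18]) (by linarith only [e11, e12, e13, e14, e15, e16, e17, e18]) (by linarith only [e11, e12, e13, e14, e15, e16, e17, e18]) (by linarith only [e11, e12, e13, e14, e15, e16, e17, e18])) H

theorem LSa_z3 {ρ β μ m y r ca cb δ : ℝ} (h0 : 0 ≤ ρ) (hβ0 : 0 ≤ β) (hβ : β ≤ 3 / 5) (h : ρ ^ 2 + β ^ 2 = 1)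
    (hμ : 1 ≤ μ) (hr : r = μ⁻¹) (hb0 : (0 : ℝ) ≤ β) (hb1 : β ≤ (3 / 8 : ℝ)) (hδ0 : 0 ≤ δ) (hδ : δ = y * (ca + cb * m))
    (H : LSa.z3_Spec ca cb m y r) : LConcl ρ β μ m δ :=
  Exists.elim H fun ta H => Exists.elim H fun tb H => Exists.elim H fun pw H => Exists.elim H fun qw H => Exists.elim H fun pa0 H => Exists.elim H fun pb0 H => Exists.elim H fun pa1 H => Exists.elim H fun pb1 H => Exists.elim H fun pa2 H => Exists.elim H fun pb2 H => Exists.elim H fun pa3 H => Exists.elim H fun pb3 H => Exists.elim H fun d H => Exists.elim H fun v0 H => Exists.elim H fun v1 H => Exists.elim H fun v2 H => Exists.elim H fun v3 H => Exists.elim H fun w H => Exists.elim H fun w31 H => Exists.elim H fun SL H => Exists.elim H fun Sv H => Exists.elim H fun SRn H => Exists.elim H fun SRp H => Exists.elim H fun S0 H => Exists.elim H fun S1 H => Exists.elim H fun S2 H =>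 Exists.elim H fun tau H => Exists.elim H fun t H => Exists.elim H fun rw H => Exists.elim H fun rr H => Exists.elim H fun sh H => Exists.elim H fun a1 H => Exists.elim H fun sa H => Exists.elim H fun f1a H => Exists.elim H fun sb H => Exists.elim H fun g2a H => Exists.elim H fun eh H => Exists.elim H fun ep H => Exists.elim H fun dp H => Exists.elim H fun f2a H => Exists.elim H fun an H => Exists.elim H fun en H => Exists.elim H fun dn H => Exists.elim H fun f3a H => Exists.elim H fun c0 H => Exists.elim H fun mm H => Exists.elim H fun dd H => Exists.elim H fun m4 H => Exists.elim H fun md H => Exists.elim H fun d4 H => Exists.elim H fun E2 H => Exists.elim H fun base H => Exists.elim H fun La H => Exists.elim H fun E1 H => Exists.elim H fun Y0u H => Exists.elim H fun Y0 H => Exists.elim H fun G0a H => Exists.elim H fun X0a H => Exists.elim H fun i0a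 H => Exists.elim H fun j0a H => Exists.elim H fun Y1u H => Exists.elim H fun Y1 H => Exists.elim H fun G1a H => Exists.elim H fun X1a H => Exists.elim H fun i1a H => Exists.elim H fun j1a H => Exists.elim H fun f1b H => Exists.elim H fun g2b H => Exists.elim H fun f2b H => Exists.elim H fun f3b H => Exists.elim H fun Lb H => Exists.elim H fun G0b H => Exists.elim H fun X0b H => Exists.elim H fun i0b H => Exists.elim H fun j0b H => Exists.elim H fun G1b H => Exists.elim H fun X1b H => Exists.elim H fun i1b H => Exists.elim H fun j1b H =>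
  And.elim (fun e0 H => And.elim (fun e1 H => And.elim (fun e2 H => And.elim (fun e3 H => And.elim (fun e4 H => And.elim (fun e5 H => And.elim (fun e6 H => And.elim (fun e7 H => And.elim (fun e8 H => And.elim (fun e9 H => And.elim (fun e10 H => And.elim (fun e11 H => And.elim (fun e12 H => And.elim (fun e13 H => And.elim (fun e14 H => And.elim (fun e15 H => And.elim (fun e16 H => And.elim (fun e17 H => And.elim (fun e18 H => And.elim (fun e19 H => And.elim (fun e20 H => And.elim (fun e21 H => And.elim (fun e22 H =>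
  @LSa_y3 ρ β μ m y r ca cb δ ta tb pw qw pa0 pb0 pa1 pb1 pa2 pb2 pa3 pb3 d v0 v1 v2 v3 w w31 SL Sv SRn SRp S0 S1 S2 tau t rw rr sh a1 sa f1a sb g2a eh ep dp f2a an en dn f3a c0 mm dd m4 md d4 E2 base La E1 Y0u Y0 G0a X0a i0a j0a Y1u Y1 G1a X1a i1a j1a f1b g2b f2b f3b Lb G0b X0b i0b j0b G1b X1b i1b j1b h0 hβ0 hβ h hμ hr hb0 hb1 hδ0 hδ e0 e1 e2 e3 e4 e5 e6 e7 e8 e9 e10 e11 e12 e13 e14 e15 e16 e17 e18 e19 e20 e21 e22 H) H) H) H) H) H) H) H) H) H) H) H) H) H) H) H) H) H) H) H) H) H) H) H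

theorem LSa_all {ρ β μ m y r ca cb δ : ℝ} (h0 : 0 ≤ ρ) (hβ0 : 0 ≤ β) (hβ : β ≤ 3 / 5) (h : ρ ^ 2 + β ^ 2 = 1)
    (hμ : 1 ≤ μ) (hr : r = μ⁻¹) (hb0 : (0 : ℝ) ≤ β) (hb1 : β ≤ (3 / 8 : ℝ)) (hδ0 : 0 ≤ δ) (hδ : δ = y * (ca + cb * m))
    (H : LSa.z0_Spec ca cb m y r ∨ LSa.z1_Spec ca cb m y r ∨ LSa.z2_Spec ca cb m y r ∨ LSa.z3_Spec ca cb m y r) : LConcl ρ β μ m δ := by
  rcases H with H | H | H | H
  · exact LSa_z0 h0 hβ0 hβ h hμ hr hb0 hb1 hδ0 hδ H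
  · exact LSa_z1 h0 hβ0 hβ h hμ hr hb0 hb1 hδ0 hδ H
  · exact LSa_z2 h0 hβ0 hβ h hμ hr hb0 hb1 hδ0 hδ H
  · exact LSa_z3 h0 hβ0 hβ h hμ hr hb0 hb1 hδ0 hδ H

theorem LSb_y0 {ρ β μ m y r ca cb δ ta tb pw qw pa0 pb0 pa1 pb1 pa2 pb2 pa3 pb3 pa4 pb4 d v0 v1 v2 v3 v4 w w36 SL w42 Sv SRn SRp S0 S1 S2 tau t rw rr sh a1 sa f1a sb g2a eh ep dp f2a an en dn f3a c0 mm dd m4 md d4 E2 base La E1 Y0u Y0 G0a X0a i0a j0a Y1u Y1 G1a X1a i1a j1a f1b g2b f2b f3b Lb G0b X0b i0b j0b G1b X1b i1b j1b : ℝ} (h0 : 0 ≤ ρ) (hβ0 : 0 ≤ β) (hβ : β ≤ 3 / 5) (h : ρ ^ 2 + β ^ 2 = 1)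
    (hμ : 1 ≤ μ) (hr : r = μ⁻¹) (hb0 : (3 / 8 : ℝ) ≤ β) (hb1 : β ≤ (1229 / 2048 : ℝ)) (hδ0 : 0 ≤ δ) (hδ : δ = y * (ca + cb * m))
    (e0 : d = (y * (ca + (cb * m))))
    (e1 : v0 = (pa0 + (pb0 * r)))
    (e2 : 0 ≤ v0)
    (e3 : v1 = (pa1 + (pb1 * r)))
    (e4 : 0 ≤ v1)
    (e5 : v2 = (pa2 + (pb2 * r)))
    (e6 : 0 ≤ v2)
    (e7 : v3 = (pa3 + (pb3 * r)))
    (e8 : 0 ≤ v3)
    (e9 : v4 = (pa4 + (pb4 * r)))
    (e10 : 0 ≤ v4)
    (e11 : w = (pw + (qw * r)))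
    (e12 : 0 ≤ w)
    (e13 : w36 = ((3 : ℝ) * v3))
    (e14 : SL = ((((v0 + ((3 : ℝ) * v1)) + v2) + w36) + ((3 / 2 : ℝ) * v4)))
    (e15 : w42 = (v0 + v1))
    (e16 : Sv = (((w42 + v2) + v3) + v4))
    (e17 : SRn = ((((((1 / 2 : ℝ) * v0) + ((15 / 8 : ℝ) * v1)) + v2) + w36) + ((9 / 16 : ℝ) * v4)))
    (e18 : SRp = (((w42 + ((3 / 8 : ℝ) * v2)) + v3) + v4))
    (e19 : S0 = ((((((429 / 256 : ℝ) * v0) + ((1741 / 512 : ℝ) * v1)) + ((427 / 256 : ℝ) * v2)) + ((515 / 128 : ℝ) * v3)) + ((255 / 128 : ℝ) * v4)))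
    (e20 : S1 = ((((((19 / 64 : ℝ) * v0) + ((81 / 64 : ℝ) * v1)) + ((9 / 16 : ℝ) * v2)) + ((51 / 32 : ℝ) * v3)) + ((33 / 64 : ℝ) * v4)))
    (e21 : S2 = ((((((-35 / 64 : ℝ) * v0) + ((-33 / 64 : ℝ) * v1)) + ((-11 / 32 : ℝ) * v2)) + ((-33 / 64 : ℝ) * v3)) + ((-35 / 64 : ℝ) * v4)))
    (e22 : tau = (ta + (tb * d)))
    (e23 : 0 ≤ tau)
    (e24 : t = (d * tau))
    (e25 : 0 ≤ ((5 / 32 : ℝ) - t))
    (H : 0 ≤ ((1 : ℝ) - Sv) ∧
      rw = (r * w) ∧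
      rr = (r ^ 2) ∧
      0 ≤ ((1 : ℝ) - (rw + (rr * SL))) ∧
      0 < ((t ^ 2) + (1 : ℝ)) ∧
      sh = (((2 : ℝ) * tau) * (((t ^ 2) + (1 : ℝ))⁻¹)) ∧
      a1 = ((rr * S1) + ((3 / 8 : ℝ) * rw)) ∧
      sa = (sh * a1) ∧
      f1a = ((3 / 8 : ℝ) * sa) ∧
      0 ≤ ((d * f1a) + (1 : ℝ)) ∧
      sb = (sh * S2) ∧
      g2a = ((3 / 8 : ℝ) * sb) ∧
      eh = (tau * sh) ∧
      ep = (eh * SRp) ∧
      dp = (d * ep) ∧
      f2a = (g2a - dp) ∧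
      0 ≤ ((d * f2a) + (1 : ℝ)) ∧
      an = ((rr * SRn) + rw) ∧
      en = (eh * an) ∧
      dn = (d * en) ∧
      f3a = (f1a + dn) ∧
      0 ≤ ((1 : ℝ) - (d * f3a)) ∧
      0 ≤ ((1 : ℝ) - (d * g2a)) ∧
      c0 = ((r * S0) + ((9 / 16 : ℝ) * w)) ∧
      mm = (m ^ 2) ∧
      dd = (d ^ 2) ∧
      m4 = (mm ^ 2) ∧
      md = (mm * dd) ∧
      d4 = (dd ^ 2) ∧
      E2 = ((((((9 / 5 : ℝ) * mm) + (3 / 2 : ℝ)) + ((3 / 10 : ℝ) * dd)) + ((3 : ℝ) * (m4 + md))) + ((1 / 5 : ℝ) * d4)) ∧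
      base = ((sh * c0) - E2) ∧
      La = (f1a + g2a) ∧
      E1 = (m * ((((3 / 5 : ℝ) * (((mm + dd) + m4) + d4)) + (3 / 2 : ℝ)) + ((2 : ℝ) * md))) ∧
      Y0u = ((m + d) ^ 2) ∧
      Y0 = ((1 : ℝ) - (Y0u * ((Y0u * (((1 / 10 : ℝ) * Y0u) + (3 / 20 : ℝ))) + (3 / 4 : ℝ)))) ∧
      G0a = ((f1a * f2a) - ep) ∧
      X0a = (La + (d * G0a)) ∧
      0 < ((√((d * X0a) + (1 : ℝ))) + (1 : ℝ)) ∧
      i0a = (((√((d * X0a) + (1 : ℝ))) + (1 : ℝ))⁻¹) ∧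
      j0a = (X0a * i0a) ∧
      Y1u = ((m - d) ^ 2) ∧
      Y1 = ((1 : ℝ) - (Y1u * ((Y1u * (((1 / 10 : ℝ) * Y1u) + (3 / 20 : ℝ))) + (3 / 4 : ℝ)))) ∧
      G1a = ((f3a * g2a) - en) ∧
      X1a = ((d * G1a) - La) ∧
      0 < ((√((d * X1a) + (1 : ℝ))) + (1 : ℝ)) ∧
      i1a = (((√((d * X1a) + (1 : ℝ))) + (1 : ℝ))⁻¹) ∧
      j1a = (X1a * i1a) ∧
      0 ≤ ((base - (La * E1)) + ((1 / 2 : ℝ) * ((Y0 * (G0a - (j0a ^ 2))) + (Y1 * (G1a - (j1a ^ 2)))))) ∧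
      f1b = ((1229 / 2048 : ℝ) * sa) ∧
      0 ≤ ((d * f1b) + (1 : ℝ)) ∧
      g2b = ((1229 / 2048 : ℝ) * sb) ∧
      f2b = (g2b - dp) ∧
      0 ≤ ((d * f2b) + (1 : ℝ)) ∧
      f3b = (f1b + dn) ∧
      0 ≤ ((1 : ℝ) - (d * f3b)) ∧
      0 ≤ ((1 : ℝ) - (d * g2b)) ∧
      Lb = (f1b + g2b) ∧
      G0b = ((f1b * f2b) - ep) ∧
      X0b = (Lb + (d * G0b)) ∧
      0 < ((√((d * X0b) + (1 : ℝ))) + (1 : ℝ)) ∧
      i0b = (((√((d * X0b) + (1 : ℝ))) + (1 : ℝ))⁻¹) ∧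
      j0b = (X0b * i0b) ∧
      G1b = ((f3b * g2b) - en) ∧
      X1b = ((d * G1b) - Lb) ∧
      0 < ((√((d * X1b) + (1 : ℝ))) + (1 : ℝ)) ∧
      i1b = (((√((d * X1b) + (1 : ℝ))) + (1 : ℝ))⁻¹) ∧
      j1b = (X1b * i1b) ∧
      0 ≤ ((base - (Lb * E1)) + ((1 / 2 : ℝ) * ((Y0 * (G0b - (j0b ^ 2))) + (Y1 * (G1b - (j1b ^ 2))))))) : LConcl ρ β μ m δ := by
  have hd : δ = d := hδ.trans e0.symm
  rw [hd] at hδ0 ⊢
  have ht0 : (0 : ℝ) ≤ t := by rw [e24]; exact mul_nonneg hδ0 e23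
  have ht1 : t ≤ (5 / 32 : ℝ) := by linarith only [e25]
  exact sc_core h0 hβ0 hβ h hμ hr (by norm_num) hb0 hb1 (by linarith only [ht0]) e24 e12
    (((((((LValid.zero ρ β t).add_smul (memb0_0 h0 hβ0 h hb0 hb1 ht0 ht1) e2).add_smul (memb0_1 h0 hβ0 h hb0 hb1 ht0 ht1) e4).add_smul (memb0_2 h0 hβ0 h hb0 hb1 ht0 ht1) e6).add_smul (memb0_3 h0 hβ0 h hb0 hb1 ht0 ht1) e8).add_smul (memb0_4 h0 hβ0 h hb0 hb1 ht0 ht1) e10).congr'
      (by linarith only [e13, e14, e15, e16, e17, e18, e19, e20, e21]) (by linarith only [e13, e14, e15, e16, e17, e18, e19, e20, e21]) (by linarith only [e13, e14, e15, e16, e17, e18, e19, e20, e21]) (by linarith only [e13, e14, e15, e16, e17, e18, e19, e20, e21]) (by linarith only [e13, e14, e15, e16, e17, e18, e19, e20, e21]) (by linarith only [e13, e14, e15, e16, e17, e18, e19, e20, e21]) (by linarith only [e13, e14, e15, e16, e17,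 e18, e19, e20, e21])) H

theorem LSb_z0 {ρ β μ m y r ca cb δ : ℝ} (h0 : 0 ≤ ρ) (hβ0 : 0 ≤ β) (hβ : β ≤ 3 / 5) (h : ρ ^ 2 + β ^ 2 = 1)
    (hμ : 1 ≤ μ) (hr : r = μ⁻¹) (hb0 : (3 / 8 : ℝ) ≤ β) (hb1 : β ≤ (1229 / 2048 : ℝ)) (hδ0 : 0 ≤ δ) (hδ : δ = y * (ca + cb * m))
    (H : LSb.z0_Spec ca cb m y r) : LConcl ρ β μ m δ :=
  Exists.elim H fun ta H => Exists.elim H fun tb H => Exists.elim H fun pw H => Exists.elim H fun qw H => Exists.elim H fun pa0 H => Exists.elim H fun pb0 H => Exists.elim H fun pa1 H => Exists.elim H fun pb1 H => Exists.elim H fun pa2 H => Exists.elim H fun pb2 H => Exists.elim H fun pa3 H => Exists.elim H fun pb3 H => Exists.elim H fun pa4 H => Exists.elim H fun pb4 H => Exists.elim H fun d H => Exists.elim H fun v0 H => Exists.elim H fun v1 H => Exists.elim H fun v2 H => Exists.elim H fun v3 H => Exists.elim H fun v4 H => Exists.elim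 H fun w H => Exists.elim H fun w36 H => Exists.elim H fun SL H => Exists.elim H fun w42 H => Exists.elim H fun Sv H => Exists.elim H fun SRn H => Exists.elim H fun SRp H => Exists.elim H fun S0 H => Exists.elim H fun S1 H => Exists.elim H fun S2 H => Exists.elim H fun tau H => Exists.elim H fun t H => Exists.elim H fun rw H => Exists.elim H fun rr H => Exists.elim H fun sh H => Exists.elim H fun a1 H => Exists.elim H fun sa H => Exists.elim H fun f1a H => Exists.elim H fun sb H => Exists.elim H fun g2a H => Exists.elim H fun eh H => Exists.elim H fun ep H => Exists.elim H fun dp H => Exists.elim H fun f2a H => Exists.elim H fun an H => Exists.elim H fun en H => Exists.elim H fun dn H => Exists.elim H fun f3a H => Exists.elim H fun c0 H => Exists.elim H fun mm H => Exists.elim H fun dd H => Exists.elim H fun m4 H => Exists.elim H fun md H => Exists.elim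 H fun d4 H => Exists.elim H fun E2 H => Exists.elim H fun base H => Exists.elim H fun La H => Exists.elim H fun E1 H => Exists.elim H fun Y0u H => Exists.elim H fun Y0 H => Exists.elim H fun G0a H => Exists.elim H fun X0a H => Exists.elim H fun i0a H => Exists.elim H fun j0a H => Exists.elim H fun Y1u H => Exists.elim H fun Y1 H => Exists.elim H fun G1a H => Exists.elim H fun X1a H => Exists.elim H fun i1a H => Exists.elim H fun j1a H => Exists.elim H fun f1b H => Exists.elim H fun g2b H => Exists.elim H fun f2b H => Exists.elim H fun f3b H => Exists.elim H fun Lb H => Exists.elim H fun G0b H => Exists.elim H fun X0b H => Exists.elim H fun i0b H => Exists.elim H fun j0b H => Exists.elim H fun G1b H => Exists.elim H fun X1b H => Exists.elim H fun i1b H => Exists.elim H fun j1b H =>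
  And.elim (fun e0 H => And.elim (fun e1 H => And.elim (fun e2 H => And.elim (fun e3 H => And.elim (fun e4 H => And.elim (fun e5 H => And.elim (fun e6 H => And.elim (fun e7 H => And.elim (fun e8 H => And.elim (fun e9 H => And.elim (fun e10 H => And.elim (fun e11 H => And.elim (fun e12 H => And.elim (fun e13 H => And.elim (fun e14 H => And.elim (fun e15 H => And.elim (fun e16 H => And.elim (fun e17 H => And.elim (fun e18 H => And.elim (fun e19 H => And.elim (fun e20 H => And.elim (fun e21 H => And.elim (fun e22 H => And.elim (fun e23 H => And.elim (fun e24 H => And.elim (fun e25 H =>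
  @LSb_y0 ρ β μ m y r ca cb δ ta tb pw qw pa0 pb0 pa1 pb1 pa2 pb2 pa3 pb3 pa4 pb4 d v0 v1 v2 v3 v4 w w36 SL w42 Sv SRn SRp S0 S1 S2 tau t rw rr sh a1 sa f1a sb g2a eh ep dp f2a an en dn f3a c0 mm dd m4 md d4 E2 base La E1 Y0u Y0 G0a X0a i0a j0a Y1u Y1 G1a X1a i1a j1a f1b g2b f2b f3b Lb G0b X0b i0b j0b G1b X1b i1b j1b h0 hβ0 hβ h hμ hr hb0 hb1 hδ0 hδ e0 e1 e2 e3 e4 e5 e6 e7 e8 e9 e10 e11 e12 e13 e14 e15 e16 e17 e18 e19 e20 e21 e22 e23 e24 e25 H) H) H) H) H) H) H) H) H) H) H) H) H) H) H) H) H) H) H) H) H) H) H) H) H) H) H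

theorem LSb_y1 {ρ β μ m y r ca cb δ ta tb pw qw pa0 pb0 pa1 pb1 pa2 pb2 pa3 pb3 d v0 v1 v2 v3 w w31 SL Sv SRn SRp S0 S1 S2 tau t rw rr sh a1 sa f1a sb g2a eh ep dp f2a an en dn f3a c0 mm dd m4 md d4 E2 base La E1 Y0u Y0 G0a X0a i0a j0a Y1u Y1 G1a X1a i1a j1a f1b g2b f2b f3b Lb G0b X0b i0b j0b G1b X1b i1b j1b : ℝ} (h0 : 0 ≤ ρ) (hβ0 : 0 ≤ β) (hβ : β ≤ 3 / 5) (h : ρ ^ 2 + β ^ 2 = 1)
    (hμ : 1 ≤ μ) (hr : r = μ⁻¹) (hb0 : (3 / 8 : ℝ) ≤ β) (hb1 : β ≤ (1229 / 2048 : ℝ)) (hδ0 : 0 ≤ δ) (hδ : δ = y * (ca + cb * m))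
    (e0 : d = (y * (ca + (cb * m))))
    (e1 : v0 = (pa0 + (pb0 * r)))
    (e2 : 0 ≤ v0)
    (e3 : v1 = (pa1 + (pb1 * r)))
    (e4 : 0 ≤ v1)
    (e5 : v2 = (pa2 + (pb2 * r)))
    (e6 : 0 ≤ v2)
    (e7 : v3 = (pa3 + (pb3 * r)))
    (e8 : 0 ≤ v3)
    (e9 : w = (pw + (qw * r)))
    (e10 : 0 ≤ w)
    (e11 : w31 = ((3 / 2 : ℝ) * v1))
    (e12 : SL = (((v0 + w31) + v2) + ((9 / 4 : ℝ) * v3)))
    (e13 : Sv = (((v0 + v1) + v2) + v3))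
    (e14 : SRn = (((((3 / 8 : ℝ) * v0) + w31) + v2) + ((9 / 16 : ℝ) * v3)))
    (e15 : SRp = (((v0 + ((1 / 4 : ℝ) * v1)) + ((3 / 8 : ℝ) * v2)) + v3))
    (e16 : S0 = (((((851 / 512 : ℝ) * v0) + ((513 / 256 : ℝ) * v1)) + ((435 / 256 : ℝ) * v2)) + ((1169 / 512 : ℝ) * v3)))
    (e17 : S1 = (((((19 / 64 : ℝ) * v0) + ((21 / 32 : ℝ) * v1)) + ((13 / 32 : ℝ) * v2)) + ((81 / 128 : ℝ) * v3)))
    (e18 : S2 = (((((-25 / 64 : ℝ) * v0) + ((-5 / 32 : ℝ) * v1)) + ((-11 / 32 : ℝ) * v2)) + ((-33 / 64 : ℝ) * v3)))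
    (e19 : tau = (ta + (tb * d)))
    (e20 : t = (d * tau))
    (e21 : 0 ≤ (t + (-5 / 32 : ℝ)))
    (e22 : 0 ≤ ((5 / 16 : ℝ) - t))
    (H : 0 ≤ ((1 : ℝ) - Sv) ∧
      rw = (r * w) ∧
      rr = (r ^ 2) ∧
      0 ≤ ((1 : ℝ) - (rw + (rr * SL))) ∧
      0 < ((t ^ 2) + (1 : ℝ)) ∧
      sh = (((2 : ℝ) * tau) * (((t ^ 2) + (1 : ℝ))⁻¹)) ∧
      a1 = ((rr * S1) + ((3 / 8 : ℝ) * rw)) ∧
      sa = (sh * a1) ∧
      f1a = ((3 / 8 : ℝ) * sa) ∧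
      0 ≤ ((d * f1a) + (1 : ℝ)) ∧
      sb = (sh * S2) ∧
      g2a = ((3 / 8 : ℝ) * sb) ∧
      eh = (tau * sh) ∧
      ep = (eh * SRp) ∧
      dp = (d * ep) ∧
      f2a = (g2a - dp) ∧
      0 ≤ ((d * f2a) + (1 : ℝ)) ∧
      an = ((rr * SRn) + rw) ∧
      en = (eh * an) ∧
      dn = (d * en) ∧
      f3a = (f1a + dn) ∧
      0 ≤ ((1 : ℝ) - (d * f3a)) ∧
      0 ≤ ((1 : ℝ) - (d * g2a)) ∧
      c0 = ((r * S0) + ((9 / 16 : ℝ) * w)) ∧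
      mm = (m ^ 2) ∧
      dd = (d ^ 2) ∧
      m4 = (mm ^ 2) ∧
      md = (mm * dd) ∧
      d4 = (dd ^ 2) ∧
      E2 = ((((((9 / 5 : ℝ) * mm) + (3 / 2 : ℝ)) + ((3 / 10 : ℝ) * dd)) + ((3 : ℝ) * (m4 + md))) + ((1 / 5 : ℝ) * d4)) ∧
      base = ((sh * c0) - E2) ∧
      La = (f1a + g2a) ∧
      E1 = (m * ((((3 / 5 : ℝ) * (((mm + dd) + m4) + d4)) + (3 / 2 : ℝ)) + ((2 : ℝ) * md))) ∧
      Y0u = ((m + d) ^ 2) ∧
      Y0 = ((1 : ℝ) - (Y0u * ((Y0u * (((1 / 10 : ℝ) * Y0u) + (3 / 20 : ℝ))) + (3 / 4 : ℝ)))) ∧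
      G0a = ((f1a * f2a) - ep) ∧
      X0a = (La + (d * G0a)) ∧
      0 < ((√((d * X0a) + (1 : ℝ))) + (1 : ℝ)) ∧
      i0a = (((√((d * X0a) + (1 : ℝ))) + (1 : ℝ))⁻¹) ∧
      j0a = (X0a * i0a) ∧
      Y1u = ((m - d) ^ 2) ∧
      Y1 = ((1 : ℝ) - (Y1u * ((Y1u * (((1 / 10 : ℝ) * Y1u) + (3 / 20 : ℝ))) + (3 / 4 : ℝ)))) ∧
      G1a = ((f3a * g2a) - en) ∧
      X1a = ((d * G1a) - La) ∧
      0 < ((√((d * X1a) + (1 : ℝ))) + (1 : ℝ)) ∧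
      i1a = (((√((d * X1a) + (1 : ℝ))) + (1 : ℝ))⁻¹) ∧
      j1a = (X1a * i1a) ∧
      0 ≤ ((base - (La * E1)) + ((1 / 2 : ℝ) * ((Y0 * (G0a - (j0a ^ 2))) + (Y1 * (G1a - (j1a ^ 2)))))) ∧
      f1b = ((1229 / 2048 : ℝ) * sa) ∧
      0 ≤ ((d * f1b) + (1 : ℝ)) ∧
      g2b = ((1229 / 2048 : ℝ) * sb) ∧
      f2b = (g2b - dp) ∧
      0 ≤ ((d * f2b) + (1 : ℝ)) ∧
      f3b = (f1b + dn) ∧
      0 ≤ ((1 : ℝ) - (d * f3b)) ∧
      0 ≤ ((1 : ℝ) - (d * g2b)) ∧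
      Lb = (f1b + g2b) ∧
      G0b = ((f1b * f2b) - ep) ∧
      X0b = (Lb + (d * G0b)) ∧
      0 < ((√((d * X0b) + (1 : ℝ))) + (1 : ℝ)) ∧
      i0b = (((√((d * X0b) + (1 : ℝ))) + (1 : ℝ))⁻¹) ∧
      j0b = (X0b * i0b) ∧
      G1b = ((f3b * g2b) - en) ∧
      X1b = ((d * G1b) - Lb) ∧
      0 < ((√((d * X1b) + (1 : ℝ))) + (1 : ℝ)) ∧
      i1b = (((√((d * X1b) + (1 : ℝ))) + (1 : ℝ))⁻¹) ∧
      j1b = (X1b * i1b) ∧
      0 ≤ ((base - (Lb * E1)) + ((1 / 2 : ℝ) * ((Y0 * (G0b - (j0b ^ 2))) + (Y1 * (G1b - (j1b ^ 2))))))) : LConcl ρ β μ m δ := by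
  have hd : δ = d := hδ.trans e0.symm
  rw [hd] at hδ0 ⊢
  have ht0 : (5 / 32 : ℝ) ≤ t := by linarith only [e21]
  have ht1 : t ≤ (5 / 16 : ℝ) := by linarith only [e22]
  exact sc_core h0 hβ0 hβ h hμ hr (by norm_num) hb0 hb1 (by linarith only [ht0]) e20 e10
    ((((((LValid.zero ρ β t).add_smul (memb1_0 h0 hβ0 h hb0 hb1 ht0 ht1) e2).add_smul (memb1_1 h0 hβ0 h hb0 hb1 ht0 ht1) e4).add_smul (memb1_2 h0 hβ0 h hb0 hb1 ht0 ht1) e6).add_smul (memb1_3 h0 hβ0 h hb0 hb1 ht0 ht1) e8).congr'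
      (by linarith only [e11, e12, e13, e14, e15, e16, e17, e18]) (by linarith only [e11, e12, e13, e14, e15, e16, e17, e18]) (by linarith only [e11, e12, e13, e14, e15, e16, e17, e18]) (by linarith only [e11, e12, e13, e14, e15, e16, e17, e18]) (by linarith only [e11, e12, e13, e14, e15, e16, e17, e18]) (by linarith only [e11, e12, e13, e14, e15, e16, e17, e18]) (by linarith only [e11, e12, e13, e14, e15, e16, e17, e18])) H

theorem LSb_z1 {ρ β μ m y r ca cb δ : ℝ} (h0 : 0 ≤ ρ) (hβ0 : 0 ≤ β) (hβ : β ≤ 3 / 5) (h : ρ ^ 2 + β ^ 2 = 1)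
    (hμ : 1 ≤ μ) (hr : r = μ⁻¹) (hb0 : (3 / 8 : ℝ) ≤ β) (hb1 : β ≤ (1229 / 2048 : ℝ)) (hδ0 : 0 ≤ δ) (hδ : δ = y * (ca + cb * m))
    (H : LSb.z1_Spec ca cb m y r) : LConcl ρ β μ m δ :=
  Exists.elim H fun ta H => Exists.elim H fun tb H => Exists.elim H fun pw H => Exists.elim H fun qw H => Exists.elim H fun pa0 H => Exists.elim H fun pb0 H => Exists.elim H fun pa1 H => Exists.elim H fun pb1 H => Exists.elim H fun pa2 H => Exists.elim H fun pb2 H => Exists.elim H fun pa3 H => Exists.elim H fun pb3 H => Exists.elim H fun d H => Exists.elim H fun v0 H => Exists.elim H fun v1 H => Exists.elim H fun v2 H => Exists.elim H fun v3 H => Exists.elim H fun w H => Exists.elim H fun w31 H => Exists.elim H fun SL H => Exists.elim H fun Sv H => Exists.elim H fun SRn H => Exists.elim H fun SRp H => Exists.elim H fun S0 H => Exists.elim H fun S1 H => Exists.elim H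 fun S2 H => Exists.elim H fun tau H => Exists.elim H fun t H => Exists.elim H fun rw H => Exists.elim H fun rr H => Exists.elim H fun sh H => Exists.elim H fun a1 H => Exists.elim H fun sa H => Exists.elim H fun f1a H => Exists.elim H fun sb H => Exists.elim H fun g2a H => Exists.elim H fun eh H => Exists.elim H fun ep H => Exists.elim H fun dp H => Exists.elim H fun f2a H => Exists.elim H fun an H => Exists.elim H fun en H => Exists.elim H fun dn H => Exists.elim H fun f3a H => Exists.elim H fun c0 H => Exists.elim H fun mm H => Exists.elim H fun dd H => Exists.elim H fun m4 H => Exists.elim H fun md H => Exists.elim H fun d4 H => Exists.elim H fun E2 H => Exists.elim H fun base H => Exists.elim H fun La H => Exists.elim H fun E1 H => Exists.elim H fun Y0u H => Exists.elim H fun Y0 H => Exists.elim H fun G0a H => Exists.elim H fun X0a H => Exists.elim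 H fun i0a H => Exists.elim H fun j0a H => Exists.elim H fun Y1u H => Exists.elim H fun Y1 H => Exists.elim H fun G1a H => Exists.elim H fun X1a H => Exists.elim H fun i1a H => Exists.elim H fun j1a H => Exists.elim H fun f1b H => Exists.elim H fun g2b H => Exists.elim H fun f2b H => Exists.elim H fun f3b H => Exists.elim H fun Lb H => Exists.elim H fun G0b H => Exists.elim H fun X0b H => Exists.elim H fun i0b H => Exists.elim H fun j0b H => Exists.elim H fun G1b H => Exists.elim H fun X1b H => Exists.elim H fun i1b H => Exists.elim H fun j1b H =>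
  And.elim (fun e0 H => And.elim (fun e1 H => And.elim (fun e2 H => And.elim (fun e3 H => And.elim (fun e4 H => And.elim (fun e5 H => And.elim (fun e6 H => And.elim (fun e7 H => And.elim (fun e8 H => And.elim (fun e9 H => And.elim (fun e10 H => And.elim (fun e11 H => And.elim (fun e12 H => And.elim (fun e13 H => And.elim (fun e14 H => And.elim (fun e15 H => And.elim (fun e16 H => And.elim (fun e17 H => And.elim (fun e18 H => And.elim (fun e19 H => And.elim (fun e20 H => And.elim (fun e21 H => And.elim (fun e22 H =>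
  @LSb_y1 ρ β μ m y r ca cb δ ta tb pw qw pa0 pb0 pa1 pb1 pa2 pb2 pa3 pb3 d v0 v1 v2 v3 w w31 SL Sv SRn SRp S0 S1 S2 tau t rw rr sh a1 sa f1a sb g2a eh ep dp f2a an en dn f3a c0 mm dd m4 md d4 E2 base La E1 Y0u Y0 G0a X0a i0a j0a Y1u Y1 G1a X1a i1a j1a f1b g2b f2b f3b Lb G0b X0b i0b j0b G1b X1b i1b j1b h0 hβ0 hβ h hμ hr hb0 hb1 hδ0 hδ e0 e1 e2 e3 e4 e5 e6 e7 e8 e9 e10 e11 e12 e13 e14 e15 e16 e17 e18 e19 e20 e21 e22 H) H) H) H) H) H) H) H) H) H) H) H) H) H) H) H) H) H) H) H) H) H) H) H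

theorem LSb_y2 {ρ β μ m y r ca cb δ ta tb pw qw pa0 pb0 pa1 pb1 d v0 v1 w SL Sv SRn SRp S0 S1 S2 tau t rw rr sh a1 sa f1a sb g2a eh ep dp f2a an en dn f3a c0 mm dd m4 md d4 E2 base La E1 Y0u Y0 G0a X0a i0a j0a Y1u Y1 G1a X1a i1a j1a f1b g2b f2b f3b Lb G0b X0b i0b j0b G1b X1b i1b j1b : ℝ} (h0 : 0 ≤ ρ) (hβ0 : 0 ≤ β) (hβ : β ≤ 3 / 5) (h : ρ ^ 2 + β ^ 2 = 1)
    (hμ : 1 ≤ μ) (hr : r = μ⁻¹) (hb0 : (3 / 8 : ℝ) ≤ β) (hb1 : β ≤ (1229 / 2048 : ℝ)) (hδ0 : 0 ≤ δ) (hδ : δ = y * (ca + cb * m))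
    (e0 : d = (y * (ca + (cb * m))))
    (e1 : v0 = (pa0 + (pb0 * r)))
    (e2 : 0 ≤ v0)
    (e3 : v1 = (pa1 + (pb1 * r)))
    (e4 : 0 ≤ v1)
    (e5 : w = (pw + (qw * r)))
    (e6 : 0 ≤ w)
    (e7 : SL = (v0 + ((3 : ℝ) * v1)))
    (e8 : Sv = (v0 + v1))
    (e9 : SRn = (((1 / 2 : ℝ) * v0) + ((15 / 8 : ℝ) * v1)))
    (e10 : SRp = Sv)
    (e11 : S0 = (((949 / 512 : ℝ) * v0) + ((1779 / 512 : ℝ) * v1)))
    (e12 : S1 = (((3 / 8 : ℝ) * v0) + ((57 / 64 : ℝ) * v1)))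
    (e13 : S2 = (((-15 / 32 : ℝ) * v0) + ((-25 / 64 : ℝ) * v1)))
    (e14 : tau = (ta + (tb * d)))
    (e15 : t = (d * tau))
    (e16 : 0 ≤ (t + (-5 / 16 : ℝ)))
    (e17 : 0 ≤ ((7 / 16 : ℝ) - t))
    (H : 0 ≤ ((1 : ℝ) - Sv) ∧
      rw = (r * w) ∧
      rr = (r ^ 2) ∧
      0 ≤ ((1 : ℝ) - (rw + (rr * SL))) ∧
      0 < ((t ^ 2) + (1 : ℝ)) ∧
      sh = (((2 : ℝ) * tau) * (((t ^ 2) + (1 : ℝ))⁻¹)) ∧
      a1 = ((rr * S1) + ((3 / 8 : ℝ) * rw)) ∧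
      sa = (sh * a1) ∧
      f1a = ((3 / 8 : ℝ) * sa) ∧
      0 ≤ ((d * f1a) + (1 : ℝ)) ∧
      sb = (sh * S2) ∧
      g2a = ((3 / 8 : ℝ) * sb) ∧
      eh = (tau * sh) ∧
      ep = (eh * SRp) ∧
      dp = (d * ep) ∧
      f2a = (g2a - dp) ∧
      0 ≤ ((d * f2a) + (1 : ℝ)) ∧
      an = ((rr * SRn) + rw) ∧
      en = (eh * an) ∧
      dn = (d * en) ∧
      f3a = (f1a + dn) ∧
      0 ≤ ((1 : ℝ) - (d * f3a)) ∧
      0 ≤ ((1 : ℝ) - (d * g2a)) ∧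
      c0 = ((r * S0) + ((9 / 16 : ℝ) * w)) ∧
      mm = (m ^ 2) ∧
      dd = (d ^ 2) ∧
      m4 = (mm ^ 2) ∧
      md = (mm * dd) ∧
      d4 = (dd ^ 2) ∧
      E2 = ((((((9 / 5 : ℝ) * mm) + (3 / 2 : ℝ)) + ((3 / 10 : ℝ) * dd)) + ((3 : ℝ) * (m4 + md))) + ((1 / 5 : ℝ) * d4)) ∧
      base = ((sh * c0) - E2) ∧
      La = (f1a + g2a) ∧
      E1 = (m * ((((3 / 5 : ℝ) * (((mm + dd) + m4) + d4)) + (3 / 2 : ℝ)) + ((2 : ℝ) * md))) ∧
      Y0u = ((m + d) ^ 2) ∧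
      Y0 = ((1 : ℝ) - (Y0u * ((Y0u * (((1 / 10 : ℝ) * Y0u) + (3 / 20 : ℝ))) + (3 / 4 : ℝ)))) ∧
      G0a = ((f1a * f2a) - ep) ∧
      X0a = (La + (d * G0a)) ∧
      0 < ((√((d * X0a) + (1 : ℝ))) + (1 : ℝ)) ∧
      i0a = (((√((d * X0a) + (1 : ℝ))) + (1 : ℝ))⁻¹) ∧
      j0a = (X0a * i0a) ∧
      Y1u = ((m - d) ^ 2) ∧
      Y1 = ((1 : ℝ) - (Y1u * ((Y1u * (((1 / 10 : ℝ) * Y1u) + (3 / 20 : ℝ))) + (3 / 4 : ℝ)))) ∧
      G1a = ((f3a * g2a) - en) ∧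
      X1a = ((d * G1a) - La) ∧
      0 < ((√((d * X1a) + (1 : ℝ))) + (1 : ℝ)) ∧
      i1a = (((√((d * X1a) + (1 : ℝ))) + (1 : ℝ))⁻¹) ∧
      j1a = (X1a * i1a) ∧
      0 ≤ ((base - (La * E1)) + ((1 / 2 : ℝ) * ((Y0 * (G0a - (j0a ^ 2))) + (Y1 * (G1a - (j1a ^ 2)))))) ∧
      f1b = ((1229 / 2048 : ℝ) * sa) ∧
      0 ≤ ((d * f1b) + (1 : ℝ)) ∧
      g2b = ((1229 / 2048 : ℝ) * sb) ∧
      f2b = (g2b - dp) ∧
      0 ≤ ((d * f2b) + (1 : ℝ)) ∧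
      f3b = (f1b + dn) ∧
      0 ≤ ((1 : ℝ) - (d * f3b)) ∧
      0 ≤ ((1 : ℝ) - (d * g2b)) ∧
      Lb = (f1b + g2b) ∧
      G0b = ((f1b * f2b) - ep) ∧
      X0b = (Lb + (d * G0b)) ∧
      0 < ((√((d * X0b) + (1 : ℝ))) + (1 : ℝ)) ∧
      i0b = (((√((d * X0b) + (1 : ℝ))) + (1 : ℝ))⁻¹) ∧
      j0b = (X0b * i0b) ∧
      G1b = ((f3b * g2b) - en) ∧
      X1b = ((d * G1b) - Lb) ∧
      0 < ((√((d * X1b) + (1 : ℝ))) + (1 : ℝ)) ∧
      i1b = (((√((d * X1b) + (1 : ℝ))) + (1 : ℝ))⁻¹) ∧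
      j1b = (X1b * i1b) ∧
      0 ≤ ((base - (Lb * E1)) + ((1 / 2 : ℝ) * ((Y0 * (G0b - (j0b ^ 2))) + (Y1 * (G1b - (j1b ^ 2))))))) : LConcl ρ β μ m δ := by
  have hd : δ = d := hδ.trans e0.symm
  rw [hd] at hδ0 ⊢
  have ht0 : (5 / 16 : ℝ) ≤ t := by linarith only [e16]
  have ht1 : t ≤ (7 / 16 : ℝ) := by linarith only [e17]
  exact sc_core h0 hβ0 hβ h hμ hr (by norm_num) hb0 hb1 (by linarith only [ht0]) e15 e6
    ((((LValid.zero ρ β t).add_smul (memb2_0 h0 hβ0 h hb0 hb1 ht0 ht1) e2).add_smul (memb2_1 h0 hβ0 h hb0 hb1 ht0 ht1) e4).congr'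
      (by linarith only [e7, e8, e9, e10, e11, e12, e13]) (by linarith only [e7, e8, e9, e10, e11, e12, e13]) (by linarith only [e7, e8, e9, e10, e11, e12, e13]) (by linarith only [e7, e8, e9, e10, e11, e12, e13]) (by linarith only [e7, e8, e9, e10, e11, e12, e13]) (by linarith only [e7, e8, e9, e10, e11, e12, e13]) (by linarith only [e7, e8, e9, e10, e11, e12, e13])) H

theorem LSb_z2 {ρ β μ m y r ca cb δ : ℝ} (h0 : 0 ≤ ρ) (hβ0 : 0 ≤ β) (hβ : β ≤ 3 / 5) (h : ρ ^ 2 + β ^ 2 = 1)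
    (hμ : 1 ≤ μ) (hr : r = μ⁻¹) (hb0 : (3 / 8 : ℝ) ≤ β) (hb1 : β ≤ (1229 / 2048 : ℝ)) (hδ0 : 0 ≤ δ) (hδ : δ = y * (ca + cb * m))
    (H : LSb.z2_Spec ca cb m y r) : LConcl ρ β μ m δ :=
  Exists.elim H fun ta H => Exists.elim H fun tb H => Exists.elim H fun pw H => Exists.elim H fun qw H => Exists.elim H fun pa0 H => Exists.elim H fun pb0 H => Exists.elim H fun pa1 H => Exists.elim H fun pb1 H => Exists.elim H fun d H => Exists.elim H fun v0 H => Exists.elim H fun v1 H => Exists.elim H fun w H => Exists.elim H fun SL H => Exists.elim H fun Sv H => Exists.elim H fun SRn H => Exists.elim H fun SRp H => Exists.elim H fun S0 H => Exists.elim H fun S1 H => Exists.elim H fun S2 H => Exists.elim H fun tau H => Exists.elim H fun t H => Exists.elim H fun rw H => Exists.elim H fun rr H => Exists.elim H fun sh H => Exists.elim H fun a1 H => Exists.elim H fun sa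 H => Exists.elim H fun f1a H => Exists.elim H fun sb H => Exists.elim H fun g2a H => Exists.elim H fun eh H => Exists.elim H fun ep H => Exists.elim H fun dp H => Exists.elim H fun f2a H => Exists.elim H fun an H => Exists.elim H fun en H => Exists.elim H fun dn H => Exists.elim H fun f3a H => Exists.elim H fun c0 H => Exists.elim H fun mm H => Exists.elim H fun dd H => Exists.elim H fun m4 H => Exists.elim H fun md H => Exists.elim H fun d4 H => Exists.elim H fun E2 H => Exists.elim H fun base H => Exists.elim H fun La H => Exists.elim H fun E1 H => Exists.elim H fun Y0u H => Exists.elim H fun Y0 H => Exists.elim H fun G0a H => Exists.elim H fun X0a H => Exists.elim H fun i0a H => Exists.elim H fun j0a H => Exists.elim H fun Y1u H => Exists.elim H fun Y1 H => Exists.elim H fun G1a H => Exists.elim H fun X1a H => Exists.elim H fun i1a H => Exists.elim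 H fun j1a H => Exists.elim H fun f1b H => Exists.elim H fun g2b H => Exists.elim H fun f2b H => Exists.elim H fun f3b H => Exists.elim H fun Lb H => Exists.elim H fun G0b H => Exists.elim H fun X0b H => Exists.elim H fun i0b H => Exists.elim H fun j0b H => Exists.elim H fun G1b H => Exists.elim H fun X1b H => Exists.elim H fun i1b H => Exists.elim H fun j1b H =>
  And.elim (fun e0 H => And.elim (fun e1 H => And.elim (fun e2 H => And.elim (fun e3 H => And.elim (fun e4 H => And.elim (fun e5 H => And.elim (fun e6 H => And.elim (fun e7 H => And.elim (fun e8 H => And.elim (fun e9 H => And.elim (fun e10 H => And.elim (fun e11 H => And.elim (fun e12 H => And.elim (fun e13 H => And.elim (fun e14 H => And.elim (fun e15 H => And.elim (fun e16 H => And.elim (fun e17 H =>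
  @LSb_y2 ρ β μ m y r ca cb δ ta tb pw qw pa0 pb0 pa1 pb1 d v0 v1 w SL Sv SRn SRp S0 S1 S2 tau t rw rr sh a1 sa f1a sb g2a eh ep dp f2a an en dn f3a c0 mm dd m4 md d4 E2 base La E1 Y0u Y0 G0a X0a i0a j0a Y1u Y1 G1a X1a i1a j1a f1b g2b f2b f3b Lb G0b X0b i0b j0b G1b X1b i1b j1b h0 hβ0 hβ h hμ hr hb0 hb1 hδ0 hδ e0 e1 e2 e3 e4 e5 e6 e7 e8 e9 e10 e11 e12 e13 e14 e15 e16 e17 H) H) H) H) H) H) H) H) H) H) H) H) H) H) H) H) H) H) H

theorem LSb_y3 {ρ β μ m y r ca cb δ ta tb pw qw pa0 pb0 pa1 pb1 pa2 pb2 pa3 pb3 pa4 pb4 d v0 v1 v2 v3 v4 w w37 SL Sv SRn SRp S0 S1 S2 tau t rw rr sh a1 sa f1a sb g2a eh ep dp f2a an en dn f3a c0 mm dd m4 md d4 E2 base La E1 Y0u Y0 G0a X0a i0a j0a Y1u Y1 G1a X1a i1a j1a f1b g2b f2b f3b Lb G0b X0b i0b j0b G1b X1b i1b j1b : ℝ} (h0 : 0 ≤ ρ) (hβ0 : 0 ≤ β) (hβ : β ≤ 3 / 5) (h : ρ ^ 2 + β ^ 2 = 1)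
    (hμ : 1 ≤ μ) (hr : r = μ⁻¹) (hb0 : (3 / 8 : ℝ) ≤ β) (hb1 : β ≤ (1229 / 2048 : ℝ)) (hδ0 : 0 ≤ δ) (hδ : δ = y * (ca + cb * m))
    (e0 : d = (y * (ca + (cb * m))))
    (e1 : v0 = (pa0 + (pb0 * r)))
    (e2 : 0 ≤ v0)
    (e3 : v1 = (pa1 + (pb1 * r)))
    (e4 : 0 ≤ v1)
    (e5 : v2 = (pa2 + (pb2 * r)))
    (e6 : 0 ≤ v2)
    (e7 : v3 = (pa3 + (pb3 * r)))
    (e8 : 0 ≤ v3)
    (e9 : v4 = (pa4 + (pb4 * r)))
    (e10 : 0 ≤ v4)
    (e11 : w = (pw + (qw * r)))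
    (e12 : 0 ≤ w)
    (e13 : w37 = (((3 : ℝ) * v0) + v1))
    (e14 : SL = (((w37 + ((9 / 4 : ℝ) * v2)) + v3) + v4))
    (e15 : Sv = ((((v0 + v1) + v2) + v3) + v4))
    (e16 : SRn = (((w37 + ((9 / 8 : ℝ) * v2)) + ((13 / 16 : ℝ) * v3)) + v4))
    (e17 : SRp = ((((((1 / 8 : ℝ) * v0) + ((3 / 8 : ℝ) * v1)) + v2) + v3) + ((1 / 2 : ℝ) * v4)))
    (e18 : S0 = ((((((1743 / 512 : ℝ) * v0) + ((433 / 256 : ℝ) * v1)) + ((357 / 128 : ℝ) * v2)) + ((251 / 128 : ℝ) * v3)) + ((461 / 256 : ℝ) * v4)))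
    (e19 : S1 = ((((((9 / 8 : ℝ) * v0) + ((23 / 64 : ℝ) * v1)) + ((171 / 256 : ℝ) * v2)) + ((1 / 4 : ℝ) * v3)) + ((19 / 64 : ℝ) * v4)))
    (e20 : S2 = ((((((-5 / 32 : ℝ) * v0) + ((-15 / 64 : ℝ) * v1)) + ((-29 / 64 : ℝ) * v2)) + ((-15 / 32 : ℝ) * v3)) + ((-5 / 16 : ℝ) * v4)))
    (e21 : tau = (ta + (tb * d)))
    (e22 : t = (d * tau))
    (e23 : 0 ≤ (t + (-7 / 16 : ℝ)))
    (e24 : 0 ≤ ((9 / 16 : ℝ) - t))
    (H : 0 ≤ ((1 : ℝ) - Sv) ∧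
      rw = (r * w) ∧
      rr = (r ^ 2) ∧
      0 ≤ ((1 : ℝ) - (rw + (rr * SL))) ∧
      0 < ((t ^ 2) + (1 : ℝ)) ∧
      sh = (((2 : ℝ) * tau) * (((t ^ 2) + (1 : ℝ))⁻¹)) ∧
      a1 = ((rr * S1) + ((3 / 8 : ℝ) * rw)) ∧
      sa = (sh * a1) ∧
      f1a = ((3 / 8 : ℝ) * sa) ∧
      0 ≤ ((d * f1a) + (1 : ℝ)) ∧
      sb = (sh * S2) ∧
      g2a = ((3 / 8 : ℝ) * sb) ∧
      eh = (tau * sh) ∧
      ep = (eh * SRp) ∧
      dp = (d * ep) ∧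
      f2a = (g2a - dp) ∧
      0 ≤ ((d * f2a) + (1 : ℝ)) ∧
      an = ((rr * SRn) + rw) ∧
      en = (eh * an) ∧
      dn = (d * en) ∧
      f3a = (f1a + dn) ∧
      0 ≤ ((1 : ℝ) - (d * f3a)) ∧
      0 ≤ ((1 : ℝ) - (d * g2a)) ∧
      c0 = ((r * S0) + ((9 / 16 : ℝ) * w)) ∧
      mm = (m ^ 2) ∧
      dd = (d ^ 2) ∧
      m4 = (mm ^ 2) ∧
      md = (mm * dd) ∧
      d4 = (dd ^ 2) ∧
      E2 = ((((((9 / 5 : ℝ) * mm) + (3 / 2 : ℝ)) + ((3 / 10 : ℝ) * dd)) + ((3 : ℝ) * (m4 + md))) + ((1 / 5 : ℝ) * d4)) ∧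
      base = ((sh * c0) - E2) ∧
      La = (f1a + g2a) ∧
      E1 = (m * ((((3 / 5 : ℝ) * (((mm + dd) + m4) + d4)) + (3 / 2 : ℝ)) + ((2 : ℝ) * md))) ∧
      Y0u = ((m + d) ^ 2) ∧
      Y0 = ((1 : ℝ) - (Y0u * ((Y0u * (((1 / 10 : ℝ) * Y0u) + (3 / 20 : ℝ))) + (3 / 4 : ℝ)))) ∧
      G0a = ((f1a * f2a) - ep) ∧
      X0a = (La + (d * G0a)) ∧
      0 < ((√((d * X0a) + (1 : ℝ))) + (1 : ℝ)) ∧
      i0a = (((√((d * X0a) + (1 : ℝ))) + (1 : ℝ))⁻¹) ∧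
      j0a = (X0a * i0a) ∧
      Y1u = ((m - d) ^ 2) ∧
      Y1 = ((1 : ℝ) - (Y1u * ((Y1u * (((1 / 10 : ℝ) * Y1u) + (3 / 20 : ℝ))) + (3 / 4 : ℝ)))) ∧
      G1a = ((f3a * g2a) - en) ∧
      X1a = ((d * G1a) - La) ∧
      0 < ((√((d * X1a) + (1 : ℝ))) + (1 : ℝ)) ∧
      i1a = (((√((d * X1a) + (1 : ℝ))) + (1 : ℝ))⁻¹) ∧
      j1a = (X1a * i1a) ∧
      0 ≤ ((base - (La * E1)) + ((1 / 2 : ℝ) * ((Y0 * (G0a - (j0a ^ 2))) + (Y1 * (G1a - (j1a ^ 2)))))) ∧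
      f1b = ((1229 / 2048 : ℝ) * sa) ∧
      0 ≤ ((d * f1b) + (1 : ℝ)) ∧
      g2b = ((1229 / 2048 : ℝ) * sb) ∧
      f2b = (g2b - dp) ∧
      0 ≤ ((d * f2b) + (1 : ℝ)) ∧
      f3b = (f1b + dn) ∧
      0 ≤ ((1 : ℝ) - (d * f3b)) ∧
      0 ≤ ((1 : ℝ) - (d * g2b)) ∧
      Lb = (f1b + g2b) ∧
      G0b = ((f1b * f2b) - ep) ∧
      X0b = (Lb + (d * G0b)) ∧
      0 < ((√((d * X0b) + (1 : ℝ))) + (1 : ℝ)) ∧
      i0b = (((√((d * X0b) + (1 : ℝ))) + (1 : ℝ))⁻¹) ∧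
      j0b = (X0b * i0b) ∧
      G1b = ((f3b * g2b) - en) ∧
      X1b = ((d * G1b) - Lb) ∧
      0 < ((√((d * X1b) + (1 : ℝ))) + (1 : ℝ)) ∧
      i1b = (((√((d * X1b) + (1 : ℝ))) + (1 : ℝ))⁻¹) ∧
      j1b = (X1b * i1b) ∧
      0 ≤ ((base - (Lb * E1)) + ((1 / 2 : ℝ) * ((Y0 * (G0b - (j0b ^ 2))) + (Y1 * (G1b - (j1b ^ 2))))))) : LConcl ρ β μ m δ := by
  have hd : δ = d := hδ.trans e0.symm
  rw [hd] at hδ0 ⊢
  have ht0 : (7 / 16 : ℝ) ≤ t := by linarith only [e23]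
  have ht1 : t ≤ (9 / 16 : ℝ) := by linarith only [e24]
  exact sc_core h0 hβ0 hβ h hμ hr (by norm_num) hb0 hb1 (by linarith only [ht0]) e22 e12
    (((((((LValid.zero ρ β t).add_smul (memb3_0 h0 hβ0 h hb0 hb1 ht0 ht1) e2).add_smul (memb3_1 h0 hβ0 h hb0 hb1 ht0 ht1) e4).add_smul (memb3_2 h0 hβ0 h hb0 hb1 ht0 ht1) e6).add_smul (memb3_3 h0 hβ0 h hb0 hb1 ht0 ht1) e8).add_smul (memb3_4 h0 hβ0 h hb0 hb1 ht0 ht1) e10).congr'
      (by linarith only [e13, e14, e15, e16, e17, e18, e19, e20]) (by linarith only [e13, e14, e15, e16, e17, e18, e19, e20]) (by linarith only [e13, e14, e15, e16, e17, e18, e19, e20]) (by linarith only [e13, e14, e15, e16, e17, e18, e19, e20]) (by linarith only [e13, e14, e15, e16, e17, e18, e19, e20]) (by linarith only [e13, e14, e15, e16, e17, e18, e19, e20]) (by linarith only [e13, e14, e15, e16, e17, e18, e19, e20])) H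

theorem LSb_z3 {ρ β μ m y r ca cb δ : ℝ} (h0 : 0 ≤ ρ) (hβ0 : 0 ≤ β) (hβ : β ≤ 3 / 5) (h : ρ ^ 2 + β ^ 2 = 1)
    (hμ : 1 ≤ μ) (hr : r = μ⁻¹) (hb0 : (3 / 8 : ℝ) ≤ β) (hb1 : β ≤ (1229 / 2048 : ℝ)) (hδ0 : 0 ≤ δ) (hδ : δ = y * (ca + cb * m))
    (H : LSb.z3_Spec ca cb m y r) : LConcl ρ β μ m δ :=
  Exists.elim H fun ta H => Exists.elim H fun tb H => Exists.elim H fun pw H => Exists.elim H fun qw H => Exists.elim H fun pa0 H => Exists.elim H fun pb0 H => Exists.elim H fun pa1 H => Exists.elim H fun pb1 H => Exists.elim H fun pa2 H => Exists.elim H fun pb2 H => Exists.elim H fun pa3 H => Exists.elim H fun pb3 H => Exists.elim H fun pa4 H => Exists.elim H fun pb4 H => Exists.elim H fun d H => Exists.elim H fun v0 H => Exists.elim H fun v1 H => Exists.elim H fun v2 H => Exists.elim H fun v3 H => Exists.elim H fun v4 H => Exists.elim H fun w H => Exists.elim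 H fun w37 H => Exists.elim H fun SL H => Exists.elim H fun Sv H => Exists.elim H fun SRn H => Exists.elim H fun SRp H => Exists.elim H fun S0 H => Exists.elim H fun S1 H => Exists.elim H fun S2 H => Exists.elim H fun tau H => Exists.elim H fun t H => Exists.elim H fun rw H => Exists.elim H fun rr H => Exists.elim H fun sh H => Exists.elim H fun a1 H => Exists.elim H fun sa H => Exists.elim H fun f1a H => Exists.elim H fun sb H => Exists.elim H fun g2a H => Exists.elim H fun eh H => Exists.elim H fun ep H => Exists.elim H fun dp H => Exists.elim H fun f2a H => Exists.elim H fun an H => Exists.elim H fun en H => Exists.elim H fun dn H => Exists.elim H fun f3a H => Exists.elim H fun c0 H => Exists.elim H fun mm H => Exists.elim H fun dd H => Exists.elim H fun m4 H => Exists.elim H fun md H => Exists.elim H fun d4 H => Exists.elim H fun E2 H => Exists.elim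 H fun base H => Exists.elim H fun La H => Exists.elim H fun E1 H => Exists.elim H fun Y0u H => Exists.elim H fun Y0 H => Exists.elim H fun G0a H => Exists.elim H fun X0a H => Exists.elim H fun i0a H => Exists.elim H fun j0a H => Exists.elim H fun Y1u H => Exists.elim H fun Y1 H => Exists.elim H fun G1a H => Exists.elim H fun X1a H => Exists.elim H fun i1a H => Exists.elim H fun j1a H => Exists.elim H fun f1b H => Exists.elim H fun g2b H => Exists.elim H fun f2b H => Exists.elim H fun f3b H => Exists.elim H fun Lb H => Exists.elim H fun G0b H => Exists.elim H fun X0b H => Exists.elim H fun i0b H => Exists.elim H fun j0b H => Exists.elim H fun G1b H => Exists.elim H fun X1b H => Exists.elim H fun i1b H => Exists.elim H fun j1b H =>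
  And.elim (fun e0 H => And.elim (fun e1 H => And.elim (fun e2 H => And.elim (fun e3 H => And.elim (fun e4 H => And.elim (fun e5 H => And.elim (fun e6 H => And.elim (fun e7 H => And.elim (fun e8 H => And.elim (fun e9 H => And.elim (fun e10 H => And.elim (fun e11 H => And.elim (fun e12 H => And.elim (fun e13 H => And.elim (fun e14 H => And.elim (fun e15 H => And.elim (fun e16 H => And.elim (fun e17 H => And.elim (fun e18 H => And.elim (fun e19 H => And.elim (fun e20 H => And.elim (fun e21 H => And.elim (fun e22 H => And.elim (fun e23 H => And.elim (fun e24 H =>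
  @LSb_y3 ρ β μ m y r ca cb δ ta tb pw qw pa0 pb0 pa1 pb1 pa2 pb2 pa3 pb3 pa4 pb4 d v0 v1 v2 v3 v4 w w37 SL Sv SRn SRp S0 S1 S2 tau t rw rr sh a1 sa f1a sb g2a eh ep dp f2a an en dn f3a c0 mm dd m4 md d4 E2 base La E1 Y0u Y0 G0a X0a i0a j0a Y1u Y1 G1a X1a i1a j1a f1b g2b f2b f3b Lb G0b X0b i0b j0b G1b X1b i1b j1b h0 hβ0 hβ h hμ hr hb0 hb1 hδ0 hδ e0 e1 e2 e3 e4 e5 e6 e7 e8 e9 e10 e11 e12 e13 e14 e15 e16 e17 e18 e19 e20 e21 e22 e23 e24 H) H) H) H) H) H) H) H) H) H) H) H) H) H) H) H) H) H) H) H) H) H) H) H) H) H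

theorem LSb_y4 {ρ β μ m y r ca cb δ ta tb pw qw pa0 pb0 pa1 pb1 d v0 v1 w SL Sv SRn SRp S0 S1 S2 tau t rw rr sh a1 sa f1a sb g2a eh ep dp f2a an en dn f3a c0 mm dd m4 md d4 E2 base La E1 Y0u Y0 G0a X0a i0a j0a Y1u Y1 G1a X1a i1a j1a f1b g2b f2b f3b Lb G0b X0b i0b j0b G1b X1b i1b j1b : ℝ} (h0 : 0 ≤ ρ) (hβ0 : 0 ≤ β) (hβ : β ≤ 3 / 5) (h : ρ ^ 2 + β ^ 2 = 1)
    (hμ : 1 ≤ μ) (hr : r = μ⁻¹) (hb0 : (3 / 8 : ℝ) ≤ β) (hb1 : β ≤ (1229 / 2048 : ℝ)) (hδ0 : 0 ≤ δ) (hδ : δ = y * (ca + cb * m))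
    (e0 : d = (y * (ca + (cb * m))))
    (e1 : v0 = (pa0 + (pb0 * r)))
    (e2 : 0 ≤ v0)
    (e3 : v1 = (pa1 + (pb1 * r)))
    (e4 : 0 ≤ v1)
    (e5 : w = (pw + (qw * r)))
    (e6 : 0 ≤ w)
    (e7 : SL = (v0 + ((3 : ℝ) * v1)))
    (e8 : Sv = (v0 + v1))
    (e9 : SRn = (((1 / 4 : ℝ) * v0) + ((3 / 2 : ℝ) * v1)))
    (e10 : SRp = Sv)
    (e11 : S0 = (((781 / 512 : ℝ) * v0) + ((203 / 64 : ℝ) * v1)))
    (e12 : S1 = (((3 / 32 : ℝ) * v0) + ((9 / 16 : ℝ) * v1)))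
    (e13 : S2 = (((-7 / 32 : ℝ) * v0) + ((-27 / 64 : ℝ) * v1)))
    (e14 : tau = (ta + (tb * d)))
    (e15 : t = (d * tau))
    (e16 : 0 ≤ (t + (-9 / 16 : ℝ)))
    (e17 : 0 ≤ ((11 / 16 : ℝ) - t))
    (H : 0 ≤ ((1 : ℝ) - Sv) ∧
      rw = (r * w) ∧
      rr = (r ^ 2) ∧
      0 ≤ ((1 : ℝ) - (rw + (rr * SL))) ∧
      0 < ((t ^ 2) + (1 : ℝ)) ∧
      sh = (((2 : ℝ) * tau) * (((t ^ 2) + (1 : ℝ))⁻¹)) ∧
      a1 = ((rr * S1) + ((3 / 8 : ℝ) * rw)) ∧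
      sa = (sh * a1) ∧
      f1a = ((3 / 8 : ℝ) * sa) ∧
      0 ≤ ((d * f1a) + (1 : ℝ)) ∧
      sb = (sh * S2) ∧
      g2a = ((3 / 8 : ℝ) * sb) ∧
      eh = (tau * sh) ∧
      ep = (eh * SRp) ∧
      dp = (d * ep) ∧
      f2a = (g2a - dp) ∧
      0 ≤ ((d * f2a) + (1 : ℝ)) ∧
      an = ((rr * SRn) + rw) ∧
      en = (eh * an) ∧
      dn = (d * en) ∧
      f3a = (f1a + dn) ∧
      0 ≤ ((1 : ℝ) - (d * f3a)) ∧
      0 ≤ ((1 : ℝ) - (d * g2a)) ∧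
      c0 = ((r * S0) + ((9 / 16 : ℝ) * w)) ∧
      mm = (m ^ 2) ∧
      dd = (d ^ 2) ∧
      m4 = (mm ^ 2) ∧
      md = (mm * dd) ∧
      d4 = (dd ^ 2) ∧
      E2 = ((((((9 / 5 : ℝ) * mm) + (3 / 2 : ℝ)) + ((3 / 10 : ℝ) * dd)) + ((3 : ℝ) * (m4 + md))) + ((1 / 5 : ℝ) * d4)) ∧
      base = ((sh * c0) - E2) ∧
      La = (f1a + g2a) ∧
      E1 = (m * ((((3 / 5 : ℝ) * (((mm + dd) + m4) + d4)) + (3 / 2 : ℝ)) + ((2 : ℝ) * md))) ∧
      Y0u = ((m + d) ^ 2) ∧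
      Y0 = ((1 : ℝ) - (Y0u * ((Y0u * (((1 / 10 : ℝ) * Y0u) + (3 / 20 : ℝ))) + (3 / 4 : ℝ)))) ∧
      G0a = ((f1a * f2a) - ep) ∧
      X0a = (La + (d * G0a)) ∧
      0 < ((√((d * X0a) + (1 : ℝ))) + (1 : ℝ)) ∧
      i0a = (((√((d * X0a) + (1 : ℝ))) + (1 : ℝ))⁻¹) ∧
      j0a = (X0a * i0a) ∧
      Y1u = ((m - d) ^ 2) ∧
      Y1 = ((1 : ℝ) - (Y1u * ((Y1u * (((1 / 10 : ℝ) * Y1u) + (3 / 20 : ℝ))) + (3 / 4 : ℝ)))) ∧
      G1a = ((f3a * g2a) - en) ∧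
      X1a = ((d * G1a) - La) ∧
      0 < ((√((d * X1a) + (1 : ℝ))) + (1 : ℝ)) ∧
      i1a = (((√((d * X1a) + (1 : ℝ))) + (1 : ℝ))⁻¹) ∧
      j1a = (X1a * i1a) ∧
      0 ≤ ((base - (La * E1)) + ((1 / 2 : ℝ) * ((Y0 * (G0a - (j0a ^ 2))) + (Y1 * (G1a - (j1a ^ 2)))))) ∧
      f1b = ((1229 / 2048 : ℝ) * sa) ∧
      0 ≤ ((d * f1b) + (1 : ℝ)) ∧
      g2b = ((1229 / 2048 : ℝ) * sb) ∧
      f2b = (g2b - dp) ∧
      0 ≤ ((d * f2b) + (1 : ℝ)) ∧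
      f3b = (f1b + dn) ∧
      0 ≤ ((1 : ℝ) - (d * f3b)) ∧
      0 ≤ ((1 : ℝ) - (d * g2b)) ∧
      Lb = (f1b + g2b) ∧
      G0b = ((f1b * f2b) - ep) ∧
      X0b = (Lb + (d * G0b)) ∧
      0 < ((√((d * X0b) + (1 : ℝ))) + (1 : ℝ)) ∧
      i0b = (((√((d * X0b) + (1 : ℝ))) + (1 : ℝ))⁻¹) ∧
      j0b = (X0b * i0b) ∧
      G1b = ((f3b * g2b) - en) ∧
      X1b = ((d * G1b) - Lb) ∧
      0 < ((√((d * X1b) + (1 : ℝ))) + (1 : ℝ)) ∧
      i1b = (((√((d * X1b) + (1 : ℝ))) + (1 : ℝ))⁻¹) ∧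
      j1b = (X1b * i1b) ∧
      0 ≤ ((base - (Lb * E1)) + ((1 / 2 : ℝ) * ((Y0 * (G0b - (j0b ^ 2))) + (Y1 * (G1b - (j1b ^ 2))))))) : LConcl ρ β μ m δ := by
  have hd : δ = d := hδ.trans e0.symm
  rw [hd] at hδ0 ⊢
  have ht0 : (9 / 16 : ℝ) ≤ t := by linarith only [e16]
  have ht1 : t ≤ (11 / 16 : ℝ) := by linarith only [e17]
  exact sc_core h0 hβ0 hβ h hμ hr (by norm_num) hb0 hb1 (by linarith only [ht0]) e15 e6
    ((((LValid.zero ρ β t).add_smul (memb4_0 h0 hβ0 h hb0 hb1 ht0 ht1) e2).add_smul (memb4_1 h0 hβ0 h hb0 hb1 ht0 ht1) e4).congr'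
      (by linarith only [e7, e8, e9, e10, e11, e12, e13]) (by linarith only [e7, e8, e9, e10, e11, e12, e13]) (by linarith only [e7, e8, e9, e10, e11, e12, e13]) (by linarith only [e7, e8, e9, e10, e11, e12, e13]) (by linarith only [e7, e8, e9, e10, e11, e12, e13]) (by linarith only [e7, e8, e9, e10, e11, e12, e13]) (by linarith only [e7, e8, e9, e10, e11, e12, e13])) H

theorem LSb_z4 {ρ β μ m y r ca cb δ : ℝ} (h0 : 0 ≤ ρ) (hβ0 : 0 ≤ β) (hβ : β ≤ 3 / 5) (h : ρ ^ 2 + β ^ 2 = 1)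
    (hμ : 1 ≤ μ) (hr : r = μ⁻¹) (hb0 : (3 / 8 : ℝ) ≤ β) (hb1 : β ≤ (1229 / 2048 : ℝ)) (hδ0 : 0 ≤ δ) (hδ : δ = y * (ca + cb * m))
    (H : LSb.z4_Spec ca cb m y r) : LConcl ρ β μ m δ :=
  Exists.elim H fun ta H => Exists.elim H fun tb H => Exists.elim H fun pw H => Exists.elim H fun qw H => Exists.elim H fun pa0 H => Exists.elim H fun pb0 H => Exists.elim H fun pa1 H => Exists.elim H fun pb1 H => Exists.elim H fun d H => Exists.elim H fun v0 H => Exists.elim H fun v1 H => Exists.elim H fun w H => Exists.elim H fun SL H => Exists.elim H fun Sv H => Exists.elim H fun SRn H => Exists.elim H fun SRp H => Exists.elim H fun S0 H => Exists.elim H fun S1 H => Exists.elim H fun S2 H => Exists.elim H fun tau H => Exists.elim H fun t H => Exists.elim H fun rw H => Exists.elim H fun rr H => Exists.elim H fun sh H => Exists.elim H fun a1 H => Exists.elim H fun sa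 H => Exists.elim H fun f1a H => Exists.elim H fun sb H => Exists.elim H fun g2a H => Exists.elim H fun eh H => Exists.elim H fun ep H => Exists.elim H fun dp H => Exists.elim H fun f2a H => Exists.elim H fun an H => Exists.elim H fun en H => Exists.elim H fun dn H => Exists.elim H fun f3a H => Exists.elim H fun c0 H => Exists.elim H fun mm H => Exists.elim H fun dd H => Exists.elim H fun m4 H => Exists.elim H fun md H => Exists.elim H fun d4 H => Exists.elim H fun E2 H => Exists.elim H fun base H => Exists.elim H fun La H => Exists.elim H fun E1 H => Exists.elim H fun Y0u H => Exists.elim H fun Y0 H => Exists.elim H fun G0a H => Exists.elim H fun X0a H => Exists.elim H fun i0a H => Exists.elim H fun j0a H => Exists.elim H fun Y1u H => Exists.elim H fun Y1 H => Exists.elim H fun G1a H => Exists.elim H fun X1a H => Exists.elim H fun i1a H => Exists.elim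 H fun j1a H => Exists.elim H fun f1b H => Exists.elim H fun g2b H => Exists.elim H fun f2b H => Exists.elim H fun f3b H => Exists.elim H fun Lb H => Exists.elim H fun G0b H => Exists.elim H fun X0b H => Exists.elim H fun i0b H => Exists.elim H fun j0b H => Exists.elim H fun G1b H => Exists.elim H fun X1b H => Exists.elim H fun i1b H => Exists.elim H fun j1b H =>
  And.elim (fun e0 H => And.elim (fun e1 H => And.elim (fun e2 H => And.elim (fun e3 H => And.elim (fun e4 H => And.elim (fun e5 H => And.elim (fun e6 H => And.elim (fun e7 H => And.elim (fun e8 H => And.elim (fun e9 H => And.elim (fun e10 H => And.elim (fun e11 H => And.elim (fun e12 H => And.elim (fun e13 H => And.elim (fun e14 H => And.elim (fun e15 H => And.elim (fun e16 H => And.elim (fun e17 H =>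
  @LSb_y4 ρ β μ m y r ca cb δ ta tb pw qw pa0 pb0 pa1 pb1 d v0 v1 w SL Sv SRn SRp S0 S1 S2 tau t rw rr sh a1 sa f1a sb g2a eh ep dp f2a an en dn f3a c0 mm dd m4 md d4 E2 base La E1 Y0u Y0 G0a X0a i0a j0a Y1u Y1 G1a X1a i1a j1a f1b g2b f2b f3b Lb G0b X0b i0b j0b G1b X1b i1b j1b h0 hβ0 hβ h hμ hr hb0 hb1 hδ0 hδ e0 e1 e2 e3 e4 e5 e6 e7 e8 e9 e10 e11 e12 e13 e14 e15 e16 e17 H) H) H) H) H) H) H) H) H) H) H) H) H) H) H) H) H) H) H

theorem LSb_all {ρ β μ m y r ca cb δ : ℝ} (h0 : 0 ≤ ρ) (hβ0 : 0 ≤ β) (hβ : β ≤ 3 / 5) (h : ρ ^ 2 + β ^ 2 = 1)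
    (hμ : 1 ≤ μ) (hr : r = μ⁻¹) (hb0 : (3 / 8 : ℝ) ≤ β) (hb1 : β ≤ (1229 / 2048 : ℝ)) (hδ0 : 0 ≤ δ) (hδ : δ = y * (ca + cb * m))
    (H : LSb.z0_Spec ca cb m y r ∨ LSb.z1_Spec ca cb m y r ∨ LSb.z2_Spec ca cb m y r ∨ LSb.z3_Spec ca cb m y r ∨ LSb.z4_Spec ca cb m y r) : LConcl ρ β μ m δ := by
  rcases H with H | H | H | H | H
  · exact LSb_z0 h0 hβ0 hβ h hμ hr hb0 hb1 hδ0 hδ H
  · exact LSb_z1 h0 hβ0 hβ h hμ hr hb0 hb1 hδ0 hδ H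
  · exact LSb_z2 h0 hβ0 hβ h hμ hr hb0 hb1 hδ0 hδ H
  · exact LSb_z3 h0 hβ0 hβ h hμ hr hb0 hb1 hδ0 hδ H
  · exact LSb_z4 h0 hβ0 hβ h hμ hr hb0 hb1 hδ0 hδ H

end Crest.Agent.R307
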