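import Crest.Agent.R307.LDefs

/-! Row 307, low-noise step: concavity gains and the algebra of valid members. -/

set_option autoImplicit false

namespace Crest.Agent.R307

/-- `nf (x²) = (1 - x) (1 + 2x - y)` for `x² + y² = 1` -/
theorem nf_sq {x y : ℝ} (hx : 0 ≤ x) (hy : 0 ≤ y) (h : x ^ 2 + y ^ 2 = 1) :
    nf (x ^ 2) = (1 - x) * (1 + 2 * x - y) := by
  rw [nf, show 1 - x ^ 2 = y ^ 2 by linarith, Real.sqrt_sq hx, Real.sqrt_sq hy]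
  ring

theorem pf_sq {x y : ℝ} (hx : 0 ≤ x) (hy : 0 ≤ y) (h : x ^ 2 + y ^ 2 = 1) :
    pf (x ^ 2) = (1 - y) * (1 + 2 * y - x) := by
  rw [pf, show 1 - x ^ 2 = y ^ 2 by linarith, nf_sq hy hx (by linarith)]

theorem nf_nonneg' {a : ℝ} (h0 : 0 ≤ a) (h1 : a ≤ 1) : 0 ≤ nf a := by
  have hx := Real.sqrt_nonneg a
  have hy := Real.sqrt_nonneg (1 - a)
  have e1 := Real.sq_sqrt h0
  have e2 := Real.sq_sqrt (sub_nonneg.2 h1)
  have h := nf_sq hx hy (by linarith)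
  rw [e1] at h
  rw [h]
  have h3 : √a ≤ 1 := Real.sqrt_le_one.2 h1
  have h4 : √(1 - a) ≤ 1 := Real.sqrt_le_one.2 (by linarith)
  exact mul_nonneg (by linarith) (by linarith)

theorem pf_nonneg' {a : ℝ} (h0 : 0 ≤ a) (h1 : a ≤ 1) : 0 ≤ pf a := by
  exact nf_nonneg' (by linarith) (by linarith)

/-- A function concave on `[0,1]` has a nonnegative gain. -/
theorem gain_nonneg_of_concave {ρ a0 a1 : ℝ} {f : ℝ → ℝ} (hf : ConcaveOn ℝ (Set.Icc 0 1) f)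
    (h0 : 0 ≤ ρ) (h1 : ρ ≤ 1) (ha : 0 ≤ a0) (ha' : a0 ≤ 1) (hb : 0 ≤ a1) (hb' : a1 ≤ 1) :
    0 ≤ gain ρ f a0 a1 := by
  have e1 := hf.2 ⟨ha, ha'⟩ ⟨hb, hb'⟩ (show 0 ≤ (1 + ρ) / 2 by linarith)
    (show 0 ≤ (1 - ρ) / 2 by linarith) (by ring)
  have e2 := hf.2 ⟨ha, ha'⟩ ⟨hb, hb'⟩ (show 0 ≤ (1 - ρ) / 2 by linarith)
    (show 0 ≤ (1 + ρ) / 2 by linarith) (by ring)
  simp only [smul_eq_mul] at e1 e2
  unfold gain
  linarith

/-- With `x = √a`, `y = √(1-a)` the second derivative is `(x³ + y³ - 1) / (4 x³ y³) ≤ 0`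
(`concaveOn_of_hasDerivWithinAt2_nonpos`, or: the first derivative
`(1 - 2a)/(2xy) - 1/(2x) + 1/(2y) = (y - x) (x + y - 1) / (2xy) = (y - x) / (x + y + 1)` is antitone,
since `2xy = (x+y-1)(x+y+1)`). -/
theorem phi_concave : ConcaveOn ℝ (Set.Icc (0 : ℝ) 1) (fun a => (1 - √a) * (1 - √(1 - a))) := by
  have hd : ∀ a ∈ Set.Ioo (0 : ℝ) 1, HasDerivAt (fun a => (1 - √a) * (1 - √(1 - a)))
      ((√(1 - a) - √a) / (√a + √(1 - a) + 1)) a := fun a ha => by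
    have hx := Real.sqrt_pos.2 ha.1
    have hy := Real.sqrt_pos.2 (sub_pos.2 ha.2)
    have e1 := Real.sq_sqrt ha.1.le
    have e2 := Real.sq_sqrt (sub_pos.2 ha.2).le
    have h1 := (Real.hasDerivAt_sqrt ha.1.ne').const_sub 1
    have h2 := (((hasDerivAt_id a).const_sub 1).sqrt (sub_pos.2 ha.2).ne').const_sub 1
    refine (h1.mul h2).congr_deriv ?_
    simp only [id]
    generalize √a = x at *
    generalize √(1 - a) = y at *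
    field_simp
    have e3 : x ^ 2 + y ^ 2 = 1 := by linarith
    linear_combination (y - x) * e3
  refine AntitoneOn.concaveOn_of_deriv (convex_Icc 0 1) (by fun_prop) ?_ ?_
  · rw [interior_Icc]
    exact fun a ha => (hd a ha).differentiableAt.differentiableWithinAt
  · rw [interior_Icc]
    intro a ha b hb hab
    rw [(hd a ha).deriv, (hd b hb).deriv, div_le_div_iff₀ (by positivity) (by positivity)]
    have h1 : √a ≤ √b := Real.sqrt_le_sqrt hab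
    have h2 : √(1 - b) ≤ √(1 - a) := Real.sqrt_le_sqrt (by linarith)
    have h3 := mul_le_mul h1 h2 (Real.sqrt_nonneg _) (Real.sqrt_nonneg _)
    nlinarith

theorem gain_sqrt_nonneg {ρ a0 a1 : ℝ} (h0 : 0 ≤ ρ) (h1 : ρ ≤ 1) (ha : 0 ≤ a0) (ha' : a0 ≤ 1)
    (hb : 0 ≤ a1) (hb' : a1 ≤ 1) : 0 ≤ gain ρ (fun a => √a) a0 a1 := by
  exact gain_nonneg_of_concave (Real.strictConcaveOn_sqrt.concaveOn.subset Set.Icc_subset_Ici_self
    (convex_Icc 0 1)) h0 h1 ha ha' hb hb'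

/-- `nf a = (1 - √a)(1 - √(1-a)) + 2 √a - 2 a`, and linear functions have no gain -/
theorem gain_nf_ge {ρ a0 a1 : ℝ} (h0 : 0 ≤ ρ) (h1 : ρ ≤ 1) (ha : 0 ≤ a0) (ha' : a0 ≤ 1)
    (hb : 0 ≤ a1) (hb' : a1 ≤ 1) : 2 * gain ρ (fun a => √a) a0 a1 ≤ gain ρ nf a0 a1 := by
  have h := gain_nonneg_of_concave phi_concave h0 h1 ha ha' hb hb'
  simp only [gain, nf] at h ⊢
  linarith

theorem gain_nf_nonneg {ρ a0 a1 : ℝ} (h0 : 0 ≤ ρ) (h1 : ρ ≤ 1) (ha : 0 ≤ a0) (ha' : a0 ≤ 1)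
    (hb : 0 ≤ a1) (hb' : a1 ≤ 1) : 0 ≤ gain ρ nf a0 a1 := by
  linarith [gain_nf_ge h0 h1 ha ha' hb hb', gain_sqrt_nonneg h0 h1 ha ha' hb hb']

theorem gain_pf_eq (ρ a0 a1 : ℝ) : gain ρ pf a0 a1 = gain ρ nf (1 - a1) (1 - a0) := by
  simp only [gain, pf]
  rw [show 1 - ((1 + ρ) / 2 * a0 + (1 - ρ) / 2 * a1) =
      (1 - ρ) / 2 * (1 - a1) + (1 + ρ) / 2 * (1 - a0) by ring,
    show 1 - ((1 - ρ) / 2 * a0 + (1 + ρ) / 2 * a1) =
      (1 + ρ) / 2 * (1 - a1) + (1 - ρ) / 2 * (1 - a0) by ring]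
  ring

theorem gain_pf_nonneg {ρ a0 a1 : ℝ} (h0 : 0 ≤ ρ) (h1 : ρ ≤ 1) (ha : 0 ≤ a0) (ha' : a0 ≤ 1)
    (hb : 0 ≤ a1) (hb' : a1 ≤ 1) : 0 ≤ gain ρ pf a0 a1 := by
  rw [gain_pf_eq]
  exact gain_nf_nonneg h0 h1 (by linarith) (by linarith) (by linarith) (by linarith)

theorem LValid.zero (ρ β t : ℝ) : LValid ρ β t 0 0 0 0 0 0 0 := by
  intro a0 a1 _ _ _ _
  simp [LIneq, qf]

/-- adding a nonnegative multiple of a valid member -/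
theorem LValid.add_smul {ρ β t Ln Lp Rn Rp c0 c1 c2 Ln' Lp' Rn' Rp' c0' c1' c2' w : ℝ}
    (h : LValid ρ β t Ln Lp Rn Rp c0 c1 c2) (h' : LValid ρ β t Ln' Lp' Rn' Rp' c0' c1' c2')
    (hw : 0 ≤ w) :
    LValid ρ β t (Ln + w * Ln') (Lp + w * Lp') (Rn + w * Rn') (Rp + w * Rp') (c0 + w * c0')
      (c1 + w * c1') (c2 + w * c2') := by
  intro a0 a1 ha ha' hb hb'
  have e1 := h a0 a1 ha ha' hb hb'
  have e2 := mul_le_mul_of_nonneg_left (h' a0 a1 ha ha' hb hb') hw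
  simp only [LIneq, qf] at e1 e2 ⊢
  linarith

theorem LValid.mono {ρ β t Ln Lp Rn Rp c0 c1 c2 Ln' Lp' : ℝ} (h0 : 0 ≤ ρ) (h1 : ρ ≤ 1)
    (h : LValid ρ β t Ln Lp Rn Rp c0 c1 c2) (hn : Ln ≤ Ln') (hp : Lp ≤ Lp') :
    LValid ρ β t Ln' Lp' Rn Rp c0 c1 c2 := by
  intro a0 a1 ha ha' hb hb'
  have e1 := h a0 a1 ha ha' hb hb'
  have e2 := mul_le_mul_of_nonneg_right hn (gain_nf_nonneg h0 h1 ha ha' hb hb')
  have e3 := mul_le_mul_of_nonneg_right hp (gain_pf_nonneg h0 h1 ha ha' hb hb')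
  simp only [LIneq] at e1 ⊢
  linarith

/-- The quarter `a1 ≤ a0`, `1 ≤ a0 + a1` is the mirror image `(a0, a1) ↦ (1 - a1, 1 - a0)` of the first one
(with the mirrored member: `qf c0 (-c2) (-c1) (1 - a1) (1 - a0) = qf c0 c1 c2 a0 a1`, gains of `nf` and
`pf` swap).  For `a0 ≤ a1`: `qf .. a0 a1 = - qf .. a1 a0 ≤ 0`, while the right side is nonnegative. -/
theorem valid_of_half {ρ β t Ln Lp Rn Rp c0 c1 c2 : ℝ} (h0 : 0 ≤ ρ) (h1 : ρ ≤ 1) (hβ : 0 ≤ β)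
    (ht : 0 ≤ t) (hLn : 0 ≤ Ln) (hLp : 0 ≤ Lp) (hRn : 0 ≤ Rn) (hRp : 0 ≤ Rp)
    (H1 : LHalf ρ β t Ln Lp Rn Rp c0 c1 c2) (H2 : LHalf ρ β t Lp Ln Rp Rn c0 (-c2) (-c1)) :
    LValid ρ β t Ln Lp Rn Rp c0 c1 c2 := by
  have key : ∀ a0 a1 : ℝ, 0 ≤ a1 → a1 ≤ a0 → a0 ≤ 1 →
      LIneq ρ β t Ln Lp Rn Rp c0 c1 c2 a0 a1 ∧ 0 ≤ qf c0 c1 c2 a0 a1 := by
    intro a0 a1 hb hab ha'
    rcases le_total (a0 + a1) 1 with h | h
    · exact H1 a0 a1 hb hab h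
    · have e := H2 (1 - a1) (1 - a0) (by linarith) (by linarith) (by linarith)
      have e1 : qf c0 (-c2) (-c1) (1 - a1) (1 - a0) = qf c0 c1 c2 a0 a1 := by
        simp only [qf, pf, sub_sub_cancel]
        ring
      simp only [LIneq, e1, gain_pf_eq, sub_sub_cancel] at e ⊢
      simp only [pf, sub_sub_cancel] at e ⊢
      exact ⟨by linarith [e.1], e.2⟩
  intro a0 a1 ha ha' hb hb'
  rcases le_total a1 a0 with h | h
  · exact (key a0 a1 hb h ha').1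
  · have e := (key a1 a0 ha h hb').2
    have e1 : qf c0 c1 c2 a0 a1 = -qf c0 c1 c2 a1 a0 := by
      simp only [qf]
      ring
    have hs : 0 ≤ sT t := by unfold sT; positivity
    have e2 := gain_nf_nonneg h0 h1 ha ha' hb hb'
    have e3 := gain_pf_nonneg h0 h1 ha ha' hb hb'
    have e4 := nf_nonneg' hb hb'
    have e5 := pf_nonneg' ha ha'
    have e6 : 0 ≤ sT t * β * qf c0 c1 c2 a1 a0 := by positivity
    have e7 : 0 ≤ Ln * gain ρ nf a0 a1 + Lp * gain ρ pf a0 a1 +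
        t * sT t * (Rn * nf a1 + Rp * pf a0) := by positivity
    rw [LIneq, e1]
    linarith

/-- a valid member gives the pointwise inequality of `lstep` -/
theorem LValid.pointwise {ρ β t μ Rn Rp c0 c1 c2 : ℝ} (h : LValid ρ β t μ μ⁻¹ Rn Rp c0 c1 c2)
    (a0 a1 : ℝ) (ha : 0 ≤ a0) (ha' : a0 ≤ 1) (hb : 0 ≤ a1) (hb' : a1 ≤ 1) :
    (μ + sT t * β * c1) * nf a0 + (μ⁻¹ - t * sT t * Rp + sT t * β * c2) * nf (1 - a0) +
      (μ - t * sT t * Rn - sT t * β * c1) * nf a1 + (μ⁻¹ - sT t * β * c2) * nf (1 - a1) +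
      sT t * β * c0 * (a0 - a1) ≤
      μ * (nf ((1 + ρ) / 2 * a0 + (1 - ρ) / 2 * a1) + nf ((1 - ρ) / 2 * a0 + (1 + ρ) / 2 * a1)) +
      (nf (1 - ((1 + ρ) / 2 * a0 + (1 - ρ) / 2 * a1)) +
        nf (1 - ((1 - ρ) / 2 * a0 + (1 + ρ) / 2 * a1))) / μ := by
  have e := h a0 a1 ha ha' hb hb'
  simp only [LIneq, qf, gain, pf] at e
  rw [div_eq_inv_mul (nf _ + nf _) μ]
  linarith

end Crest.Agent.R307
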