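import Crest.Agent.R307.AA

set_option autoImplicit false
set_option maxRecDepth 100000
set_option linter.unusedVariables false

namespace Crest.Agent.R307.LM
open Crest.Agent.R307.AA

noncomputable section

theorem k0 : |2 ^ 48 * (-1025 / 1024 : ℝ) - (((4722366201119790596096 : ℕ) : ℝ) - 2 ^ 72)| ≤ ((0 : ℕ) : ℝ) := by norm_num [abs_le]
def x_B (gs ps : ℕ) (x0 x1 x2 x3 : AF) : Bool :=
  mulK x1 x0 fun z16 =>
  addK x0 z16 fun z17 =>
  mulK x0 z16 fun z18 =>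
  addK z17 z18 fun z19 =>
  addcK z19 4722366201119790596096 0 fun z20 =>
  posK z20 <|
  true

def x_R (gs ps : ℕ) (u v u2 u3 : ℝ) : Prop :=
  letR (v * u) fun z16 =>
  letR (u + z16) fun z17 =>
  letR (u * z16) fun z18 =>
  letR (z17 + z18) fun z19 =>
  letR (z19 + (-1025 / 1024 : ℝ)) fun z20 =>
  posR z20 <|
  True

theorem x_S {ε : Fin 4 → ℝ} (gs : ℕ) (hε : ∀ i, |ε i| ≤ 1) (ps : ℕ) (x0 x1 x2 x3 : AF) (u v u2 u3 : ℝ)
    (h0 : Rel ε x0 u) (h1 : Rel ε x1 v) (h2 : Rel ε x2 u2) (h3 : Rel ε x3 u3) :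
    x_B gs ps x0 x1 x2 x3 = true → x_R gs ps u v u2 u3 := by
  delta x_B x_R
  exact mulS hε h1 h0 fun z16 t16 g16 =>
  addS h0 g16 fun z17 t17 g17 =>
  mulS hε h0 g16 fun z18 t18 g18 =>
  addS g17 g18 fun z19 t19 g19 =>
  addcS g19 k0 fun z20 t20 g20 =>
  posS hε g20 <|
  fun _ => trivial

def x_Spec (Lp Lm Rn Rp c0 cs cd t0 t1 bh k1 jx jy ga u v : ℝ) : Prop :=
  ∃ w16 : ℝ,
    w16 = (v * u) ∧
    0 ≤ (((u + w16) + (u * w16)) + (-1025 / 1024 : ℝ))

theorem x_E {gs ps : ℕ} {u v u2 u3 : ℝ} (h : x_R gs ps u v u2 u3) : x_Spec (parV gs 0) (parV gs 1) (parV gs 2) (parV gs 3) (parV gs 4) (parV gs 5) (parV gs 6) (parV gs 7) (parV gs 8) (parV gs 9) (parV gs 10) (parV gs 11) (parV gs 12) (parV gs 13) u v := by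
  delta x_R at h
  exact letR_ex h fun w16 q1 h =>
  letR_in h fun h =>
  letR_in h fun h =>
  letR_in h fun h =>
  letR_in h fun h =>
  posR_ex h fun q2 h =>
  ⟨w16, q1, q2⟩

theorem k1 : |2 ^ 48 * (1 : ℝ) - (((4722366764344621924352 : ℕ) : ℝ) - 2 ^ 72)| ≤ ((0 : ℕ) : ℝ) := by norm_num [abs_le]
theorem k2 : (2 : ℝ) = val 4722367045819598635008 := by norm_num [val]
theorem k3 : |2 ^ 48 * (-1 : ℝ) - (((4722366201394668503040 : ℕ) : ℝ) - 2 ^ 72)| ≤ ((0 : ℕ) : ℝ) := by norm_num [abs_le]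
theorem k4 : |2 ^ 48 * (-2 : ℝ) - (((4722365919919691792384 : ℕ) : ℝ) - 2 ^ 72)| ≤ ((0 : ℕ) : ℝ) := by norm_num [abs_le]
theorem k5 : |2 ^ 48 * (3 : ℝ) - (((4722367327294575345664 : ℕ) : ℝ) - 2 ^ 72)| ≤ ((0 : ℕ) : ℝ) := by norm_num [abs_le]
def g_B (gs ps : ℕ) (x0 x1 x2 x3 : AF) : Bool :=
  parK ps 0 fun z2 =>
  parK ps 1 fun z3 =>
  parK ps 2 fun z4 =>
  parK ps 3 fun z5 =>
  parK ps 4 fun z6 =>
  parK ps 5 fun z7 =>
  parK ps 6 fun z8 =>
  parK ps 7 fun z9 =>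
  parK ps 8 fun z10 =>
  parK ps 9 fun z11 =>
  parK ps 10 fun z12 =>
  mulK z3 x0 fun z27 =>
  addK z2 z27 fun z28 =>
  mulK z4 x1 fun z29 =>
  addK z28 z29 fun z30 =>
  normK z30 fun z31 =>
  mulK z6 z31 fun z32 =>
  addK z5 z32 fun z33 =>
  sqrK z31 fun z45 =>
  subK z33 z45 fun z46 =>
  normK z33 fun z42 =>
  sqrK z42 fun z43 =>
  subK z33 z43 fun z44 =>
  normK z44 fun z48 =>
  parK gs 7 fun z20 =>
  sqrK z20 fun z47 =>
  mulK z48 z47 fun z49 =>
  addK z46 z49 fun z50 =>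
  posK z50 <|
  parK gs 8 fun z21 =>
  sqrK z21 fun z51 =>
  mulK z48 z51 fun z52 =>
  addK z46 z52 fun z53 =>
  posK z53 <|
  mulK z11 x0 fun z38 =>
  addK z10 z38 fun z39 =>
  mulK z12 x1 fun z40 =>
  addK z39 z40 fun z41 =>
  sqrK x0 fun z54 =>
  mulK z8 x0 fun z34 =>
  addK z7 z34 fun z35 =>
  mulK z9 x1 fun z36 =>
  addK z35 z36 fun z37 =>
  normK z37 fun z59 =>
  sqrK z59 fun z60 =>
  mulK z54 z60 fun z61 =>
  subK z41 z61 fun z62 =>
  normK z41 fun z55 =>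
  sqrK z55 fun z56 =>
  mulK z54 z56 fun z57 =>
  subK z41 z57 fun z58 =>
  normK z58 fun z63 =>
  mulK z63 z47 fun z64 =>
  addK z62 z64 fun z65 =>
  posK z65 <|
  mulK z63 z51 fun z66 =>
  addK z62 z66 fun z67 =>
  posK z67 <|
  parK gs 0 fun z13 =>
  addcK z54 4722366764344621924352 0 fun z69 =>
  invK z69 fun z70 =>
  smulK z70 4722367045819598635008 fun z71 =>
  mulK x1 x0 fun z68 =>
  sqrK z68 fun z72 =>
  addcK z72 4722366764344621924352 0 fun z73 =>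
  invK z73 fun z74 =>
  smulK z74 4722367045819598635008 fun z75 =>
  mulK x1 z75 fun z76 =>
  mulK z71 z76 fun z80 =>
  mulK z54 z80 fun z120 =>
  addcK z71 4722366201394668503040 0 fun z77 =>
  addcK z75 4722366201394668503040 0 fun z78 =>
  mulK z77 z78 fun z99 =>
  addK z120 z99 fun z121 =>
  smulK z121 4722367045819598635008 fun z122 =>
  sqrK z80 fun z87 =>
  parK gs 9 fun z22 =>
  addK z71 z76 fun z79 =>
  normK z79 fun z82 =>
  subK z71 z76 fun z81 =>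
  normK z81 fun z83 =>
  mulK z82 z83 fun z84 =>
  mulK z22 z84 fun z85 =>
  sqrK z85 fun z86 =>
  addK z87 z86 fun z88 =>
  sqrtK z88 fun z89 =>
  subK z89 z80 fun z90 =>
  mulK z54 z86 fun z100 =>
  sqrK z99 fun z101 =>
  mulK z54 z100 fun z102 =>
  addK z101 z102 fun z103 =>
  sqrtK z103 fun z104 =>
  addK z104 z99 fun z105 =>
  invK z105 fun z106 =>
  mulK z100 z106 fun z107 =>
  addK z90 z107 fun z119 =>
  normK z119 fun z123 =>
  mulK z54 z123 fun z124 =>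
  addK z122 z124 fun z125 =>
  normK z125 fun z131 =>
  mulK z71 z77 fun z126 =>
  mulK z76 z78 fun z127 =>
  addK z126 z127 fun z128 =>
  normK z128 fun z129 =>
  sqrK z129 fun z130 =>
  mulK z123 z131 fun z132 =>
  addK z130 z132 fun z133 =>
  sqrtK z133 fun z134 =>
  addK z134 z128 fun z135 =>
  invK z135 fun z136 =>
  mulK z131 z136 fun z137 =>
  mulK z13 z137 fun z138 =>
  parK gs 1 fun z14 =>
  sqrK z82 fun z91 =>
  parK gs 11 fun z24 =>
  normK z90 fun z92 =>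
  mulK z24 z92 fun z93 =>
  addK z91 z93 fun z94 =>
  sqrtK z94 fun z95 =>
  addK z95 z79 fun z96 =>
  invK z96 fun z97 =>
  smulK z97 4722367045819598635008 fun z98 =>
  mulK z14 z98 fun z139 =>
  addK z138 z139 fun z140 =>
  posK z140 <|
  smulK x0 4722367045819598635008 fun z109 =>
  addK z77 z78 fun z108 =>
  normK z108 fun z110 =>
  sqrK z110 fun z111 =>
  parK gs 12 fun z25 =>
  mulK z54 z107 fun z112 =>
  mulK z25 z112 fun z113 =>
  addK z111 z113 fun z114 =>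
  sqrtK z114 fun z115 =>
  addK z115 z108 fun z116 =>
  invK z116 fun z117 =>
  mulK z109 z117 fun z118 =>
  mulK z14 z118 fun z141 =>
  subK z138 z141 fun z142 =>
  posK z142 <|
  parK gs 4 fun z17 =>
  mulK x0 z17 fun z143 =>
  parK gs 5 fun z18 =>
  subK z99 z120 fun z144 =>
  normK z144 fun z149 =>
  mulK z71 z78 fun z145 =>
  mulK z76 z77 fun z146 =>
  addK z145 z146 fun z147 =>
  invK z147 fun z148 =>
  mulK z149 z148 fun z150 =>
  mulK z18 z150 fun z151 =>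
  addK z143 z151 fun z152 =>
  parK gs 6 fun z19 =>
  invK z79 fun z153 =>
  invK z108 fun z154 =>
  addcK z154 4722365919919691792384 0 fun z155 =>
  mulK x0 z155 fun z156 =>
  addK z153 z156 fun z157 =>
  normK z157 fun z158 =>
  mulK z19 z158 fun z159 =>
  addK z152 z159 fun z160 =>
  posK z160 <|
  parK gs 13 fun z26 =>
  addK z85 z26 fun z193 =>
  normK z193 fun z194 =>
  normK z140 fun z170 =>
  mulK z170 z31 fun z171 =>
  normK z142 fun z173 =>
  mulK z54 z59 fun z172 =>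
  mulK z173 z172 fun z174 =>
  addK z171 z174 fun z175 =>
  smulK z160 4722367045819598635008 fun z176 =>
  subK z175 z176 fun z177 =>
  normK z177 fun z195 =>
  mulK z194 z195 fun z196 =>
  parK gs 2 fun z15 =>
  mulK x0 z76 fun z161 =>
  smulK z161 4722367045819598635008 fun z162 =>
  subK z75 z162 fun z163 =>
  addK z163 z68 fun z164 =>
  normK z164 fun z178 =>
  mulK z15 z178 fun z179 =>
  mulK z42 z71 fun z180 =>
  mulK z170 z180 fun z181 =>
  subK z179 z181 fun z182 =>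
  normK z182 fun z183 =>
  mulK z76 z183 fun z184 =>
  parK gs 3 fun z16 =>
  addcK x0 4722367327294575345664 0 fun z165 =>
  addcK x0 4722366764344621924352 0 fun z166 =>
  invK z166 fun z167 =>
  mulK z165 z167 fun z168 =>
  mulK z71 z168 fun z169 =>
  mulK x0 z169 fun z185 =>
  mulK z16 z185 fun z186 =>
  mulK z55 z78 fun z187 =>
  mulK z173 z187 fun z188 =>
  subK z186 z188 fun z189 =>
  normK z189 fun z190 =>
  mulK z77 z190 fun z191 =>
  addK z184 z191 fun z192 =>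
  normK z192 fun z197 =>
  mulK z20 z197 fun z198 =>
  addK z196 z198 fun z199 =>
  posK z199 <|
  parK gs 10 fun z23 =>
  mulK z23 z85 fun z200 =>
  mulK z200 z195 fun z201 =>
  mulK z21 z197 fun z202 =>
  addK z201 z202 fun z203 =>
  posK z203 <|
  true

def g_R (gs ps : ℕ) (u v u2 u3 : ℝ) : Prop :=
  letR (parV ps 0) fun z2 =>
  letR (parV ps 1) fun z3 =>
  letR (parV ps 2) fun z4 =>
  letR (parV ps 3) fun z5 =>
  letR (parV ps 4) fun z6 =>
  letR (parV ps 5) fun z7 =>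
  letR (parV ps 6) fun z8 =>
  letR (parV ps 7) fun z9 =>
  letR (parV ps 8) fun z10 =>
  letR (parV ps 9) fun z11 =>
  letR (parV ps 10) fun z12 =>
  letR (z3 * u) fun z27 =>
  letR (z2 + z27) fun z28 =>
  letR (z4 * v) fun z29 =>
  letR (z28 + z29) fun z30 =>
  letR z30 fun z31 =>
  letR (z6 * z31) fun z32 =>
  letR (z5 + z32) fun z33 =>
  letR (z31 ^ 2) fun z45 =>
  letR (z33 - z45) fun z46 =>
  letR z33 fun z42 =>
  letR (z42 ^ 2) fun z43 =>
  letR (z33 - z43) fun z44 =>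
  letR z44 fun z48 =>
  letR (parV gs 7) fun z20 =>
  letR (z20 ^ 2) fun z47 =>
  letR (z48 * z47) fun z49 =>
  letR (z46 + z49) fun z50 =>
  posR z50 <|
  letR (parV gs 8) fun z21 =>
  letR (z21 ^ 2) fun z51 =>
  letR (z48 * z51) fun z52 =>
  letR (z46 + z52) fun z53 =>
  posR z53 <|
  letR (z11 * u) fun z38 =>
  letR (z10 + z38) fun z39 =>
  letR (z12 * v) fun z40 =>
  letR (z39 + z40) fun z41 =>
  letR (u ^ 2) fun z54 =>
  letR (z8 * u) fun z34 =>
  letR (z7 + z34) fun z35 =>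
  letR (z9 * v) fun z36 =>
  letR (z35 + z36) fun z37 =>
  letR z37 fun z59 =>
  letR (z59 ^ 2) fun z60 =>
  letR (z54 * z60) fun z61 =>
  letR (z41 - z61) fun z62 =>
  letR z41 fun z55 =>
  letR (z55 ^ 2) fun z56 =>
  letR (z54 * z56) fun z57 =>
  letR (z41 - z57) fun z58 =>
  letR z58 fun z63 =>
  letR (z63 * z47) fun z64 =>
  letR (z62 + z64) fun z65 =>
  posR z65 <|
  letR (z63 * z51) fun z66 =>
  letR (z62 + z66) fun z67 =>
  posR z67 <|
  letR (parV gs 0) fun z13 =>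
  letR (z54 + (1 : ℝ)) fun z69 =>
  invR z69 fun z70 =>
  letR ((2 : ℝ) * z70) fun z71 =>
  letR (v * u) fun z68 =>
  letR (z68 ^ 2) fun z72 =>
  letR (z72 + (1 : ℝ)) fun z73 =>
  invR z73 fun z74 =>
  letR ((2 : ℝ) * z74) fun z75 =>
  letR (v * z75) fun z76 =>
  letR (z71 * z76) fun z80 =>
  letR (z54 * z80) fun z120 =>
  letR (z71 + (-1 : ℝ)) fun z77 =>
  letR (z75 + (-1 : ℝ)) fun z78 =>
  letR (z77 * z78) fun z99 =>
  letR (z120 + z99) fun z121 =>
  letR ((2 : ℝ) * z121) fun z122 =>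
  letR (z80 ^ 2) fun z87 =>
  letR (parV gs 9) fun z22 =>
  letR (z71 + z76) fun z79 =>
  letR z79 fun z82 =>
  letR (z71 - z76) fun z81 =>
  letR z81 fun z83 =>
  letR (z82 * z83) fun z84 =>
  letR (z22 * z84) fun z85 =>
  letR (z85 ^ 2) fun z86 =>
  letR (z87 + z86) fun z88 =>
  letR (√z88) fun z89 =>
  letR (z89 - z80) fun z90 =>
  letR (z54 * z86) fun z100 =>
  letR (z99 ^ 2) fun z101 =>
  letR (z54 * z100) fun z102 =>
  letR (z101 + z102) fun z103 =>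
  letR (√z103) fun z104 =>
  letR (z104 + z99) fun z105 =>
  invR z105 fun z106 =>
  letR (z100 * z106) fun z107 =>
  letR (z90 + z107) fun z119 =>
  letR z119 fun z123 =>
  letR (z54 * z123) fun z124 =>
  letR (z122 + z124) fun z125 =>
  letR z125 fun z131 =>
  letR (z71 * z77) fun z126 =>
  letR (z76 * z78) fun z127 =>
  letR (z126 + z127) fun z128 =>
  letR z128 fun z129 =>
  letR (z129 ^ 2) fun z130 =>
  letR (z123 * z131) fun z132 =>
  letR (z130 + z132) fun z133 =>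
  letR (√z133) fun z134 =>
  letR (z134 + z128) fun z135 =>
  invR z135 fun z136 =>
  letR (z131 * z136) fun z137 =>
  letR (z13 * z137) fun z138 =>
  letR (parV gs 1) fun z14 =>
  letR (z82 ^ 2) fun z91 =>
  letR (parV gs 11) fun z24 =>
  letR z90 fun z92 =>
  letR (z24 * z92) fun z93 =>
  letR (z91 + z93) fun z94 =>
  letR (√z94) fun z95 =>
  letR (z95 + z79) fun z96 =>
  invR z96 fun z97 =>
  letR ((2 : ℝ) * z97) fun z98 =>
  letR (z14 * z98) fun z139 =>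
  letR (z138 + z139) fun z140 =>
  posR z140 <|
  letR ((2 : ℝ) * u) fun z109 =>
  letR (z77 + z78) fun z108 =>
  letR z108 fun z110 =>
  letR (z110 ^ 2) fun z111 =>
  letR (parV gs 12) fun z25 =>
  letR (z54 * z107) fun z112 =>
  letR (z25 * z112) fun z113 =>
  letR (z111 + z113) fun z114 =>
  letR (√z114) fun z115 =>
  letR (z115 + z108) fun z116 =>
  invR z116 fun z117 =>
  letR (z109 * z117) fun z118 =>
  letR (z14 * z118) fun z141 =>
  letR (z138 - z141) fun z142 =>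
  posR z142 <|
  letR (parV gs 4) fun z17 =>
  letR (u * z17) fun z143 =>
  letR (parV gs 5) fun z18 =>
  letR (z99 - z120) fun z144 =>
  letR z144 fun z149 =>
  letR (z71 * z78) fun z145 =>
  letR (z76 * z77) fun z146 =>
  letR (z145 + z146) fun z147 =>
  invR z147 fun z148 =>
  letR (z149 * z148) fun z150 =>
  letR (z18 * z150) fun z151 =>
  letR (z143 + z151) fun z152 =>
  letR (parV gs 6) fun z19 =>
  invR z79 fun z153 =>
  invR z108 fun z154 =>
  letR (z154 + (-2 : ℝ)) fun z155 =>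
  letR (u * z155) fun z156 =>
  letR (z153 + z156) fun z157 =>
  letR z157 fun z158 =>
  letR (z19 * z158) fun z159 =>
  letR (z152 + z159) fun z160 =>
  posR z160 <|
  letR (parV gs 13) fun z26 =>
  letR (z85 + z26) fun z193 =>
  letR z193 fun z194 =>
  letR z140 fun z170 =>
  letR (z170 * z31) fun z171 =>
  letR z142 fun z173 =>
  letR (z54 * z59) fun z172 =>
  letR (z173 * z172) fun z174 =>
  letR (z171 + z174) fun z175 =>
  letR ((2 : ℝ) * z160) fun z176 =>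
  letR (z175 - z176) fun z177 =>
  letR z177 fun z195 =>
  letR (z194 * z195) fun z196 =>
  letR (parV gs 2) fun z15 =>
  letR (u * z76) fun z161 =>
  letR ((2 : ℝ) * z161) fun z162 =>
  letR (z75 - z162) fun z163 =>
  letR (z163 + z68) fun z164 =>
  letR z164 fun z178 =>
  letR (z15 * z178) fun z179 =>
  letR (z42 * z71) fun z180 =>
  letR (z170 * z180) fun z181 =>
  letR (z179 - z181) fun z182 =>
  letR z182 fun z183 =>
  letR (z76 * z183) fun z184 =>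
  letR (parV gs 3) fun z16 =>
  letR (u + (3 : ℝ)) fun z165 =>
  letR (u + (1 : ℝ)) fun z166 =>
  invR z166 fun z167 =>
  letR (z165 * z167) fun z168 =>
  letR (z71 * z168) fun z169 =>
  letR (u * z169) fun z185 =>
  letR (z16 * z185) fun z186 =>
  letR (z55 * z78) fun z187 =>
  letR (z173 * z187) fun z188 =>
  letR (z186 - z188) fun z189 =>
  letR z189 fun z190 =>
  letR (z77 * z190) fun z191 =>
  letR (z184 + z191) fun z192 =>
  letR z192 fun z197 =>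
  letR (z20 * z197) fun z198 =>
  letR (z196 + z198) fun z199 =>
  posR z199 <|
  letR (parV gs 10) fun z23 =>
  letR (z23 * z85) fun z200 =>
  letR (z200 * z195) fun z201 =>
  letR (z21 * z197) fun z202 =>
  letR (z201 + z202) fun z203 =>
  posR z203 <|
  True

theorem g_S {ε : Fin 4 → ℝ} (gs : ℕ) (hε : ∀ i, |ε i| ≤ 1) (ps : ℕ) (x0 x1 x2 x3 : AF) (u v u2 u3 : ℝ)
    (h0 : Rel ε x0 u) (h1 : Rel ε x1 v) (h2 : Rel ε x2 u2) (h3 : Rel ε x3 u3) :
    g_B gs ps x0 x1 x2 x3 = true → g_R gs ps u v u2 u3 := by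
  delta g_B g_R
  exact parS fun z2 t2 g2 =>
  parS fun z3 t3 g3 =>
  parS fun z4 t4 g4 =>
  parS fun z5 t5 g5 =>
  parS fun z6 t6 g6 =>
  parS fun z7 t7 g7 =>
  parS fun z8 t8 g8 =>
  parS fun z9 t9 g9 =>
  parS fun z10 t10 g10 =>
  parS fun z11 t11 g11 =>
  parS fun z12 t12 g12 =>
  mulS hε g3 h0 fun z27 t27 g27 =>
  addS g2 g27 fun z28 t28 g28 =>
  mulS hε g4 h1 fun z29 t29 g29 =>
  addS g28 g29 fun z30 t30 g30 =>
  normS g30 fun z31 t31 g31 =>
  mulS hε g6 g31 fun z32 t32 g32 =>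
  addS g5 g32 fun z33 t33 g33 =>
  sqrS hε g31 fun z45 t45 g45 =>
  subS g33 g45 fun z46 t46 g46 =>
  normS g33 fun z42 t42 g42 =>
  sqrS hε g42 fun z43 t43 g43 =>
  subS g33 g43 fun z44 t44 g44 =>
  normS g44 fun z48 t48 g48 =>
  parS fun z20 t20 g20 =>
  sqrS hε g20 fun z47 t47 g47 =>
  mulS hε g48 g47 fun z49 t49 g49 =>
  addS g46 g49 fun z50 t50 g50 =>
  posS hε g50 <|
  parS fun z21 t21 g21 =>
  sqrS hε g21 fun z51 t51 g51 =>
  mulS hε g48 g51 fun z52 t52 g52 =>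
  addS g46 g52 fun z53 t53 g53 =>
  posS hε g53 <|
  mulS hε g11 h0 fun z38 t38 g38 =>
  addS g10 g38 fun z39 t39 g39 =>
  mulS hε g12 h1 fun z40 t40 g40 =>
  addS g39 g40 fun z41 t41 g41 =>
  sqrS hε h0 fun z54 t54 g54 =>
  mulS hε g8 h0 fun z34 t34 g34 =>
  addS g7 g34 fun z35 t35 g35 =>
  mulS hε g9 h1 fun z36 t36 g36 =>
  addS g35 g36 fun z37 t37 g37 =>
  normS g37 fun z59 t59 g59 =>
  sqrS hε g59 fun z60 t60 g60 =>
  mulS hε g54 g60 fun z61 t61 g61 =>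
  subS g41 g61 fun z62 t62 g62 =>
  normS g41 fun z55 t55 g55 =>
  sqrS hε g55 fun z56 t56 g56 =>
  mulS hε g54 g56 fun z57 t57 g57 =>
  subS g41 g57 fun z58 t58 g58 =>
  normS g58 fun z63 t63 g63 =>
  mulS hε g63 g47 fun z64 t64 g64 =>
  addS g62 g64 fun z65 t65 g65 =>
  posS hε g65 <|
  mulS hε g63 g51 fun z66 t66 g66 =>
  addS g62 g66 fun z67 t67 g67 =>
  posS hε g67 <|
  parS fun z13 t13 g13 =>
  addcS g54 k1 fun z69 t69 g69 =>
  invS hε g69 fun z70 t70 g70 =>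
  smulS hε g70 k2 fun z71 t71 g71 =>
  mulS hε h1 h0 fun z68 t68 g68 =>
  sqrS hε g68 fun z72 t72 g72 =>
  addcS g72 k1 fun z73 t73 g73 =>
  invS hε g73 fun z74 t74 g74 =>
  smulS hε g74 k2 fun z75 t75 g75 =>
  mulS hε h1 g75 fun z76 t76 g76 =>
  mulS hε g71 g76 fun z80 t80 g80 =>
  mulS hε g54 g80 fun z120 t120 g120 =>
  addcS g71 k3 fun z77 t77 g77 =>
  addcS g75 k3 fun z78 t78 g78 =>
  mulS hε g77 g78 fun z99 t99 g99 =>
  addS g120 g99 fun z121 t121 g121 =>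
  smulS hε g121 k2 fun z122 t122 g122 =>
  sqrS hε g80 fun z87 t87 g87 =>
  parS fun z22 t22 g22 =>
  addS g71 g76 fun z79 t79 g79 =>
  normS g79 fun z82 t82 g82 =>
  subS g71 g76 fun z81 t81 g81 =>
  normS g81 fun z83 t83 g83 =>
  mulS hε g82 g83 fun z84 t84 g84 =>
  mulS hε g22 g84 fun z85 t85 g85 =>
  sqrS hε g85 fun z86 t86 g86 =>
  addS g87 g86 fun z88 t88 g88 =>
  sqrtS hε g88 fun z89 t89 g89 =>
  subS g89 g80 fun z90 t90 g90 =>
  mulS hε g54 g86 fun z100 t100 g100 =>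
  sqrS hε g99 fun z101 t101 g101 =>
  mulS hε g54 g100 fun z102 t102 g102 =>
  addS g101 g102 fun z103 t103 g103 =>
  sqrtS hε g103 fun z104 t104 g104 =>
  addS g104 g99 fun z105 t105 g105 =>
  invS hε g105 fun z106 t106 g106 =>
  mulS hε g100 g106 fun z107 t107 g107 =>
  addS g90 g107 fun z119 t119 g119 =>
  normS g119 fun z123 t123 g123 =>
  mulS hε g54 g123 fun z124 t124 g124 =>
  addS g122 g124 fun z125 t125 g125 =>
  normS g125 fun z131 t131 g131 =>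
  mulS hε g71 g77 fun z126 t126 g126 =>
  mulS hε g76 g78 fun z127 t127 g127 =>
  addS g126 g127 fun z128 t128 g128 =>
  normS g128 fun z129 t129 g129 =>
  sqrS hε g129 fun z130 t130 g130 =>
  mulS hε g123 g131 fun z132 t132 g132 =>
  addS g130 g132 fun z133 t133 g133 =>
  sqrtS hε g133 fun z134 t134 g134 =>
  addS g134 g128 fun z135 t135 g135 =>
  invS hε g135 fun z136 t136 g136 =>
  mulS hε g131 g136 fun z137 t137 g137 =>
  mulS hε g13 g137 fun z138 t138 g138 =>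
  parS fun z14 t14 g14 =>
  sqrS hε g82 fun z91 t91 g91 =>
  parS fun z24 t24 g24 =>
  normS g90 fun z92 t92 g92 =>
  mulS hε g24 g92 fun z93 t93 g93 =>
  addS g91 g93 fun z94 t94 g94 =>
  sqrtS hε g94 fun z95 t95 g95 =>
  addS g95 g79 fun z96 t96 g96 =>
  invS hε g96 fun z97 t97 g97 =>
  smulS hε g97 k2 fun z98 t98 g98 =>
  mulS hε g14 g98 fun z139 t139 g139 =>
  addS g138 g139 fun z140 t140 g140 =>
  posS hε g140 <|
  smulS hε h0 k2 fun z109 t109 g109 =>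
  addS g77 g78 fun z108 t108 g108 =>
  normS g108 fun z110 t110 g110 =>
  sqrS hε g110 fun z111 t111 g111 =>
  parS fun z25 t25 g25 =>
  mulS hε g54 g107 fun z112 t112 g112 =>
  mulS hε g25 g112 fun z113 t113 g113 =>
  addS g111 g113 fun z114 t114 g114 =>
  sqrtS hε g114 fun z115 t115 g115 =>
  addS g115 g108 fun z116 t116 g116 =>
  invS hε g116 fun z117 t117 g117 =>
  mulS hε g109 g117 fun z118 t118 g118 =>
  mulS hε g14 g118 fun z141 t141 g141 =>
  subS g138 g141 fun z142 t142 g142 =>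
  posS hε g142 <|
  parS fun z17 t17 g17 =>
  mulS hε h0 g17 fun z143 t143 g143 =>
  parS fun z18 t18 g18 =>
  subS g99 g120 fun z144 t144 g144 =>
  normS g144 fun z149 t149 g149 =>
  mulS hε g71 g78 fun z145 t145 g145 =>
  mulS hε g76 g77 fun z146 t146 g146 =>
  addS g145 g146 fun z147 t147 g147 =>
  invS hε g147 fun z148 t148 g148 =>
  mulS hε g149 g148 fun z150 t150 g150 =>
  mulS hε g18 g150 fun z151 t151 g151 =>
  addS g143 g151 fun z152 t152 g152 =>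
  parS fun z19 t19 g19 =>
  invS hε g79 fun z153 t153 g153 =>
  invS hε g108 fun z154 t154 g154 =>
  addcS g154 k4 fun z155 t155 g155 =>
  mulS hε h0 g155 fun z156 t156 g156 =>
  addS g153 g156 fun z157 t157 g157 =>
  normS g157 fun z158 t158 g158 =>
  mulS hε g19 g158 fun z159 t159 g159 =>
  addS g152 g159 fun z160 t160 g160 =>
  posS hε g160 <|
  parS fun z26 t26 g26 =>
  addS g85 g26 fun z193 t193 g193 =>
  normS g193 fun z194 t194 g194 =>
  normS g140 fun z170 t170 g170 =>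
  mulS hε g170 g31 fun z171 t171 g171 =>
  normS g142 fun z173 t173 g173 =>
  mulS hε g54 g59 fun z172 t172 g172 =>
  mulS hε g173 g172 fun z174 t174 g174 =>
  addS g171 g174 fun z175 t175 g175 =>
  smulS hε g160 k2 fun z176 t176 g176 =>
  subS g175 g176 fun z177 t177 g177 =>
  normS g177 fun z195 t195 g195 =>
  mulS hε g194 g195 fun z196 t196 g196 =>
  parS fun z15 t15 g15 =>
  mulS hε h0 g76 fun z161 t161 g161 =>
  smulS hε g161 k2 fun z162 t162 g162 =>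
  subS g75 g162 fun z163 t163 g163 =>
  addS g163 g68 fun z164 t164 g164 =>
  normS g164 fun z178 t178 g178 =>
  mulS hε g15 g178 fun z179 t179 g179 =>
  mulS hε g42 g71 fun z180 t180 g180 =>
  mulS hε g170 g180 fun z181 t181 g181 =>
  subS g179 g181 fun z182 t182 g182 =>
  normS g182 fun z183 t183 g183 =>
  mulS hε g76 g183 fun z184 t184 g184 =>
  parS fun z16 t16 g16 =>
  addcS h0 k5 fun z165 t165 g165 =>
  addcS h0 k1 fun z166 t166 g166 =>
  invS hε g166 fun z167 t167 g167 =>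
  mulS hε g165 g167 fun z168 t168 g168 =>
  mulS hε g71 g168 fun z169 t169 g169 =>
  mulS hε h0 g169 fun z185 t185 g185 =>
  mulS hε g16 g185 fun z186 t186 g186 =>
  mulS hε g55 g78 fun z187 t187 g187 =>
  mulS hε g173 g187 fun z188 t188 g188 =>
  subS g186 g188 fun z189 t189 g189 =>
  normS g189 fun z190 t190 g190 =>
  mulS hε g77 g190 fun z191 t191 g191 =>
  addS g184 g191 fun z192 t192 g192 =>
  normS g192 fun z197 t197 g197 =>
  mulS hε g20 g197 fun z198 t198 g198 =>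
  addS g196 g198 fun z199 t199 g199 =>
  posS hε g199 <|
  parS fun z23 t23 g23 =>
  mulS hε g23 g85 fun z200 t200 g200 =>
  mulS hε g200 g195 fun z201 t201 g201 =>
  mulS hε g21 g197 fun z202 t202 g202 =>
  addS g201 g202 fun z203 t203 g203 =>
  posS hε g203 <|
  fun _ => trivial

def g_Spec (Lp Lm Rn Rp c0 cs cd t0 t1 bh k1 jx jy ga u v : ℝ) : Prop :=
  ∃ x0 xu xv e0 e1 z0 zu zv f0 fu fv kx ex w46 w48 w47 w51 ey uu ky w62 w63 X0 u1 i1 X1 Ph P2 y0 y1 Q sx hh h2 Ex uh2 Wy Ey E zz sf af La ax Ax sy ay Ay q Hs n1 p0 Ps : ℝ,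
    kx = ((x0 + (xu * u)) + (xv * v)) ∧
    ex = (e0 + (e1 * kx)) ∧
    w46 = (ex - (kx ^ 2)) ∧
    w48 = (ex - (ex ^ 2)) ∧
    w47 = (t0 ^ 2) ∧
    0 ≤ (w46 + (w48 * w47)) ∧
    w51 = (t1 ^ 2) ∧
    0 ≤ (w46 + (w48 * w51)) ∧
    ey = ((f0 + (fu * u)) + (fv * v)) ∧
    uu = (u ^ 2) ∧
    ky = ((z0 + (zu * u)) + (zv * v)) ∧
    w62 = (ey - (uu * (ky ^ 2))) ∧
    w63 = (ey - (uu * (ey ^ 2))) ∧
    0 ≤ (w62 + (w63 * w47)) ∧
    0 ≤ (w62 + (w63 * w51)) ∧
    0 < (uu + (1 : ℝ)) ∧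
    X0 = ((2 : ℝ) * ((uu + (1 : ℝ))⁻¹)) ∧
    u1 = (v * u) ∧
    0 < ((u1 ^ 2) + (1 : ℝ)) ∧
    i1 = ((2 : ℝ) * (((u1 ^ 2) + (1 : ℝ))⁻¹)) ∧
    X1 = (v * i1) ∧
    Ph = (X0 * X1) ∧
    P2 = (uu * Ph) ∧
    y0 = (X0 + (-1 : ℝ)) ∧
    y1 = (i1 + (-1 : ℝ)) ∧
    Q = (y0 * y1) ∧
    sx = (X0 + X1) ∧
    hh = (bh * (sx * (X0 - X1))) ∧
    h2 = (hh ^ 2) ∧
    Ex = ((√((Ph ^ 2) + h2)) - Ph) ∧
    uh2 = (uu * h2) ∧
    Wy = (√((Q ^ 2) + (uu * uh2))) ∧
    0 < (Wy + Q) ∧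
    Ey = (uh2 * ((Wy + Q)⁻¹)) ∧
    E = (Ex + Ey) ∧
    zz = (((2 : ℝ) * (P2 + Q)) + (uu * E)) ∧
    sf = ((X0 * y0) + (X1 * y1)) ∧
    0 < ((√((sf ^ 2) + (E * zz))) + sf) ∧
    af = (zz * (((√((sf ^ 2) + (E * zz))) + sf)⁻¹)) ∧
    La = (Lp * af) ∧
    0 < ((√((sx ^ 2) + (jx * Ex))) + sx) ∧
    ax = ((2 : ℝ) * (((√((sx ^ 2) + (jx * Ex))) + sx)⁻¹)) ∧
    Ax = (La + (Lm * ax)) ∧
    0 ≤ Ax ∧
    sy = (y0 + y1) ∧
    0 < ((√((sy ^ 2) + (jy * (uu * Ey)))) + sy) ∧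
    ay = (((2 : ℝ) * u) * (((√((sy ^ 2) + (jy * (uu * Ey)))) + sy)⁻¹)) ∧
    Ay = (La - (Lm * ay)) ∧
    0 ≤ Ay ∧
    0 < ((X0 * y1) + (X1 * y0)) ∧
    0 < sx ∧
    0 < sy ∧
    q = (((u * c0) + (cs * ((Q - P2) * (((X0 * y1) + (X1 * y0))⁻¹)))) + (cd * ((sx⁻¹) + (u * ((sy⁻¹) + (-2 : ℝ)))))) ∧
    0 ≤ q ∧
    Hs = (((Ax * kx) + (Ay * (uu * ky))) - ((2 : ℝ) * q)) ∧
    n1 = ((i1 - ((2 : ℝ) * (u * X1))) + u1) ∧
    0 < (u + (1 : ℝ)) ∧
    p0 = (X0 * ((u + (3 : ℝ)) * ((u + (1 : ℝ))⁻¹))) ∧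
    Ps = ((X1 * ((Rn * n1) - (Ax * (ex * X0)))) + (y0 * ((Rp * (u * p0)) - (Ay * (ey * y1))))) ∧
    0 ≤ (((hh + ga) * Hs) + (t0 * Ps)) ∧
    0 ≤ (((k1 * hh) * Hs) + (t1 * Ps))

theorem g_E {gs ps : ℕ} {u v u2 u3 : ℝ} (h : g_R gs ps u v u2 u3) : g_Spec (parV gs 0) (parV gs 1) (parV gs 2) (parV gs 3) (parV gs 4) (parV gs 5) (parV gs 6) (parV gs 7) (parV gs 8) (parV gs 9) (parV gs 10) (parV gs 11) (parV gs 12) (parV gs 13) u v := by
  delta g_R at h
  exact letR_ex h fun x0 _ h =>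
  letR_ex h fun xu _ h =>
  letR_ex h fun xv _ h =>
  letR_ex h fun e0 _ h =>
  letR_ex h fun e1 _ h =>
  letR_ex h fun z0 _ h =>
  letR_ex h fun zu _ h =>
  letR_ex h fun zv _ h =>
  letR_ex h fun f0 _ h =>
  letR_ex h fun fu _ h =>
  letR_ex h fun fv _ h =>
  letR_in h fun h =>
  letR_in h fun h =>
  letR_in h fun h =>
  letR_ex h fun kx q1 h =>
  letR_in h fun h =>
  letR_in h fun h =>
  letR_ex h fun ex q2 h =>
  letR_in h fun h =>
  letR_ex h fun w46 q3 h =>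
  letR_in h fun h =>
  letR_in h fun h =>
  letR_in h fun h =>
  letR_ex h fun w48 q4 h =>
  letR_in h fun h =>
  letR_ex h fun w47 q5 h =>
  letR_in h fun h =>
  letR_in h fun h =>
  posR_ex h fun q6 h =>
  letR_in h fun h =>
  letR_ex h fun w51 q7 h =>
  letR_in h fun h =>
  letR_in h fun h =>
  posR_ex h fun q8 h =>
  letR_in h fun h =>
  letR_in h fun h =>
  letR_in h fun h =>
  letR_ex h fun ey q9 h =>
  letR_ex h fun uu q10 h =>
  letR_in h fun h =>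
  letR_in h fun h =>
  letR_in h fun h =>
  letR_ex h fun ky q11 h =>
  letR_in h fun h =>
  letR_in h fun h =>
  letR_in h fun h =>
  letR_ex h fun w62 q12 h =>
  letR_in h fun h =>
  letR_in h fun h =>
  letR_in h fun h =>
  letR_in h fun h =>
  letR_ex h fun w63 q13 h =>
  letR_in h fun h =>
  letR_in h fun h =>
  posR_ex h fun q14 h =>
  letR_in h fun h =>
  letR_in h fun h =>
  posR_ex h fun q15 h =>
  letR_in h fun h =>
  letR_in h fun h =>
  invR_ex h fun q16 h =>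
  letR_in h fun h =>
  letR_ex h fun X0 q17 h =>
  letR_ex h fun u1 q18 h =>
  letR_in h fun h =>
  letR_in h fun h =>
  invR_ex h fun q19 h =>
  letR_in h fun h =>
  letR_ex h fun i1 q20 h =>
  letR_ex h fun X1 q21 h =>
  letR_ex h fun Ph q22 h =>
  letR_ex h fun P2 q23 h =>
  letR_ex h fun y0 q24 h =>
  letR_ex h fun y1 q25 h =>
  letR_ex h fun Q q26 h =>
  letR_in h fun h =>
  letR_in h fun h =>
  letR_in h fun h =>
  letR_in h fun h =>
  letR_ex h fun sx q27 h =>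
  letR_in h fun h =>
  letR_in h fun h =>
  letR_in h fun h =>
  letR_in h fun h =>
  letR_ex h fun hh q28 h =>
  letR_ex h fun h2 q29 h =>
  letR_in h fun h =>
  letR_in h fun h =>
  letR_ex h fun Ex q30 h =>
  letR_ex h fun uh2 q31 h =>
  letR_in h fun h =>
  letR_in h fun h =>
  letR_in h fun h =>
  letR_ex h fun Wy q32 h =>
  letR_in h fun h =>
  invR_ex h fun q33 h =>
  letR_in h fun h =>
  letR_ex h fun Ey q34 h =>
  letR_ex h fun E q35 h =>
  letR_in h fun h =>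
  letR_in h fun h =>
  letR_ex h fun zz q36 h =>
  letR_in h fun h =>
  letR_in h fun h =>
  letR_in h fun h =>
  letR_ex h fun sf q37 h =>
  letR_in h fun h =>
  letR_in h fun h =>
  letR_in h fun h =>
  letR_in h fun h =>
  letR_in h fun h =>
  letR_in h fun h =>
  invR_ex h fun q38 h =>
  letR_in h fun h =>
  letR_ex h fun af q39 h =>
  letR_ex h fun La q40 h =>
  letR_in h fun h =>
  letR_in h fun h =>
  letR_in h fun h =>
  letR_in h fun h =>
  letR_in h fun h =>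
  letR_in h fun h =>
  letR_in h fun h =>
  letR_in h fun h =>
  invR_ex h fun q41 h =>
  letR_in h fun h =>
  letR_ex h fun ax q42 h =>
  letR_in h fun h =>
  letR_ex h fun Ax q43 h =>
  posR_ex h fun q44 h =>
  letR_in h fun h =>
  letR_ex h fun sy q45 h =>
  letR_in h fun h =>
  letR_in h fun h =>
  letR_in h fun h =>
  letR_in h fun h =>
  letR_in h fun h =>
  letR_in h fun h =>
  letR_in h fun h =>
  letR_in h fun h =>
  invR_ex h fun q46 h =>
  letR_in h fun h =>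
  letR_ex h fun ay q47 h =>
  letR_in h fun h =>
  letR_ex h fun Ay q48 h =>
  posR_ex h fun q49 h =>
  letR_in h fun h =>
  letR_in h fun h =>
  letR_in h fun h =>
  letR_in h fun h =>
  letR_in h fun h =>
  letR_in h fun h =>
  letR_in h fun h =>
  letR_in h fun h =>
  invR_ex h fun q50 h =>
  letR_in h fun h =>
  letR_in h fun h =>
  letR_in h fun h =>
  letR_in h fun h =>
  letR_in h fun h =>
  invR_ex h fun q51 h =>
  letR_in h fun h =>
  invR_ex h fun q52 h =>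
  letR_in h fun h =>
  letR_in h fun h =>
  letR_in h fun h =>
  letR_in h fun h =>
  letR_in h fun h =>
  letR_in h fun h =>
  letR_ex h fun q q53 h =>
  posR_ex h fun q54 h =>
  letR_in h fun h =>
  letR_in h fun h =>
  letR_in h fun h =>
  letR_in h fun h =>
  letR_in h fun h =>
  letR_in h fun h =>
  letR_in h fun h =>
  letR_in h fun h =>
  letR_in h fun h =>
  letR_in h fun h =>
  letR_ex h fun Hs q55 h =>
  letR_in h fun h =>
  letR_in h fun h =>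
  letR_in h fun h =>
  letR_in h fun h =>
  letR_in h fun h =>
  letR_in h fun h =>
  letR_ex h fun n1 q56 h =>
  letR_in h fun h =>
  letR_in h fun h =>
  letR_in h fun h =>
  letR_in h fun h =>
  letR_in h fun h =>
  letR_in h fun h =>
  letR_in h fun h =>
  letR_in h fun h =>
  letR_in h fun h =>
  letR_in h fun h =>
  invR_ex h fun q57 h =>
  letR_in h fun h =>
  letR_in h fun h =>
  letR_ex h fun p0 q58 h =>
  letR_in h fun h =>
  letR_in h fun h =>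
  letR_in h fun h =>
  letR_in h fun h =>
  letR_in h fun h =>
  letR_in h fun h =>
  letR_in h fun h =>
  letR_ex h fun Ps q59 h =>
  letR_in h fun h =>
  letR_in h fun h =>
  letR_in h fun h =>
  posR_ex h fun q60 h =>
  letR_in h fun h =>
  letR_in h fun h =>
  letR_in h fun h =>
  letR_in h fun h =>
  letR_in h fun h =>
  posR_ex h fun q61 h =>
  ⟨x0, xu, xv, e0, e1, z0, zu, zv, f0, fu, fv, kx, ex, w46, w48, w47, w51, ey, uu, ky, w62, w63, X0, u1, i1, X1, Ph, P2, y0, y1, Q, sx, hh, h2, Ex, uh2, Wy, Ey, E, zz, sf, af, La, ax, Ax, sy, ay, Ay, q, Hs, n1, p0, Ps, q1, q2, q3, q4, q5, q6, q7, q8, q9, q10, q11, q12, q13, q14, q15, q16, q17, q18, q19, q20, q21, q22, q23, q24, q25, q26, q27, q28, q29, q30, q31, q32, q33, q34, q35, q36, q37, q38, q39, q40, q41, q42, q43, q44, q45, q46, q47, q48, q49, q50, q51, q52, q53, q54, q55, q56, q57, q58, q59, q60, q61⟩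

def c_B (gs ps : ℕ) (x0 x1 x2 x3 : AF) : Bool :=
  parK ps 0 fun z2 =>
  parK ps 1 fun z3 =>
  parK ps 2 fun z4 =>
  parK ps 3 fun z5 =>
  sqrK z2 fun z24 =>
  subK z3 z24 fun z25 =>
  sqrK z3 fun z22 =>
  subK z3 z22 fun z23 =>
  normK z23 fun z27 =>
  parK gs 7 fun z13 =>
  sqrK z13 fun z26 =>
  mulK z27 z26 fun z28 =>
  addK z25 z28 fun z29 =>
  posK z29 <|
  parK gs 8 fun z14 =>
  sqrK z14 fun z30 =>
  mulK z27 z30 fun z31 =>
  addK z25 z31 fun z32 =>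
  posK z32 <|
  sqrK x0 fun z20 =>
  mulK z20 x0 fun z21 =>
  sqrK z4 fun z36 =>
  mulK z21 z36 fun z37 =>
  subK z5 z37 fun z38 =>
  sqrK z5 fun z33 =>
  mulK z21 z33 fun z34 =>
  subK z5 z34 fun z35 =>
  normK z35 fun z39 =>
  mulK z39 z26 fun z40 =>
  addK z38 z40 fun z41 =>
  posK z41 <|
  mulK z39 z30 fun z42 =>
  addK z38 z42 fun z43 =>
  posK z43 <|
  parK gs 0 fun z6 =>
  addcK z20 4722366764344621924352 0 fun z45 =>
  invK z45 fun z46 =>
  smulK z46 4722367045819598635008 fun z47 =>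
  mulK x1 x0 fun z44 =>
  sqrK z44 fun z48 =>
  addcK z48 4722366764344621924352 0 fun z49 =>
  invK z49 fun z50 =>
  smulK z50 4722367045819598635008 fun z51 =>
  mulK x1 z51 fun z52 =>
  mulK z47 z52 fun z56 =>
  mulK z20 z56 fun z96 =>
  addcK z47 4722366201394668503040 0 fun z53 =>
  addcK z51 4722366201394668503040 0 fun z54 =>
  mulK z53 z54 fun z75 =>
  addK z96 z75 fun z97 =>
  smulK z97 4722367045819598635008 fun z98 =>
  sqrK z56 fun z63 =>
  parK gs 9 fun z15 =>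
  addK z47 z52 fun z55 =>
  normK z55 fun z58 =>
  subK z47 z52 fun z57 =>
  normK z57 fun z59 =>
  mulK z58 z59 fun z60 =>
  mulK z15 z60 fun z61 =>
  sqrK z61 fun z62 =>
  addK z63 z62 fun z64 =>
  sqrtK z64 fun z65 =>
  subK z65 z56 fun z66 =>
  mulK z20 z62 fun z76 =>
  sqrK z75 fun z77 =>
  mulK z20 z76 fun z78 =>
  addK z77 z78 fun z79 =>
  sqrtK z79 fun z80 =>
  addK z80 z75 fun z81 =>
  invK z81 fun z82 =>
  mulK z76 z82 fun z83 =>
  addK z66 z83 fun z95 =>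
  normK z95 fun z99 =>
  mulK z20 z99 fun z100 =>
  addK z98 z100 fun z101 =>
  normK z101 fun z107 =>
  mulK z47 z53 fun z102 =>
  mulK z52 z54 fun z103 =>
  addK z102 z103 fun z104 =>
  normK z104 fun z105 =>
  sqrK z105 fun z106 =>
  mulK z99 z107 fun z108 =>
  addK z106 z108 fun z109 =>
  sqrtK z109 fun z110 =>
  addK z110 z104 fun z111 =>
  invK z111 fun z112 =>
  mulK z107 z112 fun z113 =>
  mulK z6 z113 fun z114 =>
  parK gs 1 fun z7 =>
  sqrK z58 fun z67 =>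
  parK gs 11 fun z17 =>
  normK z66 fun z68 =>
  mulK z17 z68 fun z69 =>
  addK z67 z69 fun z70 =>
  sqrtK z70 fun z71 =>
  addK z71 z55 fun z72 =>
  invK z72 fun z73 =>
  smulK z73 4722367045819598635008 fun z74 =>
  mulK z7 z74 fun z115 =>
  addK z114 z115 fun z116 =>
  posK z116 <|
  smulK x0 4722367045819598635008 fun z85 =>
  addK z53 z54 fun z84 =>
  normK z84 fun z86 =>
  sqrK z86 fun z87 =>
  parK gs 12 fun z18 =>
  mulK z20 z83 fun z88 =>
  mulK z18 z88 fun z89 =>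
  addK z87 z89 fun z90 =>
  sqrtK z90 fun z91 =>
  addK z91 z84 fun z92 =>
  invK z92 fun z93 =>
  mulK z85 z93 fun z94 =>
  mulK z7 z94 fun z117 =>
  subK z114 z117 fun z118 =>
  posK z118 <|
  parK gs 4 fun z10 =>
  mulK x0 z10 fun z119 =>
  parK gs 5 fun z11 =>
  subK z75 z96 fun z120 =>
  normK z120 fun z125 =>
  mulK z47 z54 fun z121 =>
  mulK z52 z53 fun z122 =>
  addK z121 z122 fun z123 =>
  invK z123 fun z124 =>
  mulK z125 z124 fun z126 =>
  mulK z11 z126 fun z127 =>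
  addK z119 z127 fun z128 =>
  parK gs 6 fun z12 =>
  invK z55 fun z129 =>
  invK z84 fun z130 =>
  addcK z130 4722365919919691792384 0 fun z131 =>
  mulK x0 z131 fun z132 =>
  addK z129 z132 fun z133 =>
  normK z133 fun z134 =>
  mulK z12 z134 fun z135 =>
  addK z128 z135 fun z136 =>
  posK z136 <|
  normK z116 fun z146 =>
  mulK z146 z2 fun z147 =>
  normK z118 fun z149 =>
  mulK z21 z4 fun z148 =>
  mulK z149 z148 fun z150 =>
  addK z147 z150 fun z151 =>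
  smulK z136 4722367045819598635008 fun z152 =>
  subK z151 z152 fun z153 =>
  posK z153 <|
  parK gs 2 fun z8 =>
  mulK x0 z52 fun z137 =>
  smulK z137 4722367045819598635008 fun z138 =>
  subK z51 z138 fun z139 =>
  addK z139 z44 fun z140 =>
  normK z140 fun z154 =>
  mulK z8 z154 fun z155 =>
  mulK z3 z47 fun z156 =>
  mulK z146 z156 fun z157 =>
  subK z155 z157 fun z158 =>
  posK z158 <|
  parK gs 3 fun z9 =>
  addcK x0 4722367327294575345664 0 fun z141 =>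
  addcK x0 4722366764344621924352 0 fun z142 =>
  invK z142 fun z143 =>
  mulK z141 z143 fun z144 =>
  mulK z47 z144 fun z145 =>
  mulK z9 z145 fun z159 =>
  mulK z5 z54 fun z160 =>
  mulK z149 z160 fun z161 =>
  subK z159 z161 fun z162 =>
  posK z162 <|
  true

def c_R (gs ps : ℕ) (u v u2 u3 : ℝ) : Prop :=
  letR (parV ps 0) fun z2 =>
  letR (parV ps 1) fun z3 =>
  letR (parV ps 2) fun z4 =>
  letR (parV ps 3) fun z5 =>
  letR (z2 ^ 2) fun z24 =>
  letR (z3 - z24) fun z25 =>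
  letR (z3 ^ 2) fun z22 =>
  letR (z3 - z22) fun z23 =>
  letR z23 fun z27 =>
  letR (parV gs 7) fun z13 =>
  letR (z13 ^ 2) fun z26 =>
  letR (z27 * z26) fun z28 =>
  letR (z25 + z28) fun z29 =>
  posR z29 <|
  letR (parV gs 8) fun z14 =>
  letR (z14 ^ 2) fun z30 =>
  letR (z27 * z30) fun z31 =>
  letR (z25 + z31) fun z32 =>
  posR z32 <|
  letR (u ^ 2) fun z20 =>
  letR (z20 * u) fun z21 =>
  letR (z4 ^ 2) fun z36 =>
  letR (z21 * z36) fun z37 =>
  letR (z5 - z37) fun z38 =>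
  letR (z5 ^ 2) fun z33 =>
  letR (z21 * z33) fun z34 =>
  letR (z5 - z34) fun z35 =>
  letR z35 fun z39 =>
  letR (z39 * z26) fun z40 =>
  letR (z38 + z40) fun z41 =>
  posR z41 <|
  letR (z39 * z30) fun z42 =>
  letR (z38 + z42) fun z43 =>
  posR z43 <|
  letR (parV gs 0) fun z6 =>
  letR (z20 + (1 : ℝ)) fun z45 =>
  invR z45 fun z46 =>
  letR ((2 : ℝ) * z46) fun z47 =>
  letR (v * u) fun z44 =>
  letR (z44 ^ 2) fun z48 =>
  letR (z48 + (1 : ℝ)) fun z49 =>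
  invR z49 fun z50 =>
  letR ((2 : ℝ) * z50) fun z51 =>
  letR (v * z51) fun z52 =>
  letR (z47 * z52) fun z56 =>
  letR (z20 * z56) fun z96 =>
  letR (z47 + (-1 : ℝ)) fun z53 =>
  letR (z51 + (-1 : ℝ)) fun z54 =>
  letR (z53 * z54) fun z75 =>
  letR (z96 + z75) fun z97 =>
  letR ((2 : ℝ) * z97) fun z98 =>
  letR (z56 ^ 2) fun z63 =>
  letR (parV gs 9) fun z15 =>
  letR (z47 + z52) fun z55 =>
  letR z55 fun z58 =>
  letR (z47 - z52) fun z57 =>
  letR z57 fun z59 =>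
  letR (z58 * z59) fun z60 =>
  letR (z15 * z60) fun z61 =>
  letR (z61 ^ 2) fun z62 =>
  letR (z63 + z62) fun z64 =>
  letR (√z64) fun z65 =>
  letR (z65 - z56) fun z66 =>
  letR (z20 * z62) fun z76 =>
  letR (z75 ^ 2) fun z77 =>
  letR (z20 * z76) fun z78 =>
  letR (z77 + z78) fun z79 =>
  letR (√z79) fun z80 =>
  letR (z80 + z75) fun z81 =>
  invR z81 fun z82 =>
  letR (z76 * z82) fun z83 =>
  letR (z66 + z83) fun z95 =>
  letR z95 fun z99 =>
  letR (z20 * z99) fun z100 =>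
  letR (z98 + z100) fun z101 =>
  letR z101 fun z107 =>
  letR (z47 * z53) fun z102 =>
  letR (z52 * z54) fun z103 =>
  letR (z102 + z103) fun z104 =>
  letR z104 fun z105 =>
  letR (z105 ^ 2) fun z106 =>
  letR (z99 * z107) fun z108 =>
  letR (z106 + z108) fun z109 =>
  letR (√z109) fun z110 =>
  letR (z110 + z104) fun z111 =>
  invR z111 fun z112 =>
  letR (z107 * z112) fun z113 =>
  letR (z6 * z113) fun z114 =>
  letR (parV gs 1) fun z7 =>
  letR (z58 ^ 2) fun z67 =>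
  letR (parV gs 11) fun z17 =>
  letR z66 fun z68 =>
  letR (z17 * z68) fun z69 =>
  letR (z67 + z69) fun z70 =>
  letR (√z70) fun z71 =>
  letR (z71 + z55) fun z72 =>
  invR z72 fun z73 =>
  letR ((2 : ℝ) * z73) fun z74 =>
  letR (z7 * z74) fun z115 =>
  letR (z114 + z115) fun z116 =>
  posR z116 <|
  letR ((2 : ℝ) * u) fun z85 =>
  letR (z53 + z54) fun z84 =>
  letR z84 fun z86 =>
  letR (z86 ^ 2) fun z87 =>
  letR (parV gs 12) fun z18 =>
  letR (z20 * z83) fun z88 =>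
  letR (z18 * z88) fun z89 =>
  letR (z87 + z89) fun z90 =>
  letR (√z90) fun z91 =>
  letR (z91 + z84) fun z92 =>
  invR z92 fun z93 =>
  letR (z85 * z93) fun z94 =>
  letR (z7 * z94) fun z117 =>
  letR (z114 - z117) fun z118 =>
  posR z118 <|
  letR (parV gs 4) fun z10 =>
  letR (u * z10) fun z119 =>
  letR (parV gs 5) fun z11 =>
  letR (z75 - z96) fun z120 =>
  letR z120 fun z125 =>
  letR (z47 * z54) fun z121 =>
  letR (z52 * z53) fun z122 =>
  letR (z121 + z122) fun z123 =>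
  invR z123 fun z124 =>
  letR (z125 * z124) fun z126 =>
  letR (z11 * z126) fun z127 =>
  letR (z119 + z127) fun z128 =>
  letR (parV gs 6) fun z12 =>
  invR z55 fun z129 =>
  invR z84 fun z130 =>
  letR (z130 + (-2 : ℝ)) fun z131 =>
  letR (u * z131) fun z132 =>
  letR (z129 + z132) fun z133 =>
  letR z133 fun z134 =>
  letR (z12 * z134) fun z135 =>
  letR (z128 + z135) fun z136 =>
  posR z136 <|
  letR z116 fun z146 =>
  letR (z146 * z2) fun z147 =>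
  letR z118 fun z149 =>
  letR (z21 * z4) fun z148 =>
  letR (z149 * z148) fun z150 =>
  letR (z147 + z150) fun z151 =>
  letR ((2 : ℝ) * z136) fun z152 =>
  letR (z151 - z152) fun z153 =>
  posR z153 <|
  letR (parV gs 2) fun z8 =>
  letR (u * z52) fun z137 =>
  letR ((2 : ℝ) * z137) fun z138 =>
  letR (z51 - z138) fun z139 =>
  letR (z139 + z44) fun z140 =>
  letR z140 fun z154 =>
  letR (z8 * z154) fun z155 =>
  letR (z3 * z47) fun z156 =>
  letR (z146 * z156) fun z157 =>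
  letR (z155 - z157) fun z158 =>
  posR z158 <|
  letR (parV gs 3) fun z9 =>
  letR (u + (3 : ℝ)) fun z141 =>
  letR (u + (1 : ℝ)) fun z142 =>
  invR z142 fun z143 =>
  letR (z141 * z143) fun z144 =>
  letR (z47 * z144) fun z145 =>
  letR (z9 * z145) fun z159 =>
  letR (z5 * z54) fun z160 =>
  letR (z149 * z160) fun z161 =>
  letR (z159 - z161) fun z162 =>
  posR z162 <|
  True

theorem c_S {ε : Fin 4 → ℝ} (gs : ℕ) (hε : ∀ i, |ε i| ≤ 1) (ps : ℕ) (x0 x1 x2 x3 : AF) (u v u2 u3 : ℝ)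
    (h0 : Rel ε x0 u) (h1 : Rel ε x1 v) (h2 : Rel ε x2 u2) (h3 : Rel ε x3 u3) :
    c_B gs ps x0 x1 x2 x3 = true → c_R gs ps u v u2 u3 := by
  delta c_B c_R
  exact parS fun z2 t2 g2 =>
  parS fun z3 t3 g3 =>
  parS fun z4 t4 g4 =>
  parS fun z5 t5 g5 =>
  sqrS hε g2 fun z24 t24 g24 =>
  subS g3 g24 fun z25 t25 g25 =>
  sqrS hε g3 fun z22 t22 g22 =>
  subS g3 g22 fun z23 t23 g23 =>
  normS g23 fun z27 t27 g27 =>
  parS fun z13 t13 g13 =>
  sqrS hε g13 fun z26 t26 g26 =>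
  mulS hε g27 g26 fun z28 t28 g28 =>
  addS g25 g28 fun z29 t29 g29 =>
  posS hε g29 <|
  parS fun z14 t14 g14 =>
  sqrS hε g14 fun z30 t30 g30 =>
  mulS hε g27 g30 fun z31 t31 g31 =>
  addS g25 g31 fun z32 t32 g32 =>
  posS hε g32 <|
  sqrS hε h0 fun z20 t20 g20 =>
  mulS hε g20 h0 fun z21 t21 g21 =>
  sqrS hε g4 fun z36 t36 g36 =>
  mulS hε g21 g36 fun z37 t37 g37 =>
  subS g5 g37 fun z38 t38 g38 =>
  sqrS hε g5 fun z33 t33 g33 =>
  mulS hε g21 g33 fun z34 t34 g34 =>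
  subS g5 g34 fun z35 t35 g35 =>
  normS g35 fun z39 t39 g39 =>
  mulS hε g39 g26 fun z40 t40 g40 =>
  addS g38 g40 fun z41 t41 g41 =>
  posS hε g41 <|
  mulS hε g39 g30 fun z42 t42 g42 =>
  addS g38 g42 fun z43 t43 g43 =>
  posS hε g43 <|
  parS fun z6 t6 g6 =>
  addcS g20 k1 fun z45 t45 g45 =>
  invS hε g45 fun z46 t46 g46 =>
  smulS hε g46 k2 fun z47 t47 g47 =>
  mulS hε h1 h0 fun z44 t44 g44 =>
  sqrS hε g44 fun z48 t48 g48 =>
  addcS g48 k1 fun z49 t49 g49 =>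
  invS hε g49 fun z50 t50 g50 =>
  smulS hε g50 k2 fun z51 t51 g51 =>
  mulS hε h1 g51 fun z52 t52 g52 =>
  mulS hε g47 g52 fun z56 t56 g56 =>
  mulS hε g20 g56 fun z96 t96 g96 =>
  addcS g47 k3 fun z53 t53 g53 =>
  addcS g51 k3 fun z54 t54 g54 =>
  mulS hε g53 g54 fun z75 t75 g75 =>
  addS g96 g75 fun z97 t97 g97 =>
  smulS hε g97 k2 fun z98 t98 g98 =>
  sqrS hε g56 fun z63 t63 g63 =>
  parS fun z15 t15 g15 =>
  addS g47 g52 fun z55 t55 g55 =>
  normS g55 fun z58 t58 g58 =>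
  subS g47 g52 fun z57 t57 g57 =>
  normS g57 fun z59 t59 g59 =>
  mulS hε g58 g59 fun z60 t60 g60 =>
  mulS hε g15 g60 fun z61 t61 g61 =>
  sqrS hε g61 fun z62 t62 g62 =>
  addS g63 g62 fun z64 t64 g64 =>
  sqrtS hε g64 fun z65 t65 g65 =>
  subS g65 g56 fun z66 t66 g66 =>
  mulS hε g20 g62 fun z76 t76 g76 =>
  sqrS hε g75 fun z77 t77 g77 =>
  mulS hε g20 g76 fun z78 t78 g78 =>
  addS g77 g78 fun z79 t79 g79 =>
  sqrtS hε g79 fun z80 t80 g80 =>
  addS g80 g75 fun z81 t81 g81 =>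
  invS hε g81 fun z82 t82 g82 =>
  mulS hε g76 g82 fun z83 t83 g83 =>
  addS g66 g83 fun z95 t95 g95 =>
  normS g95 fun z99 t99 g99 =>
  mulS hε g20 g99 fun z100 t100 g100 =>
  addS g98 g100 fun z101 t101 g101 =>
  normS g101 fun z107 t107 g107 =>
  mulS hε g47 g53 fun z102 t102 g102 =>
  mulS hε g52 g54 fun z103 t103 g103 =>
  addS g102 g103 fun z104 t104 g104 =>
  normS g104 fun z105 t105 g105 =>
  sqrS hε g105 fun z106 t106 g106 =>
  mulS hε g99 g107 fun z108 t108 g108 =>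
  addS g106 g108 fun z109 t109 g109 =>
  sqrtS hε g109 fun z110 t110 g110 =>
  addS g110 g104 fun z111 t111 g111 =>
  invS hε g111 fun z112 t112 g112 =>
  mulS hε g107 g112 fun z113 t113 g113 =>
  mulS hε g6 g113 fun z114 t114 g114 =>
  parS fun z7 t7 g7 =>
  sqrS hε g58 fun z67 t67 g67 =>
  parS fun z17 t17 g17 =>
  normS g66 fun z68 t68 g68 =>
  mulS hε g17 g68 fun z69 t69 g69 =>
  addS g67 g69 fun z70 t70 g70 =>
  sqrtS hε g70 fun z71 t71 g71 =>
  addS g71 g55 fun z72 t72 g72 =>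
  invS hε g72 fun z73 t73 g73 =>
  smulS hε g73 k2 fun z74 t74 g74 =>
  mulS hε g7 g74 fun z115 t115 g115 =>
  addS g114 g115 fun z116 t116 g116 =>
  posS hε g116 <|
  smulS hε h0 k2 fun z85 t85 g85 =>
  addS g53 g54 fun z84 t84 g84 =>
  normS g84 fun z86 t86 g86 =>
  sqrS hε g86 fun z87 t87 g87 =>
  parS fun z18 t18 g18 =>
  mulS hε g20 g83 fun z88 t88 g88 =>
  mulS hε g18 g88 fun z89 t89 g89 =>
  addS g87 g89 fun z90 t90 g90 =>
  sqrtS hε g90 fun z91 t91 g91 =>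
  addS g91 g84 fun z92 t92 g92 =>
  invS hε g92 fun z93 t93 g93 =>
  mulS hε g85 g93 fun z94 t94 g94 =>
  mulS hε g7 g94 fun z117 t117 g117 =>
  subS g114 g117 fun z118 t118 g118 =>
  posS hε g118 <|
  parS fun z10 t10 g10 =>
  mulS hε h0 g10 fun z119 t119 g119 =>
  parS fun z11 t11 g11 =>
  subS g75 g96 fun z120 t120 g120 =>
  normS g120 fun z125 t125 g125 =>
  mulS hε g47 g54 fun z121 t121 g121 =>
  mulS hε g52 g53 fun z122 t122 g122 =>
  addS g121 g122 fun z123 t123 g123 =>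
  invS hε g123 fun z124 t124 g124 =>
  mulS hε g125 g124 fun z126 t126 g126 =>
  mulS hε g11 g126 fun z127 t127 g127 =>
  addS g119 g127 fun z128 t128 g128 =>
  parS fun z12 t12 g12 =>
  invS hε g55 fun z129 t129 g129 =>
  invS hε g84 fun z130 t130 g130 =>
  addcS g130 k4 fun z131 t131 g131 =>
  mulS hε h0 g131 fun z132 t132 g132 =>
  addS g129 g132 fun z133 t133 g133 =>
  normS g133 fun z134 t134 g134 =>
  mulS hε g12 g134 fun z135 t135 g135 =>
  addS g128 g135 fun z136 t136 g136 =>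
  posS hε g136 <|
  normS g116 fun z146 t146 g146 =>
  mulS hε g146 g2 fun z147 t147 g147 =>
  normS g118 fun z149 t149 g149 =>
  mulS hε g21 g4 fun z148 t148 g148 =>
  mulS hε g149 g148 fun z150 t150 g150 =>
  addS g147 g150 fun z151 t151 g151 =>
  smulS hε g136 k2 fun z152 t152 g152 =>
  subS g151 g152 fun z153 t153 g153 =>
  posS hε g153 <|
  parS fun z8 t8 g8 =>
  mulS hε h0 g52 fun z137 t137 g137 =>
  smulS hε g137 k2 fun z138 t138 g138 =>
  subS g51 g138 fun z139 t139 g139 =>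
  addS g139 g44 fun z140 t140 g140 =>
  normS g140 fun z154 t154 g154 =>
  mulS hε g8 g154 fun z155 t155 g155 =>
  mulS hε g3 g47 fun z156 t156 g156 =>
  mulS hε g146 g156 fun z157 t157 g157 =>
  subS g155 g157 fun z158 t158 g158 =>
  posS hε g158 <|
  parS fun z9 t9 g9 =>
  addcS h0 k5 fun z141 t141 g141 =>
  addcS h0 k1 fun z142 t142 g142 =>
  invS hε g142 fun z143 t143 g143 =>
  mulS hε g141 g143 fun z144 t144 g144 =>
  mulS hε g47 g144 fun z145 t145 g145 =>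
  mulS hε g9 g145 fun z159 t159 g159 =>
  mulS hε g5 g54 fun z160 t160 g160 =>
  mulS hε g149 g160 fun z161 t161 g161 =>
  subS g159 g161 fun z162 t162 g162 =>
  posS hε g162 <|
  fun _ => trivial

def c_Spec (Lp Lm Rn Rp c0 cs cd t0 t1 bh k1 jx jy ga u v : ℝ) : Prop :=
  ∃ kx ex ky ey w25 w27 w26 w30 uu uuu w38 w39 X0 u1 i1 X1 Ph P2 y0 y1 Q sx hh h2 Ex uh2 Wy Ey E zz sf af La ax Ax sy ay Ay q n1 p0 : ℝ,
    w25 = (ex - (kx ^ 2)) ∧
    w27 = (ex - (ex ^ 2)) ∧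
    w26 = (t0 ^ 2) ∧
    0 ≤ (w25 + (w27 * w26)) ∧
    w30 = (t1 ^ 2) ∧
    0 ≤ (w25 + (w27 * w30)) ∧
    uu = (u ^ 2) ∧
    uuu = (uu * u) ∧
    w38 = (ey - (uuu * (ky ^ 2))) ∧
    w39 = (ey - (uuu * (ey ^ 2))) ∧
    0 ≤ (w38 + (w39 * w26)) ∧
    0 ≤ (w38 + (w39 * w30)) ∧
    0 < (uu + (1 : ℝ)) ∧
    X0 = ((2 : ℝ) * ((uu + (1 : ℝ))⁻¹)) ∧
    u1 = (v * u) ∧
    0 < ((u1 ^ 2) + (1 : ℝ)) ∧
    i1 = ((2 : ℝ) * (((u1 ^ 2) + (1 : ℝ))⁻¹)) ∧
    X1 = (v * i1) ∧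
    Ph = (X0 * X1) ∧
    P2 = (uu * Ph) ∧
    y0 = (X0 + (-1 : ℝ)) ∧
    y1 = (i1 + (-1 : ℝ)) ∧
    Q = (y0 * y1) ∧
    sx = (X0 + X1) ∧
    hh = (bh * (sx * (X0 - X1))) ∧
    h2 = (hh ^ 2) ∧
    Ex = ((√((Ph ^ 2) + h2)) - Ph) ∧
    uh2 = (uu * h2) ∧
    Wy = (√((Q ^ 2) + (uu * uh2))) ∧
    0 < (Wy + Q) ∧
    Ey = (uh2 * ((Wy + Q)⁻¹)) ∧
    E = (Ex + Ey) ∧
    zz = (((2 : ℝ) * (P2 + Q)) + (uu * E)) ∧
    sf = ((X0 * y0) + (X1 * y1)) ∧
    0 < ((√((sf ^ 2) + (E * zz))) + sf) ∧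
    af = (zz * (((√((sf ^ 2) + (E * zz))) + sf)⁻¹)) ∧
    La = (Lp * af) ∧
    0 < ((√((sx ^ 2) + (jx * Ex))) + sx) ∧
    ax = ((2 : ℝ) * (((√((sx ^ 2) + (jx * Ex))) + sx)⁻¹)) ∧
    Ax = (La + (Lm * ax)) ∧
    0 ≤ Ax ∧
    sy = (y0 + y1) ∧
    0 < ((√((sy ^ 2) + (jy * (uu * Ey)))) + sy) ∧
    ay = (((2 : ℝ) * u) * (((√((sy ^ 2) + (jy * (uu * Ey)))) + sy)⁻¹)) ∧
    Ay = (La - (Lm * ay)) ∧
    0 ≤ Ay ∧
    0 < ((X0 * y1) + (X1 * y0)) ∧
    0 < sx ∧
    0 < sy ∧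
    q = (((u * c0) + (cs * ((Q - P2) * (((X0 * y1) + (X1 * y0))⁻¹)))) + (cd * ((sx⁻¹) + (u * ((sy⁻¹) + (-2 : ℝ)))))) ∧
    0 ≤ q ∧
    0 ≤ (((Ax * kx) + (Ay * (uuu * ky))) - ((2 : ℝ) * q)) ∧
    n1 = ((i1 - ((2 : ℝ) * (u * X1))) + u1) ∧
    0 ≤ ((Rn * n1) - (Ax * (ex * X0))) ∧
    0 < (u + (1 : ℝ)) ∧
    p0 = (X0 * ((u + (3 : ℝ)) * ((u + (1 : ℝ))⁻¹))) ∧
    0 ≤ ((Rp * p0) - (Ay * (ey * y1)))

theorem c_E {gs ps : ℕ} {u v u2 u3 : ℝ} (h : c_R gs ps u v u2 u3) : c_Spec (parV gs 0) (parV gs 1) (parV gs 2) (parV gs 3) (parV gs 4) (parV gs 5) (parV gs 6) (parV gs 7) (parV gs 8) (parV gs 9) (parV gs 10) (parV gs 11) (parV gs 12) (parV gs 13) u v := by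
  delta c_R at h
  exact letR_ex h fun kx _ h =>
  letR_ex h fun ex _ h =>
  letR_ex h fun ky _ h =>
  letR_ex h fun ey _ h =>
  letR_in h fun h =>
  letR_ex h fun w25 q1 h =>
  letR_in h fun h =>
  letR_in h fun h =>
  letR_ex h fun w27 q2 h =>
  letR_in h fun h =>
  letR_ex h fun w26 q3 h =>
  letR_in h fun h =>
  letR_in h fun h =>
  posR_ex h fun q4 h =>
  letR_in h fun h =>
  letR_ex h fun w30 q5 h =>
  letR_in h fun h =>
  letR_in h fun h =>
  posR_ex h fun q6 h =>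
  letR_ex h fun uu q7 h =>
  letR_ex h fun uuu q8 h =>
  letR_in h fun h =>
  letR_in h fun h =>
  letR_ex h fun w38 q9 h =>
  letR_in h fun h =>
  letR_in h fun h =>
  letR_in h fun h =>
  letR_ex h fun w39 q10 h =>
  letR_in h fun h =>
  letR_in h fun h =>
  posR_ex h fun q11 h =>
  letR_in h fun h =>
  letR_in h fun h =>
  posR_ex h fun q12 h =>
  letR_in h fun h =>
  letR_in h fun h =>
  invR_ex h fun q13 h =>
  letR_in h fun h =>
  letR_ex h fun X0 q14 h =>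
  letR_ex h fun u1 q15 h =>
  letR_in h fun h =>
  letR_in h fun h =>
  invR_ex h fun q16 h =>
  letR_in h fun h =>
  letR_ex h fun i1 q17 h =>
  letR_ex h fun X1 q18 h =>
  letR_ex h fun Ph q19 h =>
  letR_ex h fun P2 q20 h =>
  letR_ex h fun y0 q21 h =>
  letR_ex h fun y1 q22 h =>
  letR_ex h fun Q q23 h =>
  letR_in h fun h =>
  letR_in h fun h =>
  letR_in h fun h =>
  letR_in h fun h =>
  letR_ex h fun sx q24 h =>
  letR_in h fun h =>
  letR_in h fun h =>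
  letR_in h fun h =>
  letR_in h fun h =>
  letR_ex h fun hh q25 h =>
  letR_ex h fun h2 q26 h =>
  letR_in h fun h =>
  letR_in h fun h =>
  letR_ex h fun Ex q27 h =>
  letR_ex h fun uh2 q28 h =>
  letR_in h fun h =>
  letR_in h fun h =>
  letR_in h fun h =>
  letR_ex h fun Wy q29 h =>
  letR_in h fun h =>
  invR_ex h fun q30 h =>
  letR_in h fun h =>
  letR_ex h fun Ey q31 h =>
  letR_ex h fun E q32 h =>
  letR_in h fun h =>
  letR_in h fun h =>
  letR_ex h fun zz q33 h =>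
  letR_in h fun h =>
  letR_in h fun h =>
  letR_in h fun h =>
  letR_ex h fun sf q34 h =>
  letR_in h fun h =>
  letR_in h fun h =>
  letR_in h fun h =>
  letR_in h fun h =>
  letR_in h fun h =>
  letR_in h fun h =>
  invR_ex h fun q35 h =>
  letR_in h fun h =>
  letR_ex h fun af q36 h =>
  letR_ex h fun La q37 h =>
  letR_in h fun h =>
  letR_in h fun h =>
  letR_in h fun h =>
  letR_in h fun h =>
  letR_in h fun h =>
  letR_in h fun h =>
  letR_in h fun h =>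
  letR_in h fun h =>
  invR_ex h fun q38 h =>
  letR_in h fun h =>
  letR_ex h fun ax q39 h =>
  letR_in h fun h =>
  letR_ex h fun Ax q40 h =>
  posR_ex h fun q41 h =>
  letR_in h fun h =>
  letR_ex h fun sy q42 h =>
  letR_in h fun h =>
  letR_in h fun h =>
  letR_in h fun h =>
  letR_in h fun h =>
  letR_in h fun h =>
  letR_in h fun h =>
  letR_in h fun h =>
  letR_in h fun h =>
  invR_ex h fun q43 h =>
  letR_in h fun h =>
  letR_ex h fun ay q44 h =>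
  letR_in h fun h =>
  letR_ex h fun Ay q45 h =>
  posR_ex h fun q46 h =>
  letR_in h fun h =>
  letR_in h fun h =>
  letR_in h fun h =>
  letR_in h fun h =>
  letR_in h fun h =>
  letR_in h fun h =>
  letR_in h fun h =>
  letR_in h fun h =>
  invR_ex h fun q47 h =>
  letR_in h fun h =>
  letR_in h fun h =>
  letR_in h fun h =>
  letR_in h fun h =>
  letR_in h fun h =>
  invR_ex h fun q48 h =>
  letR_in h fun h =>
  invR_ex h fun q49 h =>
  letR_in h fun h =>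
  letR_in h fun h =>
  letR_in h fun h =>
  letR_in h fun h =>
  letR_in h fun h =>
  letR_in h fun h =>
  letR_ex h fun q q50 h =>
  posR_ex h fun q51 h =>
  letR_in h fun h =>
  letR_in h fun h =>
  letR_in h fun h =>
  letR_in h fun h =>
  letR_in h fun h =>
  letR_in h fun h =>
  letR_in h fun h =>
  letR_in h fun h =>
  posR_ex h fun q52 h =>
  letR_in h fun h =>
  letR_in h fun h =>
  letR_in h fun h =>
  letR_in h fun h =>
  letR_ex h fun n1 q53 h =>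
  letR_in h fun h =>
  letR_in h fun h =>
  letR_in h fun h =>
  letR_in h fun h =>
  letR_in h fun h =>
  posR_ex h fun q54 h =>
  letR_in h fun h =>
  letR_in h fun h =>
  letR_in h fun h =>
  invR_ex h fun q55 h =>
  letR_in h fun h =>
  letR_in h fun h =>
  letR_ex h fun p0 q56 h =>
  letR_in h fun h =>
  letR_in h fun h =>
  letR_in h fun h =>
  letR_in h fun h =>
  posR_ex h fun q57 h =>
  ⟨kx, ex, ky, ey, w25, w27, w26, w30, uu, uuu, w38, w39, X0, u1, i1, X1, Ph, P2, y0, y1, Q, sx, hh, h2, Ex, uh2, Wy, Ey, E, zz, sf, af, La, ax, Ax, sy, ay, Ay, q, n1, p0, q1, q2, q3, q4, q5, q6, q7, q8, q9, q10, q11, q12, q13, q14, q15, q16, q17, q18, q19, q20, q21, q22, q23, q24, q25, q26, q27, q28, q29, q30, q31, q32, q33, q34, q35, q36, q37, q38, q39, q40, q41, q42, q43, q44, q45, q46, q47, q48, q49, q50, q51, q52, q53, q54, q55, q56, q57⟩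

def PB (gs : ℕ) : Prog := fun j ps x0 x1 x2 x3 =>
  Nat.rec (motive := fun _ => Bool) (x_B gs ps x0 x1 x2 x3) (fun j _ => Nat.rec (motive := fun _ => Bool) (g_B gs ps x0 x1 x2 x3) (fun j _ => c_B gs ps x0 x1 x2 x3) j) j

def PR (gs : ℕ) : ℕ → ℕ → ℝ → ℝ → ℝ → ℝ → Prop := fun j ps u v u2 u3 =>
  Nat.rec (motive := fun _ => Prop) (x_R gs ps u v u2 u3) (fun j _ => Nat.rec (motive := fun _ => Prop) (g_R gs ps u v u2 u3) (fun j _ => c_R gs ps u v u2 u3) j) j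

theorem PS (gs : ℕ) : Sound (PB gs) (PR gs) := fun _ hε j => match j with
  | 0 => x_S gs hε
  | 1 => g_S gs hε
  | _ + 2 => c_S gs hε

theorem PE {j gs ps : ℕ} {u v u2 u3 : ℝ} : PR gs j ps u v u2 u3 → x_Spec (parV gs 0) (parV gs 1) (parV gs 2) (parV gs 3) (parV gs 4) (parV gs 5) (parV gs 6) (parV gs 7) (parV gs 8) (parV gs 9) (parV gs 10) (parV gs 11) (parV gs 12) (parV gs 13) u v ∨ g_Spec (parV gs 0) (parV gs 1) (parV gs 2) (parV gs 3) (parV gs 4) (parV gs 5) (parV gs 6) (parV gs 7) (parV gs 8) (parV gs 9) (parV gs 10) (parV gs 11) (parV gs 12) (parV gs 13) u v ∨ c_Spec (parV gs 0) (parV gs 1) (parV gs 2) (parV gs 3) (parV gs 4) (parV gs 5) (parV gs 6) (parV gs 7) (parV gs 8) (parV gs 9) (parV gs 10) (parV gs 11) (parV gs 12) (parV gs 13) u v := match j with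
  | 0 => fun h => Or.inl (@x_E gs ps u v u2 u3 h)
  | 1 => fun h => Or.inr (Or.inl (@g_E gs ps u v u2 u3 h))
  | _ + 2 => fun h => Or.inr (Or.inr (@c_E gs ps u v u2 u3 h))

theorem of_good {gs l0 h0 l1 h1 l2 h2 l3 h3 : ℕ} (h : Good (PR gs) l0 h0 l1 h1 l2 h2 l3 h3) {u v u2 u3 : ℝ}
    (hb : InBox l0 h0 l1 h1 l2 h2 l3 h3 u v u2 u3) : x_Spec (parV gs 0) (parV gs 1) (parV gs 2) (parV gs 3) (parV gs 4) (parV gs 5) (parV gs 6) (parV gs 7) (parV gs 8) (parV gs 9) (parV gs 10) (parV gs 11) (parV gs 12) (parV gs 13) u v ∨ g_Spec (parV gs 0) (parV gs 1) (parV gs 2) (parV gs 3) (parV gs 4) (parV gs 5) (parV gs 6) (parV gs 7) (parV gs 8) (parV gs 9) (parV gs 10) (parV gs 11) (parV gs 12) (parV gs 13) u v ∨ c_Spec (parV gs 0) (parV gs 1) (parV gs 2) (parV gs 3) (parV gs 4) (parV gs 5) (parV gs 6) (parV gs 7) (parV gs 8) (parV gs 9) (parV gs 10) (parV gs 11) (parV gs 12) (parV gs 13) u v := by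
  obtain ⟨j, ps, h⟩ := h u v u2 u3 hb
  exact PE h

def l0 : Tree := Tree.leaf 0
def l1 : Tree := Tree.leaf 1
def l2 : Tree := Tree.leaf 2

end

end Crest.Agent.R307.LM
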