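import Crest.Agent.R307.LCore
import Crest.Agent.R307.LMP

/-! Row 307, low-noise step: from the numerical specification (`LMP.lean`, generated) to a half-valid member. -/

set_option autoImplicit false

namespace Crest.Agent.R307

theorem ch_sq_le {a b : ℝ} (ha : 0 ≤ a) (hb : 0 ≤ b) (h : a ^ 2 ≤ b ^ 2) : a ≤ b :=
  (pow_le_pow_iff_left₀ ha hb two_ne_zero).1 h

/-- the two end rays `(hh, t0)`, `(k1 hh, t1)` span the rectangle (cases on the signs of `Hs`, `Ps`) -/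
theorem ch_rect {hh Hs Ps t t0 t1 k1 θ ga : ℝ} (hh0 : 0 ≤ hh) (ht0 : 0 ≤ t0) (ht : t0 ≤ t) (ht' : t ≤ t1)
    (ht1 : 0 < t1) (hk1 : 0 ≤ k1) (hθ : k1 ≤ θ) (hθ' : θ ≤ 1) (hga : ga = 0 ∨ (t0 = 0 ∧ 0 < ga))
    (c1 : 0 ≤ (hh + ga) * Hs + t0 * Ps) (c2 : 0 ≤ k1 * hh * Hs + t1 * Ps) :
    0 ≤ θ * hh * Hs + t * Ps := by
  rcases le_total 0 Hs with hH | hH
  · have h1 : k1 * hh * Hs ≤ θ * hh * Hs := by gcongr
    have h2 : 0 ≤ k1 * hh * Hs := by positivity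
    rcases le_total 0 Ps with hP | hP
    · have : 0 ≤ t * Ps := mul_nonneg (ht0.trans ht) hP
      linarith
    · have := mul_le_mul_of_nonpos_right ht' hP
      linarith
  · have h1 : hh * Hs ≤ θ * hh * Hs := by
      have := mul_nonneg (sub_nonneg.2 hθ') (mul_nonneg hh0 (neg_nonneg.2 hH))
      linarith
    have h2 : k1 * hh * Hs ≤ 0 := mul_nonpos_of_nonneg_of_nonpos (by positivity) hH
    have hP : 0 ≤ Ps := nonneg_of_mul_nonneg_right (by linarith) ht1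
    have h3 := mul_le_mul_of_nonneg_right ht hP
    rcases hga with rfl | ⟨rfl, hg⟩
    · rw [add_zero] at c1
      linarith
    · have h4 : 0 ≤ Hs := nonneg_of_mul_nonneg_right (a := hh + ga) (by linarith) (by linarith)
      have h5 : 0 ≤ θ * hh * Hs := mul_nonneg (mul_nonneg (hk1.trans hθ) hh0) h4
      linarith

theorem ch_sqrt {u : ℝ} (hu : 0 < u) (σ w : ℝ) :
    √((u * σ) ^ 2 + u ^ 2 * w) + u * σ = u * (√(σ ^ 2 + w) + σ) := by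
  rw [mul_pow, ← mul_add, Real.sqrt_mul (sq_nonneg _), Real.sqrt_sq hu.le, mul_add]

theorem ch_aff {a b t t0 t1 : ℝ} (ht0 : 0 ≤ t0) (ht : t0 ≤ t) (ht' : t ≤ t1)
    (h0 : 0 ≤ a + b * t0 ^ 2) (h1 : 0 ≤ a + b * t1 ^ 2) : 0 ≤ a + b * t ^ 2 := by
  rcases le_total 0 b with hb | hb
  · have := mul_le_mul_of_nonneg_left (pow_le_pow_left₀ ht0 ht 2) hb
    linarith
  · have := mul_le_mul_of_nonpos_left (pow_le_pow_left₀ (ht0.trans ht) ht' 2) hb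
    linarith

theorem ch_chart {a0 a1 : ℝ} (h1 : 0 ≤ a1) (h10 : a1 ≤ a0) (hs : a0 + a1 ≤ 1) (h0 : 0 < a0) :
    ∃ u v : ℝ, 0 < u ∧ u ≤ 1 ∧ 0 ≤ v ∧ v ≤ 1 ∧ u + v * u + u * (v * u) ≤ 1 ∧
      a0 = (u * (2 * (u ^ 2 + 1)⁻¹)) ^ 2 ∧ a1 = (u * (v * (2 * ((v * u) ^ 2 + 1)⁻¹))) ^ 2 := by
  have key : ∀ x y : ℝ, 0 ≤ y → x ^ 2 + y ^ 2 = 1 →
      x / (1 + y) * (2 * ((x / (1 + y)) ^ 2 + 1)⁻¹) = x := by
    intro x y hy e
    have e2 : (x / (1 + y)) ^ 2 + 1 = 2 / (1 + y) := by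
      field_simp
      linear_combination e
    rw [e2]
    field_simp
  obtain ⟨x0, hx0, e0⟩ : ∃ x, 0 < x ∧ x ^ 2 = a0 := ⟨√a0, Real.sqrt_pos.2 h0, Real.sq_sqrt h0.le⟩
  obtain ⟨x1, hx1, e1⟩ : ∃ x, 0 ≤ x ∧ x ^ 2 = a1 := ⟨√a1, Real.sqrt_nonneg _, Real.sq_sqrt h1⟩
  obtain ⟨y0, hy0, f0⟩ : ∃ x, 0 ≤ x ∧ x ^ 2 = 1 - a0 :=
    ⟨√(1 - a0), Real.sqrt_nonneg _, Real.sq_sqrt (by linarith)⟩
  obtain ⟨y1, hy1, f1⟩ : ∃ x, 0 ≤ x ∧ x ^ 2 = 1 - a1 :=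
    ⟨√(1 - a1), Real.sqrt_nonneg _, Real.sq_sqrt (by linarith)⟩
  have c1 : x1 ≤ x0 := ch_sq_le hx1 hx0.le (by linarith)
  have c2 : y0 ≤ y1 := ch_sq_le hy0 hy1 (by linarith)
  have c3 : x0 ≤ y1 := ch_sq_le hx0.le hy1 (by linarith)
  have c4 : x1 ≤ y0 := ch_sq_le hx1 hy0 (by linarith)
  have c5 : x0 ≤ 1 := ch_sq_le hx0.le zero_le_one (by linarith)
  have hu : 0 < x0 / (1 + y0) := by positivity
  have ev : x1 / (1 + y1) / (x0 / (1 + y0)) * (x0 / (1 + y0)) = x1 / (1 + y1) :=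
    div_mul_cancel₀ _ hu.ne'
  refine ⟨x0 / (1 + y0), x1 / (1 + y1) / (x0 / (1 + y0)), hu, ?_, by positivity, ?_, ?_, ?_, ?_⟩
  · rw [div_le_one (by positivity)]; linarith
  · rw [div_le_one hu]; gcongr
  · rw [ev, div_mul_div_comm, div_add_div _ _ (by positivity) (by positivity), ← add_div,
      div_le_one (by positivity)]
    have c6 : x0 * x1 ≤ y1 * y0 := mul_le_mul c3 c4 hx1 hy1
    nlinarith [sq_nonneg (x0 - y1), sq_nonneg (x1 - y0)]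
  · rw [key x0 y0 hy0 (by linarith), e0]
  · rw [ev, ← mul_assoc, mul_comm (x0 / (1 + y0)), ev, key x1 y1 hy1 (by linarith), e1]

theorem ch_core {ρ β t Lp Lm Rn Rp c0 cs cd bh k1 jx jy u X0 X1 y0 y1 u1 hh Ex Ey E zz sf af ax Ax ay Ay q
      n1 p0 kx ex K κ : ℝ}
    (h0 : 0 ≤ ρ) (hβ : 0 ≤ β) (h : ρ ^ 2 + β ^ 2 = 1) (hbh : 0 < bh) (hb1 : β ≤ 2 * bh) (hk1 : 0 ≤ k1)
    (hb0 : k1 * (2 * bh) ≤ β) (ht : 0 ≤ t) (hL : 0 ≤ Lp)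
    (hj : (0 ≤ Lm ∧ jx = 2 ∧ 0 ≤ jy ∧ jy ≤ 2 * k1 ^ 2) ∨ (Lm ≤ 0 ∧ jy = 2 ∧ 0 ≤ jx ∧ jx ≤ 2 * k1 ^ 2))
    (hu : 0 < u) (hX1 : 0 ≤ X1) (hX : X1 ≤ X0) (hy0 : 0 ≤ y0) (hy1 : 0 ≤ y1) (eX0 : X0 = 1 + y0)
    (e0 : (u * X0) ^ 2 + y0 ^ 2 = 1) (e1 : (u * X1) ^ 2 + y1 ^ 2 = 1)
    (hs : (u * X0) ^ 2 + (u * X1) ^ 2 ≤ 1) (hu1 : u * X1 * u1 = 1 - y1)
    (hhh : hh = bh * ((X0 + X1) * (X0 - X1)))
    (hEx : Ex = √((X0 * X1) ^ 2 + hh ^ 2) - X0 * X1)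
    (pW : 0 < √((y0 * y1) ^ 2 + u ^ 2 * (u ^ 2 * hh ^ 2)) + y0 * y1)
    (hEy : Ey = u ^ 2 * hh ^ 2 * (√((y0 * y1) ^ 2 + u ^ 2 * (u ^ 2 * hh ^ 2)) + y0 * y1)⁻¹)
    (hE : E = Ex + Ey) (hzz : zz = 2 * (u ^ 2 * (X0 * X1) + y0 * y1) + u ^ 2 * E)
    (hsf : sf = X0 * y0 + X1 * y1) (pF : 0 < √(sf ^ 2 + E * zz) + sf)
    (haf : af = zz * (√(sf ^ 2 + E * zz) + sf)⁻¹)
    (hax : ax = 2 * (√((X0 + X1) ^ 2 + jx * Ex) + (X0 + X1))⁻¹) (hAx : Ax = Lp * af + Lm * ax)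
    (pAx : 0 ≤ Ax)
    (hay : ay = 2 * u * (√((y0 + y1) ^ 2 + jy * (u ^ 2 * Ey)) + (y0 + y1))⁻¹)
    (hAy : Ay = Lp * af - Lm * ay) (pAy : 0 ≤ Ay)
    (p1 : 0 < X0 * y1 + X1 * y0) (p2 : 0 < X0 + X1) (p3 : 0 < y0 + y1)
    (hq : q = u * c0 + cs * ((y0 * y1 - u ^ 2 * (X0 * X1)) * (X0 * y1 + X1 * y0)⁻¹) +
      cd * ((X0 + X1)⁻¹ + u * ((y0 + y1)⁻¹ + -2))) (pq : 0 ≤ q)
    (hn1 : n1 = 1 + y1 - 2 * (u * X1) + u1) (hp0 : p0 = X0 * ((u + 3) * (u + 1)⁻¹))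
    (cx : 0 ≤ ex - kx ^ 2 + (ex - ex ^ 2) * t ^ 2)
    (cy : 0 ≤ u ^ 2 * κ - K ^ 2 + (u ^ 2 * κ - (u ^ 2 * κ) ^ 2) * t ^ 2)
    (fin : ∀ θ, k1 ≤ θ → θ ≤ 1 → 0 ≤ hh → 0 ≤ θ * hh * (Ax * kx + Ay * K - 2 * q) +
      t * (X1 * (Rn * n1 - Ax * (ex * X0)) + y0 * (Rp * (u * p0) - Ay * (κ * y1)))) :
    LIneq ρ β t ((Lp + Lm) / 2) ((Lp - Lm) / 2) Rn Rp c0 ((cs + cd) / 2) ((cs - cd) / 2)
      ((u * X0) ^ 2) ((u * X1) ^ 2) ∧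
    0 ≤ qf c0 ((cs + cd) / 2) ((cs - cd) / 2) ((u * X0) ^ 2) ((u * X1) ^ 2) := by
  have hX0 : 0 < X0 := by linarith
  have hx0 : 0 ≤ u * X0 := by positivity
  have hx1 : 0 ≤ u * X1 := by positivity
  obtain ⟨θ, hθ⟩ : ∃ θ, θ = β / (2 * bh) := ⟨_, rfl⟩
  have hθ0 : k1 ≤ θ := by rw [hθ, le_div_iff₀ (by positivity)]; exact hb0
  have hθ1 : θ ≤ 1 := by rw [hθ, div_le_one (by positivity)]; exact hb1
  have hθp : 0 ≤ θ := hk1.trans hθ0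
  have hβθ : β = θ * (2 * bh) := by rw [hθ]; field_simp
  have hh0 : 0 ≤ hh := by rw [hhh]; exact mul_nonneg hbh.le (mul_nonneg p2.le (by linarith))
  have eh : β * ((u * X0) ^ 2 - (u * X1) ^ 2) / 2 = θ * (u ^ 2 * hh) := by rw [hβθ, hhh]; ring
  have A1 : eG (u * X0 * (u * X1)) (u ^ 2 * hh) = u ^ 2 * Ex := by
    rw [show u * X0 * (u * X1) = u ^ 2 * (X0 * X1) by ring, eG_smul (sq_nonneg _), hEx, eG]
  have A2 : eG (y0 * y1) (u ^ 2 * hh) = u ^ 2 * Ey := by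
    have e : (u ^ 2 * hh) ^ 2 = u ^ 2 * (u ^ 2 * hh ^ 2) := by ring
    rw [eG_frac (by rwa [e]), e, hEy]; ring
  have gx := gain_x h0 h hx0 hx1
  have gy := gain_y h0 h hy0 hy1 e0 e1
  have gxy := gain_xy h0 h hx0 hx1 hy0 hy1 e0 e1 rfl
  have Cx := eG_cauchy (P := u * X0 * (u * X1)) (h := θ * (u ^ 2 * hh)) cx
  have Cy := eG_cauchy (P := y0 * y1) (h := θ * (u ^ 2 * hh)) cy
  have x_lo := eG_lo (h := u ^ 2 * hh) (mul_nonneg hx0 hx1) hθp hθ1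
  have x_hi := eG_hi (P := u * X0 * (u * X1)) (h := u ^ 2 * hh) hθp hθ1
  have y_lo := eG_lo (h := u ^ 2 * hh) (mul_nonneg hy0 hy1) hθp hθ1
  have y_hi := eG_hi (P := y0 * y1) (h := u ^ 2 * hh) hθp hθ1
  have x_nn := eG_nonneg (u * X0 * (u * X1)) (θ * (u ^ 2 * hh))
  have y_nn := eG_nonneg (y0 * y1) (θ * (u ^ 2 * hh))
  have X_nn := eG_nonneg (u * X0 * (u * X1)) (u ^ 2 * hh)
  have Y_nn := eG_nonneg (y0 * y1) (u ^ 2 * hh)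
  rw [eh] at gx gy gxy
  rw [A1] at x_lo x_hi X_nn
  rw [A2] at y_lo y_hi Y_nn
  generalize eG (u * X0 * (u * X1)) (θ * (u ^ 2 * hh)) = a at *
  generalize eG (y0 * y1) (θ * (u ^ 2 * hh)) = b at *
  have hk2 : k1 ^ 2 ≤ θ ^ 2 := pow_le_pow_left₀ hk1 hθ0 2
  have hk3 : 2 * k1 ^ 2 ≤ 2 * θ ^ 2 := by linarith only [hk2]
  have B1 : af * (a + b) ≤ u * gain ρ (fun a => √a * √(1 - a)) ((u * X0) ^ 2) ((u * X1) ^ 2) := by
    have c3 : u * X0 ≤ y1 := ch_sq_le hx0 hy1 (by linarith only [hs, e1])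
    have c4 : u * X1 ≤ y0 := ch_sq_le hx1 hy0 (by linarith only [hs, e0])
    have eσ : u * X0 * y0 + u * X1 * y1 = u * sf := by rw [hsf]; ring
    have ez : 2 * (u * X0 * (u * X1) + y0 * y1) + u ^ 2 * E = zz := by rw [hzz]; ring
    have eD : √((u * sf) ^ 2 + u ^ 2 * E * zz) + u * sf = u * (√(sf ^ 2 + E * zz) + sf) := by
      rw [mul_assoc, ch_sqrt hu]
    have := slope_xy (σ := u * X0 * y0 + u * X1 * y1) (z := u * X0 * (u * X1) + y0 * y1) (E := a + b)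
      (F := u ^ 2 * E) (by positivity)
      (by linarith only [mul_nonneg (sub_nonneg.2 c3) (sub_nonneg.2 c4)]) (by positivity)
      (by rw [hE]; linarith only [x_hi, y_hi]) (by rw [ez, eσ, eD]; positivity)
    rw [← gxy, ez, eσ, eD] at this
    calc af * (a + b) = u * (zz * (u * (√(sf ^ 2 + E * zz) + sf))⁻¹ * (a + b)) := by
          rw [haf]; field_simp
      _ ≤ _ := mul_le_mul_of_nonneg_left this hu.le
  have eDx : √((u * X0 + u * X1) ^ 2 + u ^ 2 * (jx * Ex)) + (u * X0 + u * X1) =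
      u * (√((X0 + X1) ^ 2 + jx * Ex) + (X0 + X1)) := by rw [← mul_add, ch_sqrt hu]
  have eax : u * (2 * (u * (√((X0 + X1) ^ 2 + jx * Ex) + (X0 + X1)))⁻¹ * a) = ax * a := by
    rw [hax, mul_inv]; field_simp
  have eay : u * (2 * (√((y0 + y1) ^ 2 + jy * (u ^ 2 * Ey)) + (y0 + y1))⁻¹ * b) = ay * b := by
    rw [hay]; ring
  have hσx : 0 < u * X0 + u * X1 := by positivity
  have B2 : Lm * (ax * a - ay * b) ≤ Lm * (u * gain ρ (fun a => √a) ((u * X0) ^ 2) ((u * X1) ^ 2) -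
      u * gain ρ (fun a => √(1 - a)) ((u * X0) ^ 2) ((u * X1) ^ 2)) := by
    rcases hj with ⟨hm, hjx, hjy, hjy'⟩ | ⟨hm, hjy, hjx, hjx'⟩
    · have s1 := slope_lo (F := u ^ 2 * (jx * Ex)) hσx x_nn (by rw [hjx]; linarith only [x_hi])
      have s2 := slope_hi (E := b) (F := jy * (u ^ 2 * Ey)) p3 (mul_nonneg hjy Y_nn)
        (by linarith only [y_lo, mul_le_mul_of_nonneg_right (hjy'.trans hk3) Y_nn])
      rw [← gx, eDx] at s1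
      rw [← gy] at s2
      have t1 := mul_le_mul_of_nonneg_left s1 hu.le
      have t2 := mul_le_mul_of_nonneg_left s2 hu.le
      rw [eax] at t1
      rw [eay] at t2
      exact mul_le_mul_of_nonneg_left (by linarith only [t1, t2]) hm
    · have s1 := slope_hi (E := a) (F := u ^ 2 * (jx * Ex)) hσx
        (by rw [mul_left_comm]; exact mul_nonneg hjx X_nn)
        (by linarith only [x_lo, mul_le_mul_of_nonneg_right (hjx'.trans hk3) X_nn])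
      have s2 := slope_lo (F := jy * (u ^ 2 * Ey)) p3 y_nn (by rw [hjy]; linarith only [y_hi])
      rw [← gx, eDx] at s1
      rw [← gy] at s2
      have t1 := mul_le_mul_of_nonneg_left s1 hu.le
      have t2 := mul_le_mul_of_nonneg_left s2 hu.le
      rw [eax] at t1
      rw [eay] at t2
      exact mul_le_mul_of_nonpos_left (by linarith only [t1, t2]) hm
  have B3 := mul_le_mul_of_nonneg_left B1 hL
  have eq1 : u * qf c0 ((cs + cd) / 2) ((cs - cd) / 2) ((u * X0) ^ 2) ((u * X1) ^ 2) =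
      ((u * X0) ^ 2 - (u * X1) ^ 2) * q := by
    rw [qf_eq hx0 hx1 hy0 hy1 e0 e1 (by linarith only [mul_pos hu p1]) hσx p3, hq,
      show u * X0 * y1 + u * X1 * y0 = u * (X0 * y1 + X1 * y0) by ring, ← mul_add u X0]
    field_simp
    ring
  have en : nf ((u * X1) ^ 2) = u * X1 * n1 := by
    rw [nf_sq hx1 hy1 e1, hn1]; linear_combination -hu1
  have ep : pf ((u * X0) ^ 2) = y0 * u ^ 2 * p0 := by
    have e2 : u ^ 2 * X0 = 1 - y0 := by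
      refine mul_right_cancel₀ hX0.ne' ?_
      linear_combination e0 - (1 - y0) * eX0
    have e3 : (1 + 2 * y0 - u * X0) * (u + 1) = y0 * (u + 3) := by
      linear_combination -e2 - u * eX0
    rw [pf_sq hx0 hy0 e0, hp0, ← e2, eq_div_of_mul_eq (by positivity) e3]
    field_simp
  have hd : 0 ≤ (u * X0) ^ 2 - (u * X1) ^ 2 :=
    sub_nonneg.2 (pow_le_pow_left₀ hx1 (by gcongr) 2)
  refine ⟨?_, nonneg_of_mul_nonneg_right (by rw [eq1]; exact mul_nonneg hd pq) hu⟩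
  unfold LIneq
  rw [gain_split, en, ep, show (Lp + Lm) / 2 + (Lp - Lm) / 2 = Lp by ring,
    show (Lp + Lm) / 2 - (Lp - Lm) / 2 = Lm by ring]
  refine le_of_mul_le_mul_left ?_ hu
  have hs0 : 0 ≤ sT t := by unfold sT; positivity
  have F := mul_nonneg (mul_nonneg hs0 (sq_nonneg u)) (fin θ hθ0 hθ1 hh0)
  have D1 := mul_le_mul_of_nonneg_left Cx pAx
  have D2 := mul_le_mul_of_nonneg_left Cy pAy
  have eq2 : u * (sT t * β * qf c0 ((cs + cd) / 2) ((cs - cd) / 2) ((u * X0) ^ 2) ((u * X1) ^ 2)) =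
      2 * sT t * (θ * (u ^ 2 * hh)) * q := by
    rw [← eh]; linear_combination sT t * β * eq1
  have eq3 : Ax * a + Ay * b = Lp * (af * (a + b)) + Lm * (ax * a - ay * b) := by rw [hAx, hAy]; ring
  rw [eq2]
  generalize gain ρ (fun a => √a * √(1 - a)) ((u * X0) ^ 2) ((u * X1) ^ 2) = G1 at *
  generalize gain ρ (fun a => √a) ((u * X0) ^ 2) ((u * X1) ^ 2) = G2 at *
  generalize gain ρ (fun a => √(1 - a)) ((u * X0) ^ 2) ((u * X1) ^ 2) = G3 at *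
  generalize sT t = s at *
  linarith only [F, D1, D2, eq3, B2, B3]

theorem ch_vars {u v : ℝ} (hu : 0 < u) (hu1 : u ≤ 1) (hv : 0 ≤ v) (hv1 : v ≤ 1) {X0 i1 : ℝ}
    (hX0 : X0 = 2 * (u ^ 2 + 1)⁻¹) (hi1 : i1 = 2 * ((v * u) ^ 2 + 1)⁻¹) :
    0 ≤ v * i1 ∧ 0 ≤ X0 + -1 ∧ 0 ≤ i1 + -1 ∧ (u * X0) ^ 2 + (X0 + -1) ^ 2 = 1 ∧
      (u * (v * i1)) ^ 2 + (i1 + -1) ^ 2 = 1 ∧ u * (v * i1) * (v * u) = 1 - (i1 + -1) := by
  have key : ∀ w : ℝ, 0 ≤ w → w ≤ 1 → 0 ≤ 2 * (w ^ 2 + 1)⁻¹ + -1 := by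
    intro w h0 h1
    have : w ^ 2 ≤ 1 := pow_le_one₀ h0 h1
    have e : 2 * (w ^ 2 + 1)⁻¹ + -1 = (1 - w ^ 2) / (w ^ 2 + 1) := by field_simp; ring
    rw [e]
    exact div_nonneg (by linarith) (by positivity)
  subst hX0 hi1
  refine ⟨by positivity, key u hu.le hu1, key _ (by positivity) (mul_le_one₀ hv1 hu.le hu1), ?_, ?_, ?_⟩ <;>
    field_simp <;> ring

/-- Sketch.  Let `a1 ≤ a0`, `a0 + a1 ≤ 1`, `x_i = √a_i`, `y_i = √(1 - a_i)`.  If `a0 = 0` everything vanishes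
(`nf 0 = pf 0 = 0`).  Otherwise `u = x0 / (1 + y0) ∈ (0,1]`, `u1 = x1 / (1 + y1) ≤ u`, `v = u1 / u ∈ [0,1]`;
`1 + u² = 2 / (1 + y0)`, so in the Spec `X0 = 1 + y0`, `i1 = 1 + y1`, `x0 = u X0`, `x1 = u X1`, and the Spec's
`y0 y1` are ours.  `x0 ≤ y1`, `x1 ≤ y0`, `x0 y1 + x1 y0 ≤ 1` give `u + u1 + u u1 ≤ 1`, which excludes `x_Spec`,
and `x0 y0 + x1 y1 ≤ x0 x1 + y0 y1` (difference `(y1 - x0)(y0 - x1)`), the hypothesis of `slope_xy`.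
Put `θ = β / (2 bh) ∈ [k1, 1]`, `h = β (x0² - x1²) / 2 = θ (u² hh)`, `hh ≥ 0`; `x0 x1 = u² Ph`, `Q = y0 y1`;
`eG (x0 x1) (u² hh) = u² Ex` (`eG_smul`), `eG Q (u² hh) = u² Ey` (`eG_frac`).  True excesses
`ex' = eG (x0 x1) h ∈ [θ² u² Ex, u² Ex]`, `ey' = eG Q h ∈ [θ² u² Ey, u² Ey]` (`eG_lo`, `eG_hi`).
`x0 + x1 = u sx`, `x0 y0 + x1 y1 = u sf`, `√(u² w) = u √w`; so `slope_xy` (`F = u² E`) gives
`af (ex' + ey') ≤ u gain_xy`; if `0 ≤ Lm`: `ax ex' ≤ u gain_x` (`slope_lo`, `F = u² jx Ex`, `jx = 2`) and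
`u gain_y ≤ ay ey'` (`slope_hi`, `F = jy u² Ey ≤ 2 ey'`); if `Lm ≤ 0` the other way round.  With `gain_split`:
`Ax ex' + Ay ey' ≤ u G`.  Also `u qf = (x0² - x1²) q` (`qf_eq`), `nf a1 = x1 n1` (`x1 u1 = 1 - y1`),
`pf a0 = y0 u² p0` (`pf_sq`; `1 - y0 = u² X0`, `(1 + 2 y0 - x0)(1 + u) = y0 (3 + u)`).
The Cauchy checks are affine in `t²`, so they hold at `t`; `eG_cauchy` with `(kx, ex)` for `ex'` and with
`(u² ky, u² ey)` (program `g`), `(u³ ky, u³ ey)` (program `c`) for `ey'` gives, with `s = sT t ≥ 0`,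
`u (G + t s M - s β qf) ≥ s u² (θ hh Hs + t Ps) ≥ 0` by `ch_rect` (program `g`); in program `c`, `Hs ≥ 0` and
`Ps = X1 T1 + y0 u T2 ≥ 0` directly.  Prove one lemma for the common part of both programs. -/
theorem half_of_spec {ρ β t Lp Lm Rn Rp c0 cs cd t0 t1 bh k1 jx jy ga : ℝ}
    (h0 : 0 ≤ ρ) (hβ : 0 ≤ β) (h : ρ ^ 2 + β ^ 2 = 1) (hbh : 0 < bh) (hb1 : β ≤ 2 * bh) (hk1 : 0 ≤ k1)
    (hb0 : k1 * (2 * bh) ≤ β) (ht0 : 0 ≤ t0) (ht : t0 ≤ t) (ht' : t ≤ t1) (ht1 : 0 < t1) (hL : 0 ≤ Lp)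
    (hj : (0 ≤ Lm ∧ jx = 2 ∧ 0 ≤ jy ∧ jy ≤ 2 * k1 ^ 2) ∨ (Lm ≤ 0 ∧ jy = 2 ∧ 0 ≤ jx ∧ jx ≤ 2 * k1 ^ 2))
    (hga : ga = 0 ∨ (t0 = 0 ∧ 0 < ga))
    (H : ∀ u v : ℝ, 0 ≤ u → u ≤ 1 → 0 ≤ v → v ≤ 1 →
      LM.x_Spec Lp Lm Rn Rp c0 cs cd t0 t1 bh k1 jx jy ga u v ∨
      LM.g_Spec Lp Lm Rn Rp c0 cs cd t0 t1 bh k1 jx jy ga u v ∨
      LM.c_Spec Lp Lm Rn Rp c0 cs cd t0 t1 bh k1 jx jy ga u v) :
    LHalf ρ β t ((Lp + Lm) / 2) ((Lp - Lm) / 2) Rn Rp c0 ((cs + cd) / 2) ((cs - cd) / 2) := by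
  intro a0 a1 h1 h10 hs
  rcases (h1.trans h10).eq_or_lt with rfl | ha0
  · obtain rfl : a1 = 0 := le_antisymm h10 h1
    simp [LIneq, qf, gain, nf, pf]
    norm_num
  obtain ⟨u, v, hu, hu1, hv, hv1, hsum, ea0, ea1⟩ := ch_chart h1 h10 hs ha0
  have htp : 0 ≤ t := ht0.trans ht
  rcases H u v hu.le hu1 hv hv1 with ⟨w, rfl, hw⟩ | hg | hc
  · linarith
  · obtain ⟨_, _, _, _, _, _, _, _, _, _, _, kx, ex, w46, w48, w47, w51, ey, uu, ky, w62, w63, X0, u1, i1,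
      X1, Ph, P2, y0, y1, Q, sx, hh, h2, Ex, uh2, Wy, Ey, E, zz, sf, af, La, ax, Ax, sy, ay, Ay, q, Hs, n1,
      p0, Ps, hg⟩ := hg
    obtain ⟨-, -, r1, r2, r3, cx0, r4, cx1, -, r5, -, r6, r7, cy0, cy1, -, hX0, r9, -, hi1, hX1, hg⟩ := hg
    obtain ⟨r10, r11, hy0, hy1, r12, r13, hhh, r14, hEx, r15, r16, pW, hEy, hE, hzz, hsf, pF, haf, r17, -,
      hax, hg⟩ := hg
    obtain ⟨hAx, pAx, r18, -, hay, hAy, pAy, p1, p2, p3, hq, pq, r19, hn1, -, hp0, r20, c1, c2⟩ := hg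
    subst r1 r2 r3 r4 r5 r6 r7 r9 r10 r11 r12 r13 r14 r15 r16 r17 r18 r19 r20
    obtain ⟨v1, v2, v3, v4, v5, v6⟩ := ch_vars hu hu1 hv hv1 hX0 hi1
    rw [← hi1, ← hX1] at ea1
    rw [← hX0] at ea0
    rw [← hX1] at v1 v5 v6
    rw [← hy0] at v2 v4
    rw [← hy1] at v3 v5 v6
    subst ea0 ea1
    have hX : X1 ≤ X0 := le_of_mul_le_mul_left
      (ch_sq_le (by positivity) (mul_nonneg hu.le (by linarith)) h10) hu
    refine ch_core (K := u ^ 2 * ky) (κ := ey) (n1 := n1) h0 hβ h hbh hb1 hk1 hb0 htp hL hj hu v1 hX v2 v3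
      (by linarith only [hy0]) v4 v5 hs v6 hhh hEx pW hEy hE hzz hsf pF haf hax hAx pAx hay hAy pAy p1 p2 p3 hq pq
      (by linarith only [hn1, hy1]) hp0 (ch_aff ht0 ht ht' cx0 cx1) ?_
      fun θ h1 h2 h3 => ch_rect h3 ht0 ht ht' ht1 hk1 h1 h2 hga c1 c2
    have := mul_nonneg (sq_nonneg u) (ch_aff ht0 ht ht' cy0 cy1)
    linarith only [this]
  · obtain ⟨kx, ex, ky, ey, w25, w27, w26, w30, uu, uuu, w38, w39, X0, u1, i1,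
      X1, Ph, P2, y0, y1, Q, sx, hh, h2, Ex, uh2, Wy, Ey, E, zz, sf, af, La, ax, Ax, sy, ay, Ay, q, n1,
      p0, hc⟩ := hc
    obtain ⟨r1, r2, r3, cx0, r4, cx1, r5, r6, r7, r8, cy0, cy1, -, hX0, r9, -, hi1, hX1, hc⟩ := hc
    obtain ⟨r10, r11, hy0, hy1, r12, r13, hhh, r14, hEx, r15, r16, pW, hEy, hE, hzz, hsf, pF, haf, r17, -,
      hax, hc⟩ := hc
    obtain ⟨hAx, pAx, r18, -, hay, hAy, pAy, p1, p2, p3, hq, pq, c1, hn1, c2, -, hp0, c3⟩ := hc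
    subst r1 r2 r3 r4 r5 r6 r7 r8 r9 r10 r11 r12 r13 r14 r15 r16 r17 r18
    obtain ⟨v1, v2, v3, v4, v5, v6⟩ := ch_vars hu hu1 hv hv1 hX0 hi1
    rw [← hi1, ← hX1] at ea1
    rw [← hX0] at ea0
    rw [← hX1] at v1 v5 v6
    rw [← hy0] at v2 v4
    rw [← hy1] at v3 v5 v6
    subst ea0 ea1
    have hX : X1 ≤ X0 := le_of_mul_le_mul_left
      (ch_sq_le (by positivity) (mul_nonneg hu.le (by linarith)) h10) hu
    refine ch_core (K := u ^ 2 * u * ky) (κ := u * ey) (n1 := n1) h0 hβ h hbh hb1 hk1 hb0 htp hL hj hu v1 hX v2 v3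
      (by linarith only [hy0]) v4 v5 hs v6 hhh hEx pW hEy hE hzz hsf pF haf hax hAx pAx hay hAy pAy p1 p2 p3 hq pq
      (by linarith only [hn1, hy1]) hp0 (ch_aff ht0 ht ht' cx0 cx1) ?_ fun θ h1 h2 h3 => ?_
    · have := mul_nonneg (mul_nonneg (sq_nonneg u) hu.le) (ch_aff ht0 ht ht' cy0 cy1)
      linarith only [this]
    · have d1 := mul_nonneg (mul_nonneg (hk1.trans h1) h3) c1
      have d2 := mul_nonneg htp (mul_nonneg v1 c2)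
      have d3 := mul_nonneg htp (mul_nonneg v2 (mul_nonneg hu.le c3))
      linarith only [d1, d2, d3]

end Crest.Agent.R307
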