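import Crest.Agent.R307.LBase

/-! Row 307, low-noise step: exact gains, slopes, Cauchy–Schwarz. -/

set_option autoImplicit false

namespace Crest.Agent.R307

theorem lc_le {x y : ℝ} (h : x ^ 2 ≤ y) : x ≤ √y := (le_abs_self _).trans (Real.abs_le_sqrt h)

theorem lc_two {a b : ℝ} (ha : 0 ≤ a) (hb : 0 ≤ b) : √a + √b = √(a + b + 2 * √(a * b)) := by
  have e : a + b + 2 * √(a * b) = (√a + √b) ^ 2 := by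
    rw [Real.sqrt_mul ha]
    linear_combination -Real.sq_sqrt ha - Real.sq_sqrt hb
  rw [e, Real.sqrt_sq (by positivity)]

theorem lc_mix {ρ β a b : ℝ} (h0 : 0 ≤ ρ) (h : ρ ^ 2 + β ^ 2 = 1) :
    0 ≤ (1 + ρ) / 2 * a ^ 2 + (1 - ρ) / 2 * b ^ 2 ∧ 0 ≤ (1 - ρ) / 2 * a ^ 2 + (1 + ρ) / 2 * b ^ 2 := by
  have h1 : 0 ≤ 1 - ρ := by nlinarith [sq_nonneg β]
  constructor <;> positivity

theorem lc_prod {ρ β a b : ℝ} (h : ρ ^ 2 + β ^ 2 = 1) :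
    ((1 + ρ) / 2 * a ^ 2 + (1 - ρ) / 2 * b ^ 2) * ((1 - ρ) / 2 * a ^ 2 + (1 + ρ) / 2 * b ^ 2) =
      (a * b) ^ 2 + (β * (a ^ 2 - b ^ 2) / 2) ^ 2 := by
  linear_combination (-(a ^ 2 - b ^ 2) ^ 2 / 4) * h

theorem eG_nonneg (P h : ℝ) : 0 ≤ eG P h := by
  exact sub_nonneg.2 (lc_le (by nlinarith [sq_nonneg h]))

/-- `√(P² + θ² h²) ≥ P + θ² E` since `h² = 2 P E + E²` -/
theorem eG_lo {P h θ : ℝ} (hP : 0 ≤ P) (h0 : 0 ≤ θ) (h1 : θ ≤ 1) : θ ^ 2 * eG P h ≤ eG P (θ * h) := by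
  have hE := eG_nonneg P h
  have hR : √(P ^ 2 + h ^ 2) ^ 2 = P ^ 2 + h ^ 2 := Real.sq_sqrt (by positivity)
  have e : h ^ 2 = eG P h ^ 2 + 2 * P * eG P h := by
    unfold eG
    linear_combination -hR
  generalize eG P h = E at hE e ⊢
  rw [eG, le_sub_iff_add_le]
  refine lc_le ?_
  have h2 : θ ^ 2 ≤ 1 := by nlinarith
  have h3 : 0 ≤ θ ^ 2 * (1 - θ ^ 2) * E ^ 2 := by
    have : 0 ≤ 1 - θ ^ 2 := by linarith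
    positivity
  rw [mul_pow θ h, e]
  linarith

theorem eG_hi {P h θ : ℝ} (h0 : 0 ≤ θ) (h1 : θ ≤ 1) : eG P (θ * h) ≤ eG P h := by
  refine sub_le_sub_right (Real.sqrt_le_sqrt ?_) _
  have h2 : θ ^ 2 ≤ 1 := by nlinarith
  have := mul_le_mul_of_nonneg_right h2 (sq_nonneg h)
  rw [mul_pow]
  linarith

theorem eG_smul {P h c : ℝ} (hc : 0 ≤ c) : eG (c * P) (c * h) = c * eG P h := by
  unfold eG
  rw [show (c * P) ^ 2 + (c * h) ^ 2 = c ^ 2 * (P ^ 2 + h ^ 2) by ring, Real.sqrt_mul (sq_nonneg c),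
    Real.sqrt_sq hc]
  ring

theorem eG_frac {P h : ℝ} (hp : 0 < √(P ^ 2 + h ^ 2) + P) :
    eG P h = h ^ 2 * (√(P ^ 2 + h ^ 2) + P)⁻¹ := by
  have hR : √(P ^ 2 + h ^ 2) ^ 2 = P ^ 2 + h ^ 2 := Real.sq_sqrt (by positivity)
  rw [eq_mul_inv_iff_mul_eq₀ hp.ne', eG]
  linear_combination hR

/-- With `s = sT t`, `ε = t s`: `(1 - κ ε)² + (k s)² ≤ 1` (use `2 t = s (1 + t²)`), then Cauchy–Schwarz. -/
theorem eG_cauchy {P h t k κ : ℝ} (hk : 0 ≤ κ - k ^ 2 + (κ - κ ^ 2) * t ^ 2) :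
    k * sT t * h - κ * (t * sT t) * P ≤ eG P h := by
  have hs : 2 * t = sT t * (1 + t ^ 2) := by
    unfold sT
    field_simp
  generalize sT t = s at hs ⊢
  have h1 : (1 - κ * (t * s)) ^ 2 + (k * s) ^ 2 ≤ 1 := by
    have h2 := mul_nonneg (sq_nonneg s) hk
    have h3 : κ * s * (2 * t) = κ * s * (s * (1 + t ^ 2)) := by rw [← hs]
    nlinarith
  rw [eG, le_sub_iff_add_le]
  refine lc_le ?_
  have h4 := mul_le_mul_of_nonneg_right h1 (show 0 ≤ P ^ 2 + h ^ 2 by positivity)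
  nlinarith [sq_nonneg ((1 - κ * (t * s)) * h - k * s * P)]

/-- the mixtures `s1, s2` have `s1 + s2 = x0² + x1²`, `s1 s2 = (x0 x1)² + h²`, `h = β (x0² - x1²) / 2`;
`(√s1 + √s2)² = s1 + s2 + 2 √(s1 s2)` -/
theorem gain_x {ρ β x0 x1 : ℝ} (h0 : 0 ≤ ρ) (h : ρ ^ 2 + β ^ 2 = 1) (hx0 : 0 ≤ x0) (hx1 : 0 ≤ x1) :
    gain ρ (fun a => √a) (x0 ^ 2) (x1 ^ 2) =
      √((x0 + x1) ^ 2 + 2 * eG (x0 * x1) (β * (x0 ^ 2 - x1 ^ 2) / 2)) - (x0 + x1) := by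
  obtain ⟨m1, m2⟩ := lc_mix (a := x0) (b := x1) h0 h
  simp only [gain, eG]
  rw [lc_two m1 m2, lc_prod h, Real.sqrt_sq hx0, Real.sqrt_sq hx1, sub_sub]
  congr 2
  ring

theorem gain_y {ρ β x0 x1 y0 y1 : ℝ} (h0 : 0 ≤ ρ) (h : ρ ^ 2 + β ^ 2 = 1) (hy0 : 0 ≤ y0) (hy1 : 0 ≤ y1)
    (e0 : x0 ^ 2 + y0 ^ 2 = 1) (e1 : x1 ^ 2 + y1 ^ 2 = 1) :
    gain ρ (fun a => √(1 - a)) (x0 ^ 2) (x1 ^ 2) =
      √((y0 + y1) ^ 2 + 2 * eG (y0 * y1) (β * (x0 ^ 2 - x1 ^ 2) / 2)) - (y0 + y1) := by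
  have e : gain ρ (fun a => √(1 - a)) (x0 ^ 2) (x1 ^ 2) = gain ρ (fun a => √a) (y0 ^ 2) (y1 ^ 2) := by
    simp only [gain]
    congr 3
    · congr 1
      linear_combination (-(1 + ρ) / 2) * e0 + (-(1 - ρ) / 2) * e1
    · congr 1
      linear_combination (-(1 - ρ) / 2) * e0 + (-(1 + ρ) / 2) * e1
    · linear_combination -e0
    · linear_combination -e1
  rw [e, gain_x h0 h hy0 hy1]
  simp only [eG]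
  rw [show (β * (y0 ^ 2 - y1 ^ 2) / 2) ^ 2 = (β * (x0 ^ 2 - x1 ^ 2) / 2) ^ 2 by
    rw [show y0 ^ 2 - y1 ^ 2 = -(x0 ^ 2 - x1 ^ 2) by linear_combination e0 - e1]
    ring]

/-- `(√s1 √(1-s1) + √s2 √(1-s2))² = s1 (1-s1) + s2 (1-s2) + 2 Wx Wy`, `Wx = P + Ex`, `Wy = Q + Ey`,
`s1 (1-s1) + s2 (1-s2) = x0² y0² + x1² y1² + 2 h²`, `(P + Q + E)² = (Wx + Wy)²` -/
theorem gain_xy {ρ β x0 x1 y0 y1 E : ℝ} (h0 : 0 ≤ ρ) (h : ρ ^ 2 + β ^ 2 = 1) (hx0 : 0 ≤ x0)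
    (hx1 : 0 ≤ x1) (hy0 : 0 ≤ y0) (hy1 : 0 ≤ y1) (e0 : x0 ^ 2 + y0 ^ 2 = 1) (e1 : x1 ^ 2 + y1 ^ 2 = 1)
    (hE : E = eG (x0 * x1) (β * (x0 ^ 2 - x1 ^ 2) / 2) + eG (y0 * y1) (β * (x0 ^ 2 - x1 ^ 2) / 2)) :
    gain ρ (fun a => √a * √(1 - a)) (x0 ^ 2) (x1 ^ 2) =
      √((x0 * y0 + x1 * y1) ^ 2 + E * (2 * (x0 * x1 + y0 * y1) + E)) - (x0 * y0 + x1 * y1) := by
  obtain ⟨m1, m2⟩ := lc_mix (a := x0) (b := x1) h0 h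
  obtain ⟨m3, m4⟩ := lc_mix (a := y0) (b := y1) h0 h
  have f1 : 1 - ((1 + ρ) / 2 * x0 ^ 2 + (1 - ρ) / 2 * x1 ^ 2) =
      (1 + ρ) / 2 * y0 ^ 2 + (1 - ρ) / 2 * y1 ^ 2 := by
    linear_combination (-(1 + ρ) / 2) * e0 + (-(1 - ρ) / 2) * e1
  have f2 : 1 - ((1 - ρ) / 2 * x0 ^ 2 + (1 + ρ) / 2 * x1 ^ 2) =
      (1 - ρ) / 2 * y0 ^ 2 + (1 + ρ) / 2 * y1 ^ 2 := by
    linear_combination (-(1 - ρ) / 2) * e0 + (-(1 + ρ) / 2) * e1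
  have f3 : 1 - x0 ^ 2 = y0 ^ 2 := by linear_combination -e0
  have f4 : 1 - x1 ^ 2 = y1 ^ 2 := by linear_combination -e1
  have f5 : (β * (x0 ^ 2 - x1 ^ 2) / 2) ^ 2 = (β * (y0 ^ 2 - y1 ^ 2) / 2) ^ 2 := by
    rw [show y0 ^ 2 - y1 ^ 2 = -(x0 ^ 2 - x1 ^ 2) by linear_combination e0 - e1]
    ring
  simp only [eG] at hE
  rw [← lc_prod h, Real.sqrt_mul m1] at hE
  rw [f5, ← lc_prod h, Real.sqrt_mul m3] at hE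
  simp only [gain]
  rw [f1, f2, f3, f4, Real.sqrt_sq hx0, Real.sqrt_sq hx1, Real.sqrt_sq hy0, Real.sqrt_sq hy1]
  have s1 := Real.sq_sqrt m1
  have s2 := Real.sq_sqrt m2
  have s3 := Real.sq_sqrt m3
  have s4 := Real.sq_sqrt m4
  have p1 := Real.sqrt_nonneg ((1 + ρ) / 2 * x0 ^ 2 + (1 - ρ) / 2 * x1 ^ 2)
  have p2 := Real.sqrt_nonneg ((1 - ρ) / 2 * x0 ^ 2 + (1 + ρ) / 2 * x1 ^ 2)
  have p3 := Real.sqrt_nonneg ((1 + ρ) / 2 * y0 ^ 2 + (1 - ρ) / 2 * y1 ^ 2)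
  have p4 := Real.sqrt_nonneg ((1 - ρ) / 2 * y0 ^ 2 + (1 + ρ) / 2 * y1 ^ 2)
  generalize √((1 + ρ) / 2 * x0 ^ 2 + (1 - ρ) / 2 * x1 ^ 2) = A at *
  generalize √((1 - ρ) / 2 * x0 ^ 2 + (1 + ρ) / 2 * x1 ^ 2) = B at *
  generalize √((1 + ρ) / 2 * y0 ^ 2 + (1 - ρ) / 2 * y1 ^ 2) = C at *
  generalize √((1 - ρ) / 2 * y0 ^ 2 + (1 + ρ) / 2 * y1 ^ 2) = D at *
  have g1 : A ^ 2 - D ^ 2 = x0 ^ 2 - y1 ^ 2 := by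
    linear_combination s1 - s4 + f2 + e1
  have g2 : C ^ 2 - B ^ 2 = y0 ^ 2 - x1 ^ 2 := by
    linear_combination s3 - s2 - f1 - e0
  have g3 : (x0 * y0 + x1 * y1) ^ 2 + E * (2 * (x0 * x1 + y0 * y1) + E) = (A * C + B * D) ^ 2 := by
    rw [hE]
    linear_combination (-(C ^ 2 - B ^ 2)) * g1 - (x0 ^ 2 - y1 ^ 2) * g2
  rw [g3, Real.sqrt_sq (by positivity)]
  ring

theorem gain_split (ρ Ln Lp a0 a1 : ℝ) :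
    Ln * gain ρ nf a0 a1 + Lp * gain ρ pf a0 a1 =
      (Ln + Lp) * gain ρ (fun a => √a * √(1 - a)) a0 a1 +
        (Ln - Lp) * (gain ρ (fun a => √a) a0 a1 - gain ρ (fun a => √(1 - a)) a0 a1) := by
  simp only [gain, pf, nf, sub_sub_cancel]
  ring

theorem slope_lo {σ E F : ℝ} (hσ : 0 < σ) (h0 : 0 ≤ E) (h : 2 * E ≤ F) :
    2 * (√(σ ^ 2 + F) + σ)⁻¹ * E ≤ √(σ ^ 2 + 2 * E) - σ := by
  have h1 : √(σ ^ 2 + 2 * E) ≤ √(σ ^ 2 + F) := Real.sqrt_le_sqrt (by linarith)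
  have h2 : σ ≤ √(σ ^ 2 + 2 * E) := lc_le (by linarith)
  have h3 : √(σ ^ 2 + 2 * E) ^ 2 = σ ^ 2 + 2 * E := Real.sq_sqrt (by positivity)
  have h4 : 0 < √(σ ^ 2 + F) + σ := by positivity
  rw [mul_right_comm, mul_inv_le_iff₀ h4]
  nlinarith [mul_le_mul_of_nonneg_left h1 (sub_nonneg.2 h2)]

theorem slope_hi {σ E F : ℝ} (hσ : 0 < σ) (h0 : 0 ≤ F) (h : F ≤ 2 * E) :
    √(σ ^ 2 + 2 * E) - σ ≤ 2 * (√(σ ^ 2 + F) + σ)⁻¹ * E := by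
  have h1 : √(σ ^ 2 + F) ≤ √(σ ^ 2 + 2 * E) := Real.sqrt_le_sqrt (by linarith)
  have h2 : σ ≤ √(σ ^ 2 + 2 * E) := lc_le (by linarith)
  have h3 : √(σ ^ 2 + 2 * E) ^ 2 = σ ^ 2 + 2 * E := Real.sq_sqrt (by nlinarith [sq_nonneg σ])
  have h4 : 0 < √(σ ^ 2 + F) + σ := by positivity
  rw [mul_right_comm, le_mul_inv_iff₀ h4]
  nlinarith [mul_le_mul_of_nonneg_left h1 (sub_nonneg.2 h2)]

/-- With `α` the coefficient of `E`: `2 σ α + α² F = 2 z + F` (if `F > 0`; `α σ = z` if `F = 0`), `α ≥ 1`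
because `σ ≤ z`, hence `(σ + α E)² ≤ σ² + E (2 z + E)`. -/
theorem slope_xy {σ z E F : ℝ} (hσ : 0 ≤ σ) (hz : σ ≤ z) (h0 : 0 ≤ E) (h : E ≤ F)
    (hp : 0 < √(σ ^ 2 + F * (2 * z + F)) + σ) :
    (2 * z + F) * (√(σ ^ 2 + F * (2 * z + F)) + σ)⁻¹ * E ≤ √(σ ^ 2 + E * (2 * z + E)) - σ := by
  rcases h0.eq_or_lt with rfl | hE
  · simp only [mul_zero, zero_mul, add_zero, Real.sqrt_sq hσ, sub_self, le_refl]
  have hF : 0 < F := hE.trans_le h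
  have hz0 : 0 ≤ z := hσ.trans hz
  have hR : √(σ ^ 2 + F * (2 * z + F)) ^ 2 = σ ^ 2 + F * (2 * z + F) := Real.sq_sqrt (by positivity)
  have hR1 : √(σ ^ 2 + F * (2 * z + F)) ≤ z + F :=
    Real.sqrt_le_iff.2 ⟨by positivity, by nlinarith⟩
  generalize √(σ ^ 2 + F * (2 * z + F)) = R at hp hR hR1 ⊢
  obtain ⟨α, hα⟩ : ∃ α, α = (2 * z + F) * (R + σ)⁻¹ := ⟨_, rfl⟩
  rw [← hα]
  rw [eq_mul_inv_iff_mul_eq₀ hp.ne'] at hα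
  have h1 : 1 ≤ α := by
    refine le_of_mul_le_mul_right ?_ hp
    linarith
  have h2 : R = σ + α * F := by
    refine mul_right_cancel₀ hp.ne' ?_
    linear_combination hR - F * hα
  have h3 : 2 * σ * α + α ^ 2 * F = 2 * z + F := by
    rw [h2] at hα
    linear_combination hα
  rw [le_sub_iff_add_le]
  refine lc_le ?_
  have h4 : 0 ≤ E * ((α ^ 2 - 1) * (F - E)) :=
    mul_nonneg hE.le (mul_nonneg (by nlinarith) (by linarith))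
  have h5 : E * (2 * σ * α + α ^ 2 * F) = E * (2 * z + F) := by rw [h3]
  nlinarith

/-- divided differences: `x0 y0 - x1 y1 = d (Q - P) / (x0 y1 + x1 y0)`, `x0 - x1 = d / (x0 + x1)`,
`y0 - y1 = - d / (y0 + y1)` -/
theorem qf_eq {c0 c1 c2 x0 x1 y0 y1 : ℝ} (hx0 : 0 ≤ x0) (hx1 : 0 ≤ x1) (hy0 : 0 ≤ y0) (hy1 : 0 ≤ y1)
    (e0 : x0 ^ 2 + y0 ^ 2 = 1) (e1 : x1 ^ 2 + y1 ^ 2 = 1) (p1 : 0 < x0 * y1 + x1 * y0)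
    (p2 : 0 < x0 + x1) (p3 : 0 < y0 + y1) :
    qf c0 c1 c2 (x0 ^ 2) (x1 ^ 2) = (x0 ^ 2 - x1 ^ 2) *
      (c0 + (c1 + c2) * ((y0 * y1 - x0 * x1) * (x0 * y1 + x1 * y0)⁻¹) +
        (c1 - c2) * ((x0 + x1)⁻¹ + (y0 + y1)⁻¹ - 2)) := by
  have d1 : (x0 ^ 2 - x1 ^ 2) * ((y0 * y1 - x0 * x1) * (x0 * y1 + x1 * y0)⁻¹) =
      x0 * y0 - x1 * y1 := by
    rw [← mul_assoc, mul_inv_eq_iff_eq_mul₀ p1.ne']
    linear_combination (-(x0 * x1)) * e0 + (x0 * x1) * e1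
  have d2 : (x0 ^ 2 - x1 ^ 2) * (x0 + x1)⁻¹ = x0 - x1 := by
    rw [mul_inv_eq_iff_eq_mul₀ p2.ne']
    ring
  have d3 : (x0 ^ 2 - x1 ^ 2) * (y0 + y1)⁻¹ = y1 - y0 := by
    rw [mul_inv_eq_iff_eq_mul₀ p3.ne']
    linear_combination e0 - e1
  rw [qf, nf_sq hx0 hy0 e0, nf_sq hx1 hy1 e1, pf_sq hx0 hy0 e0, pf_sq hx1 hy1 e1]
  linear_combination (-(c1 + c2)) * d1 - (c1 - c2) * d2 - (c1 - c2) * d3 - 2 * c2 * e0 +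
    2 * c2 * e1

end Crest.Agent.R307
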