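import Crest.Agent.R307.HLDefs

/-! Row 307, low-noise step: definitions for the certificate (`lstep`). -/

set_option autoImplicit false

namespace Crest.Agent.R307

noncomputable section

/-- `sin φ` for `t = tan (φ / 2)`; `1 - cos φ = t * sT t` -/
def sT (t : ℝ) : ℝ := 2 * t / (1 + t ^ 2)

/-- the gain of `f` under the two-point noise -/
def gain (ρ : ℝ) (f : ℝ → ℝ) (a0 a1 : ℝ) : ℝ :=
  f ((1 + ρ) / 2 * a0 + (1 - ρ) / 2 * a1) + f ((1 - ρ) / 2 * a0 + (1 + ρ) / 2 * a1) - f a0 - f a1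

/-- the second test function -/
def pf (a : ℝ) : ℝ := nf (1 - a)

def qf (c0 c1 c2 a0 a1 : ℝ) : ℝ := c0 * (a0 - a1) + c1 * (nf a0 - nf a1) + c2 * (pf a0 - pf a1)

/-- the pointwise inequality of a member -/
def LIneq (ρ β t Ln Lp Rn Rp c0 c1 c2 a0 a1 : ℝ) : Prop :=
  sT t * β * qf c0 c1 c2 a0 a1 ≤
    Ln * gain ρ nf a0 a1 + Lp * gain ρ pf a0 a1 + t * sT t * (Rn * nf a1 + Rp * pf a0)

/-- a valid member -/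
def LValid (ρ β t Ln Lp Rn Rp c0 c1 c2 : ℝ) : Prop :=
  ∀ a0 a1 : ℝ, 0 ≤ a0 → a0 ≤ 1 → 0 ≤ a1 → a1 ≤ 1 → LIneq ρ β t Ln Lp Rn Rp c0 c1 c2 a0 a1

/-- validity on the quarter `a1 ≤ a0`, `a0 + a1 ≤ 1` -/
def LHalf (ρ β t Ln Lp Rn Rp c0 c1 c2 : ℝ) : Prop :=
  ∀ a0 a1 : ℝ, 0 ≤ a1 → a1 ≤ a0 → a0 + a1 ≤ 1 →
    LIneq ρ β t Ln Lp Rn Rp c0 c1 c2 a0 a1 ∧ 0 ≤ qf c0 c1 c2 a0 a1

/-- excess of the hypotenuse -/
def eG (P h : ℝ) : ℝ := √(P ^ 2 + h ^ 2) - P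

end

end Crest.Agent.R307
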