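import Crest.Agent.R307.LCore

/-! Row 307, low-noise step: the member at infinity. -/

set_option autoImplicit false

namespace Crest.Agent.R307

theorem LInf_param {a : ℝ} (h0 : 0 ≤ a) (h1 : a ≤ 1) :
    ∃ x y : ℝ, 0 ≤ x ∧ 0 ≤ y ∧ x ^ 2 + y ^ 2 = 1 ∧ a = x ^ 2 :=
  ⟨√a, √(1 - a), Real.sqrt_nonneg _, Real.sqrt_nonneg _,
    by rw [Real.sq_sqrt h0, Real.sq_sqrt (sub_nonneg.2 h1)]; ring, (Real.sq_sqrt h0).symm⟩

theorem LInf_mono {x0 y0 x1 y1 : ℝ} (hx0 : 0 ≤ x0) (hy0 : 0 ≤ y0) (hy1 : 0 ≤ y1)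
    (e0 : x0 ^ 2 + y0 ^ 2 = 1) (e1 : x1 ^ 2 + y1 ^ 2 = 1) (h : x0 ≤ x1) :
    x0 - y0 - x0 ^ 2 / 2 + x0 * y0 ≤ x1 - y1 - x1 ^ 2 / 2 + x1 * y1 := by
  have hx1' : x1 ≤ 1 := by nlinarith
  have hy : y1 ≤ y0 := abs_le_of_sq_le_sq' (by nlinarith) hy0 |>.2
  have h1 : 0 ≤ (x1 - x0) * (1 - (x0 + x1) / 2 + y1) :=
    mul_nonneg (by linarith) (by linarith)
  have h2 : 0 ≤ (y0 - y1) * (1 - x0) := mul_nonneg (by linarith) (by linarith)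
  nlinarith

theorem LInf_slope {x0 y0 x1 y1 : ℝ} (hx1 : 0 ≤ x1) (hy0 : 0 ≤ y0) (hy1 : 0 ≤ y1)
    (e0 : x0 ^ 2 + y0 ^ 2 = 1) (e1 : x1 ^ 2 + y1 ^ 2 = 1) (h : x1 < x0) :
    (x0 - y0 - x0 ^ 2 / 2 + x0 * y0) - (x1 - y1 - x1 ^ 2 / 2 + x1 * y1) ≤ 2 * y1 * (x0 - x1) := by
  have hx0 : 0 ≤ x0 := by linarith
  have hx0' : x0 ≤ 1 := by nlinarith
  have hy0' : y0 ≤ 1 := by nlinarith
  have hy1' : y1 ≤ 1 := by nlinarith
  have hp : 0 < y1 := by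
    rcases hy1.eq_or_lt with h1 | h1
    · subst h1
      nlinarith
    · exact h1
  have u0 : 0 ≤ x0 + y0 - 1 := by nlinarith [mul_nonneg hx0 hy0]
  have u1 : 0 ≤ x1 + y1 - 1 := by nlinarith [mul_nonneg hx1 hy1]
  have hF : 0 ≤ (x0 + y0 - 1) * (x1 + y1 - 1) + (x0 - x1) * (x0 + x1 - (y1 - y0) / 2) :=
    add_nonneg (mul_nonneg u0 u1) (mul_nonneg (by linarith) (by linarith))
  have h2 := mul_nonneg (sub_nonneg.2 h.le) hF
  refine le_of_mul_le_mul_left ?_ (show 0 < y0 + y1 by linarith)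
  have e : (y0 + y1) * (2 * y1 * (x0 - x1)) - (y0 + y1) *
      ((x0 - y0 - x0 ^ 2 / 2 + x0 * y0) - (x1 - y1 - x1 ^ 2 / 2 + x1 * y1)) =
      (x0 - x1) * ((x0 + y0 - 1) * (x1 + y1 - 1) + (x0 - x1) * (x0 + x1 - (y1 - y0) / 2)) := by
    linear_combination (1 - x0) * e0 + (2 * x0 - x1 - 1) * e1
  linarith

theorem LInf_nf {x y : ℝ} (hx : 0 ≤ x) (hy : 0 ≤ y) (e : x ^ 2 + y ^ 2 = 1) :
    1276 / 1000 * (x * y ^ 2) ≤ nf (x ^ 2) := by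
  have hx' : x ≤ 1 := by nlinarith
  have h1 : 1276 / 1000 * (x * (1 + x)) ≤ 1 + 2 * x - y := by
    rcases le_total x (1 / 2) with h | h
    · nlinarith [sq_nonneg (y - 1), mul_nonneg hx (sub_nonneg.2 h)]
    · nlinarith [sq_nonneg (y - 7 / 10), mul_nonneg (sub_nonneg.2 hx') (sub_nonneg.2 h)]
  rw [nf_sq hx hy e]
  have h2 := mul_le_mul_of_nonneg_left h1 (sub_nonneg.2 hx')
  have e2 : y ^ 2 = (1 - x) * (1 + x) := by linear_combination e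
  rw [e2]
  linarith

/-- Write `a_i = x_i²`, `y_i = √(1 - a_i)`, `d = a0 - a1`, `s = sT t`, `qf = (3/8) ((nf a0 + 3/2 a0) - (nf a1 + 3/2 a1))`.
* `a0 ≤ a1`: `nf a + 3/2 a` is increasing on `[0,1]`, so the left side is `≤ 0 ≤` right side.
  (With `qf_eq`: `qhat := 3/2 + (y0 y1 - x0 x1)/(x0 y1 + x1 y0) + 1/(x0+x1) + 1/(y0+y1) - 2 ≥ 0`; or
  `nf a + 3/2 a = φ a + (2 √a - a/2)`, derivative `(y - x)/(x + y + 1) + 1/x - 1/2 ≥ 0`.)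
* `a1 < a0`: `gain nf ≥ 2 gain √` (`gain_nf_ge`), `gain √ = √(σ² + 2E) - σ` (`gain_x`), `σ = x0 + x1`,
  `E = eG (x0 x1) h ≤ h ≤ β σ² / 2`, `h = β d / 2`, so by `slope_lo` (`F = 3/5 σ²`, `√(8/5) ≤ 1.265`)
  `gain √ ≥ (883/1000) E / σ`.  `eG_cauchy` with `k = 17/20 y1`, `κ = k²` gives `E ≥ k s h - κ t s x0 x1`.
  It remains: (i) `qhat ≤ 2 y1 / σ` (so `s β (3/8) d qhat ≤ (3/2) s h y1 / σ ≤ 2 (883/1000) k s h / σ`), and
  (ii) `2 (883/1000) κ x0 x1 / σ ≤ 1.276 x1 y1² ≤ nf a1 = (1 - x1)(1 + 2 x1 - y1)`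
  (`1 - x1 = y1²/(1 + x1)`, `1 - y1 = x1²/(1 + y1)`, `(2 + x1/(1+y1))/(1+x1) ≥ 1.38`).
  (i) without fractions: `nf a0 - nf a1 + 3/2 d ≤ 2 y1 (x0 - x1)`, i.e. `x ↦ nf (x²) + 3/2 x² - 2 y1 x` is
  decreasing for `x ≥ x1`: its derivative is `2x (y - x)/(x + y + 1) + 2 - x - 2 y1`, and
  `2x (y - x)/(x + y + 1) + 2 - x ≤ 2 y ≤ 2 y1` (times `x + y + 1`, with `x² + y² = 1`). -/
theorem valid_inf {ρ β t : ℝ} (h0 : 0 ≤ ρ) (hβ0 : 0 ≤ β) (hβ : β ≤ 3 / 5) (h : ρ ^ 2 + β ^ 2 = 1)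
    (ht : 0 ≤ t) : LValid ρ β t 1 0 1 0 (9 / 16) (3 / 8) 0 := by
  intro a0 a1 ha0 ha0' ha1 ha1'
  have hρ1 : ρ ≤ 1 := by nlinarith
  obtain ⟨x0, y0, hx0, hy0, e0, rfl⟩ := LInf_param ha0 ha0'
  obtain ⟨x1, y1, hx1, hy1, e1, rfl⟩ := LInf_param ha1 ha1'
  have hs : 0 ≤ sT t := by unfold sT; positivity
  have hgn := gain_nf_ge h0 hρ1 ha0 ha0' ha1 ha1'
  have hgn0 := gain_nf_nonneg h0 hρ1 ha0 ha0' ha1 ha1'
  have hn1 := nf_nonneg' ha1 ha1'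
  have hx0' : x0 ≤ 1 := by nlinarith
  have hx1' : x1 ≤ 1 := by nlinarith
  have hy1' : y1 ≤ 1 := by nlinarith
  have hq : qf (9 / 16) (3 / 8) 0 (x0 ^ 2) (x1 ^ 2) =
      3 / 8 * ((x0 - y0 - x0 ^ 2 / 2 + x0 * y0) - (x1 - y1 - x1 ^ 2 / 2 + x1 * y1)) := by
    unfold qf
    rw [nf_sq hx0 hy0 e0, nf_sq hx1 hy1 e1]
    ring
  unfold LIneq
  rw [hq, one_mul, zero_mul, zero_mul, add_zero, add_zero, one_mul]
  rcases le_or_gt x0 x1 with hle | hlt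
  · have hA := LInf_mono hx0 hy0 hy1 e0 e1 hle
    have h1 : 0 ≤ sT t * β := mul_nonneg hs hβ0
    have h2 : 0 ≤ t * sT t * nf (x1 ^ 2) := by positivity
    nlinarith
  · have hσ : 0 < x0 + x1 := by linarith
    have hi := LInf_slope hx1 hy0 hy1 e0 e1 hlt
    have hii := LInf_nf hx1 hy1 e1
    rw [gain_x h0 h hx0 hx1] at hgn
    set hh : ℝ := β * (x0 ^ 2 - x1 ^ 2) / 2 with hhh
    have hd : 0 ≤ x0 ^ 2 - x1 ^ 2 := by nlinarith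
    have hh0 : 0 ≤ hh := by positivity
    set E := eG (x0 * x1) hh with hE
    have hE0 : 0 ≤ E := eG_nonneg _ _
    have hEh : E ≤ hh := by
      have : √((x0 * x1) ^ 2 + hh ^ 2) ≤ x0 * x1 + hh :=
        Real.sqrt_le_iff.2 ⟨by positivity, by nlinarith [mul_nonneg (mul_nonneg hx0 hx1) hh0]⟩
      rw [hE, eG]
      linarith
    have hF : 2 * E ≤ 3 / 5 * (x0 + x1) ^ 2 := by
      have h1 : x0 ^ 2 - x1 ^ 2 ≤ (x0 + x1) ^ 2 := by nlinarith [mul_nonneg hx0 hx1]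
      have h2 : β * (x0 ^ 2 - x1 ^ 2) ≤ 3 / 5 * (x0 + x1) ^ 2 :=
        mul_le_mul hβ h1 hd (by norm_num)
      linarith
    have hsl := slope_lo hσ hE0 hF
    set G := √((x0 + x1) ^ 2 + 2 * E) - (x0 + x1) with hG
    have hG1 : 883 / 1000 * E ≤ (x0 + x1) * G := by
      have h1 : √((x0 + x1) ^ 2 + 3 / 5 * (x0 + x1) ^ 2) ≤ 1265 / 1000 * (x0 + x1) :=
        Real.sqrt_le_iff.2 ⟨by positivity, by nlinarith [sq_nonneg (x0 + x1)]⟩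
      have h2 : 0 < √((x0 + x1) ^ 2 + 3 / 5 * (x0 + x1) ^ 2) + (x0 + x1) := by positivity
      have h3 : 883 / 1000 ≤
          (x0 + x1) * (2 * (√((x0 + x1) ^ 2 + 3 / 5 * (x0 + x1) ^ 2) + (x0 + x1))⁻¹) := by
        rw [← div_eq_mul_inv, ← mul_div_assoc, le_div_iff₀ h2]
        linarith
      calc 883 / 1000 * E ≤ (x0 + x1) *
            (2 * (√((x0 + x1) ^ 2 + 3 / 5 * (x0 + x1) ^ 2) + (x0 + x1))⁻¹) * E :=
            mul_le_mul_of_nonneg_right h3 hE0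
        _ ≤ (x0 + x1) * G := by
            rw [mul_assoc]
            exact mul_le_mul_of_nonneg_left hsl hσ.le
    have hc := eG_cauchy (P := x0 * x1) (h := hh) (t := t) (k := 17 / 20 * y1)
      (κ := (17 / 20 * y1) ^ 2) (by
        have h1 : (17 / 20 * y1) ^ 2 ≤ 1 := by nlinarith
        have h2 : 0 ≤ (17 / 20 * y1) ^ 2 - ((17 / 20 * y1) ^ 2) ^ 2 := by
          nlinarith [sq_nonneg (17 / 20 * y1)]
        rw [sub_self, zero_add]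
        positivity)
    rw [← hE] at hc
    refine le_of_mul_le_mul_left ?_ hσ
    have hts : 0 ≤ t * sT t := mul_nonneg ht hs
    have b1 : (x0 + x1) * (sT t * β * (3 / 8 * ((x0 - y0 - x0 ^ 2 / 2 + x0 * y0) -
        (x1 - y1 - x1 ^ 2 / 2 + x1 * y1)))) ≤ 3 / 2 * (sT t * y1 * hh) := by
      have h1 : 0 ≤ (x0 + x1) * (sT t * β) := by positivity
      have h2 := mul_le_mul_of_nonneg_left hi h1
      have e : 3 / 2 * (sT t * y1 * hh) =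
          3 / 8 * ((x0 + x1) * (sT t * β) * (2 * y1 * (x0 - x1))) := by
        rw [hhh]; ring
      rw [e]
      linarith
    have b2 : 2 * ((x0 + x1) * G) ≤ (x0 + x1) * gain ρ nf (x0 ^ 2) (x1 ^ 2) := by
      have := mul_le_mul_of_nonneg_left hgn hσ.le
      linarith
    have b3 : 1276 / 1000 * (t * sT t * (x0 * x1 * y1 ^ 2)) ≤
        (x0 + x1) * (t * sT t * nf (x1 ^ 2)) := by
      have h1 : x0 * (1276 / 1000 * (x1 * y1 ^ 2)) ≤ (x0 + x1) * nf (x1 ^ 2) :=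
        mul_le_mul (by linarith) hii (by positivity) hσ.le
      have h2 := mul_le_mul_of_nonneg_left h1 hts
      linarith
    have b4 : 0 ≤ sT t * y1 * hh := by positivity
    have b5 : 0 ≤ t * sT t * (x0 * x1 * y1 ^ 2) := by positivity
    have b6 : 17 / 20 * (sT t * y1 * hh) - 289 / 400 * (t * sT t * (x0 * x1 * y1 ^ 2)) ≤ E := by
      refine le_of_eq_of_le ?_ hc
      ring
    rw [mul_add]
    linarith

end Crest.Agent.R307
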