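import Crest.Agent.R307.LM
import Crest.Agent.R307.LChart

/-! Row 307, low-noise step: the verified members (generated). -/

set_option autoImplicit false

namespace Crest.Agent.R307

theorem half_of_spec' {ρ β t Lp Lm Rn Rp c0 cs cd t0 t1 bh k1 jx jy ga Ln Lq c1 c2 : ℝ}
    (H : ∀ u v : ℝ, 0 ≤ u → u ≤ 1 → 0 ≤ v → v ≤ 1 →
      LM.x_Spec Lp Lm Rn Rp c0 cs cd t0 t1 bh k1 jx jy ga u v ∨
      LM.g_Spec Lp Lm Rn Rp c0 cs cd t0 t1 bh k1 jx jy ga u v ∨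
      LM.c_Spec Lp Lm Rn Rp c0 cs cd t0 t1 bh k1 jx jy ga u v)
    (h0 : 0 ≤ ρ) (hβ : 0 ≤ β) (h : ρ ^ 2 + β ^ 2 = 1) (hb1 : β ≤ 2 * bh)
    (hb0 : k1 * (2 * bh) ≤ β) (ht : t0 ≤ t) (ht' : t ≤ t1)
    (hc : 0 < bh ∧ 0 ≤ k1 ∧ 0 ≤ t0 ∧ 0 < t1 ∧ 0 ≤ Lp ∧
      ((0 ≤ Lm ∧ jx = 2 ∧ 0 ≤ jy ∧ jy ≤ 2 * k1 ^ 2) ∨ (Lm ≤ 0 ∧ jy = 2 ∧ 0 ≤ jx ∧ jx ≤ 2 * k1 ^ 2)) ∧
      (ga = 0 ∨ (t0 = 0 ∧ 0 < ga)) ∧ Ln = (Lp + Lm) / 2 ∧ Lq = (Lp - Lm) / 2 ∧ c1 = (cs + cd) / 2 ∧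
      c2 = (cs - cd) / 2) :
    LHalf ρ β t Ln Lq Rn Rp c0 c1 c2 := by
  obtain ⟨a1, a2, a3, a4, a5, a6, a7, rfl, rfl, rfl, rfl⟩ := hc
  exact half_of_spec h0 hβ h a1 hb1 a2 hb0 a3 ht ht' a4 a5 a6 a7 H

theorem lm_rho {ρ β : ℝ} (h : ρ ^ 2 + β ^ 2 = 1) : ρ ≤ 1 := by nlinarith [sq_nonneg β, sq_nonneg (ρ - 1)]

theorem mema0_0 {ρ β t : ℝ} (h0 : 0 ≤ ρ) (hβ : 0 ≤ β) (h : ρ ^ 2 + β ^ 2 = 1) (hb0 : (0 : ℝ) ≤ β)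
    (hb1 : β ≤ (3 / 8 : ℝ)) (ht0 : (0 : ℝ) ≤ t) (ht1 : t ≤ (5 / 32 : ℝ)) :
    LValid ρ β t (3 : ℝ) (1 : ℝ) (3 : ℝ) (1 : ℝ) (483 / 128 : ℝ) (21 / 16 : ℝ) (-7 / 16 : ℝ) :=
  valid_of_half h0 (lm_rho h) hβ (by linarith) (by norm_num) (by norm_num) (by norm_num) (by norm_num)
    (half_of_spec' LM.main0 h0 hβ h (by linarith) (by linarith) ht0 ht1 (by norm_num))
    (half_of_spec' LM.main1 h0 hβ h (by linarith) (by linarith) ht0 ht1 (by norm_num))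

theorem mema0_1 {ρ β t : ℝ} (h0 : 0 ≤ ρ) (hβ : 0 ≤ β) (h : ρ ^ 2 + β ^ 2 = 1) (hb0 : (0 : ℝ) ≤ β)
    (hb1 : β ≤ (3 / 8 : ℝ)) (ht0 : (0 : ℝ) ≤ t) (ht1 : t ≤ (5 / 32 : ℝ)) :
    LValid ρ β t (1 : ℝ) (1 : ℝ) (1 : ℝ) (1 / 2 : ℝ) (213 / 128 : ℝ) (15 / 32 : ℝ) (-5 / 16 : ℝ) :=
  valid_of_half h0 (lm_rho h) hβ (by linarith) (by norm_num) (by norm_num) (by norm_num) (by norm_num)
    (half_of_spec' LM.main2 h0 hβ h (by linarith) (by linarith) ht0 ht1 (by norm_num))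
    (half_of_spec' LM.main3 h0 hβ h (by linarith) (by linarith) ht0 ht1 (by norm_num))

theorem mema0_2 {ρ β t : ℝ} (h0 : 0 ≤ ρ) (hβ : 0 ≤ β) (h : ρ ^ 2 + β ^ 2 = 1) (hb0 : (0 : ℝ) ≤ β)
    (hb1 : β ≤ (3 / 8 : ℝ)) (ht0 : (0 : ℝ) ≤ t) (ht1 : t ≤ (5 / 32 : ℝ)) :
    LValid ρ β t (5 / 4 : ℝ) (1 : ℝ) (5 / 8 : ℝ) (1 : ℝ) (473 / 256 : ℝ) (105 / 256 : ℝ) (-15 / 32 : ℝ) :=
  valid_of_half h0 (lm_rho h) hβ (by linarith) (by norm_num) (by norm_num) (by norm_num) (by norm_num)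
    (half_of_spec' LM.main4 h0 hβ h (by linarith) (by linarith) ht0 ht1 (by norm_num))
    (half_of_spec' LM.main5 h0 hβ h (by linarith) (by linarith) ht0 ht1 (by norm_num))

theorem mema0_3 {ρ β t : ℝ} (h0 : 0 ≤ ρ) (hβ : 0 ≤ β) (h : ρ ^ 2 + β ^ 2 = 1) (hb0 : (0 : ℝ) ≤ β)
    (hb1 : β ≤ (3 / 8 : ℝ)) (ht0 : (0 : ℝ) ≤ t) (ht1 : t ≤ (5 / 32 : ℝ)) :
    LValid ρ β t (1 : ℝ) (1 : ℝ) (5 / 8 : ℝ) (1 : ℝ) (897 / 512 : ℝ) (3 / 8 : ℝ) (-15 / 32 : ℝ) :=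
  valid_of_half h0 (lm_rho h) hβ (by linarith) (by norm_num) (by norm_num) (by norm_num) (by norm_num)
    (half_of_spec' LM.main6 h0 hβ h (by linarith) (by linarith) ht0 ht1 (by norm_num))
    (half_of_spec' LM.main7 h0 hβ h (by linarith) (by linarith) ht0 ht1 (by norm_num))

theorem mema0_4 {ρ β t : ℝ} (h0 : 0 ≤ ρ) (hβ : 0 ≤ β) (h : ρ ^ 2 + β ^ 2 = 1) (hb0 : (0 : ℝ) ≤ β)
    (hb1 : β ≤ (3 / 8 : ℝ)) (ht0 : (0 : ℝ) ≤ t) (ht1 : t ≤ (5 / 32 : ℝ)) :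
    LValid ρ β t (3 : ℝ) (1 : ℝ) (15 / 8 : ℝ) (1 : ℝ) (837 / 256 : ℝ) (9 / 8 : ℝ) (-29 / 64 : ℝ) :=
  valid_of_half h0 (lm_rho h) hβ (by linarith) (by norm_num) (by norm_num) (by norm_num) (by norm_num)
    (half_of_spec' LM.main8 h0 hβ h (by linarith) (by linarith) ht0 ht1 (by norm_num))
    (half_of_spec' LM.main9 h0 hβ h (by linarith) (by linarith) ht0 ht1 (by norm_num))

theorem mema1_0 {ρ β t : ℝ} (h0 : 0 ≤ ρ) (hβ : 0 ≤ β) (h : ρ ^ 2 + β ^ 2 = 1) (hb0 : (0 : ℝ) ≤ β)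
    (hb1 : β ≤ (3 / 8 : ℝ)) (ht0 : (5 / 32 : ℝ) ≤ t) (ht1 : t ≤ (5 / 16 : ℝ)) :
    LValid ρ β t (3 / 2 : ℝ) (1 : ℝ) (39 / 32 : ℝ) (1 : ℝ) (1179 / 512 : ℝ) (51 / 128 : ℝ) (-3 / 8 : ℝ) :=
  valid_of_half h0 (lm_rho h) hβ (by linarith) (by norm_num) (by norm_num) (by norm_num) (by norm_num)
    (half_of_spec' LM.main10 h0 hβ h (by linarith) (by linarith) ht0 ht1 (by norm_num))
    (half_of_spec' LM.main11 h0 hβ h (by linarith) (by linarith) ht0 ht1 (by norm_num))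

theorem mema1_1 {ρ β t : ℝ} (h0 : 0 ≤ ρ) (hβ : 0 ≤ β) (h : ρ ^ 2 + β ^ 2 = 1) (hb0 : (0 : ℝ) ≤ β)
    (hb1 : β ≤ (3 / 8 : ℝ)) (ht0 : (5 / 32 : ℝ) ≤ t) (ht1 : t ≤ (5 / 16 : ℝ)) :
    LValid ρ β t (1 : ℝ) (1 : ℝ) (3 / 8 : ℝ) (1 : ℝ) (51 / 32 : ℝ) (3 / 16 : ℝ) (-29 / 64 : ℝ) :=
  valid_of_half h0 (lm_rho h) hβ (by linarith) (by norm_num) (by norm_num) (by norm_num) (by norm_num)
    (half_of_spec' LM.main12 h0 hβ h (by linarith) (by linarith) ht0 ht1 (by norm_num))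
    (half_of_spec' LM.main13 h0 hβ h (by linarith) (by linarith) ht0 ht1 (by norm_num))

theorem mema1_2 {ρ β t : ℝ} (h0 : 0 ≤ ρ) (hβ : 0 ≤ β) (h : ρ ^ 2 + β ^ 2 = 1) (hb0 : (0 : ℝ) ≤ β)
    (hb1 : β ≤ (3 / 8 : ℝ)) (ht0 : (5 / 32 : ℝ) ≤ t) (ht1 : t ≤ (5 / 16 : ℝ)) :
    LValid ρ β t (1 : ℝ) (1 : ℝ) (1 : ℝ) (1 : ℝ) (253 / 128 : ℝ) (3 / 8 : ℝ) (-19 / 64 : ℝ) :=
  valid_of_half h0 (lm_rho h) hβ (by linarith) (by norm_num) (by norm_num) (by norm_num) (by norm_num)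
    (half_of_spec' LM.main14 h0 hβ h (by linarith) (by linarith) ht0 ht1 (by norm_num))
    (half_of_spec' LM.main15 h0 hβ h (by linarith) (by linarith) ht0 ht1 (by norm_num))

theorem mema1_3 {ρ β t : ℝ} (h0 : 0 ≤ ρ) (hβ : 0 ≤ β) (h : ρ ^ 2 + β ^ 2 = 1) (hb0 : (0 : ℝ) ≤ β)
    (hb1 : β ≤ (3 / 8 : ℝ)) (ht0 : (5 / 32 : ℝ) ≤ t) (ht1 : t ≤ (5 / 16 : ℝ)) :
    LValid ρ β t (7 / 4 : ℝ) (1 : ℝ) (7 / 4 : ℝ) (1 / 2 : ℝ) (1239 / 512 : ℝ) (63 / 128 : ℝ) (-21 / 64 : ℝ) :=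
  valid_of_half h0 (lm_rho h) hβ (by linarith) (by norm_num) (by norm_num) (by norm_num) (by norm_num)
    (half_of_spec' LM.main16 h0 hβ h (by linarith) (by linarith) ht0 ht1 (by norm_num))
    (half_of_spec' LM.main17 h0 hβ h (by linarith) (by linarith) ht0 ht1 (by norm_num))

theorem mema2_0 {ρ β t : ℝ} (h0 : 0 ≤ ρ) (hβ : 0 ≤ β) (h : ρ ^ 2 + β ^ 2 = 1) (hb0 : (0 : ℝ) ≤ β)
    (hb1 : β ≤ (3 / 8 : ℝ)) (ht0 : (5 / 16 : ℝ) ≤ t) (ht1 : t ≤ (1 / 2 : ℝ)) :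
    LValid ρ β t (1 : ℝ) (1 : ℝ) (5 / 8 : ℝ) (1 : ℝ) (457 / 256 : ℝ) (13 / 64 : ℝ) (-7 / 16 : ℝ) :=
  valid_of_half h0 (lm_rho h) hβ (by linarith) (by norm_num) (by norm_num) (by norm_num) (by norm_num)
    (half_of_spec' LM.main18 h0 hβ h (by linarith) (by linarith) ht0 ht1 (by norm_num))
    (half_of_spec' LM.main19 h0 hβ h (by linarith) (by linarith) ht0 ht1 (by norm_num))

theorem mema2_1 {ρ β t : ℝ} (h0 : 0 ≤ ρ) (hβ : 0 ≤ β) (h : ρ ^ 2 + β ^ 2 = 1) (hb0 : (0 : ℝ) ≤ β)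
    (hb1 : β ≤ (3 / 8 : ℝ)) (ht0 : (5 / 16 : ℝ) ≤ t) (ht1 : t ≤ (1 / 2 : ℝ)) :
    LValid ρ β t (1 : ℝ) (1 : ℝ) (1 : ℝ) (1 / 4 : ℝ) (3 / 2 : ℝ) (25 / 64 : ℝ) (-1 / 8 : ℝ) :=
  valid_of_half h0 (lm_rho h) hβ (by linarith) (by norm_num) (by norm_num) (by norm_num) (by norm_num)
    (half_of_spec' LM.main20 h0 hβ h (by linarith) (by linarith) ht0 ht1 (by norm_num))
    (half_of_spec' LM.main21 h0 hβ h (by linarith) (by linarith) ht0 ht1 (by norm_num))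

theorem mema2_2 {ρ β t : ℝ} (h0 : 0 ≤ ρ) (hβ : 0 ≤ β) (h : ρ ^ 2 + β ^ 2 = 1) (hb0 : (0 : ℝ) ≤ β)
    (hb1 : β ≤ (3 / 8 : ℝ)) (ht0 : (5 / 16 : ℝ) ≤ t) (ht1 : t ≤ (1 / 2 : ℝ)) :
    LValid ρ β t (3 : ℝ) (1 : ℝ) (15 / 8 : ℝ) (1 : ℝ) (425 / 128 : ℝ) (33 / 64 : ℝ) (-7 / 16 : ℝ) :=
  valid_of_half h0 (lm_rho h) hβ (by linarith) (by norm_num) (by norm_num) (by norm_num) (by norm_num)
    (half_of_spec' LM.main22 h0 hβ h (by linarith) (by linarith) ht0 ht1 (by norm_num))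
    (half_of_spec' LM.main23 h0 hβ h (by linarith) (by linarith) ht0 ht1 (by norm_num))

theorem mema3_0 {ρ β t : ℝ} (h0 : 0 ≤ ρ) (hβ : 0 ≤ β) (h : ρ ^ 2 + β ^ 2 = 1) (hb0 : (0 : ℝ) ≤ β)
    (hb1 : β ≤ (3 / 8 : ℝ)) (ht0 : (1 / 2 : ℝ) ≤ t) (ht1 : t ≤ (3 / 4 : ℝ)) :
    LValid ρ β t (3 / 2 : ℝ) (1 : ℝ) (3 / 2 : ℝ) (3 / 8 : ℝ) (1085 / 512 : ℝ) (45 / 128 : ℝ) (-1 / 8 : ℝ) :=
  valid_of_half h0 (lm_rho h) hβ (by linarith) (by norm_num) (by norm_num) (by norm_num) (by norm_num)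
    (half_of_spec' LM.main24 h0 hβ h (by linarith) (by linarith) ht0 ht1 (by norm_num))
    (half_of_spec' LM.main25 h0 hβ h (by linarith) (by linarith) ht0 ht1 (by norm_num))

theorem mema3_1 {ρ β t : ℝ} (h0 : 0 ≤ ρ) (hβ : 0 ≤ β) (h : ρ ^ 2 + β ^ 2 = 1) (hb0 : (0 : ℝ) ≤ β)
    (hb1 : β ≤ (3 / 8 : ℝ)) (ht0 : (1 / 2 : ℝ) ≤ t) (ht1 : t ≤ (3 / 4 : ℝ)) :
    LValid ρ β t (1 : ℝ) (1 : ℝ) (5 / 8 : ℝ) (1 : ℝ) (925 / 512 : ℝ) (1 / 8 : ℝ) (-17 / 64 : ℝ) :=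
  valid_of_half h0 (lm_rho h) hβ (by linarith) (by norm_num) (by norm_num) (by norm_num) (by norm_num)
    (half_of_spec' LM.main26 h0 hβ h (by linarith) (by linarith) ht0 ht1 (by norm_num))
    (half_of_spec' LM.main27 h0 hβ h (by linarith) (by linarith) ht0 ht1 (by norm_num))

theorem mema3_2 {ρ β t : ℝ} (h0 : 0 ≤ ρ) (hβ : 0 ≤ β) (h : ρ ^ 2 + β ^ 2 = 1) (hb0 : (0 : ℝ) ≤ β)
    (hb1 : β ≤ (3 / 8 : ℝ)) (ht0 : (1 / 2 : ℝ) ≤ t) (ht1 : t ≤ (3 / 4 : ℝ)) :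
    LValid ρ β t (1 : ℝ) (1 : ℝ) (1 : ℝ) (1 / 2 : ℝ) (877 / 512 : ℝ) (13 / 64 : ℝ) (-7 / 64 : ℝ) :=
  valid_of_half h0 (lm_rho h) hβ (by linarith) (by norm_num) (by norm_num) (by norm_num) (by norm_num)
    (half_of_spec' LM.main28 h0 hβ h (by linarith) (by linarith) ht0 ht1 (by norm_num))
    (half_of_spec' LM.main29 h0 hβ h (by linarith) (by linarith) ht0 ht1 (by norm_num))

theorem mema3_3 {ρ β t : ℝ} (h0 : 0 ≤ ρ) (hβ : 0 ≤ β) (h : ρ ^ 2 + β ^ 2 = 1) (hb0 : (0 : ℝ) ≤ β)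
    (hb1 : β ≤ (3 / 8 : ℝ)) (ht0 : (1 / 2 : ℝ) ≤ t) (ht1 : t ≤ (3 / 4 : ℝ)) :
    LValid ρ β t (9 / 4 : ℝ) (1 : ℝ) (45 / 32 : ℝ) (1 : ℝ) (179 / 64 : ℝ) (45 / 128 : ℝ) (-7 / 32 : ℝ) :=
  valid_of_half h0 (lm_rho h) hβ (by linarith) (by norm_num) (by norm_num) (by norm_num) (by norm_num)
    (half_of_spec' LM.main30 h0 hβ h (by linarith) (by linarith) ht0 ht1 (by norm_num))
    (half_of_spec' LM.main31 h0 hβ h (by linarith) (by linarith) ht0 ht1 (by norm_num))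

theorem memb0_0 {ρ β t : ℝ} (h0 : 0 ≤ ρ) (hβ : 0 ≤ β) (h : ρ ^ 2 + β ^ 2 = 1) (hb0 : (3 / 8 : ℝ) ≤ β)
    (hb1 : β ≤ (1229 / 2048 : ℝ)) (ht0 : (0 : ℝ) ≤ t) (ht1 : t ≤ (5 / 32 : ℝ)) :
    LValid ρ β t (1 : ℝ) (1 : ℝ) (1 / 2 : ℝ) (1 : ℝ) (429 / 256 : ℝ) (19 / 64 : ℝ) (-35 / 64 : ℝ) :=
  valid_of_half h0 (lm_rho h) hβ (by linarith) (by norm_num) (by norm_num) (by norm_num) (by norm_num)
    (half_of_spec' LM.main32 h0 hβ h (by linarith) (by linarith) ht0 ht1 (by norm_num))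
    (half_of_spec' LM.main33 h0 hβ h (by linarith) (by linarith) ht0 ht1 (by norm_num))

theorem memb0_1 {ρ β t : ℝ} (h0 : 0 ≤ ρ) (hβ : 0 ≤ β) (h : ρ ^ 2 + β ^ 2 = 1) (hb0 : (3 / 8 : ℝ) ≤ β)
    (hb1 : β ≤ (1229 / 2048 : ℝ)) (ht0 : (0 : ℝ) ≤ t) (ht1 : t ≤ (5 / 32 : ℝ)) :
    LValid ρ β t (3 : ℝ) (1 : ℝ) (15 / 8 : ℝ) (1 : ℝ) (1741 / 512 : ℝ) (81 / 64 : ℝ) (-33 / 64 : ℝ) :=
  valid_of_half h0 (lm_rho h) hβ (by linarith) (by norm_num) (by norm_num) (by norm_num) (by norm_num)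
    (half_of_spec' LM.main34 h0 hβ h (by linarith) (by linarith) ht0 ht1 (by norm_num))
    (half_of_spec' LM.main35 h0 hβ h (by linarith) (by linarith) ht0 ht1 (by norm_num))

theorem memb0_2 {ρ β t : ℝ} (h0 : 0 ≤ ρ) (hβ : 0 ≤ β) (h : ρ ^ 2 + β ^ 2 = 1) (hb0 : (3 / 8 : ℝ) ≤ β)
    (hb1 : β ≤ (1229 / 2048 : ℝ)) (ht0 : (0 : ℝ) ≤ t) (ht1 : t ≤ (5 / 32 : ℝ)) :
    LValid ρ β t (1 : ℝ) (1 : ℝ) (1 : ℝ) (3 / 8 : ℝ) (427 / 256 : ℝ) (9 / 16 : ℝ) (-11 / 32 : ℝ) :=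
  valid_of_half h0 (lm_rho h) hβ (by linarith) (by norm_num) (by norm_num) (by norm_num) (by norm_num)
    (half_of_spec' LM.main36 h0 hβ h (by linarith) (by linarith) ht0 ht1 (by norm_num))
    (half_of_spec' LM.main37 h0 hβ h (by linarith) (by linarith) ht0 ht1 (by norm_num))

theorem memb0_3 {ρ β t : ℝ} (h0 : 0 ≤ ρ) (hβ : 0 ≤ β) (h : ρ ^ 2 + β ^ 2 = 1) (hb0 : (3 / 8 : ℝ) ≤ β)
    (hb1 : β ≤ (1229 / 2048 : ℝ)) (ht0 : (0 : ℝ) ≤ t) (ht1 : t ≤ (5 / 32 : ℝ)) :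
    LValid ρ β t (3 : ℝ) (1 : ℝ) (3 : ℝ) (1 : ℝ) (515 / 128 : ℝ) (51 / 32 : ℝ) (-33 / 64 : ℝ) :=
  valid_of_half h0 (lm_rho h) hβ (by linarith) (by norm_num) (by norm_num) (by norm_num) (by norm_num)
    (half_of_spec' LM.main38 h0 hβ h (by linarith) (by linarith) ht0 ht1 (by norm_num))
    (half_of_spec' LM.main39 h0 hβ h (by linarith) (by linarith) ht0 ht1 (by norm_num))

theorem memb0_4 {ρ β t : ℝ} (h0 : 0 ≤ ρ) (hβ : 0 ≤ β) (h : ρ ^ 2 + β ^ 2 = 1) (hb0 : (3 / 8 : ℝ) ≤ β)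
    (hb1 : β ≤ (1229 / 2048 : ℝ)) (ht0 : (0 : ℝ) ≤ t) (ht1 : t ≤ (5 / 32 : ℝ)) :
    LValid ρ β t (3 / 2 : ℝ) (1 : ℝ) (9 / 16 : ℝ) (1 : ℝ) (255 / 128 : ℝ) (33 / 64 : ℝ) (-35 / 64 : ℝ) :=
  valid_of_half h0 (lm_rho h) hβ (by linarith) (by norm_num) (by norm_num) (by norm_num) (by norm_num)
    (half_of_spec' LM.main40 h0 hβ h (by linarith) (by linarith) ht0 ht1 (by norm_num))
    (half_of_spec' LM.main41 h0 hβ h (by linarith) (by linarith) ht0 ht1 (by norm_num))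

theorem memb1_0 {ρ β t : ℝ} (h0 : 0 ≤ ρ) (hβ : 0 ≤ β) (h : ρ ^ 2 + β ^ 2 = 1) (hb0 : (3 / 8 : ℝ) ≤ β)
    (hb1 : β ≤ (1229 / 2048 : ℝ)) (ht0 : (5 / 32 : ℝ) ≤ t) (ht1 : t ≤ (5 / 16 : ℝ)) :
    LValid ρ β t (1 : ℝ) (1 : ℝ) (3 / 8 : ℝ) (1 : ℝ) (851 / 512 : ℝ) (19 / 64 : ℝ) (-25 / 64 : ℝ) :=
  valid_of_half h0 (lm_rho h) hβ (by linarith) (by norm_num) (by norm_num) (by norm_num) (by norm_num)
    (half_of_spec' LM.main42 h0 hβ h (by linarith) (by linarith) ht0 ht1 (by norm_num))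
    (half_of_spec' LM.main43 h0 hβ h (by linarith) (by linarith) ht0 ht1 (by norm_num))

theorem memb1_1 {ρ β t : ℝ} (h0 : 0 ≤ ρ) (hβ : 0 ≤ β) (h : ρ ^ 2 + β ^ 2 = 1) (hb0 : (3 / 8 : ℝ) ≤ β)
    (hb1 : β ≤ (1229 / 2048 : ℝ)) (ht0 : (5 / 32 : ℝ) ≤ t) (ht1 : t ≤ (5 / 16 : ℝ)) :
    LValid ρ β t (3 / 2 : ℝ) (1 : ℝ) (3 / 2 : ℝ) (1 / 4 : ℝ) (513 / 256 : ℝ) (21 / 32 : ℝ) (-5 / 32 : ℝ) :=
  valid_of_half h0 (lm_rho h) hβ (by linarith) (by norm_num) (by norm_num) (by norm_num) (by norm_num)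
    (half_of_spec' LM.main44 h0 hβ h (by linarith) (by linarith) ht0 ht1 (by norm_num))
    (half_of_spec' LM.main45 h0 hβ h (by linarith) (by linarith) ht0 ht1 (by norm_num))

theorem memb1_2 {ρ β t : ℝ} (h0 : 0 ≤ ρ) (hβ : 0 ≤ β) (h : ρ ^ 2 + β ^ 2 = 1) (hb0 : (3 / 8 : ℝ) ≤ β)
    (hb1 : β ≤ (1229 / 2048 : ℝ)) (ht0 : (5 / 32 : ℝ) ≤ t) (ht1 : t ≤ (5 / 16 : ℝ)) :
    LValid ρ β t (1 : ℝ) (1 : ℝ) (1 : ℝ) (3 / 8 : ℝ) (435 / 256 : ℝ) (13 / 32 : ℝ) (-11 / 32 : ℝ) :=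
  valid_of_half h0 (lm_rho h) hβ (by linarith) (by norm_num) (by norm_num) (by norm_num) (by norm_num)
    (half_of_spec' LM.main46 h0 hβ h (by linarith) (by linarith) ht0 ht1 (by norm_num))
    (half_of_spec' LM.main47 h0 hβ h (by linarith) (by linarith) ht0 ht1 (by norm_num))

theorem memb1_3 {ρ β t : ℝ} (h0 : 0 ≤ ρ) (hβ : 0 ≤ β) (h : ρ ^ 2 + β ^ 2 = 1) (hb0 : (3 / 8 : ℝ) ≤ β)
    (hb1 : β ≤ (1229 / 2048 : ℝ)) (ht0 : (5 / 32 : ℝ) ≤ t) (ht1 : t ≤ (5 / 16 : ℝ)) :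
    LValid ρ β t (9 / 4 : ℝ) (1 : ℝ) (9 / 16 : ℝ) (1 : ℝ) (1169 / 512 : ℝ) (81 / 128 : ℝ) (-33 / 64 : ℝ) :=
  valid_of_half h0 (lm_rho h) hβ (by linarith) (by norm_num) (by norm_num) (by norm_num) (by norm_num)
    (half_of_spec' LM.main48 h0 hβ h (by linarith) (by linarith) ht0 ht1 (by norm_num))
    (half_of_spec' LM.main49 h0 hβ h (by linarith) (by linarith) ht0 ht1 (by norm_num))

theorem memb2_0 {ρ β t : ℝ} (h0 : 0 ≤ ρ) (hβ : 0 ≤ β) (h : ρ ^ 2 + β ^ 2 = 1) (hb0 : (3 / 8 : ℝ) ≤ β)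
    (hb1 : β ≤ (1229 / 2048 : ℝ)) (ht0 : (5 / 16 : ℝ) ≤ t) (ht1 : t ≤ (7 / 16 : ℝ)) :
    LValid ρ β t (1 : ℝ) (1 : ℝ) (1 / 2 : ℝ) (1 : ℝ) (949 / 512 : ℝ) (3 / 8 : ℝ) (-15 / 32 : ℝ) :=
  valid_of_half h0 (lm_rho h) hβ (by linarith) (by norm_num) (by norm_num) (by norm_num) (by norm_num)
    (half_of_spec' LM.main50 h0 hβ h (by linarith) (by linarith) ht0 ht1 (by norm_num))
    (half_of_spec' LM.main51 h0 hβ h (by linarith) (by linarith) ht0 ht1 (by norm_num))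

theorem memb2_1 {ρ β t : ℝ} (h0 : 0 ≤ ρ) (hβ : 0 ≤ β) (h : ρ ^ 2 + β ^ 2 = 1) (hb0 : (3 / 8 : ℝ) ≤ β)
    (hb1 : β ≤ (1229 / 2048 : ℝ)) (ht0 : (5 / 16 : ℝ) ≤ t) (ht1 : t ≤ (7 / 16 : ℝ)) :
    LValid ρ β t (3 : ℝ) (1 : ℝ) (15 / 8 : ℝ) (1 : ℝ) (1779 / 512 : ℝ) (57 / 64 : ℝ) (-25 / 64 : ℝ) :=
  valid_of_half h0 (lm_rho h) hβ (by linarith) (by norm_num) (by norm_num) (by norm_num) (by norm_num)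
    (half_of_spec' LM.main52 h0 hβ h (by linarith) (by linarith) ht0 ht1 (by norm_num))
    (half_of_spec' LM.main53 h0 hβ h (by linarith) (by linarith) ht0 ht1 (by norm_num))

theorem memb3_0 {ρ β t : ℝ} (h0 : 0 ≤ ρ) (hβ : 0 ≤ β) (h : ρ ^ 2 + β ^ 2 = 1) (hb0 : (3 / 8 : ℝ) ≤ β)
    (hb1 : β ≤ (1229 / 2048 : ℝ)) (ht0 : (7 / 16 : ℝ) ≤ t) (ht1 : t ≤ (9 / 16 : ℝ)) :
    LValid ρ β t (3 : ℝ) (1 : ℝ) (3 : ℝ) (1 / 8 : ℝ) (1743 / 512 : ℝ) (9 / 8 : ℝ) (-5 / 32 : ℝ) :=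
  valid_of_half h0 (lm_rho h) hβ (by linarith) (by norm_num) (by norm_num) (by norm_num) (by norm_num)
    (half_of_spec' LM.main54 h0 hβ h (by linarith) (by linarith) ht0 ht1 (by norm_num))
    (half_of_spec' LM.main55 h0 hβ h (by linarith) (by linarith) ht0 ht1 (by norm_num))

theorem memb3_1 {ρ β t : ℝ} (h0 : 0 ≤ ρ) (hβ : 0 ≤ β) (h : ρ ^ 2 + β ^ 2 = 1) (hb0 : (3 / 8 : ℝ) ≤ β)
    (hb1 : β ≤ (1229 / 2048 : ℝ)) (ht0 : (7 / 16 : ℝ) ≤ t) (ht1 : t ≤ (9 / 16 : ℝ)) :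
    LValid ρ β t (1 : ℝ) (1 : ℝ) (1 : ℝ) (3 / 8 : ℝ) (433 / 256 : ℝ) (23 / 64 : ℝ) (-15 / 64 : ℝ) :=
  valid_of_half h0 (lm_rho h) hβ (by linarith) (by norm_num) (by norm_num) (by norm_num) (by norm_num)
    (half_of_spec' LM.main56 h0 hβ h (by linarith) (by linarith) ht0 ht1 (by norm_num))
    (half_of_spec' LM.main57 h0 hβ h (by linarith) (by linarith) ht0 ht1 (by norm_num))

theorem memb3_2 {ρ β t : ℝ} (h0 : 0 ≤ ρ) (hβ : 0 ≤ β) (h : ρ ^ 2 + β ^ 2 = 1) (hb0 : (3 / 8 : ℝ) ≤ β)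
    (hb1 : β ≤ (1229 / 2048 : ℝ)) (ht0 : (7 / 16 : ℝ) ≤ t) (ht1 : t ≤ (9 / 16 : ℝ)) :
    LValid ρ β t (9 / 4 : ℝ) (1 : ℝ) (9 / 8 : ℝ) (1 : ℝ) (357 / 128 : ℝ) (171 / 256 : ℝ) (-29 / 64 : ℝ) :=
  valid_of_half h0 (lm_rho h) hβ (by linarith) (by norm_num) (by norm_num) (by norm_num) (by norm_num)
    (half_of_spec' LM.main58 h0 hβ h (by linarith) (by linarith) ht0 ht1 (by norm_num))
    (half_of_spec' LM.main59 h0 hβ h (by linarith) (by linarith) ht0 ht1 (by norm_num))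

theorem memb3_3 {ρ β t : ℝ} (h0 : 0 ≤ ρ) (hβ : 0 ≤ β) (h : ρ ^ 2 + β ^ 2 = 1) (hb0 : (3 / 8 : ℝ) ≤ β)
    (hb1 : β ≤ (1229 / 2048 : ℝ)) (ht0 : (7 / 16 : ℝ) ≤ t) (ht1 : t ≤ (9 / 16 : ℝ)) :
    LValid ρ β t (1 : ℝ) (1 : ℝ) (13 / 16 : ℝ) (1 : ℝ) (251 / 128 : ℝ) (1 / 4 : ℝ) (-15 / 32 : ℝ) :=
  valid_of_half h0 (lm_rho h) hβ (by linarith) (by norm_num) (by norm_num) (by norm_num) (by norm_num)
    (half_of_spec' LM.main60 h0 hβ h (by linarith) (by linarith) ht0 ht1 (by norm_num))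
    (half_of_spec' LM.main61 h0 hβ h (by linarith) (by linarith) ht0 ht1 (by norm_num))

theorem memb3_4 {ρ β t : ℝ} (h0 : 0 ≤ ρ) (hβ : 0 ≤ β) (h : ρ ^ 2 + β ^ 2 = 1) (hb0 : (3 / 8 : ℝ) ≤ β)
    (hb1 : β ≤ (1229 / 2048 : ℝ)) (ht0 : (7 / 16 : ℝ) ≤ t) (ht1 : t ≤ (9 / 16 : ℝ)) :
    LValid ρ β t (1 : ℝ) (1 : ℝ) (1 : ℝ) (1 / 2 : ℝ) (461 / 256 : ℝ) (19 / 64 : ℝ) (-5 / 16 : ℝ) :=
  valid_of_half h0 (lm_rho h) hβ (by linarith) (by norm_num) (by norm_num) (by norm_num) (by norm_num)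
    (half_of_spec' LM.main62 h0 hβ h (by linarith) (by linarith) ht0 ht1 (by norm_num))
    (half_of_spec' LM.main63 h0 hβ h (by linarith) (by linarith) ht0 ht1 (by norm_num))

theorem memb4_0 {ρ β t : ℝ} (h0 : 0 ≤ ρ) (hβ : 0 ≤ β) (h : ρ ^ 2 + β ^ 2 = 1) (hb0 : (3 / 8 : ℝ) ≤ β)
    (hb1 : β ≤ (1229 / 2048 : ℝ)) (ht0 : (9 / 16 : ℝ) ≤ t) (ht1 : t ≤ (11 / 16 : ℝ)) :
    LValid ρ β t (1 : ℝ) (1 : ℝ) (1 / 4 : ℝ) (1 : ℝ) (781 / 512 : ℝ) (3 / 32 : ℝ) (-7 / 32 : ℝ) :=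
  valid_of_half h0 (lm_rho h) hβ (by linarith) (by norm_num) (by norm_num) (by norm_num) (by norm_num)
    (half_of_spec' LM.main64 h0 hβ h (by linarith) (by linarith) ht0 ht1 (by norm_num))
    (half_of_spec' LM.main65 h0 hβ h (by linarith) (by linarith) ht0 ht1 (by norm_num))

theorem memb4_1 {ρ β t : ℝ} (h0 : 0 ≤ ρ) (hβ : 0 ≤ β) (h : ρ ^ 2 + β ^ 2 = 1) (hb0 : (3 / 8 : ℝ) ≤ β)
    (hb1 : β ≤ (1229 / 2048 : ℝ)) (ht0 : (9 / 16 : ℝ) ≤ t) (ht1 : t ≤ (11 / 16 : ℝ)) :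
    LValid ρ β t (3 : ℝ) (1 : ℝ) (3 / 2 : ℝ) (1 : ℝ) (203 / 64 : ℝ) (9 / 16 : ℝ) (-27 / 64 : ℝ) :=
  valid_of_half h0 (lm_rho h) hβ (by linarith) (by norm_num) (by norm_num) (by norm_num) (by norm_num)
    (half_of_spec' LM.main66 h0 hβ h (by linarith) (by linarith) ht0 ht1 (by norm_num))
    (half_of_spec' LM.main67 h0 hβ h (by linarith) (by linarith) ht0 ht1 (by norm_num))

end Crest.Agent.R307
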