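import Crest.Agent.R307.AA

set_option autoImplicit false
set_option maxRecDepth 100000
set_option linter.unusedVariables false

namespace Crest.Agent.R307.LSa
open Crest.Agent.R307.AA

noncomputable section

theorem k0 : (3 : ℝ) = val 4722367327294575345664 := by norm_num [val]
theorem k1 : (5 / 4 : ℝ) = val 4722366834713366102016 := by norm_num [val]
theorem k2 : (5 / 8 : ℝ) = val 4722366658791505657856 := by norm_num [val]
theorem k3 : (15 / 8 : ℝ) = val 4722367010635226546176 := by norm_num [val]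
theorem k4 : (1 / 2 : ℝ) = val 4722366623607133569024 := by norm_num [val]
theorem k5 : (483 / 128 : ℝ) = val 4722367544997877645312 := by norm_num [val]
theorem k6 : (213 / 128 : ℝ) = val 4722366951261598646272 := by norm_num [val]
theorem k7 : (473 / 256 : ℝ) = val 4722367002938645151744 := by norm_num [val]
theorem k8 : (897 / 512 : ℝ) = val 4722366976000610271232 := by norm_num [val]
theorem k9 : (837 / 256 : ℝ) = val 4722367403160877662208 := by norm_num [val]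
theorem k10 : (21 / 16 : ℝ) = val 4722366852305552146432 := by norm_num [val]
theorem k11 : (15 / 32 : ℝ) = val 4722366614811040546816 := by norm_num [val]
theorem k12 : (105 / 256 : ℝ) = val 4722366598318366130176 := by norm_num [val]
theorem k13 : (3 / 8 : ℝ) = val 4722366588422761480192 := by norm_num [val]
theorem k14 : (9 / 8 : ℝ) = val 4722366799528994013184 := by norm_num [val]
theorem k15 : (-7 / 16 : ℝ) = val 4722366359724342902784 := by norm_num [val]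
theorem k16 : (-5 / 16 : ℝ) = val 4722366394908714991616 := by norm_num [val]
theorem k17 : (-15 / 32 : ℝ) = val 4722366350928249880576 := by norm_num [val]
theorem k18 : (-29 / 64 : ℝ) = val 4722366355326296391680 := by norm_num [val]
theorem k19 : |2 ^ 48 * (5 / 32 : ℝ) - (((4722366526850110324736 : ℕ) : ℝ) - 2 ^ 72)| ≤ ((0 : ℕ) : ℝ) := by norm_num [abs_le]
theorem k20 : |2 ^ 48 * (1 : ℝ) - (((4722366764344621924352 : ℕ) : ℝ) - 2 ^ 72)| ≤ ((0 : ℕ) : ℝ) := by norm_num [abs_le]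
theorem k21 : (2 : ℝ) = val 4722367045819598635008 := by norm_num [val]
theorem k22 : (0 : ℝ) = val 4722366482869645213696 := by norm_num [val]
theorem k23 : (9 / 16 : ℝ) = val 4722366641199319613440 := by norm_num [val]
theorem k24 : |2 ^ 48 * (9 / 5 : ℝ) - (((4722366989524603292876 : ℕ) : ℝ) - 2 ^ 72)| ≤ ((1 : ℕ) : ℝ) := by norm_num [abs_le]
theorem k25 : |2 ^ 48 * (3 / 2 : ℝ) - (((4722366905082110279680 : ℕ) : ℝ) - 2 ^ 72)| ≤ ((0 : ℕ) : ℝ) := by norm_num [abs_le]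
theorem k26 : |2 ^ 48 * (3 / 10 : ℝ) - (((4722366567312138226892 : ℕ) : ℝ) - 2 ^ 72)| ≤ ((1 : ℕ) : ℝ) := by norm_num [abs_le]
theorem k27 : |2 ^ 48 * (1 / 5 : ℝ) - (((4722366539164640555827 : ℕ) : ℝ) - 2 ^ 72)| ≤ ((1 : ℕ) : ℝ) := by norm_num [abs_le]
theorem k28 : |2 ^ 48 * (3 / 5 : ℝ) - (((4722366651754631240089 : ℕ) : ℝ) - 2 ^ 72)| ≤ ((1 : ℕ) : ℝ) := by norm_num [abs_le]
theorem k29 : |2 ^ 48 * (1 / 10 : ℝ) - (((4722366511017142884761 : ℕ) : ℝ) - 2 ^ 72)| ≤ ((1 : ℕ) : ℝ) := by norm_num [abs_le]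
theorem k30 : |2 ^ 48 * (3 / 20 : ℝ) - (((4722366525090891720294 : ℕ) : ℝ) - 2 ^ 72)| ≤ ((1 : ℕ) : ℝ) := by norm_num [abs_le]
theorem k31 : |2 ^ 48 * (3 / 4 : ℝ) - (((4722366693975877746688 : ℕ) : ℝ) - 2 ^ 72)| ≤ ((0 : ℕ) : ℝ) := by norm_num [abs_le]
def z0_B (gs ps : ℕ) (x0 x1 x2 x3 : AF) : Bool :=
  parK ps 0 fun z3 =>
  parK ps 1 fun z4 =>
  parK ps 2 fun z5 =>
  parK ps 3 fun z6 =>
  parK ps 4 fun z7 =>
  parK ps 5 fun z8 =>
  parK ps 6 fun z9 =>
  parK ps 7 fun z10 =>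
  parK ps 8 fun z11 =>
  parK ps 9 fun z12 =>
  parK ps 10 fun z13 =>
  parK ps 11 fun z14 =>
  parK ps 12 fun z15 =>
  parK ps 13 fun z16 =>
  parK gs 0 fun z17 =>
  parK gs 1 fun z18 =>
  mulK z18 x0 fun z19 =>
  addK z17 z19 fun z20 =>
  normK z20 fun z21 =>
  mulK x1 z21 fun z22 =>
  mulK z8 x2 fun z23 =>
  addK z7 z23 fun z24 =>
  posK z24 <|
  mulK z10 x2 fun z25 =>
  addK z9 z25 fun z26 =>
  posK z26 <|
  mulK z12 x2 fun z27 =>
  addK z11 z27 fun z28 =>
  posK z28 <|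
  mulK z14 x2 fun z29 =>
  addK z13 z29 fun z30 =>
  posK z30 <|
  mulK z16 x2 fun z31 =>
  addK z15 z31 fun z32 =>
  posK z32 <|
  mulK z6 x2 fun z33 =>
  addK z5 z33 fun z34 =>
  posK z34 <|
  smulK z24 4722367327294575345664 fun z35 =>
  addK z35 z26 fun z38 =>
  smulK z28 4722366834713366102016 fun z36 =>
  addK z38 z36 fun z39 =>
  addK z39 z30 fun z40 =>
  smulK z32 4722367327294575345664 fun z37 =>
  addK z40 z37 fun z41 =>
  addK z24 z26 fun z42 =>
  addK z42 z28 fun z43 =>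
  addK z43 z30 fun z44 =>
  addK z44 z32 fun z45 =>
  smulK z28 4722366658791505657856 fun z46 =>
  addK z38 z46 fun z49 =>
  smulK z30 4722366658791505657856 fun z47 =>
  addK z49 z47 fun z50 =>
  smulK z32 4722367010635226546176 fun z48 =>
  addK z50 z48 fun z51 =>
  smulK z26 4722366623607133569024 fun z52 =>
  addK z24 z52 fun z53 =>
  addK z53 z28 fun z54 =>
  addK z54 z30 fun z55 =>
  addK z55 z32 fun z56 =>
  smulK z24 4722367544997877645312 fun z57 =>
  smulK z26 4722366951261598646272 fun z58 =>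
  addK z57 z58 fun z62 =>
  smulK z28 4722367002938645151744 fun z59 =>
  addK z62 z59 fun z63 =>
  smulK z30 4722366976000610271232 fun z60 =>
  addK z63 z60 fun z64 =>
  smulK z32 4722367403160877662208 fun z61 =>
  addK z64 z61 fun z65 =>
  smulK z24 4722366852305552146432 fun z66 =>
  smulK z26 4722366614811040546816 fun z67 =>
  addK z66 z67 fun z71 =>
  smulK z28 4722366598318366130176 fun z68 =>
  addK z71 z68 fun z72 =>
  smulK z30 4722366588422761480192 fun z69 =>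
  addK z72 z69 fun z73 =>
  smulK z32 4722366799528994013184 fun z70 =>
  addK z73 z70 fun z74 =>
  smulK z24 4722366359724342902784 fun z75 =>
  smulK z26 4722366394908714991616 fun z76 =>
  addK z75 z76 fun z80 =>
  smulK z28 4722366350928249880576 fun z77 =>
  addK z80 z77 fun z81 =>
  smulK z30 4722366350928249880576 fun z78 =>
  addK z81 z78 fun z82 =>
  smulK z32 4722366355326296391680 fun z79 =>
  addK z82 z79 fun z83 =>
  mulK z4 z22 fun z84 =>
  addK z3 z84 fun z85 =>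
  posK z85 <|
  normK z85 fun z86 =>
  mulK z22 z86 fun z87 =>
  rsubK z87 4722366526850110324736 0 fun z88 =>
  posK z88 <|
  rsubK z45 4722366764344621924352 0 fun z92 =>
  posK z92 <|
  normK z34 fun z90 =>
  mulK x2 z90 fun z91 =>
  sqrK x2 fun z89 =>
  normK z41 fun z93 =>
  mulK z89 z93 fun z94 =>
  addK z91 z94 fun z95 =>
  rsubK z95 4722366764344621924352 0 fun z96 =>
  posK z96 <|
  smulK z86 4722367045819598635008 fun z101 =>
  sqrK z87 fun z98 =>
  addcK z98 4722366764344621924352 0 fun z99 =>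
  invK z99 fun z100 =>
  mulK z101 z100 fun z102 =>
  normK z74 fun z104 =>
  mulK z89 z104 fun z105 =>
  smulK z91 4722366588422761480192 fun z106 =>
  addK z105 z106 fun z107 =>
  normK z107 fun z171 =>
  mulK z102 z171 fun z172 =>
  smulK z172 4722366482869645213696 fun z175 =>
  mulK z22 z175 fun z180 =>
  addcK z180 4722366764344621924352 0 fun z181 =>
  posK z181 <|
  normK z83 fun z173 =>
  mulK z102 z173 fun z174 =>
  smulK z174 4722366482869645213696 fun z176 =>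
  mulK z86 z102 fun z103 =>
  normK z56 fun z165 =>
  mulK z103 z165 fun z166 =>
  mulK z22 z166 fun z169 =>
  subK z176 z169 fun z177 =>
  normK z177 fun z182 =>
  mulK z22 z182 fun z183 =>
  addcK z183 4722366764344621924352 0 fun z184 =>
  posK z184 <|
  normK z51 fun z108 =>
  mulK z89 z108 fun z109 =>
  addK z109 z91 fun z110 =>
  normK z110 fun z167 =>
  mulK z103 z167 fun z168 =>
  mulK z22 z168 fun z170 =>
  addK z175 z170 fun z178 =>
  normK z178 fun z185 =>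
  mulK z22 z185 fun z186 =>
  rsubK z186 4722366764344621924352 0 fun z187 =>
  posK z187 <|
  mulK z22 z176 fun z188 =>
  rsubK z188 4722366764344621924352 0 fun z189 =>
  posK z189 <|
  normK z65 fun z111 =>
  mulK x2 z111 fun z112 =>
  smulK z34 4722366641199319613440 fun z113 =>
  addK z112 z113 fun z114 =>
  normK z114 fun z162 =>
  mulK z102 z162 fun z163 =>
  sqrK x0 fun z115 =>
  mulK (cst 4722366989524603292876 1) z115 fun z151 =>
  addcK z151 4722366905082110279680 0 fun z152 =>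
  sqrK z22 fun z116 =>
  mulK (cst 4722366567312138226892 1) z116 fun z154 =>
  addK z152 z154 fun z155 =>
  sqrK z115 fun z137 =>
  mulK z115 z116 fun z136 =>
  addK z137 z136 fun z156 =>
  smulK z156 4722367327294575345664 fun z157 =>
  addK z155 z157 fun z158 =>
  sqrK z116 fun z138 =>
  mulK (cst 4722366539164640555827 1) z138 fun z160 =>
  addK z158 z160 fun z161 =>
  subK z163 z161 fun z164 =>
  addK z175 z176 fun z179 =>
  normK z179 fun z214 =>
  addK z115 z116 fun z139 =>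
  addK z139 z137 fun z140 =>
  addK z140 z138 fun z141 =>
  normK z141 fun z143 =>
  mulK (cst 4722366651754631240089 1) z143 fun z144 =>
  addcK z144 4722366905082110279680 0 fun z145 =>
  smulK z136 4722367045819598635008 fun z146 =>
  addK z145 z146 fun z147 =>
  normK z147 fun z148 =>
  mulK x0 z148 fun z149 =>
  mulK z214 z149 fun z215 =>
  subK z164 z215 fun z216 =>
  addK x0 z22 fun z117 =>
  normK z117 fun z118 =>
  sqrK z118 fun z119 =>
  mulK (cst 4722366511017142884761 1) z119 fun z121 =>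
  addcK z121 4722366525090891720294 1 fun z122 =>
  mulK z119 z122 fun z123 =>
  addcK z123 4722366693975877746688 0 fun z124 =>
  mulK z119 z124 fun z125 =>
  rsubK z125 4722366764344621924352 0 fun z126 =>
  mulK z175 z182 fun z190 =>
  subK z190 z166 fun z191 =>
  normK z191 fun z194 =>
  mulK z22 z194 fun z195 =>
  addK z179 z195 fun z196 =>
  normK z196 fun z200 =>
  mulK z22 z200 fun z201 =>
  addcK z201 4722366764344621924352 0 fun z202 =>
  sqrtK z202 fun z203 =>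
  addcK z203 4722366764344621924352 0 fun z204 =>
  invK z204 fun z205 =>
  mulK z200 z205 fun z212 =>
  sqrK z212 fun z217 =>
  subK z191 z217 fun z218 =>
  normK z218 fun z219 =>
  mulK z126 z219 fun z220 =>
  subK x0 z22 fun z127 =>
  normK z127 fun z128 =>
  sqrK z128 fun z129 =>
  mulK (cst 4722366511017142884761 1) z129 fun z130 =>
  addcK z130 4722366525090891720294 1 fun z131 =>
  mulK z129 z131 fun z132 =>
  addcK z132 4722366693975877746688 0 fun z133 =>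
  mulK z129 z133 fun z134 =>
  rsubK z134 4722366764344621924352 0 fun z135 =>
  mulK z185 z176 fun z192 =>
  subK z192 z168 fun z193 =>
  normK z193 fun z197 =>
  mulK z22 z197 fun z198 =>
  subK z198 z179 fun z199 =>
  normK z199 fun z206 =>
  mulK z22 z206 fun z207 =>
  addcK z207 4722366764344621924352 0 fun z208 =>
  sqrtK z208 fun z209 =>
  addcK z209 4722366764344621924352 0 fun z210 =>
  invK z210 fun z211 =>
  mulK z206 z211 fun z213 =>
  sqrK z213 fun z221 =>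
  subK z193 z221 fun z222 =>
  normK z222 fun z223 =>
  mulK z135 z223 fun z224 =>
  addK z220 z224 fun z225 =>
  smulK z225 4722366623607133569024 fun z226 =>
  addK z216 z226 fun z227 =>
  posK z227 <|
  smulK z172 4722366588422761480192 fun z228 =>
  mulK z22 z228 fun z233 =>
  addcK z233 4722366764344621924352 0 fun z234 =>
  posK z234 <|
  smulK z174 4722366588422761480192 fun z229 =>
  subK z229 z169 fun z230 =>
  normK z230 fun z235 =>
  mulK z22 z235 fun z236 =>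
  addcK z236 4722366764344621924352 0 fun z237 =>
  posK z237 <|
  addK z228 z170 fun z231 =>
  normK z231 fun z238 =>
  mulK z22 z238 fun z239 =>
  rsubK z239 4722366764344621924352 0 fun z240 =>
  posK z240 <|
  mulK z22 z229 fun z241 =>
  rsubK z241 4722366764344621924352 0 fun z242 =>
  posK z242 <|
  addK z228 z229 fun z232 =>
  normK z232 fun z267 =>
  mulK z267 z149 fun z268 =>
  subK z164 z268 fun z269 =>
  mulK z228 z235 fun z243 =>
  subK z243 z166 fun z244 =>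
  normK z244 fun z247 =>
  mulK z22 z247 fun z248 =>
  addK z232 z248 fun z249 =>
  normK z249 fun z253 =>
  mulK z22 z253 fun z254 =>
  addcK z254 4722366764344621924352 0 fun z255 =>
  sqrtK z255 fun z256 =>
  addcK z256 4722366764344621924352 0 fun z257 =>
  invK z257 fun z258 =>
  mulK z253 z258 fun z265 =>
  sqrK z265 fun z270 =>
  subK z244 z270 fun z271 =>
  normK z271 fun z272 =>
  mulK z126 z272 fun z273 =>
  mulK z238 z229 fun z245 =>
  subK z245 z168 fun z246 =>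
  normK z246 fun z250 =>
  mulK z22 z250 fun z251 =>
  subK z251 z232 fun z252 =>
  normK z252 fun z259 =>
  mulK z22 z259 fun z260 =>
  addcK z260 4722366764344621924352 0 fun z261 =>
  sqrtK z261 fun z262 =>
  addcK z262 4722366764344621924352 0 fun z263 =>
  invK z263 fun z264 =>
  mulK z259 z264 fun z266 =>
  sqrK z266 fun z274 =>
  subK z246 z274 fun z275 =>
  normK z275 fun z276 =>
  mulK z135 z276 fun z277 =>
  addK z273 z277 fun z278 =>
  smulK z278 4722366623607133569024 fun z279 =>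
  addK z269 z279 fun z280 =>
  posK z280 <|
  true

def z0_R (gs ps : ℕ) (m y r u3 : ℝ) : Prop :=
  letR (parV ps 0) fun z3 =>
  letR (parV ps 1) fun z4 =>
  letR (parV ps 2) fun z5 =>
  letR (parV ps 3) fun z6 =>
  letR (parV ps 4) fun z7 =>
  letR (parV ps 5) fun z8 =>
  letR (parV ps 6) fun z9 =>
  letR (parV ps 7) fun z10 =>
  letR (parV ps 8) fun z11 =>
  letR (parV ps 9) fun z12 =>
  letR (parV ps 10) fun z13 =>
  letR (parV ps 11) fun z14 =>
  letR (parV ps 12) fun z15 =>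
  letR (parV ps 13) fun z16 =>
  letR (parV gs 0) fun z17 =>
  letR (parV gs 1) fun z18 =>
  letR (z18 * m) fun z19 =>
  letR (z17 + z19) fun z20 =>
  letR z20 fun z21 =>
  letR (y * z21) fun z22 =>
  letR (z8 * r) fun z23 =>
  letR (z7 + z23) fun z24 =>
  posR z24 <|
  letR (z10 * r) fun z25 =>
  letR (z9 + z25) fun z26 =>
  posR z26 <|
  letR (z12 * r) fun z27 =>
  letR (z11 + z27) fun z28 =>
  posR z28 <|
  letR (z14 * r) fun z29 =>
  letR (z13 + z29) fun z30 =>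
  posR z30 <|
  letR (z16 * r) fun z31 =>
  letR (z15 + z31) fun z32 =>
  posR z32 <|
  letR (z6 * r) fun z33 =>
  letR (z5 + z33) fun z34 =>
  posR z34 <|
  letR ((3 : ℝ) * z24) fun z35 =>
  letR (z35 + z26) fun z38 =>
  letR ((5 / 4 : ℝ) * z28) fun z36 =>
  letR (z38 + z36) fun z39 =>
  letR (z39 + z30) fun z40 =>
  letR ((3 : ℝ) * z32) fun z37 =>
  letR (z40 + z37) fun z41 =>
  letR (z24 + z26) fun z42 =>
  letR (z42 + z28) fun z43 =>
  letR (z43 + z30) fun z44 =>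
  letR (z44 + z32) fun z45 =>
  letR ((5 / 8 : ℝ) * z28) fun z46 =>
  letR (z38 + z46) fun z49 =>
  letR ((5 / 8 : ℝ) * z30) fun z47 =>
  letR (z49 + z47) fun z50 =>
  letR ((15 / 8 : ℝ) * z32) fun z48 =>
  letR (z50 + z48) fun z51 =>
  letR ((1 / 2 : ℝ) * z26) fun z52 =>
  letR (z24 + z52) fun z53 =>
  letR (z53 + z28) fun z54 =>
  letR (z54 + z30) fun z55 =>
  letR (z55 + z32) fun z56 =>
  letR ((483 / 128 : ℝ) * z24) fun z57 =>
  letR ((213 / 128 : ℝ) * z26) fun z58 =>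
  letR (z57 + z58) fun z62 =>
  letR ((473 / 256 : ℝ) * z28) fun z59 =>
  letR (z62 + z59) fun z63 =>
  letR ((897 / 512 : ℝ) * z30) fun z60 =>
  letR (z63 + z60) fun z64 =>
  letR ((837 / 256 : ℝ) * z32) fun z61 =>
  letR (z64 + z61) fun z65 =>
  letR ((21 / 16 : ℝ) * z24) fun z66 =>
  letR ((15 / 32 : ℝ) * z26) fun z67 =>
  letR (z66 + z67) fun z71 =>
  letR ((105 / 256 : ℝ) * z28) fun z68 =>
  letR (z71 + z68) fun z72 =>
  letR ((3 / 8 : ℝ) * z30) fun z69 =>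
  letR (z72 + z69) fun z73 =>
  letR ((9 / 8 : ℝ) * z32) fun z70 =>
  letR (z73 + z70) fun z74 =>
  letR ((-7 / 16 : ℝ) * z24) fun z75 =>
  letR ((-5 / 16 : ℝ) * z26) fun z76 =>
  letR (z75 + z76) fun z80 =>
  letR ((-15 / 32 : ℝ) * z28) fun z77 =>
  letR (z80 + z77) fun z81 =>
  letR ((-15 / 32 : ℝ) * z30) fun z78 =>
  letR (z81 + z78) fun z82 =>
  letR ((-29 / 64 : ℝ) * z32) fun z79 =>
  letR (z82 + z79) fun z83 =>
  letR (z4 * z22) fun z84 =>
  letR (z3 + z84) fun z85 =>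
  posR z85 <|
  letR z85 fun z86 =>
  letR (z22 * z86) fun z87 =>
  letR ((5 / 32 : ℝ) - z87) fun z88 =>
  posR z88 <|
  letR ((1 : ℝ) - z45) fun z92 =>
  posR z92 <|
  letR z34 fun z90 =>
  letR (r * z90) fun z91 =>
  letR (r ^ 2) fun z89 =>
  letR z41 fun z93 =>
  letR (z89 * z93) fun z94 =>
  letR (z91 + z94) fun z95 =>
  letR ((1 : ℝ) - z95) fun z96 =>
  posR z96 <|
  letR ((2 : ℝ) * z86) fun z101 =>
  letR (z87 ^ 2) fun z98 =>
  letR (z98 + (1 : ℝ)) fun z99 =>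
  invR z99 fun z100 =>
  letR (z101 * z100) fun z102 =>
  letR z74 fun z104 =>
  letR (z89 * z104) fun z105 =>
  letR ((3 / 8 : ℝ) * z91) fun z106 =>
  letR (z105 + z106) fun z107 =>
  letR z107 fun z171 =>
  letR (z102 * z171) fun z172 =>
  letR ((0 : ℝ) * z172) fun z175 =>
  letR (z22 * z175) fun z180 =>
  letR (z180 + (1 : ℝ)) fun z181 =>
  posR z181 <|
  letR z83 fun z173 =>
  letR (z102 * z173) fun z174 =>
  letR ((0 : ℝ) * z174) fun z176 =>
  letR (z86 * z102) fun z103 =>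
  letR z56 fun z165 =>
  letR (z103 * z165) fun z166 =>
  letR (z22 * z166) fun z169 =>
  letR (z176 - z169) fun z177 =>
  letR z177 fun z182 =>
  letR (z22 * z182) fun z183 =>
  letR (z183 + (1 : ℝ)) fun z184 =>
  posR z184 <|
  letR z51 fun z108 =>
  letR (z89 * z108) fun z109 =>
  letR (z109 + z91) fun z110 =>
  letR z110 fun z167 =>
  letR (z103 * z167) fun z168 =>
  letR (z22 * z168) fun z170 =>
  letR (z175 + z170) fun z178 =>
  letR z178 fun z185 =>
  letR (z22 * z185) fun z186 =>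
  letR ((1 : ℝ) - z186) fun z187 =>
  posR z187 <|
  letR (z22 * z176) fun z188 =>
  letR ((1 : ℝ) - z188) fun z189 =>
  posR z189 <|
  letR z65 fun z111 =>
  letR (r * z111) fun z112 =>
  letR ((9 / 16 : ℝ) * z34) fun z113 =>
  letR (z112 + z113) fun z114 =>
  letR z114 fun z162 =>
  letR (z102 * z162) fun z163 =>
  letR (m ^ 2) fun z115 =>
  letR ((9 / 5 : ℝ) * z115) fun z151 =>
  letR (z151 + (3 / 2 : ℝ)) fun z152 =>
  letR (z22 ^ 2) fun z116 =>
  letR ((3 / 10 : ℝ) * z116) fun z154 =>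
  letR (z152 + z154) fun z155 =>
  letR (z115 ^ 2) fun z137 =>
  letR (z115 * z116) fun z136 =>
  letR (z137 + z136) fun z156 =>
  letR ((3 : ℝ) * z156) fun z157 =>
  letR (z155 + z157) fun z158 =>
  letR (z116 ^ 2) fun z138 =>
  letR ((1 / 5 : ℝ) * z138) fun z160 =>
  letR (z158 + z160) fun z161 =>
  letR (z163 - z161) fun z164 =>
  letR (z175 + z176) fun z179 =>
  letR z179 fun z214 =>
  letR (z115 + z116) fun z139 =>
  letR (z139 + z137) fun z140 =>
  letR (z140 + z138) fun z141 =>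
  letR z141 fun z143 =>
  letR ((3 / 5 : ℝ) * z143) fun z144 =>
  letR (z144 + (3 / 2 : ℝ)) fun z145 =>
  letR ((2 : ℝ) * z136) fun z146 =>
  letR (z145 + z146) fun z147 =>
  letR z147 fun z148 =>
  letR (m * z148) fun z149 =>
  letR (z214 * z149) fun z215 =>
  letR (z164 - z215) fun z216 =>
  letR (m + z22) fun z117 =>
  letR z117 fun z118 =>
  letR (z118 ^ 2) fun z119 =>
  letR ((1 / 10 : ℝ) * z119) fun z121 =>
  letR (z121 + (3 / 20 : ℝ)) fun z122 =>
  letR (z119 * z122) fun z123 =>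
  letR (z123 + (3 / 4 : ℝ)) fun z124 =>
  letR (z119 * z124) fun z125 =>
  letR ((1 : ℝ) - z125) fun z126 =>
  letR (z175 * z182) fun z190 =>
  letR (z190 - z166) fun z191 =>
  letR z191 fun z194 =>
  letR (z22 * z194) fun z195 =>
  letR (z179 + z195) fun z196 =>
  letR z196 fun z200 =>
  letR (z22 * z200) fun z201 =>
  letR (z201 + (1 : ℝ)) fun z202 =>
  letR (√z202) fun z203 =>
  letR (z203 + (1 : ℝ)) fun z204 =>
  invR z204 fun z205 =>
  letR (z200 * z205) fun z212 =>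
  letR (z212 ^ 2) fun z217 =>
  letR (z191 - z217) fun z218 =>
  letR z218 fun z219 =>
  letR (z126 * z219) fun z220 =>
  letR (m - z22) fun z127 =>
  letR z127 fun z128 =>
  letR (z128 ^ 2) fun z129 =>
  letR ((1 / 10 : ℝ) * z129) fun z130 =>
  letR (z130 + (3 / 20 : ℝ)) fun z131 =>
  letR (z129 * z131) fun z132 =>
  letR (z132 + (3 / 4 : ℝ)) fun z133 =>
  letR (z129 * z133) fun z134 =>
  letR ((1 : ℝ) - z134) fun z135 =>
  letR (z185 * z176) fun z192 =>
  letR (z192 - z168) fun z193 =>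
  letR z193 fun z197 =>
  letR (z22 * z197) fun z198 =>
  letR (z198 - z179) fun z199 =>
  letR z199 fun z206 =>
  letR (z22 * z206) fun z207 =>
  letR (z207 + (1 : ℝ)) fun z208 =>
  letR (√z208) fun z209 =>
  letR (z209 + (1 : ℝ)) fun z210 =>
  invR z210 fun z211 =>
  letR (z206 * z211) fun z213 =>
  letR (z213 ^ 2) fun z221 =>
  letR (z193 - z221) fun z222 =>
  letR z222 fun z223 =>
  letR (z135 * z223) fun z224 =>
  letR (z220 + z224) fun z225 =>
  letR ((1 / 2 : ℝ) * z225) fun z226 =>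
  letR (z216 + z226) fun z227 =>
  posR z227 <|
  letR ((3 / 8 : ℝ) * z172) fun z228 =>
  letR (z22 * z228) fun z233 =>
  letR (z233 + (1 : ℝ)) fun z234 =>
  posR z234 <|
  letR ((3 / 8 : ℝ) * z174) fun z229 =>
  letR (z229 - z169) fun z230 =>
  letR z230 fun z235 =>
  letR (z22 * z235) fun z236 =>
  letR (z236 + (1 : ℝ)) fun z237 =>
  posR z237 <|
  letR (z228 + z170) fun z231 =>
  letR z231 fun z238 =>
  letR (z22 * z238) fun z239 =>
  letR ((1 : ℝ) - z239) fun z240 =>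
  posR z240 <|
  letR (z22 * z229) fun z241 =>
  letR ((1 : ℝ) - z241) fun z242 =>
  posR z242 <|
  letR (z228 + z229) fun z232 =>
  letR z232 fun z267 =>
  letR (z267 * z149) fun z268 =>
  letR (z164 - z268) fun z269 =>
  letR (z228 * z235) fun z243 =>
  letR (z243 - z166) fun z244 =>
  letR z244 fun z247 =>
  letR (z22 * z247) fun z248 =>
  letR (z232 + z248) fun z249 =>
  letR z249 fun z253 =>
  letR (z22 * z253) fun z254 =>
  letR (z254 + (1 : ℝ)) fun z255 =>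
  letR (√z255) fun z256 =>
  letR (z256 + (1 : ℝ)) fun z257 =>
  invR z257 fun z258 =>
  letR (z253 * z258) fun z265 =>
  letR (z265 ^ 2) fun z270 =>
  letR (z244 - z270) fun z271 =>
  letR z271 fun z272 =>
  letR (z126 * z272) fun z273 =>
  letR (z238 * z229) fun z245 =>
  letR (z245 - z168) fun z246 =>
  letR z246 fun z250 =>
  letR (z22 * z250) fun z251 =>
  letR (z251 - z232) fun z252 =>
  letR z252 fun z259 =>
  letR (z22 * z259) fun z260 =>
  letR (z260 + (1 : ℝ)) fun z261 =>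
  letR (√z261) fun z262 =>
  letR (z262 + (1 : ℝ)) fun z263 =>
  invR z263 fun z264 =>
  letR (z259 * z264) fun z266 =>
  letR (z266 ^ 2) fun z274 =>
  letR (z246 - z274) fun z275 =>
  letR z275 fun z276 =>
  letR (z135 * z276) fun z277 =>
  letR (z273 + z277) fun z278 =>
  letR ((1 / 2 : ℝ) * z278) fun z279 =>
  letR (z269 + z279) fun z280 =>
  posR z280 <|
  True

theorem z0_S {ε : Fin 4 → ℝ} (gs : ℕ) (hε : ∀ i, |ε i| ≤ 1) (ps : ℕ) (x0 x1 x2 x3 : AF) (m y r u3 : ℝ)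
    (h0 : Rel ε x0 m) (h1 : Rel ε x1 y) (h2 : Rel ε x2 r) (h3 : Rel ε x3 u3) :
    z0_B gs ps x0 x1 x2 x3 = true → z0_R gs ps m y r u3 := by
  delta z0_B z0_R
  exact parS fun z3 t3 g3 =>
  parS fun z4 t4 g4 =>
  parS fun z5 t5 g5 =>
  parS fun z6 t6 g6 =>
  parS fun z7 t7 g7 =>
  parS fun z8 t8 g8 =>
  parS fun z9 t9 g9 =>
  parS fun z10 t10 g10 =>
  parS fun z11 t11 g11 =>
  parS fun z12 t12 g12 =>
  parS fun z13 t13 g13 =>
  parS fun z14 t14 g14 =>
  parS fun z15 t15 g15 =>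
  parS fun z16 t16 g16 =>
  parS fun z17 t17 g17 =>
  parS fun z18 t18 g18 =>
  mulS hε g18 h0 fun z19 t19 g19 =>
  addS g17 g19 fun z20 t20 g20 =>
  normS g20 fun z21 t21 g21 =>
  mulS hε h1 g21 fun z22 t22 g22 =>
  mulS hε g8 h2 fun z23 t23 g23 =>
  addS g7 g23 fun z24 t24 g24 =>
  posS hε g24 <|
  mulS hε g10 h2 fun z25 t25 g25 =>
  addS g9 g25 fun z26 t26 g26 =>
  posS hε g26 <|
  mulS hε g12 h2 fun z27 t27 g27 =>
  addS g11 g27 fun z28 t28 g28 =>
  posS hε g28 <|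
  mulS hε g14 h2 fun z29 t29 g29 =>
  addS g13 g29 fun z30 t30 g30 =>
  posS hε g30 <|
  mulS hε g16 h2 fun z31 t31 g31 =>
  addS g15 g31 fun z32 t32 g32 =>
  posS hε g32 <|
  mulS hε g6 h2 fun z33 t33 g33 =>
  addS g5 g33 fun z34 t34 g34 =>
  posS hε g34 <|
  smulS hε g24 k0 fun z35 t35 g35 =>
  addS g35 g26 fun z38 t38 g38 =>
  smulS hε g28 k1 fun z36 t36 g36 =>
  addS g38 g36 fun z39 t39 g39 =>
  addS g39 g30 fun z40 t40 g40 =>
  smulS hε g32 k0 fun z37 t37 g37 =>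
  addS g40 g37 fun z41 t41 g41 =>
  addS g24 g26 fun z42 t42 g42 =>
  addS g42 g28 fun z43 t43 g43 =>
  addS g43 g30 fun z44 t44 g44 =>
  addS g44 g32 fun z45 t45 g45 =>
  smulS hε g28 k2 fun z46 t46 g46 =>
  addS g38 g46 fun z49 t49 g49 =>
  smulS hε g30 k2 fun z47 t47 g47 =>
  addS g49 g47 fun z50 t50 g50 =>
  smulS hε g32 k3 fun z48 t48 g48 =>
  addS g50 g48 fun z51 t51 g51 =>
  smulS hε g26 k4 fun z52 t52 g52 =>
  addS g24 g52 fun z53 t53 g53 =>
  addS g53 g28 fun z54 t54 g54 =>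
  addS g54 g30 fun z55 t55 g55 =>
  addS g55 g32 fun z56 t56 g56 =>
  smulS hε g24 k5 fun z57 t57 g57 =>
  smulS hε g26 k6 fun z58 t58 g58 =>
  addS g57 g58 fun z62 t62 g62 =>
  smulS hε g28 k7 fun z59 t59 g59 =>
  addS g62 g59 fun z63 t63 g63 =>
  smulS hε g30 k8 fun z60 t60 g60 =>
  addS g63 g60 fun z64 t64 g64 =>
  smulS hε g32 k9 fun z61 t61 g61 =>
  addS g64 g61 fun z65 t65 g65 =>
  smulS hε g24 k10 fun z66 t66 g66 =>
  smulS hε g26 k11 fun z67 t67 g67 =>
  addS g66 g67 fun z71 t71 g71 =>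
  smulS hε g28 k12 fun z68 t68 g68 =>
  addS g71 g68 fun z72 t72 g72 =>
  smulS hε g30 k13 fun z69 t69 g69 =>
  addS g72 g69 fun z73 t73 g73 =>
  smulS hε g32 k14 fun z70 t70 g70 =>
  addS g73 g70 fun z74 t74 g74 =>
  smulS hε g24 k15 fun z75 t75 g75 =>
  smulS hε g26 k16 fun z76 t76 g76 =>
  addS g75 g76 fun z80 t80 g80 =>
  smulS hε g28 k17 fun z77 t77 g77 =>
  addS g80 g77 fun z81 t81 g81 =>
  smulS hε g30 k17 fun z78 t78 g78 =>
  addS g81 g78 fun z82 t82 g82 =>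
  smulS hε g32 k18 fun z79 t79 g79 =>
  addS g82 g79 fun z83 t83 g83 =>
  mulS hε g4 g22 fun z84 t84 g84 =>
  addS g3 g84 fun z85 t85 g85 =>
  posS hε g85 <|
  normS g85 fun z86 t86 g86 =>
  mulS hε g22 g86 fun z87 t87 g87 =>
  rsubS g87 k19 fun z88 t88 g88 =>
  posS hε g88 <|
  rsubS g45 k20 fun z92 t92 g92 =>
  posS hε g92 <|
  normS g34 fun z90 t90 g90 =>
  mulS hε h2 g90 fun z91 t91 g91 =>
  sqrS hε h2 fun z89 t89 g89 =>
  normS g41 fun z93 t93 g93 =>
  mulS hε g89 g93 fun z94 t94 g94 =>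
  addS g91 g94 fun z95 t95 g95 =>
  rsubS g95 k20 fun z96 t96 g96 =>
  posS hε g96 <|
  smulS hε g86 k21 fun z101 t101 g101 =>
  sqrS hε g87 fun z98 t98 g98 =>
  addcS g98 k20 fun z99 t99 g99 =>
  invS hε g99 fun z100 t100 g100 =>
  mulS hε g101 g100 fun z102 t102 g102 =>
  normS g74 fun z104 t104 g104 =>
  mulS hε g89 g104 fun z105 t105 g105 =>
  smulS hε g91 k13 fun z106 t106 g106 =>
  addS g105 g106 fun z107 t107 g107 =>
  normS g107 fun z171 t171 g171 =>
  mulS hε g102 g171 fun z172 t172 g172 =>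
  smulS hε g172 k22 fun z175 t175 g175 =>
  mulS hε g22 g175 fun z180 t180 g180 =>
  addcS g180 k20 fun z181 t181 g181 =>
  posS hε g181 <|
  normS g83 fun z173 t173 g173 =>
  mulS hε g102 g173 fun z174 t174 g174 =>
  smulS hε g174 k22 fun z176 t176 g176 =>
  mulS hε g86 g102 fun z103 t103 g103 =>
  normS g56 fun z165 t165 g165 =>
  mulS hε g103 g165 fun z166 t166 g166 =>
  mulS hε g22 g166 fun z169 t169 g169 =>
  subS g176 g169 fun z177 t177 g177 =>
  normS g177 fun z182 t182 g182 =>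
  mulS hε g22 g182 fun z183 t183 g183 =>
  addcS g183 k20 fun z184 t184 g184 =>
  posS hε g184 <|
  normS g51 fun z108 t108 g108 =>
  mulS hε g89 g108 fun z109 t109 g109 =>
  addS g109 g91 fun z110 t110 g110 =>
  normS g110 fun z167 t167 g167 =>
  mulS hε g103 g167 fun z168 t168 g168 =>
  mulS hε g22 g168 fun z170 t170 g170 =>
  addS g175 g170 fun z178 t178 g178 =>
  normS g178 fun z185 t185 g185 =>
  mulS hε g22 g185 fun z186 t186 g186 =>
  rsubS g186 k20 fun z187 t187 g187 =>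
  posS hε g187 <|
  mulS hε g22 g176 fun z188 t188 g188 =>
  rsubS g188 k20 fun z189 t189 g189 =>
  posS hε g189 <|
  normS g65 fun z111 t111 g111 =>
  mulS hε h2 g111 fun z112 t112 g112 =>
  smulS hε g34 k23 fun z113 t113 g113 =>
  addS g112 g113 fun z114 t114 g114 =>
  normS g114 fun z162 t162 g162 =>
  mulS hε g102 g162 fun z163 t163 g163 =>
  sqrS hε h0 fun z115 t115 g115 =>
  mulS hε (cst_rel k24) g115 fun z151 t151 g151 =>
  addcS g151 k25 fun z152 t152 g152 =>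
  sqrS hε g22 fun z116 t116 g116 =>
  mulS hε (cst_rel k26) g116 fun z154 t154 g154 =>
  addS g152 g154 fun z155 t155 g155 =>
  sqrS hε g115 fun z137 t137 g137 =>
  mulS hε g115 g116 fun z136 t136 g136 =>
  addS g137 g136 fun z156 t156 g156 =>
  smulS hε g156 k0 fun z157 t157 g157 =>
  addS g155 g157 fun z158 t158 g158 =>
  sqrS hε g116 fun z138 t138 g138 =>
  mulS hε (cst_rel k27) g138 fun z160 t160 g160 =>
  addS g158 g160 fun z161 t161 g161 =>
  subS g163 g161 fun z164 t164 g164 =>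
  addS g175 g176 fun z179 t179 g179 =>
  normS g179 fun z214 t214 g214 =>
  addS g115 g116 fun z139 t139 g139 =>
  addS g139 g137 fun z140 t140 g140 =>
  addS g140 g138 fun z141 t141 g141 =>
  normS g141 fun z143 t143 g143 =>
  mulS hε (cst_rel k28) g143 fun z144 t144 g144 =>
  addcS g144 k25 fun z145 t145 g145 =>
  smulS hε g136 k21 fun z146 t146 g146 =>
  addS g145 g146 fun z147 t147 g147 =>
  normS g147 fun z148 t148 g148 =>
  mulS hε h0 g148 fun z149 t149 g149 =>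
  mulS hε g214 g149 fun z215 t215 g215 =>
  subS g164 g215 fun z216 t216 g216 =>
  addS h0 g22 fun z117 t117 g117 =>
  normS g117 fun z118 t118 g118 =>
  sqrS hε g118 fun z119 t119 g119 =>
  mulS hε (cst_rel k29) g119 fun z121 t121 g121 =>
  addcS g121 k30 fun z122 t122 g122 =>
  mulS hε g119 g122 fun z123 t123 g123 =>
  addcS g123 k31 fun z124 t124 g124 =>
  mulS hε g119 g124 fun z125 t125 g125 =>
  rsubS g125 k20 fun z126 t126 g126 =>
  mulS hε g175 g182 fun z190 t190 g190 =>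
  subS g190 g166 fun z191 t191 g191 =>
  normS g191 fun z194 t194 g194 =>
  mulS hε g22 g194 fun z195 t195 g195 =>
  addS g179 g195 fun z196 t196 g196 =>
  normS g196 fun z200 t200 g200 =>
  mulS hε g22 g200 fun z201 t201 g201 =>
  addcS g201 k20 fun z202 t202 g202 =>
  sqrtS hε g202 fun z203 t203 g203 =>
  addcS g203 k20 fun z204 t204 g204 =>
  invS hε g204 fun z205 t205 g205 =>
  mulS hε g200 g205 fun z212 t212 g212 =>
  sqrS hε g212 fun z217 t217 g217 =>
  subS g191 g217 fun z218 t218 g218 =>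
  normS g218 fun z219 t219 g219 =>
  mulS hε g126 g219 fun z220 t220 g220 =>
  subS h0 g22 fun z127 t127 g127 =>
  normS g127 fun z128 t128 g128 =>
  sqrS hε g128 fun z129 t129 g129 =>
  mulS hε (cst_rel k29) g129 fun z130 t130 g130 =>
  addcS g130 k30 fun z131 t131 g131 =>
  mulS hε g129 g131 fun z132 t132 g132 =>
  addcS g132 k31 fun z133 t133 g133 =>
  mulS hε g129 g133 fun z134 t134 g134 =>
  rsubS g134 k20 fun z135 t135 g135 =>
  mulS hε g185 g176 fun z192 t192 g192 =>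
  subS g192 g168 fun z193 t193 g193 =>
  normS g193 fun z197 t197 g197 =>
  mulS hε g22 g197 fun z198 t198 g198 =>
  subS g198 g179 fun z199 t199 g199 =>
  normS g199 fun z206 t206 g206 =>
  mulS hε g22 g206 fun z207 t207 g207 =>
  addcS g207 k20 fun z208 t208 g208 =>
  sqrtS hε g208 fun z209 t209 g209 =>
  addcS g209 k20 fun z210 t210 g210 =>
  invS hε g210 fun z211 t211 g211 =>
  mulS hε g206 g211 fun z213 t213 g213 =>
  sqrS hε g213 fun z221 t221 g221 =>
  subS g193 g221 fun z222 t222 g222 =>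
  normS g222 fun z223 t223 g223 =>
  mulS hε g135 g223 fun z224 t224 g224 =>
  addS g220 g224 fun z225 t225 g225 =>
  smulS hε g225 k4 fun z226 t226 g226 =>
  addS g216 g226 fun z227 t227 g227 =>
  posS hε g227 <|
  smulS hε g172 k13 fun z228 t228 g228 =>
  mulS hε g22 g228 fun z233 t233 g233 =>
  addcS g233 k20 fun z234 t234 g234 =>
  posS hε g234 <|
  smulS hε g174 k13 fun z229 t229 g229 =>
  subS g229 g169 fun z230 t230 g230 =>
  normS g230 fun z235 t235 g235 =>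
  mulS hε g22 g235 fun z236 t236 g236 =>
  addcS g236 k20 fun z237 t237 g237 =>
  posS hε g237 <|
  addS g228 g170 fun z231 t231 g231 =>
  normS g231 fun z238 t238 g238 =>
  mulS hε g22 g238 fun z239 t239 g239 =>
  rsubS g239 k20 fun z240 t240 g240 =>
  posS hε g240 <|
  mulS hε g22 g229 fun z241 t241 g241 =>
  rsubS g241 k20 fun z242 t242 g242 =>
  posS hε g242 <|
  addS g228 g229 fun z232 t232 g232 =>
  normS g232 fun z267 t267 g267 =>
  mulS hε g267 g149 fun z268 t268 g268 =>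
  subS g164 g268 fun z269 t269 g269 =>
  mulS hε g228 g235 fun z243 t243 g243 =>
  subS g243 g166 fun z244 t244 g244 =>
  normS g244 fun z247 t247 g247 =>
  mulS hε g22 g247 fun z248 t248 g248 =>
  addS g232 g248 fun z249 t249 g249 =>
  normS g249 fun z253 t253 g253 =>
  mulS hε g22 g253 fun z254 t254 g254 =>
  addcS g254 k20 fun z255 t255 g255 =>
  sqrtS hε g255 fun z256 t256 g256 =>
  addcS g256 k20 fun z257 t257 g257 =>
  invS hε g257 fun z258 t258 g258 =>
  mulS hε g253 g258 fun z265 t265 g265 =>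
  sqrS hε g265 fun z270 t270 g270 =>
  subS g244 g270 fun z271 t271 g271 =>
  normS g271 fun z272 t272 g272 =>
  mulS hε g126 g272 fun z273 t273 g273 =>
  mulS hε g238 g229 fun z245 t245 g245 =>
  subS g245 g168 fun z246 t246 g246 =>
  normS g246 fun z250 t250 g250 =>
  mulS hε g22 g250 fun z251 t251 g251 =>
  subS g251 g232 fun z252 t252 g252 =>
  normS g252 fun z259 t259 g259 =>
  mulS hε g22 g259 fun z260 t260 g260 =>
  addcS g260 k20 fun z261 t261 g261 =>
  sqrtS hε g261 fun z262 t262 g262 =>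
  addcS g262 k20 fun z263 t263 g263 =>
  invS hε g263 fun z264 t264 g264 =>
  mulS hε g259 g264 fun z266 t266 g266 =>
  sqrS hε g266 fun z274 t274 g274 =>
  subS g246 g274 fun z275 t275 g275 =>
  normS g275 fun z276 t276 g276 =>
  mulS hε g135 g276 fun z277 t277 g277 =>
  addS g273 g277 fun z278 t278 g278 =>
  smulS hε g278 k4 fun z279 t279 g279 =>
  addS g269 g279 fun z280 t280 g280 =>
  posS hε g280 <|
  fun _ => trivial

def z0_Spec (ca cb m y r : ℝ) : Prop :=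
  ∃ ta tb pw qw pa0 pb0 pa1 pb1 pa2 pb2 pa3 pb3 pa4 pb4 d v0 v1 v2 v3 v4 w w38 SL Sv SRn SRp S0 S1 S2 tau t rw rr sh a1 sa f1a sb g2a eh ep dp f2a an en dn f3a c0 mm dd m4 md d4 E2 base La E1 Y0u Y0 G0a X0a i0a j0a Y1u Y1 G1a X1a i1a j1a f1b g2b f2b f3b Lb G0b X0b i0b j0b G1b X1b i1b j1b : ℝ,
    d = (y * (ca + (cb * m))) ∧
    v0 = (pa0 + (pb0 * r)) ∧
    0 ≤ v0 ∧
    v1 = (pa1 + (pb1 * r)) ∧
    0 ≤ v1 ∧
    v2 = (pa2 + (pb2 * r)) ∧
    0 ≤ v2 ∧
    v3 = (pa3 + (pb3 * r)) ∧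
    0 ≤ v3 ∧
    v4 = (pa4 + (pb4 * r)) ∧
    0 ≤ v4 ∧
    w = (pw + (qw * r)) ∧
    0 ≤ w ∧
    w38 = (((3 : ℝ) * v0) + v1) ∧
    SL = (((w38 + ((5 / 4 : ℝ) * v2)) + v3) + ((3 : ℝ) * v4)) ∧
    Sv = ((((v0 + v1) + v2) + v3) + v4) ∧
    SRn = (((w38 + ((5 / 8 : ℝ) * v2)) + ((5 / 8 : ℝ) * v3)) + ((15 / 8 : ℝ) * v4)) ∧
    SRp = ((((v0 + ((1 / 2 : ℝ) * v1)) + v2) + v3) + v4) ∧
    S0 = ((((((483 / 128 : ℝ) * v0) + ((213 / 128 : ℝ) * v1)) + ((473 / 256 : ℝ) * v2)) + ((897 / 512 : ℝ) * v3)) + ((837 / 256 : ℝ) * v4)) ∧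
    S1 = ((((((21 / 16 : ℝ) * v0) + ((15 / 32 : ℝ) * v1)) + ((105 / 256 : ℝ) * v2)) + ((3 / 8 : ℝ) * v3)) + ((9 / 8 : ℝ) * v4)) ∧
    S2 = ((((((-7 / 16 : ℝ) * v0) + ((-5 / 16 : ℝ) * v1)) + ((-15 / 32 : ℝ) * v2)) + ((-15 / 32 : ℝ) * v3)) + ((-29 / 64 : ℝ) * v4)) ∧
    tau = (ta + (tb * d)) ∧
    0 ≤ tau ∧
    t = (d * tau) ∧
    0 ≤ ((5 / 32 : ℝ) - t) ∧
    0 ≤ ((1 : ℝ) - Sv) ∧
    rw = (r * w) ∧
    rr = (r ^ 2) ∧
    0 ≤ ((1 : ℝ) - (rw + (rr * SL))) ∧
    0 < ((t ^ 2) + (1 : ℝ)) ∧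
    sh = (((2 : ℝ) * tau) * (((t ^ 2) + (1 : ℝ))⁻¹)) ∧
    a1 = ((rr * S1) + ((3 / 8 : ℝ) * rw)) ∧
    sa = (sh * a1) ∧
    f1a = ((0 : ℝ) * sa) ∧
    0 ≤ ((d * f1a) + (1 : ℝ)) ∧
    sb = (sh * S2) ∧
    g2a = ((0 : ℝ) * sb) ∧
    eh = (tau * sh) ∧
    ep = (eh * SRp) ∧
    dp = (d * ep) ∧
    f2a = (g2a - dp) ∧
    0 ≤ ((d * f2a) + (1 : ℝ)) ∧
    an = ((rr * SRn) + rw) ∧
    en = (eh * an) ∧
    dn = (d * en) ∧
    f3a = (f1a + dn) ∧
    0 ≤ ((1 : ℝ) - (d * f3a)) ∧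
    0 ≤ ((1 : ℝ) - (d * g2a)) ∧
    c0 = ((r * S0) + ((9 / 16 : ℝ) * w)) ∧
    mm = (m ^ 2) ∧
    dd = (d ^ 2) ∧
    m4 = (mm ^ 2) ∧
    md = (mm * dd) ∧
    d4 = (dd ^ 2) ∧
    E2 = ((((((9 / 5 : ℝ) * mm) + (3 / 2 : ℝ)) + ((3 / 10 : ℝ) * dd)) + ((3 : ℝ) * (m4 + md))) + ((1 / 5 : ℝ) * d4)) ∧
    base = ((sh * c0) - E2) ∧
    La = (f1a + g2a) ∧
    E1 = (m * ((((3 / 5 : ℝ) * (((mm + dd) + m4) + d4)) + (3 / 2 : ℝ)) + ((2 : ℝ) * md))) ∧
    Y0u = ((m + d) ^ 2) ∧
    Y0 = ((1 : ℝ) - (Y0u * ((Y0u * (((1 / 10 : ℝ) * Y0u) + (3 / 20 : ℝ))) + (3 / 4 : ℝ)))) ∧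
    G0a = ((f1a * f2a) - ep) ∧
    X0a = (La + (d * G0a)) ∧
    0 < ((√((d * X0a) + (1 : ℝ))) + (1 : ℝ)) ∧
    i0a = (((√((d * X0a) + (1 : ℝ))) + (1 : ℝ))⁻¹) ∧
    j0a = (X0a * i0a) ∧
    Y1u = ((m - d) ^ 2) ∧
    Y1 = ((1 : ℝ) - (Y1u * ((Y1u * (((1 / 10 : ℝ) * Y1u) + (3 / 20 : ℝ))) + (3 / 4 : ℝ)))) ∧
    G1a = ((f3a * g2a) - en) ∧
    X1a = ((d * G1a) - La) ∧
    0 < ((√((d * X1a) + (1 : ℝ))) + (1 : ℝ)) ∧
    i1a = (((√((d * X1a) + (1 : ℝ))) + (1 : ℝ))⁻¹) ∧
    j1a = (X1a * i1a) ∧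
    0 ≤ ((base - (La * E1)) + ((1 / 2 : ℝ) * ((Y0 * (G0a - (j0a ^ 2))) + (Y1 * (G1a - (j1a ^ 2)))))) ∧
    f1b = ((3 / 8 : ℝ) * sa) ∧
    0 ≤ ((d * f1b) + (1 : ℝ)) ∧
    g2b = ((3 / 8 : ℝ) * sb) ∧
    f2b = (g2b - dp) ∧
    0 ≤ ((d * f2b) + (1 : ℝ)) ∧
    f3b = (f1b + dn) ∧
    0 ≤ ((1 : ℝ) - (d * f3b)) ∧
    0 ≤ ((1 : ℝ) - (d * g2b)) ∧
    Lb = (f1b + g2b) ∧
    G0b = ((f1b * f2b) - ep) ∧
    X0b = (Lb + (d * G0b)) ∧
    0 < ((√((d * X0b) + (1 : ℝ))) + (1 : ℝ)) ∧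
    i0b = (((√((d * X0b) + (1 : ℝ))) + (1 : ℝ))⁻¹) ∧
    j0b = (X0b * i0b) ∧
    G1b = ((f3b * g2b) - en) ∧
    X1b = ((d * G1b) - Lb) ∧
    0 < ((√((d * X1b) + (1 : ℝ))) + (1 : ℝ)) ∧
    i1b = (((√((d * X1b) + (1 : ℝ))) + (1 : ℝ))⁻¹) ∧
    j1b = (X1b * i1b) ∧
    0 ≤ ((base - (Lb * E1)) + ((1 / 2 : ℝ) * ((Y0 * (G0b - (j0b ^ 2))) + (Y1 * (G1b - (j1b ^ 2))))))

theorem z0_E {gs ps : ℕ} {m y r u3 : ℝ} (h : z0_R gs ps m y r u3) : z0_Spec (parV gs 0) (parV gs 1) m y r := by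
  delta z0_R at h
  exact letR_ex h fun ta _ h =>
  letR_ex h fun tb _ h =>
  letR_ex h fun pw _ h =>
  letR_ex h fun qw _ h =>
  letR_ex h fun pa0 _ h =>
  letR_ex h fun pb0 _ h =>
  letR_ex h fun pa1 _ h =>
  letR_ex h fun pb1 _ h =>
  letR_ex h fun pa2 _ h =>
  letR_ex h fun pb2 _ h =>
  letR_ex h fun pa3 _ h =>
  letR_ex h fun pb3 _ h =>
  letR_ex h fun pa4 _ h =>
  letR_ex h fun pb4 _ h =>
  letR_in h fun h =>
  letR_in h fun h =>
  letR_in h fun h =>
  letR_in h fun h =>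
  letR_in h fun h =>
  letR_ex h fun d q1 h =>
  letR_in h fun h =>
  letR_ex h fun v0 q2 h =>
  posR_ex h fun q3 h =>
  letR_in h fun h =>
  letR_ex h fun v1 q4 h =>
  posR_ex h fun q5 h =>
  letR_in h fun h =>
  letR_ex h fun v2 q6 h =>
  posR_ex h fun q7 h =>
  letR_in h fun h =>
  letR_ex h fun v3 q8 h =>
  posR_ex h fun q9 h =>
  letR_in h fun h =>
  letR_ex h fun v4 q10 h =>
  posR_ex h fun q11 h =>
  letR_in h fun h =>
  letR_ex h fun w q12 h =>
  posR_ex h fun q13 h =>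
  letR_in h fun h =>
  letR_ex h fun w38 q14 h =>
  letR_in h fun h =>
  letR_in h fun h =>
  letR_in h fun h =>
  letR_in h fun h =>
  letR_ex h fun SL q15 h =>
  letR_in h fun h =>
  letR_in h fun h =>
  letR_in h fun h =>
  letR_ex h fun Sv q16 h =>
  letR_in h fun h =>
  letR_in h fun h =>
  letR_in h fun h =>
  letR_in h fun h =>
  letR_in h fun h =>
  letR_ex h fun SRn q17 h =>
  letR_in h fun h =>
  letR_in h fun h =>
  letR_in h fun h =>
  letR_in h fun h =>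
  letR_ex h fun SRp q18 h =>
  letR_in h fun h =>
  letR_in h fun h =>
  letR_in h fun h =>
  letR_in h fun h =>
  letR_in h fun h =>
  letR_in h fun h =>
  letR_in h fun h =>
  letR_in h fun h =>
  letR_ex h fun S0 q19 h =>
  letR_in h fun h =>
  letR_in h fun h =>
  letR_in h fun h =>
  letR_in h fun h =>
  letR_in h fun h =>
  letR_in h fun h =>
  letR_in h fun h =>
  letR_in h fun h =>
  letR_ex h fun S1 q20 h =>
  letR_in h fun h =>
  letR_in h fun h =>
  letR_in h fun h =>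
  letR_in h fun h =>
  letR_in h fun h =>
  letR_in h fun h =>
  letR_in h fun h =>
  letR_in h fun h =>
  letR_ex h fun S2 q21 h =>
  letR_in h fun h =>
  letR_ex h fun tau q22 h =>
  posR_ex h fun q23 h =>
  letR_in h fun h =>
  letR_ex h fun t q24 h =>
  letR_in h fun h =>
  posR_ex h fun q25 h =>
  letR_in h fun h =>
  posR_ex h fun q26 h =>
  letR_in h fun h =>
  letR_ex h fun rw q27 h =>
  letR_ex h fun rr q28 h =>
  letR_in h fun h =>
  letR_in h fun h =>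
  letR_in h fun h =>
  letR_in h fun h =>
  posR_ex h fun q29 h =>
  letR_in h fun h =>
  letR_in h fun h =>
  letR_in h fun h =>
  invR_ex h fun q30 h =>
  letR_in h fun h =>
  letR_ex h fun sh q31 h =>
  letR_in h fun h =>
  letR_in h fun h =>
  letR_in h fun h =>
  letR_ex h fun a1 q32 h =>
  letR_in h fun h =>
  letR_ex h fun sa q33 h =>
  letR_ex h fun f1a q34 h =>
  letR_in h fun h =>
  letR_in h fun h =>
  posR_ex h fun q35 h =>
  letR_in h fun h =>
  letR_ex h fun sb q36 h =>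
  letR_ex h fun g2a q37 h =>
  letR_ex h fun eh q38 h =>
  letR_in h fun h =>
  letR_ex h fun ep q39 h =>
  letR_ex h fun dp q40 h =>
  letR_ex h fun f2a q41 h =>
  letR_in h fun h =>
  letR_in h fun h =>
  letR_in h fun h =>
  posR_ex h fun q42 h =>
  letR_in h fun h =>
  letR_in h fun h =>
  letR_ex h fun an q43 h =>
  letR_in h fun h =>
  letR_ex h fun en q44 h =>
  letR_ex h fun dn q45 h =>
  letR_ex h fun f3a q46 h =>
  letR_in h fun h =>
  letR_in h fun h =>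
  letR_in h fun h =>
  posR_ex h fun q47 h =>
  letR_in h fun h =>
  letR_in h fun h =>
  posR_ex h fun q48 h =>
  letR_in h fun h =>
  letR_in h fun h =>
  letR_in h fun h =>
  letR_ex h fun c0 q49 h =>
  letR_in h fun h =>
  letR_in h fun h =>
  letR_ex h fun mm q50 h =>
  letR_in h fun h =>
  letR_in h fun h =>
  letR_ex h fun dd q51 h =>
  letR_in h fun h =>
  letR_in h fun h =>
  letR_ex h fun m4 q52 h =>
  letR_ex h fun md q53 h =>
  letR_in h fun h =>
  letR_in h fun h =>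
  letR_in h fun h =>
  letR_ex h fun d4 q54 h =>
  letR_in h fun h =>
  letR_ex h fun E2 q55 h =>
  letR_ex h fun base q56 h =>
  letR_ex h fun La q57 h =>
  letR_in h fun h =>
  letR_in h fun h =>
  letR_in h fun h =>
  letR_in h fun h =>
  letR_in h fun h =>
  letR_in h fun h =>
  letR_in h fun h =>
  letR_in h fun h =>
  letR_in h fun h =>
  letR_in h fun h =>
  letR_ex h fun E1 q58 h =>
  letR_in h fun h =>
  letR_in h fun h =>
  letR_in h fun h =>
  letR_in h fun h =>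
  letR_ex h fun Y0u q59 h =>
  letR_in h fun h =>
  letR_in h fun h =>
  letR_in h fun h =>
  letR_in h fun h =>
  letR_in h fun h =>
  letR_ex h fun Y0 q60 h =>
  letR_in h fun h =>
  letR_ex h fun G0a q61 h =>
  letR_in h fun h =>
  letR_in h fun h =>
  letR_ex h fun X0a q62 h =>
  letR_in h fun h =>
  letR_in h fun h =>
  letR_in h fun h =>
  letR_in h fun h =>
  letR_in h fun h =>
  invR_ex h fun q63 h =>
  letR_ex h fun i0a q64 h =>
  letR_ex h fun j0a q65 h =>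
  letR_in h fun h =>
  letR_in h fun h =>
  letR_in h fun h =>
  letR_in h fun h =>
  letR_in h fun h =>
  letR_in h fun h =>
  letR_ex h fun Y1u q66 h =>
  letR_in h fun h =>
  letR_in h fun h =>
  letR_in h fun h =>
  letR_in h fun h =>
  letR_in h fun h =>
  letR_ex h fun Y1 q67 h =>
  letR_in h fun h =>
  letR_ex h fun G1a q68 h =>
  letR_in h fun h =>
  letR_in h fun h =>
  letR_ex h fun X1a q69 h =>
  letR_in h fun h =>
  letR_in h fun h =>
  letR_in h fun h =>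
  letR_in h fun h =>
  letR_in h fun h =>
  invR_ex h fun q70 h =>
  letR_ex h fun i1a q71 h =>
  letR_ex h fun j1a q72 h =>
  letR_in h fun h =>
  letR_in h fun h =>
  letR_in h fun h =>
  letR_in h fun h =>
  letR_in h fun h =>
  letR_in h fun h =>
  letR_in h fun h =>
  posR_ex h fun q73 h =>
  letR_ex h fun f1b q74 h =>
  letR_in h fun h =>
  letR_in h fun h =>
  posR_ex h fun q75 h =>
  letR_ex h fun g2b q76 h =>
  letR_ex h fun f2b q77 h =>
  letR_in h fun h =>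
  letR_in h fun h =>
  letR_in h fun h =>
  posR_ex h fun q78 h =>
  letR_ex h fun f3b q79 h =>
  letR_in h fun h =>
  letR_in h fun h =>
  letR_in h fun h =>
  posR_ex h fun q80 h =>
  letR_in h fun h =>
  letR_in h fun h =>
  posR_ex h fun q81 h =>
  letR_ex h fun Lb q82 h =>
  letR_in h fun h =>
  letR_in h fun h =>
  letR_in h fun h =>
  letR_in h fun h =>
  letR_ex h fun G0b q83 h =>
  letR_in h fun h =>
  letR_in h fun h =>
  letR_ex h fun X0b q84 h =>
  letR_in h fun h =>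
  letR_in h fun h =>
  letR_in h fun h =>
  letR_in h fun h =>
  letR_in h fun h =>
  invR_ex h fun q85 h =>
  letR_ex h fun i0b q86 h =>
  letR_ex h fun j0b q87 h =>
  letR_in h fun h =>
  letR_in h fun h =>
  letR_in h fun h =>
  letR_in h fun h =>
  letR_in h fun h =>
  letR_ex h fun G1b q88 h =>
  letR_in h fun h =>
  letR_in h fun h =>
  letR_ex h fun X1b q89 h =>
  letR_in h fun h =>
  letR_in h fun h =>
  letR_in h fun h =>
  letR_in h fun h =>
  letR_in h fun h =>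
  invR_ex h fun q90 h =>
  letR_ex h fun i1b q91 h =>
  letR_ex h fun j1b q92 h =>
  letR_in h fun h =>
  letR_in h fun h =>
  letR_in h fun h =>
  letR_in h fun h =>
  letR_in h fun h =>
  letR_in h fun h =>
  letR_in h fun h =>
  posR_ex h fun q93 h =>
  ⟨ta, tb, pw, qw, pa0, pb0, pa1, pb1, pa2, pb2, pa3, pb3, pa4, pb4, d, v0, v1, v2, v3, v4, w, w38, SL, Sv, SRn, SRp, S0, S1, S2, tau, t, rw, rr, sh, a1, sa, f1a, sb, g2a, eh, ep, dp, f2a, an, en, dn, f3a, c0, mm, dd, m4, md, d4, E2, base, La, E1, Y0u, Y0, G0a, X0a, i0a, j0a, Y1u, Y1, G1a, X1a, i1a, j1a, f1b, g2b, f2b, f3b, Lb, G0b, X0b, i0b, j0b, G1b, X1b, i1b, j1b, q1, q2, q3, q4, q5, q6, q7, q8, q9, q10, q11, q12, q13, q14, q15, q16, q17, q18, q19, q20, q21, q22, q23, q24, q25, q26, q27, q28, q29, q30, q31, q32, q33, q34, q35, q36, q37, q38, q39, q40, q41, q42, q43, q44, q45, q46, q47, q48, q49, q50, q51, q52, q53, q54, q55, q56, q57, q58, q59, q60, q61, q62, q63, q64,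 q65, q66, q67, q68, q69, q70, q71, q72, q73, q74, q75, q76, q77, q78, q79, q80, q81, q82, q83, q84, q85, q86, q87, q88, q89, q90, q91, q92, q93⟩

theorem k32 : (3 / 2 : ℝ) = val 4722366905082110279680 := by norm_num [val]
theorem k33 : (7 / 4 : ℝ) = val 4722366975450854457344 := by norm_num [val]
theorem k34 : (39 / 32 : ℝ) = val 4722366825917273079808 := by norm_num [val]
theorem k35 : (1179 / 512 : ℝ) = val 4722367131031749787648 := by norm_num [val]
theorem k36 : (51 / 32 : ℝ) = val 4722366931470389346304 := by norm_num [val]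
theorem k37 : (253 / 128 : ℝ) = val 4722367039222528868352 := by norm_num [val]
theorem k38 : (1239 / 512 : ℝ) = val 4722367164017098620928 := by norm_num [val]
theorem k39 : (51 / 128 : ℝ) = val 4722366595019831246848 := by norm_num [val]
theorem k40 : (3 / 16 : ℝ) = val 4722366535646203346944 := by norm_num [val]
theorem k41 : (63 / 128 : ℝ) = val 4722366621408110313472 := by norm_num [val]
theorem k42 : (-3 / 8 : ℝ) = val 4722366377316528947200 := by norm_num [val]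
theorem k43 : (-19 / 64 : ℝ) = val 4722366399306761502720 := by norm_num [val]
theorem k44 : (-21 / 64 : ℝ) = val 4722366390510668480512 := by norm_num [val]
theorem k45 : |2 ^ 48 * (-5 / 32 : ℝ) - (((4722366438889180102656 : ℕ) : ℝ) - 2 ^ 72)| ≤ ((0 : ℕ) : ℝ) := by norm_num [abs_le]
theorem k46 : |2 ^ 48 * (5 / 16 : ℝ) - (((4722366570830575435776 : ℕ) : ℝ) - 2 ^ 72)| ≤ ((0 : ℕ) : ℝ) := by norm_num [abs_le]
def z1_B (gs ps : ℕ) (x0 x1 x2 x3 : AF) : Bool :=
  parK ps 0 fun z3 =>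
  parK ps 1 fun z4 =>
  parK ps 2 fun z5 =>
  parK ps 3 fun z6 =>
  parK ps 4 fun z7 =>
  parK ps 5 fun z8 =>
  parK ps 6 fun z9 =>
  parK ps 7 fun z10 =>
  parK ps 8 fun z11 =>
  parK ps 9 fun z12 =>
  parK ps 10 fun z13 =>
  parK ps 11 fun z14 =>
  parK gs 0 fun z15 =>
  parK gs 1 fun z16 =>
  mulK z16 x0 fun z17 =>
  addK z15 z17 fun z18 =>
  normK z18 fun z19 =>
  mulK x1 z19 fun z20 =>
  mulK z8 x2 fun z21 =>
  addK z7 z21 fun z22 =>
  posK z22 <|
  mulK z10 x2 fun z23 =>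
  addK z9 z23 fun z24 =>
  posK z24 <|
  mulK z12 x2 fun z25 =>
  addK z11 z25 fun z26 =>
  posK z26 <|
  mulK z14 x2 fun z27 =>
  addK z13 z27 fun z28 =>
  posK z28 <|
  mulK z6 x2 fun z29 =>
  addK z5 z29 fun z30 =>
  posK z30 <|
  smulK z22 4722366905082110279680 fun z31 =>
  addK z31 z24 fun z33 =>
  addK z33 z26 fun z34 =>
  smulK z28 4722366975450854457344 fun z32 =>
  addK z34 z32 fun z35 =>
  addK z22 z24 fun z36 =>
  addK z36 z26 fun z37 =>
  addK z37 z28 fun z38 =>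
  smulK z22 4722366825917273079808 fun z39 =>
  smulK z24 4722366588422761480192 fun z40 =>
  addK z39 z40 fun z41 =>
  addK z41 z26 fun z42 =>
  addK z42 z32 fun z43 =>
  smulK z28 4722366623607133569024 fun z44 =>
  addK z37 z44 fun z45 =>
  smulK z22 4722367131031749787648 fun z46 =>
  smulK z24 4722366931470389346304 fun z47 =>
  addK z46 z47 fun z50 =>
  smulK z26 4722367039222528868352 fun z48 =>
  addK z50 z48 fun z51 =>
  smulK z28 4722367164017098620928 fun z49 =>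
  addK z51 z49 fun z52 =>
  smulK z22 4722366595019831246848 fun z53 =>
  smulK z24 4722366535646203346944 fun z54 =>
  addK z53 z54 fun z57 =>
  smulK z26 4722366588422761480192 fun z55 =>
  addK z57 z55 fun z58 =>
  smulK z28 4722366621408110313472 fun z56 =>
  addK z58 z56 fun z59 =>
  smulK z22 4722366377316528947200 fun z60 =>
  smulK z24 4722366355326296391680 fun z61 =>
  addK z60 z61 fun z64 =>
  smulK z26 4722366399306761502720 fun z62 =>
  addK z64 z62 fun z65 =>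
  smulK z28 4722366390510668480512 fun z63 =>
  addK z65 z63 fun z66 =>
  mulK z4 z20 fun z67 =>
  addK z3 z67 fun z68 =>
  normK z68 fun z69 =>
  mulK z20 z69 fun z70 =>
  addcK z70 4722366438889180102656 0 fun z71 =>
  posK z71 <|
  rsubK z70 4722366570830575435776 0 fun z72 =>
  posK z72 <|
  rsubK z38 4722366764344621924352 0 fun z76 =>
  posK z76 <|
  normK z30 fun z74 =>
  mulK x2 z74 fun z75 =>
  sqrK x2 fun z73 =>
  normK z35 fun z77 =>
  mulK z73 z77 fun z78 =>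
  addK z75 z78 fun z79 =>
  rsubK z79 4722366764344621924352 0 fun z80 =>
  posK z80 <|
  smulK z69 4722367045819598635008 fun z85 =>
  sqrK z70 fun z82 =>
  addcK z82 4722366764344621924352 0 fun z83 =>
  invK z83 fun z84 =>
  mulK z85 z84 fun z86 =>
  normK z59 fun z88 =>
  mulK z73 z88 fun z89 =>
  smulK z75 4722366588422761480192 fun z90 =>
  addK z89 z90 fun z91 =>
  normK z91 fun z155 =>
  mulK z86 z155 fun z156 =>
  smulK z156 4722366482869645213696 fun z159 =>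
  mulK z20 z159 fun z164 =>
  addcK z164 4722366764344621924352 0 fun z165 =>
  posK z165 <|
  normK z66 fun z157 =>
  mulK z86 z157 fun z158 =>
  smulK z158 4722366482869645213696 fun z160 =>
  mulK z69 z86 fun z87 =>
  normK z45 fun z149 =>
  mulK z87 z149 fun z150 =>
  mulK z20 z150 fun z153 =>
  subK z160 z153 fun z161 =>
  normK z161 fun z166 =>
  mulK z20 z166 fun z167 =>
  addcK z167 4722366764344621924352 0 fun z168 =>
  posK z168 <|
  normK z43 fun z92 =>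
  mulK z73 z92 fun z93 =>
  addK z93 z75 fun z94 =>
  normK z94 fun z151 =>
  mulK z87 z151 fun z152 =>
  mulK z20 z152 fun z154 =>
  addK z159 z154 fun z162 =>
  normK z162 fun z169 =>
  mulK z20 z169 fun z170 =>
  rsubK z170 4722366764344621924352 0 fun z171 =>
  posK z171 <|
  mulK z20 z160 fun z172 =>
  rsubK z172 4722366764344621924352 0 fun z173 =>
  posK z173 <|
  normK z52 fun z95 =>
  mulK x2 z95 fun z96 =>
  smulK z30 4722366641199319613440 fun z97 =>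
  addK z96 z97 fun z98 =>
  normK z98 fun z146 =>
  mulK z86 z146 fun z147 =>
  sqrK x0 fun z99 =>
  mulK (cst 4722366989524603292876 1) z99 fun z135 =>
  addcK z135 4722366905082110279680 0 fun z136 =>
  sqrK z20 fun z100 =>
  mulK (cst 4722366567312138226892 1) z100 fun z138 =>
  addK z136 z138 fun z139 =>
  sqrK z99 fun z121 =>
  mulK z99 z100 fun z120 =>
  addK z121 z120 fun z140 =>
  smulK z140 4722367327294575345664 fun z141 =>
  addK z139 z141 fun z142 =>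
  sqrK z100 fun z122 =>
  mulK (cst 4722366539164640555827 1) z122 fun z144 =>
  addK z142 z144 fun z145 =>
  subK z147 z145 fun z148 =>
  addK z159 z160 fun z163 =>
  normK z163 fun z198 =>
  addK z99 z100 fun z123 =>
  addK z123 z121 fun z124 =>
  addK z124 z122 fun z125 =>
  normK z125 fun z127 =>
  mulK (cst 4722366651754631240089 1) z127 fun z128 =>
  addcK z128 4722366905082110279680 0 fun z129 =>
  smulK z120 4722367045819598635008 fun z130 =>
  addK z129 z130 fun z131 =>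
  normK z131 fun z132 =>
  mulK x0 z132 fun z133 =>
  mulK z198 z133 fun z199 =>
  subK z148 z199 fun z200 =>
  addK x0 z20 fun z101 =>
  normK z101 fun z102 =>
  sqrK z102 fun z103 =>
  mulK (cst 4722366511017142884761 1) z103 fun z105 =>
  addcK z105 4722366525090891720294 1 fun z106 =>
  mulK z103 z106 fun z107 =>
  addcK z107 4722366693975877746688 0 fun z108 =>
  mulK z103 z108 fun z109 =>
  rsubK z109 4722366764344621924352 0 fun z110 =>
  mulK z159 z166 fun z174 =>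
  subK z174 z150 fun z175 =>
  normK z175 fun z178 =>
  mulK z20 z178 fun z179 =>
  addK z163 z179 fun z180 =>
  normK z180 fun z184 =>
  mulK z20 z184 fun z185 =>
  addcK z185 4722366764344621924352 0 fun z186 =>
  sqrtK z186 fun z187 =>
  addcK z187 4722366764344621924352 0 fun z188 =>
  invK z188 fun z189 =>
  mulK z184 z189 fun z196 =>
  sqrK z196 fun z201 =>
  subK z175 z201 fun z202 =>
  normK z202 fun z203 =>
  mulK z110 z203 fun z204 =>
  subK x0 z20 fun z111 =>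
  normK z111 fun z112 =>
  sqrK z112 fun z113 =>
  mulK (cst 4722366511017142884761 1) z113 fun z114 =>
  addcK z114 4722366525090891720294 1 fun z115 =>
  mulK z113 z115 fun z116 =>
  addcK z116 4722366693975877746688 0 fun z117 =>
  mulK z113 z117 fun z118 =>
  rsubK z118 4722366764344621924352 0 fun z119 =>
  mulK z169 z160 fun z176 =>
  subK z176 z152 fun z177 =>
  normK z177 fun z181 =>
  mulK z20 z181 fun z182 =>
  subK z182 z163 fun z183 =>
  normK z183 fun z190 =>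
  mulK z20 z190 fun z191 =>
  addcK z191 4722366764344621924352 0 fun z192 =>
  sqrtK z192 fun z193 =>
  addcK z193 4722366764344621924352 0 fun z194 =>
  invK z194 fun z195 =>
  mulK z190 z195 fun z197 =>
  sqrK z197 fun z205 =>
  subK z177 z205 fun z206 =>
  normK z206 fun z207 =>
  mulK z119 z207 fun z208 =>
  addK z204 z208 fun z209 =>
  smulK z209 4722366623607133569024 fun z210 =>
  addK z200 z210 fun z211 =>
  posK z211 <|
  smulK z156 4722366588422761480192 fun z212 =>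
  mulK z20 z212 fun z217 =>
  addcK z217 4722366764344621924352 0 fun z218 =>
  posK z218 <|
  smulK z158 4722366588422761480192 fun z213 =>
  subK z213 z153 fun z214 =>
  normK z214 fun z219 =>
  mulK z20 z219 fun z220 =>
  addcK z220 4722366764344621924352 0 fun z221 =>
  posK z221 <|
  addK z212 z154 fun z215 =>
  normK z215 fun z222 =>
  mulK z20 z222 fun z223 =>
  rsubK z223 4722366764344621924352 0 fun z224 =>
  posK z224 <|
  mulK z20 z213 fun z225 =>
  rsubK z225 4722366764344621924352 0 fun z226 =>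
  posK z226 <|
  addK z212 z213 fun z216 =>
  normK z216 fun z251 =>
  mulK z251 z133 fun z252 =>
  subK z148 z252 fun z253 =>
  mulK z212 z219 fun z227 =>
  subK z227 z150 fun z228 =>
  normK z228 fun z231 =>
  mulK z20 z231 fun z232 =>
  addK z216 z232 fun z233 =>
  normK z233 fun z237 =>
  mulK z20 z237 fun z238 =>
  addcK z238 4722366764344621924352 0 fun z239 =>
  sqrtK z239 fun z240 =>
  addcK z240 4722366764344621924352 0 fun z241 =>
  invK z241 fun z242 =>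
  mulK z237 z242 fun z249 =>
  sqrK z249 fun z254 =>
  subK z228 z254 fun z255 =>
  normK z255 fun z256 =>
  mulK z110 z256 fun z257 =>
  mulK z222 z213 fun z229 =>
  subK z229 z152 fun z230 =>
  normK z230 fun z234 =>
  mulK z20 z234 fun z235 =>
  subK z235 z216 fun z236 =>
  normK z236 fun z243 =>
  mulK z20 z243 fun z244 =>
  addcK z244 4722366764344621924352 0 fun z245 =>
  sqrtK z245 fun z246 =>
  addcK z246 4722366764344621924352 0 fun z247 =>
  invK z247 fun z248 =>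
  mulK z243 z248 fun z250 =>
  sqrK z250 fun z258 =>
  subK z230 z258 fun z259 =>
  normK z259 fun z260 =>
  mulK z119 z260 fun z261 =>
  addK z257 z261 fun z262 =>
  smulK z262 4722366623607133569024 fun z263 =>
  addK z253 z263 fun z264 =>
  posK z264 <|
  true

def z1_R (gs ps : ℕ) (m y r u3 : ℝ) : Prop :=
  letR (parV ps 0) fun z3 =>
  letR (parV ps 1) fun z4 =>
  letR (parV ps 2) fun z5 =>
  letR (parV ps 3) fun z6 =>
  letR (parV ps 4) fun z7 =>
  letR (parV ps 5) fun z8 =>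
  letR (parV ps 6) fun z9 =>
  letR (parV ps 7) fun z10 =>
  letR (parV ps 8) fun z11 =>
  letR (parV ps 9) fun z12 =>
  letR (parV ps 10) fun z13 =>
  letR (parV ps 11) fun z14 =>
  letR (parV gs 0) fun z15 =>
  letR (parV gs 1) fun z16 =>
  letR (z16 * m) fun z17 =>
  letR (z15 + z17) fun z18 =>
  letR z18 fun z19 =>
  letR (y * z19) fun z20 =>
  letR (z8 * r) fun z21 =>
  letR (z7 + z21) fun z22 =>
  posR z22 <|
  letR (z10 * r) fun z23 =>
  letR (z9 + z23) fun z24 =>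
  posR z24 <|
  letR (z12 * r) fun z25 =>
  letR (z11 + z25) fun z26 =>
  posR z26 <|
  letR (z14 * r) fun z27 =>
  letR (z13 + z27) fun z28 =>
  posR z28 <|
  letR (z6 * r) fun z29 =>
  letR (z5 + z29) fun z30 =>
  posR z30 <|
  letR ((3 / 2 : ℝ) * z22) fun z31 =>
  letR (z31 + z24) fun z33 =>
  letR (z33 + z26) fun z34 =>
  letR ((7 / 4 : ℝ) * z28) fun z32 =>
  letR (z34 + z32) fun z35 =>
  letR (z22 + z24) fun z36 =>
  letR (z36 + z26) fun z37 =>
  letR (z37 + z28) fun z38 =>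
  letR ((39 / 32 : ℝ) * z22) fun z39 =>
  letR ((3 / 8 : ℝ) * z24) fun z40 =>
  letR (z39 + z40) fun z41 =>
  letR (z41 + z26) fun z42 =>
  letR (z42 + z32) fun z43 =>
  letR ((1 / 2 : ℝ) * z28) fun z44 =>
  letR (z37 + z44) fun z45 =>
  letR ((1179 / 512 : ℝ) * z22) fun z46 =>
  letR ((51 / 32 : ℝ) * z24) fun z47 =>
  letR (z46 + z47) fun z50 =>
  letR ((253 / 128 : ℝ) * z26) fun z48 =>
  letR (z50 + z48) fun z51 =>
  letR ((1239 / 512 : ℝ) * z28) fun z49 =>
  letR (z51 + z49) fun z52 =>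
  letR ((51 / 128 : ℝ) * z22) fun z53 =>
  letR ((3 / 16 : ℝ) * z24) fun z54 =>
  letR (z53 + z54) fun z57 =>
  letR ((3 / 8 : ℝ) * z26) fun z55 =>
  letR (z57 + z55) fun z58 =>
  letR ((63 / 128 : ℝ) * z28) fun z56 =>
  letR (z58 + z56) fun z59 =>
  letR ((-3 / 8 : ℝ) * z22) fun z60 =>
  letR ((-29 / 64 : ℝ) * z24) fun z61 =>
  letR (z60 + z61) fun z64 =>
  letR ((-19 / 64 : ℝ) * z26) fun z62 =>
  letR (z64 + z62) fun z65 =>
  letR ((-21 / 64 : ℝ) * z28) fun z63 =>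
  letR (z65 + z63) fun z66 =>
  letR (z4 * z20) fun z67 =>
  letR (z3 + z67) fun z68 =>
  letR z68 fun z69 =>
  letR (z20 * z69) fun z70 =>
  letR (z70 + (-5 / 32 : ℝ)) fun z71 =>
  posR z71 <|
  letR ((5 / 16 : ℝ) - z70) fun z72 =>
  posR z72 <|
  letR ((1 : ℝ) - z38) fun z76 =>
  posR z76 <|
  letR z30 fun z74 =>
  letR (r * z74) fun z75 =>
  letR (r ^ 2) fun z73 =>
  letR z35 fun z77 =>
  letR (z73 * z77) fun z78 =>
  letR (z75 + z78) fun z79 =>
  letR ((1 : ℝ) - z79) fun z80 =>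
  posR z80 <|
  letR ((2 : ℝ) * z69) fun z85 =>
  letR (z70 ^ 2) fun z82 =>
  letR (z82 + (1 : ℝ)) fun z83 =>
  invR z83 fun z84 =>
  letR (z85 * z84) fun z86 =>
  letR z59 fun z88 =>
  letR (z73 * z88) fun z89 =>
  letR ((3 / 8 : ℝ) * z75) fun z90 =>
  letR (z89 + z90) fun z91 =>
  letR z91 fun z155 =>
  letR (z86 * z155) fun z156 =>
  letR ((0 : ℝ) * z156) fun z159 =>
  letR (z20 * z159) fun z164 =>
  letR (z164 + (1 : ℝ)) fun z165 =>
  posR z165 <|
  letR z66 fun z157 =>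
  letR (z86 * z157) fun z158 =>
  letR ((0 : ℝ) * z158) fun z160 =>
  letR (z69 * z86) fun z87 =>
  letR z45 fun z149 =>
  letR (z87 * z149) fun z150 =>
  letR (z20 * z150) fun z153 =>
  letR (z160 - z153) fun z161 =>
  letR z161 fun z166 =>
  letR (z20 * z166) fun z167 =>
  letR (z167 + (1 : ℝ)) fun z168 =>
  posR z168 <|
  letR z43 fun z92 =>
  letR (z73 * z92) fun z93 =>
  letR (z93 + z75) fun z94 =>
  letR z94 fun z151 =>
  letR (z87 * z151) fun z152 =>
  letR (z20 * z152) fun z154 =>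
  letR (z159 + z154) fun z162 =>
  letR z162 fun z169 =>
  letR (z20 * z169) fun z170 =>
  letR ((1 : ℝ) - z170) fun z171 =>
  posR z171 <|
  letR (z20 * z160) fun z172 =>
  letR ((1 : ℝ) - z172) fun z173 =>
  posR z173 <|
  letR z52 fun z95 =>
  letR (r * z95) fun z96 =>
  letR ((9 / 16 : ℝ) * z30) fun z97 =>
  letR (z96 + z97) fun z98 =>
  letR z98 fun z146 =>
  letR (z86 * z146) fun z147 =>
  letR (m ^ 2) fun z99 =>
  letR ((9 / 5 : ℝ) * z99) fun z135 =>
  letR (z135 + (3 / 2 : ℝ)) fun z136 =>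
  letR (z20 ^ 2) fun z100 =>
  letR ((3 / 10 : ℝ) * z100) fun z138 =>
  letR (z136 + z138) fun z139 =>
  letR (z99 ^ 2) fun z121 =>
  letR (z99 * z100) fun z120 =>
  letR (z121 + z120) fun z140 =>
  letR ((3 : ℝ) * z140) fun z141 =>
  letR (z139 + z141) fun z142 =>
  letR (z100 ^ 2) fun z122 =>
  letR ((1 / 5 : ℝ) * z122) fun z144 =>
  letR (z142 + z144) fun z145 =>
  letR (z147 - z145) fun z148 =>
  letR (z159 + z160) fun z163 =>
  letR z163 fun z198 =>
  letR (z99 + z100) fun z123 =>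
  letR (z123 + z121) fun z124 =>
  letR (z124 + z122) fun z125 =>
  letR z125 fun z127 =>
  letR ((3 / 5 : ℝ) * z127) fun z128 =>
  letR (z128 + (3 / 2 : ℝ)) fun z129 =>
  letR ((2 : ℝ) * z120) fun z130 =>
  letR (z129 + z130) fun z131 =>
  letR z131 fun z132 =>
  letR (m * z132) fun z133 =>
  letR (z198 * z133) fun z199 =>
  letR (z148 - z199) fun z200 =>
  letR (m + z20) fun z101 =>
  letR z101 fun z102 =>
  letR (z102 ^ 2) fun z103 =>
  letR ((1 / 10 : ℝ) * z103) fun z105 =>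
  letR (z105 + (3 / 20 : ℝ)) fun z106 =>
  letR (z103 * z106) fun z107 =>
  letR (z107 + (3 / 4 : ℝ)) fun z108 =>
  letR (z103 * z108) fun z109 =>
  letR ((1 : ℝ) - z109) fun z110 =>
  letR (z159 * z166) fun z174 =>
  letR (z174 - z150) fun z175 =>
  letR z175 fun z178 =>
  letR (z20 * z178) fun z179 =>
  letR (z163 + z179) fun z180 =>
  letR z180 fun z184 =>
  letR (z20 * z184) fun z185 =>
  letR (z185 + (1 : ℝ)) fun z186 =>
  letR (√z186) fun z187 =>
  letR (z187 + (1 : ℝ)) fun z188 =>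
  invR z188 fun z189 =>
  letR (z184 * z189) fun z196 =>
  letR (z196 ^ 2) fun z201 =>
  letR (z175 - z201) fun z202 =>
  letR z202 fun z203 =>
  letR (z110 * z203) fun z204 =>
  letR (m - z20) fun z111 =>
  letR z111 fun z112 =>
  letR (z112 ^ 2) fun z113 =>
  letR ((1 / 10 : ℝ) * z113) fun z114 =>
  letR (z114 + (3 / 20 : ℝ)) fun z115 =>
  letR (z113 * z115) fun z116 =>
  letR (z116 + (3 / 4 : ℝ)) fun z117 =>
  letR (z113 * z117) fun z118 =>
  letR ((1 : ℝ) - z118) fun z119 =>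
  letR (z169 * z160) fun z176 =>
  letR (z176 - z152) fun z177 =>
  letR z177 fun z181 =>
  letR (z20 * z181) fun z182 =>
  letR (z182 - z163) fun z183 =>
  letR z183 fun z190 =>
  letR (z20 * z190) fun z191 =>
  letR (z191 + (1 : ℝ)) fun z192 =>
  letR (√z192) fun z193 =>
  letR (z193 + (1 : ℝ)) fun z194 =>
  invR z194 fun z195 =>
  letR (z190 * z195) fun z197 =>
  letR (z197 ^ 2) fun z205 =>
  letR (z177 - z205) fun z206 =>
  letR z206 fun z207 =>
  letR (z119 * z207) fun z208 =>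
  letR (z204 + z208) fun z209 =>
  letR ((1 / 2 : ℝ) * z209) fun z210 =>
  letR (z200 + z210) fun z211 =>
  posR z211 <|
  letR ((3 / 8 : ℝ) * z156) fun z212 =>
  letR (z20 * z212) fun z217 =>
  letR (z217 + (1 : ℝ)) fun z218 =>
  posR z218 <|
  letR ((3 / 8 : ℝ) * z158) fun z213 =>
  letR (z213 - z153) fun z214 =>
  letR z214 fun z219 =>
  letR (z20 * z219) fun z220 =>
  letR (z220 + (1 : ℝ)) fun z221 =>
  posR z221 <|
  letR (z212 + z154) fun z215 =>
  letR z215 fun z222 =>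
  letR (z20 * z222) fun z223 =>
  letR ((1 : ℝ) - z223) fun z224 =>
  posR z224 <|
  letR (z20 * z213) fun z225 =>
  letR ((1 : ℝ) - z225) fun z226 =>
  posR z226 <|
  letR (z212 + z213) fun z216 =>
  letR z216 fun z251 =>
  letR (z251 * z133) fun z252 =>
  letR (z148 - z252) fun z253 =>
  letR (z212 * z219) fun z227 =>
  letR (z227 - z150) fun z228 =>
  letR z228 fun z231 =>
  letR (z20 * z231) fun z232 =>
  letR (z216 + z232) fun z233 =>
  letR z233 fun z237 =>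
  letR (z20 * z237) fun z238 =>
  letR (z238 + (1 : ℝ)) fun z239 =>
  letR (√z239) fun z240 =>
  letR (z240 + (1 : ℝ)) fun z241 =>
  invR z241 fun z242 =>
  letR (z237 * z242) fun z249 =>
  letR (z249 ^ 2) fun z254 =>
  letR (z228 - z254) fun z255 =>
  letR z255 fun z256 =>
  letR (z110 * z256) fun z257 =>
  letR (z222 * z213) fun z229 =>
  letR (z229 - z152) fun z230 =>
  letR z230 fun z234 =>
  letR (z20 * z234) fun z235 =>
  letR (z235 - z216) fun z236 =>
  letR z236 fun z243 =>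
  letR (z20 * z243) fun z244 =>
  letR (z244 + (1 : ℝ)) fun z245 =>
  letR (√z245) fun z246 =>
  letR (z246 + (1 : ℝ)) fun z247 =>
  invR z247 fun z248 =>
  letR (z243 * z248) fun z250 =>
  letR (z250 ^ 2) fun z258 =>
  letR (z230 - z258) fun z259 =>
  letR z259 fun z260 =>
  letR (z119 * z260) fun z261 =>
  letR (z257 + z261) fun z262 =>
  letR ((1 / 2 : ℝ) * z262) fun z263 =>
  letR (z253 + z263) fun z264 =>
  posR z264 <|
  True

theorem z1_S {ε : Fin 4 → ℝ} (gs : ℕ) (hε : ∀ i, |ε i| ≤ 1) (ps : ℕ) (x0 x1 x2 x3 : AF) (m y r u3 : ℝ)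
    (h0 : Rel ε x0 m) (h1 : Rel ε x1 y) (h2 : Rel ε x2 r) (h3 : Rel ε x3 u3) :
    z1_B gs ps x0 x1 x2 x3 = true → z1_R gs ps m y r u3 := by
  delta z1_B z1_R
  exact parS fun z3 t3 g3 =>
  parS fun z4 t4 g4 =>
  parS fun z5 t5 g5 =>
  parS fun z6 t6 g6 =>
  parS fun z7 t7 g7 =>
  parS fun z8 t8 g8 =>
  parS fun z9 t9 g9 =>
  parS fun z10 t10 g10 =>
  parS fun z11 t11 g11 =>
  parS fun z12 t12 g12 =>
  parS fun z13 t13 g13 =>
  parS fun z14 t14 g14 =>
  parS fun z15 t15 g15 =>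
  parS fun z16 t16 g16 =>
  mulS hε g16 h0 fun z17 t17 g17 =>
  addS g15 g17 fun z18 t18 g18 =>
  normS g18 fun z19 t19 g19 =>
  mulS hε h1 g19 fun z20 t20 g20 =>
  mulS hε g8 h2 fun z21 t21 g21 =>
  addS g7 g21 fun z22 t22 g22 =>
  posS hε g22 <|
  mulS hε g10 h2 fun z23 t23 g23 =>
  addS g9 g23 fun z24 t24 g24 =>
  posS hε g24 <|
  mulS hε g12 h2 fun z25 t25 g25 =>
  addS g11 g25 fun z26 t26 g26 =>
  posS hε g26 <|
  mulS hε g14 h2 fun z27 t27 g27 =>
  addS g13 g27 fun z28 t28 g28 =>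
  posS hε g28 <|
  mulS hε g6 h2 fun z29 t29 g29 =>
  addS g5 g29 fun z30 t30 g30 =>
  posS hε g30 <|
  smulS hε g22 k32 fun z31 t31 g31 =>
  addS g31 g24 fun z33 t33 g33 =>
  addS g33 g26 fun z34 t34 g34 =>
  smulS hε g28 k33 fun z32 t32 g32 =>
  addS g34 g32 fun z35 t35 g35 =>
  addS g22 g24 fun z36 t36 g36 =>
  addS g36 g26 fun z37 t37 g37 =>
  addS g37 g28 fun z38 t38 g38 =>
  smulS hε g22 k34 fun z39 t39 g39 =>
  smulS hε g24 k13 fun z40 t40 g40 =>
  addS g39 g40 fun z41 t41 g41 =>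
  addS g41 g26 fun z42 t42 g42 =>
  addS g42 g32 fun z43 t43 g43 =>
  smulS hε g28 k4 fun z44 t44 g44 =>
  addS g37 g44 fun z45 t45 g45 =>
  smulS hε g22 k35 fun z46 t46 g46 =>
  smulS hε g24 k36 fun z47 t47 g47 =>
  addS g46 g47 fun z50 t50 g50 =>
  smulS hε g26 k37 fun z48 t48 g48 =>
  addS g50 g48 fun z51 t51 g51 =>
  smulS hε g28 k38 fun z49 t49 g49 =>
  addS g51 g49 fun z52 t52 g52 =>
  smulS hε g22 k39 fun z53 t53 g53 =>
  smulS hε g24 k40 fun z54 t54 g54 =>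
  addS g53 g54 fun z57 t57 g57 =>
  smulS hε g26 k13 fun z55 t55 g55 =>
  addS g57 g55 fun z58 t58 g58 =>
  smulS hε g28 k41 fun z56 t56 g56 =>
  addS g58 g56 fun z59 t59 g59 =>
  smulS hε g22 k42 fun z60 t60 g60 =>
  smulS hε g24 k18 fun z61 t61 g61 =>
  addS g60 g61 fun z64 t64 g64 =>
  smulS hε g26 k43 fun z62 t62 g62 =>
  addS g64 g62 fun z65 t65 g65 =>
  smulS hε g28 k44 fun z63 t63 g63 =>
  addS g65 g63 fun z66 t66 g66 =>
  mulS hε g4 g20 fun z67 t67 g67 =>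
  addS g3 g67 fun z68 t68 g68 =>
  normS g68 fun z69 t69 g69 =>
  mulS hε g20 g69 fun z70 t70 g70 =>
  addcS g70 k45 fun z71 t71 g71 =>
  posS hε g71 <|
  rsubS g70 k46 fun z72 t72 g72 =>
  posS hε g72 <|
  rsubS g38 k20 fun z76 t76 g76 =>
  posS hε g76 <|
  normS g30 fun z74 t74 g74 =>
  mulS hε h2 g74 fun z75 t75 g75 =>
  sqrS hε h2 fun z73 t73 g73 =>
  normS g35 fun z77 t77 g77 =>
  mulS hε g73 g77 fun z78 t78 g78 =>
  addS g75 g78 fun z79 t79 g79 =>
  rsubS g79 k20 fun z80 t80 g80 =>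
  posS hε g80 <|
  smulS hε g69 k21 fun z85 t85 g85 =>
  sqrS hε g70 fun z82 t82 g82 =>
  addcS g82 k20 fun z83 t83 g83 =>
  invS hε g83 fun z84 t84 g84 =>
  mulS hε g85 g84 fun z86 t86 g86 =>
  normS g59 fun z88 t88 g88 =>
  mulS hε g73 g88 fun z89 t89 g89 =>
  smulS hε g75 k13 fun z90 t90 g90 =>
  addS g89 g90 fun z91 t91 g91 =>
  normS g91 fun z155 t155 g155 =>
  mulS hε g86 g155 fun z156 t156 g156 =>
  smulS hε g156 k22 fun z159 t159 g159 =>
  mulS hε g20 g159 fun z164 t164 g164 =>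
  addcS g164 k20 fun z165 t165 g165 =>
  posS hε g165 <|
  normS g66 fun z157 t157 g157 =>
  mulS hε g86 g157 fun z158 t158 g158 =>
  smulS hε g158 k22 fun z160 t160 g160 =>
  mulS hε g69 g86 fun z87 t87 g87 =>
  normS g45 fun z149 t149 g149 =>
  mulS hε g87 g149 fun z150 t150 g150 =>
  mulS hε g20 g150 fun z153 t153 g153 =>
  subS g160 g153 fun z161 t161 g161 =>
  normS g161 fun z166 t166 g166 =>
  mulS hε g20 g166 fun z167 t167 g167 =>
  addcS g167 k20 fun z168 t168 g168 =>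
  posS hε g168 <|
  normS g43 fun z92 t92 g92 =>
  mulS hε g73 g92 fun z93 t93 g93 =>
  addS g93 g75 fun z94 t94 g94 =>
  normS g94 fun z151 t151 g151 =>
  mulS hε g87 g151 fun z152 t152 g152 =>
  mulS hε g20 g152 fun z154 t154 g154 =>
  addS g159 g154 fun z162 t162 g162 =>
  normS g162 fun z169 t169 g169 =>
  mulS hε g20 g169 fun z170 t170 g170 =>
  rsubS g170 k20 fun z171 t171 g171 =>
  posS hε g171 <|
  mulS hε g20 g160 fun z172 t172 g172 =>
  rsubS g172 k20 fun z173 t173 g173 =>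
  posS hε g173 <|
  normS g52 fun z95 t95 g95 =>
  mulS hε h2 g95 fun z96 t96 g96 =>
  smulS hε g30 k23 fun z97 t97 g97 =>
  addS g96 g97 fun z98 t98 g98 =>
  normS g98 fun z146 t146 g146 =>
  mulS hε g86 g146 fun z147 t147 g147 =>
  sqrS hε h0 fun z99 t99 g99 =>
  mulS hε (cst_rel k24) g99 fun z135 t135 g135 =>
  addcS g135 k25 fun z136 t136 g136 =>
  sqrS hε g20 fun z100 t100 g100 =>
  mulS hε (cst_rel k26) g100 fun z138 t138 g138 =>
  addS g136 g138 fun z139 t139 g139 =>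
  sqrS hε g99 fun z121 t121 g121 =>
  mulS hε g99 g100 fun z120 t120 g120 =>
  addS g121 g120 fun z140 t140 g140 =>
  smulS hε g140 k0 fun z141 t141 g141 =>
  addS g139 g141 fun z142 t142 g142 =>
  sqrS hε g100 fun z122 t122 g122 =>
  mulS hε (cst_rel k27) g122 fun z144 t144 g144 =>
  addS g142 g144 fun z145 t145 g145 =>
  subS g147 g145 fun z148 t148 g148 =>
  addS g159 g160 fun z163 t163 g163 =>
  normS g163 fun z198 t198 g198 =>
  addS g99 g100 fun z123 t123 g123 =>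
  addS g123 g121 fun z124 t124 g124 =>
  addS g124 g122 fun z125 t125 g125 =>
  normS g125 fun z127 t127 g127 =>
  mulS hε (cst_rel k28) g127 fun z128 t128 g128 =>
  addcS g128 k25 fun z129 t129 g129 =>
  smulS hε g120 k21 fun z130 t130 g130 =>
  addS g129 g130 fun z131 t131 g131 =>
  normS g131 fun z132 t132 g132 =>
  mulS hε h0 g132 fun z133 t133 g133 =>
  mulS hε g198 g133 fun z199 t199 g199 =>
  subS g148 g199 fun z200 t200 g200 =>
  addS h0 g20 fun z101 t101 g101 =>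
  normS g101 fun z102 t102 g102 =>
  sqrS hε g102 fun z103 t103 g103 =>
  mulS hε (cst_rel k29) g103 fun z105 t105 g105 =>
  addcS g105 k30 fun z106 t106 g106 =>
  mulS hε g103 g106 fun z107 t107 g107 =>
  addcS g107 k31 fun z108 t108 g108 =>
  mulS hε g103 g108 fun z109 t109 g109 =>
  rsubS g109 k20 fun z110 t110 g110 =>
  mulS hε g159 g166 fun z174 t174 g174 =>
  subS g174 g150 fun z175 t175 g175 =>
  normS g175 fun z178 t178 g178 =>
  mulS hε g20 g178 fun z179 t179 g179 =>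
  addS g163 g179 fun z180 t180 g180 =>
  normS g180 fun z184 t184 g184 =>
  mulS hε g20 g184 fun z185 t185 g185 =>
  addcS g185 k20 fun z186 t186 g186 =>
  sqrtS hε g186 fun z187 t187 g187 =>
  addcS g187 k20 fun z188 t188 g188 =>
  invS hε g188 fun z189 t189 g189 =>
  mulS hε g184 g189 fun z196 t196 g196 =>
  sqrS hε g196 fun z201 t201 g201 =>
  subS g175 g201 fun z202 t202 g202 =>
  normS g202 fun z203 t203 g203 =>
  mulS hε g110 g203 fun z204 t204 g204 =>
  subS h0 g20 fun z111 t111 g111 =>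
  normS g111 fun z112 t112 g112 =>
  sqrS hε g112 fun z113 t113 g113 =>
  mulS hε (cst_rel k29) g113 fun z114 t114 g114 =>
  addcS g114 k30 fun z115 t115 g115 =>
  mulS hε g113 g115 fun z116 t116 g116 =>
  addcS g116 k31 fun z117 t117 g117 =>
  mulS hε g113 g117 fun z118 t118 g118 =>
  rsubS g118 k20 fun z119 t119 g119 =>
  mulS hε g169 g160 fun z176 t176 g176 =>
  subS g176 g152 fun z177 t177 g177 =>
  normS g177 fun z181 t181 g181 =>
  mulS hε g20 g181 fun z182 t182 g182 =>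
  subS g182 g163 fun z183 t183 g183 =>
  normS g183 fun z190 t190 g190 =>
  mulS hε g20 g190 fun z191 t191 g191 =>
  addcS g191 k20 fun z192 t192 g192 =>
  sqrtS hε g192 fun z193 t193 g193 =>
  addcS g193 k20 fun z194 t194 g194 =>
  invS hε g194 fun z195 t195 g195 =>
  mulS hε g190 g195 fun z197 t197 g197 =>
  sqrS hε g197 fun z205 t205 g205 =>
  subS g177 g205 fun z206 t206 g206 =>
  normS g206 fun z207 t207 g207 =>
  mulS hε g119 g207 fun z208 t208 g208 =>
  addS g204 g208 fun z209 t209 g209 =>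
  smulS hε g209 k4 fun z210 t210 g210 =>
  addS g200 g210 fun z211 t211 g211 =>
  posS hε g211 <|
  smulS hε g156 k13 fun z212 t212 g212 =>
  mulS hε g20 g212 fun z217 t217 g217 =>
  addcS g217 k20 fun z218 t218 g218 =>
  posS hε g218 <|
  smulS hε g158 k13 fun z213 t213 g213 =>
  subS g213 g153 fun z214 t214 g214 =>
  normS g214 fun z219 t219 g219 =>
  mulS hε g20 g219 fun z220 t220 g220 =>
  addcS g220 k20 fun z221 t221 g221 =>
  posS hε g221 <|
  addS g212 g154 fun z215 t215 g215 =>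
  normS g215 fun z222 t222 g222 =>
  mulS hε g20 g222 fun z223 t223 g223 =>
  rsubS g223 k20 fun z224 t224 g224 =>
  posS hε g224 <|
  mulS hε g20 g213 fun z225 t225 g225 =>
  rsubS g225 k20 fun z226 t226 g226 =>
  posS hε g226 <|
  addS g212 g213 fun z216 t216 g216 =>
  normS g216 fun z251 t251 g251 =>
  mulS hε g251 g133 fun z252 t252 g252 =>
  subS g148 g252 fun z253 t253 g253 =>
  mulS hε g212 g219 fun z227 t227 g227 =>
  subS g227 g150 fun z228 t228 g228 =>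
  normS g228 fun z231 t231 g231 =>
  mulS hε g20 g231 fun z232 t232 g232 =>
  addS g216 g232 fun z233 t233 g233 =>
  normS g233 fun z237 t237 g237 =>
  mulS hε g20 g237 fun z238 t238 g238 =>
  addcS g238 k20 fun z239 t239 g239 =>
  sqrtS hε g239 fun z240 t240 g240 =>
  addcS g240 k20 fun z241 t241 g241 =>
  invS hε g241 fun z242 t242 g242 =>
  mulS hε g237 g242 fun z249 t249 g249 =>
  sqrS hε g249 fun z254 t254 g254 =>
  subS g228 g254 fun z255 t255 g255 =>
  normS g255 fun z256 t256 g256 =>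
  mulS hε g110 g256 fun z257 t257 g257 =>
  mulS hε g222 g213 fun z229 t229 g229 =>
  subS g229 g152 fun z230 t230 g230 =>
  normS g230 fun z234 t234 g234 =>
  mulS hε g20 g234 fun z235 t235 g235 =>
  subS g235 g216 fun z236 t236 g236 =>
  normS g236 fun z243 t243 g243 =>
  mulS hε g20 g243 fun z244 t244 g244 =>
  addcS g244 k20 fun z245 t245 g245 =>
  sqrtS hε g245 fun z246 t246 g246 =>
  addcS g246 k20 fun z247 t247 g247 =>
  invS hε g247 fun z248 t248 g248 =>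
  mulS hε g243 g248 fun z250 t250 g250 =>
  sqrS hε g250 fun z258 t258 g258 =>
  subS g230 g258 fun z259 t259 g259 =>
  normS g259 fun z260 t260 g260 =>
  mulS hε g119 g260 fun z261 t261 g261 =>
  addS g257 g261 fun z262 t262 g262 =>
  smulS hε g262 k4 fun z263 t263 g263 =>
  addS g253 g263 fun z264 t264 g264 =>
  posS hε g264 <|
  fun _ => trivial

def z1_Spec (ca cb m y r : ℝ) : Prop :=
  ∃ ta tb pw qw pa0 pb0 pa1 pb1 pa2 pb2 pa3 pb3 d v0 v1 v2 v3 w w32 SL w37 Sv SRn SRp S0 S1 S2 tau t rw rr sh a1 sa f1a sb g2a eh ep dp f2a an en dn f3a c0 mm dd m4 md d4 E2 base La E1 Y0u Y0 G0a X0a i0a j0a Y1u Y1 G1a X1a i1a j1a f1b g2b f2b f3b Lb G0b X0b i0b j0b G1b X1b i1b j1b : ℝ,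
    d = (y * (ca + (cb * m))) ∧
    v0 = (pa0 + (pb0 * r)) ∧
    0 ≤ v0 ∧
    v1 = (pa1 + (pb1 * r)) ∧
    0 ≤ v1 ∧
    v2 = (pa2 + (pb2 * r)) ∧
    0 ≤ v2 ∧
    v3 = (pa3 + (pb3 * r)) ∧
    0 ≤ v3 ∧
    w = (pw + (qw * r)) ∧
    0 ≤ w ∧
    w32 = ((7 / 4 : ℝ) * v3) ∧
    SL = (((((3 / 2 : ℝ) * v0) + v1) + v2) + w32) ∧
    w37 = ((v0 + v1) + v2) ∧
    Sv = (w37 + v3) ∧
    SRn = (((((39 / 32 : ℝ) * v0) + ((3 / 8 : ℝ) * v1)) + v2) + w32) ∧
    SRp = (w37 + ((1 / 2 : ℝ) * v3)) ∧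
    S0 = (((((1179 / 512 : ℝ) * v0) + ((51 / 32 : ℝ) * v1)) + ((253 / 128 : ℝ) * v2)) + ((1239 / 512 : ℝ) * v3)) ∧
    S1 = (((((51 / 128 : ℝ) * v0) + ((3 / 16 : ℝ) * v1)) + ((3 / 8 : ℝ) * v2)) + ((63 / 128 : ℝ) * v3)) ∧
    S2 = (((((-3 / 8 : ℝ) * v0) + ((-29 / 64 : ℝ) * v1)) + ((-19 / 64 : ℝ) * v2)) + ((-21 / 64 : ℝ) * v3)) ∧
    tau = (ta + (tb * d)) ∧
    t = (d * tau) ∧
    0 ≤ (t + (-5 / 32 : ℝ)) ∧
    0 ≤ ((5 / 16 : ℝ) - t) ∧
    0 ≤ ((1 : ℝ) - Sv) ∧
    rw = (r * w) ∧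
    rr = (r ^ 2) ∧
    0 ≤ ((1 : ℝ) - (rw + (rr * SL))) ∧
    0 < ((t ^ 2) + (1 : ℝ)) ∧
    sh = (((2 : ℝ) * tau) * (((t ^ 2) + (1 : ℝ))⁻¹)) ∧
    a1 = ((rr * S1) + ((3 / 8 : ℝ) * rw)) ∧
    sa = (sh * a1) ∧
    f1a = ((0 : ℝ) * sa) ∧
    0 ≤ ((d * f1a) + (1 : ℝ)) ∧
    sb = (sh * S2) ∧
    g2a = ((0 : ℝ) * sb) ∧
    eh = (tau * sh) ∧
    ep = (eh * SRp) ∧
    dp = (d * ep) ∧
    f2a = (g2a - dp) ∧
    0 ≤ ((d * f2a) + (1 : ℝ)) ∧
    an = ((rr * SRn) + rw) ∧
    en = (eh * an) ∧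
    dn = (d * en) ∧
    f3a = (f1a + dn) ∧
    0 ≤ ((1 : ℝ) - (d * f3a)) ∧
    0 ≤ ((1 : ℝ) - (d * g2a)) ∧
    c0 = ((r * S0) + ((9 / 16 : ℝ) * w)) ∧
    mm = (m ^ 2) ∧
    dd = (d ^ 2) ∧
    m4 = (mm ^ 2) ∧
    md = (mm * dd) ∧
    d4 = (dd ^ 2) ∧
    E2 = ((((((9 / 5 : ℝ) * mm) + (3 / 2 : ℝ)) + ((3 / 10 : ℝ) * dd)) + ((3 : ℝ) * (m4 + md))) + ((1 / 5 : ℝ) * d4)) ∧
    base = ((sh * c0) - E2) ∧
    La = (f1a + g2a) ∧
    E1 = (m * ((((3 / 5 : ℝ) * (((mm + dd) + m4) + d4)) + (3 / 2 : ℝ)) + ((2 : ℝ) * md))) ∧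
    Y0u = ((m + d) ^ 2) ∧
    Y0 = ((1 : ℝ) - (Y0u * ((Y0u * (((1 / 10 : ℝ) * Y0u) + (3 / 20 : ℝ))) + (3 / 4 : ℝ)))) ∧
    G0a = ((f1a * f2a) - ep) ∧
    X0a = (La + (d * G0a)) ∧
    0 < ((√((d * X0a) + (1 : ℝ))) + (1 : ℝ)) ∧
    i0a = (((√((d * X0a) + (1 : ℝ))) + (1 : ℝ))⁻¹) ∧
    j0a = (X0a * i0a) ∧
    Y1u = ((m - d) ^ 2) ∧
    Y1 = ((1 : ℝ) - (Y1u * ((Y1u * (((1 / 10 : ℝ) * Y1u) + (3 / 20 : ℝ))) + (3 / 4 : ℝ)))) ∧
    G1a = ((f3a * g2a) - en) ∧
    X1a = ((d * G1a) - La) ∧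
    0 < ((√((d * X1a) + (1 : ℝ))) + (1 : ℝ)) ∧
    i1a = (((√((d * X1a) + (1 : ℝ))) + (1 : ℝ))⁻¹) ∧
    j1a = (X1a * i1a) ∧
    0 ≤ ((base - (La * E1)) + ((1 / 2 : ℝ) * ((Y0 * (G0a - (j0a ^ 2))) + (Y1 * (G1a - (j1a ^ 2)))))) ∧
    f1b = ((3 / 8 : ℝ) * sa) ∧
    0 ≤ ((d * f1b) + (1 : ℝ)) ∧
    g2b = ((3 / 8 : ℝ) * sb) ∧
    f2b = (g2b - dp) ∧
    0 ≤ ((d * f2b) + (1 : ℝ)) ∧
    f3b = (f1b + dn) ∧
    0 ≤ ((1 : ℝ) - (d * f3b)) ∧
    0 ≤ ((1 : ℝ) - (d * g2b)) ∧
    Lb = (f1b + g2b) ∧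
    G0b = ((f1b * f2b) - ep) ∧
    X0b = (Lb + (d * G0b)) ∧
    0 < ((√((d * X0b) + (1 : ℝ))) + (1 : ℝ)) ∧
    i0b = (((√((d * X0b) + (1 : ℝ))) + (1 : ℝ))⁻¹) ∧
    j0b = (X0b * i0b) ∧
    G1b = ((f3b * g2b) - en) ∧
    X1b = ((d * G1b) - Lb) ∧
    0 < ((√((d * X1b) + (1 : ℝ))) + (1 : ℝ)) ∧
    i1b = (((√((d * X1b) + (1 : ℝ))) + (1 : ℝ))⁻¹) ∧
    j1b = (X1b * i1b) ∧
    0 ≤ ((base - (Lb * E1)) + ((1 / 2 : ℝ) * ((Y0 * (G0b - (j0b ^ 2))) + (Y1 * (G1b - (j1b ^ 2))))))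

theorem z1_E {gs ps : ℕ} {m y r u3 : ℝ} (h : z1_R gs ps m y r u3) : z1_Spec (parV gs 0) (parV gs 1) m y r := by
  delta z1_R at h
  exact letR_ex h fun ta _ h =>
  letR_ex h fun tb _ h =>
  letR_ex h fun pw _ h =>
  letR_ex h fun qw _ h =>
  letR_ex h fun pa0 _ h =>
  letR_ex h fun pb0 _ h =>
  letR_ex h fun pa1 _ h =>
  letR_ex h fun pb1 _ h =>
  letR_ex h fun pa2 _ h =>
  letR_ex h fun pb2 _ h =>
  letR_ex h fun pa3 _ h =>
  letR_ex h fun pb3 _ h =>
  letR_in h fun h =>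
  letR_in h fun h =>
  letR_in h fun h =>
  letR_in h fun h =>
  letR_in h fun h =>
  letR_ex h fun d q1 h =>
  letR_in h fun h =>
  letR_ex h fun v0 q2 h =>
  posR_ex h fun q3 h =>
  letR_in h fun h =>
  letR_ex h fun v1 q4 h =>
  posR_ex h fun q5 h =>
  letR_in h fun h =>
  letR_ex h fun v2 q6 h =>
  posR_ex h fun q7 h =>
  letR_in h fun h =>
  letR_ex h fun v3 q8 h =>
  posR_ex h fun q9 h =>
  letR_in h fun h =>
  letR_ex h fun w q10 h =>
  posR_ex h fun q11 h =>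
  letR_in h fun h =>
  letR_in h fun h =>
  letR_in h fun h =>
  letR_ex h fun w32 q12 h =>
  letR_ex h fun SL q13 h =>
  letR_in h fun h =>
  letR_ex h fun w37 q14 h =>
  letR_ex h fun Sv q15 h =>
  letR_in h fun h =>
  letR_in h fun h =>
  letR_in h fun h =>
  letR_in h fun h =>
  letR_ex h fun SRn q16 h =>
  letR_in h fun h =>
  letR_ex h fun SRp q17 h =>
  letR_in h fun h =>
  letR_in h fun h =>
  letR_in h fun h =>
  letR_in h fun h =>
  letR_in h fun h =>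
  letR_in h fun h =>
  letR_ex h fun S0 q18 h =>
  letR_in h fun h =>
  letR_in h fun h =>
  letR_in h fun h =>
  letR_in h fun h =>
  letR_in h fun h =>
  letR_in h fun h =>
  letR_ex h fun S1 q19 h =>
  letR_in h fun h =>
  letR_in h fun h =>
  letR_in h fun h =>
  letR_in h fun h =>
  letR_in h fun h =>
  letR_in h fun h =>
  letR_ex h fun S2 q20 h =>
  letR_in h fun h =>
  letR_ex h fun tau q21 h =>
  letR_in h fun h =>
  letR_ex h fun t q22 h =>
  letR_in h fun h =>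
  posR_ex h fun q23 h =>
  letR_in h fun h =>
  posR_ex h fun q24 h =>
  letR_in h fun h =>
  posR_ex h fun q25 h =>
  letR_in h fun h =>
  letR_ex h fun rw q26 h =>
  letR_ex h fun rr q27 h =>
  letR_in h fun h =>
  letR_in h fun h =>
  letR_in h fun h =>
  letR_in h fun h =>
  posR_ex h fun q28 h =>
  letR_in h fun h =>
  letR_in h fun h =>
  letR_in h fun h =>
  invR_ex h fun q29 h =>
  letR_in h fun h =>
  letR_ex h fun sh q30 h =>
  letR_in h fun h =>
  letR_in h fun h =>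
  letR_in h fun h =>
  letR_ex h fun a1 q31 h =>
  letR_in h fun h =>
  letR_ex h fun sa q32 h =>
  letR_ex h fun f1a q33 h =>
  letR_in h fun h =>
  letR_in h fun h =>
  posR_ex h fun q34 h =>
  letR_in h fun h =>
  letR_ex h fun sb q35 h =>
  letR_ex h fun g2a q36 h =>
  letR_ex h fun eh q37 h =>
  letR_in h fun h =>
  letR_ex h fun ep q38 h =>
  letR_ex h fun dp q39 h =>
  letR_ex h fun f2a q40 h =>
  letR_in h fun h =>
  letR_in h fun h =>
  letR_in h fun h =>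
  posR_ex h fun q41 h =>
  letR_in h fun h =>
  letR_in h fun h =>
  letR_ex h fun an q42 h =>
  letR_in h fun h =>
  letR_ex h fun en q43 h =>
  letR_ex h fun dn q44 h =>
  letR_ex h fun f3a q45 h =>
  letR_in h fun h =>
  letR_in h fun h =>
  letR_in h fun h =>
  posR_ex h fun q46 h =>
  letR_in h fun h =>
  letR_in h fun h =>
  posR_ex h fun q47 h =>
  letR_in h fun h =>
  letR_in h fun h =>
  letR_in h fun h =>
  letR_ex h fun c0 q48 h =>
  letR_in h fun h =>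
  letR_in h fun h =>
  letR_ex h fun mm q49 h =>
  letR_in h fun h =>
  letR_in h fun h =>
  letR_ex h fun dd q50 h =>
  letR_in h fun h =>
  letR_in h fun h =>
  letR_ex h fun m4 q51 h =>
  letR_ex h fun md q52 h =>
  letR_in h fun h =>
  letR_in h fun h =>
  letR_in h fun h =>
  letR_ex h fun d4 q53 h =>
  letR_in h fun h =>
  letR_ex h fun E2 q54 h =>
  letR_ex h fun base q55 h =>
  letR_ex h fun La q56 h =>
  letR_in h fun h =>
  letR_in h fun h =>
  letR_in h fun h =>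
  letR_in h fun h =>
  letR_in h fun h =>
  letR_in h fun h =>
  letR_in h fun h =>
  letR_in h fun h =>
  letR_in h fun h =>
  letR_in h fun h =>
  letR_ex h fun E1 q57 h =>
  letR_in h fun h =>
  letR_in h fun h =>
  letR_in h fun h =>
  letR_in h fun h =>
  letR_ex h fun Y0u q58 h =>
  letR_in h fun h =>
  letR_in h fun h =>
  letR_in h fun h =>
  letR_in h fun h =>
  letR_in h fun h =>
  letR_ex h fun Y0 q59 h =>
  letR_in h fun h =>
  letR_ex h fun G0a q60 h =>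
  letR_in h fun h =>
  letR_in h fun h =>
  letR_ex h fun X0a q61 h =>
  letR_in h fun h =>
  letR_in h fun h =>
  letR_in h fun h =>
  letR_in h fun h =>
  letR_in h fun h =>
  invR_ex h fun q62 h =>
  letR_ex h fun i0a q63 h =>
  letR_ex h fun j0a q64 h =>
  letR_in h fun h =>
  letR_in h fun h =>
  letR_in h fun h =>
  letR_in h fun h =>
  letR_in h fun h =>
  letR_in h fun h =>
  letR_ex h fun Y1u q65 h =>
  letR_in h fun h =>
  letR_in h fun h =>
  letR_in h fun h =>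
  letR_in h fun h =>
  letR_in h fun h =>
  letR_ex h fun Y1 q66 h =>
  letR_in h fun h =>
  letR_ex h fun G1a q67 h =>
  letR_in h fun h =>
  letR_in h fun h =>
  letR_ex h fun X1a q68 h =>
  letR_in h fun h =>
  letR_in h fun h =>
  letR_in h fun h =>
  letR_in h fun h =>
  letR_in h fun h =>
  invR_ex h fun q69 h =>
  letR_ex h fun i1a q70 h =>
  letR_ex h fun j1a q71 h =>
  letR_in h fun h =>
  letR_in h fun h =>
  letR_in h fun h =>
  letR_in h fun h =>
  letR_in h fun h =>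
  letR_in h fun h =>
  letR_in h fun h =>
  posR_ex h fun q72 h =>
  letR_ex h fun f1b q73 h =>
  letR_in h fun h =>
  letR_in h fun h =>
  posR_ex h fun q74 h =>
  letR_ex h fun g2b q75 h =>
  letR_ex h fun f2b q76 h =>
  letR_in h fun h =>
  letR_in h fun h =>
  letR_in h fun h =>
  posR_ex h fun q77 h =>
  letR_ex h fun f3b q78 h =>
  letR_in h fun h =>
  letR_in h fun h =>
  letR_in h fun h =>
  posR_ex h fun q79 h =>
  letR_in h fun h =>
  letR_in h fun h =>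
  posR_ex h fun q80 h =>
  letR_ex h fun Lb q81 h =>
  letR_in h fun h =>
  letR_in h fun h =>
  letR_in h fun h =>
  letR_in h fun h =>
  letR_ex h fun G0b q82 h =>
  letR_in h fun h =>
  letR_in h fun h =>
  letR_ex h fun X0b q83 h =>
  letR_in h fun h =>
  letR_in h fun h =>
  letR_in h fun h =>
  letR_in h fun h =>
  letR_in h fun h =>
  invR_ex h fun q84 h =>
  letR_ex h fun i0b q85 h =>
  letR_ex h fun j0b q86 h =>
  letR_in h fun h =>
  letR_in h fun h =>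
  letR_in h fun h =>
  letR_in h fun h =>
  letR_in h fun h =>
  letR_ex h fun G1b q87 h =>
  letR_in h fun h =>
  letR_in h fun h =>
  letR_ex h fun X1b q88 h =>
  letR_in h fun h =>
  letR_in h fun h =>
  letR_in h fun h =>
  letR_in h fun h =>
  letR_in h fun h =>
  invR_ex h fun q89 h =>
  letR_ex h fun i1b q90 h =>
  letR_ex h fun j1b q91 h =>
  letR_in h fun h =>
  letR_in h fun h =>
  letR_in h fun h =>
  letR_in h fun h =>
  letR_in h fun h =>
  letR_in h fun h =>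
  letR_in h fun h =>
  posR_ex h fun q92 h =>
  ⟨ta, tb, pw, qw, pa0, pb0, pa1, pb1, pa2, pb2, pa3, pb3, d, v0, v1, v2, v3, w, w32, SL, w37, Sv, SRn, SRp, S0, S1, S2, tau, t, rw, rr, sh, a1, sa, f1a, sb, g2a, eh, ep, dp, f2a, an, en, dn, f3a, c0, mm, dd, m4, md, d4, E2, base, La, E1, Y0u, Y0, G0a, X0a, i0a, j0a, Y1u, Y1, G1a, X1a, i1a, j1a, f1b, g2b, f2b, f3b, Lb, G0b, X0b, i0b, j0b, G1b, X1b, i1b, j1b, q1, q2, q3, q4, q5, q6, q7, q8, q9, q10, q11, q12, q13, q14, q15, q16, q17, q18, q19, q20, q21, q22, q23, q24, q25, q26, q27, q28, q29, q30, q31, q32, q33, q34, q35, q36, q37, q38, q39, q40, q41, q42, q43, q44, q45, q46, q47, q48, q49, q50, q51, q52, q53, q54, q55, q56, q57, q58, q59, q60, q61, q62, q63, q64, q65, q66, q67, q68, q69, q70, q71, q72, q73, q74, q75, q76, q77, q78, q79, q80, q81, q82, q83, q84, q85, q86, q87, q88, q89, q90, q91, q92⟩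

theorem k47 : (1 / 4 : ℝ) = val 4722366553238389391360 := by norm_num [val]
theorem k48 : (457 / 256 : ℝ) = val 4722366985346459107328 := by norm_num [val]
theorem k49 : (425 / 128 : ℝ) = val 4722367417454528823296 := by norm_num [val]
theorem k50 : (13 / 64 : ℝ) = val 4722366540044249858048 := by norm_num [val]
theorem k51 : (25 / 64 : ℝ) = val 4722366592820807991296 := by norm_num [val]
theorem k52 : (33 / 64 : ℝ) = val 4722366628005180080128 := by norm_num [val]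
theorem k53 : (-1 / 8 : ℝ) = val 4722366447685273124864 := by norm_num [val]
theorem k54 : |2 ^ 48 * (-5 / 16 : ℝ) - (((4722366394908714991616 : ℕ) : ℝ) - 2 ^ 72)| ≤ ((0 : ℕ) : ℝ) := by norm_num [abs_le]
theorem k55 : |2 ^ 48 * (1 / 2 : ℝ) - (((4722366623607133569024 : ℕ) : ℝ) - 2 ^ 72)| ≤ ((0 : ℕ) : ℝ) := by norm_num [abs_le]
def z2_B (gs ps : ℕ) (x0 x1 x2 x3 : AF) : Bool :=
  parK ps 0 fun z3 =>
  parK ps 1 fun z4 =>
  parK ps 2 fun z5 =>
  parK ps 3 fun z6 =>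
  parK ps 4 fun z7 =>
  parK ps 5 fun z8 =>
  parK ps 6 fun z9 =>
  parK ps 7 fun z10 =>
  parK ps 8 fun z11 =>
  parK ps 9 fun z12 =>
  parK gs 0 fun z13 =>
  parK gs 1 fun z14 =>
  mulK z14 x0 fun z15 =>
  addK z13 z15 fun z16 =>
  normK z16 fun z17 =>
  mulK x1 z17 fun z18 =>
  mulK z8 x2 fun z19 =>
  addK z7 z19 fun z20 =>
  posK z20 <|
  mulK z10 x2 fun z21 =>
  addK z9 z21 fun z22 =>
  posK z22 <|
  mulK z12 x2 fun z23 =>
  addK z11 z23 fun z24 =>
  posK z24 <|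
  mulK z6 x2 fun z25 =>
  addK z5 z25 fun z26 =>
  posK z26 <|
  addK z20 z22 fun z28 =>
  smulK z24 4722367327294575345664 fun z27 =>
  addK z28 z27 fun z29 =>
  addK z28 z24 fun z30 =>
  smulK z20 4722366658791505657856 fun z31 =>
  addK z31 z22 fun z33 =>
  smulK z24 4722367010635226546176 fun z32 =>
  addK z33 z32 fun z34 =>
  smulK z22 4722366553238389391360 fun z35 =>
  addK z20 z35 fun z36 =>
  addK z36 z24 fun z37 =>
  smulK z20 4722366985346459107328 fun z38 =>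
  smulK z22 4722366905082110279680 fun z39 =>
  addK z38 z39 fun z41 =>
  smulK z24 4722367417454528823296 fun z40 =>
  addK z41 z40 fun z42 =>
  smulK z20 4722366540044249858048 fun z43 =>
  smulK z22 4722366592820807991296 fun z44 =>
  addK z43 z44 fun z46 =>
  smulK z24 4722366628005180080128 fun z45 =>
  addK z46 z45 fun z47 =>
  smulK z20 4722366359724342902784 fun z48 =>
  smulK z22 4722366447685273124864 fun z49 =>
  addK z48 z49 fun z51 =>
  smulK z24 4722366359724342902784 fun z50 =>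
  addK z51 z50 fun z52 =>
  mulK z4 z18 fun z53 =>
  addK z3 z53 fun z54 =>
  normK z54 fun z55 =>
  mulK z18 z55 fun z56 =>
  addcK z56 4722366394908714991616 0 fun z57 =>
  posK z57 <|
  rsubK z56 4722366623607133569024 0 fun z58 =>
  posK z58 <|
  rsubK z30 4722366764344621924352 0 fun z62 =>
  posK z62 <|
  normK z26 fun z60 =>
  mulK x2 z60 fun z61 =>
  sqrK x2 fun z59 =>
  normK z29 fun z63 =>
  mulK z59 z63 fun z64 =>
  addK z61 z64 fun z65 =>
  rsubK z65 4722366764344621924352 0 fun z66 =>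
  posK z66 <|
  smulK z55 4722367045819598635008 fun z71 =>
  sqrK z56 fun z68 =>
  addcK z68 4722366764344621924352 0 fun z69 =>
  invK z69 fun z70 =>
  mulK z71 z70 fun z72 =>
  normK z47 fun z74 =>
  mulK z59 z74 fun z75 =>
  smulK z61 4722366588422761480192 fun z76 =>
  addK z75 z76 fun z77 =>
  normK z77 fun z141 =>
  mulK z72 z141 fun z142 =>
  smulK z142 4722366482869645213696 fun z145 =>
  mulK z18 z145 fun z150 =>
  addcK z150 4722366764344621924352 0 fun z151 =>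
  posK z151 <|
  normK z52 fun z143 =>
  mulK z72 z143 fun z144 =>
  smulK z144 4722366482869645213696 fun z146 =>
  mulK z55 z72 fun z73 =>
  normK z37 fun z135 =>
  mulK z73 z135 fun z136 =>
  mulK z18 z136 fun z139 =>
  subK z146 z139 fun z147 =>
  normK z147 fun z152 =>
  mulK z18 z152 fun z153 =>
  addcK z153 4722366764344621924352 0 fun z154 =>
  posK z154 <|
  normK z34 fun z78 =>
  mulK z59 z78 fun z79 =>
  addK z79 z61 fun z80 =>
  normK z80 fun z137 =>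
  mulK z73 z137 fun z138 =>
  mulK z18 z138 fun z140 =>
  addK z145 z140 fun z148 =>
  normK z148 fun z155 =>
  mulK z18 z155 fun z156 =>
  rsubK z156 4722366764344621924352 0 fun z157 =>
  posK z157 <|
  mulK z18 z146 fun z158 =>
  rsubK z158 4722366764344621924352 0 fun z159 =>
  posK z159 <|
  normK z42 fun z81 =>
  mulK x2 z81 fun z82 =>
  smulK z26 4722366641199319613440 fun z83 =>
  addK z82 z83 fun z84 =>
  normK z84 fun z132 =>
  mulK z72 z132 fun z133 =>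
  sqrK x0 fun z85 =>
  mulK (cst 4722366989524603292876 1) z85 fun z121 =>
  addcK z121 4722366905082110279680 0 fun z122 =>
  sqrK z18 fun z86 =>
  mulK (cst 4722366567312138226892 1) z86 fun z124 =>
  addK z122 z124 fun z125 =>
  sqrK z85 fun z107 =>
  mulK z85 z86 fun z106 =>
  addK z107 z106 fun z126 =>
  smulK z126 4722367327294575345664 fun z127 =>
  addK z125 z127 fun z128 =>
  sqrK z86 fun z108 =>
  mulK (cst 4722366539164640555827 1) z108 fun z130 =>
  addK z128 z130 fun z131 =>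
  subK z133 z131 fun z134 =>
  addK z145 z146 fun z149 =>
  normK z149 fun z184 =>
  addK z85 z86 fun z109 =>
  addK z109 z107 fun z110 =>
  addK z110 z108 fun z111 =>
  normK z111 fun z113 =>
  mulK (cst 4722366651754631240089 1) z113 fun z114 =>
  addcK z114 4722366905082110279680 0 fun z115 =>
  smulK z106 4722367045819598635008 fun z116 =>
  addK z115 z116 fun z117 =>
  normK z117 fun z118 =>
  mulK x0 z118 fun z119 =>
  mulK z184 z119 fun z185 =>
  subK z134 z185 fun z186 =>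
  addK x0 z18 fun z87 =>
  normK z87 fun z88 =>
  sqrK z88 fun z89 =>
  mulK (cst 4722366511017142884761 1) z89 fun z91 =>
  addcK z91 4722366525090891720294 1 fun z92 =>
  mulK z89 z92 fun z93 =>
  addcK z93 4722366693975877746688 0 fun z94 =>
  mulK z89 z94 fun z95 =>
  rsubK z95 4722366764344621924352 0 fun z96 =>
  mulK z145 z152 fun z160 =>
  subK z160 z136 fun z161 =>
  normK z161 fun z164 =>
  mulK z18 z164 fun z165 =>
  addK z149 z165 fun z166 =>
  normK z166 fun z170 =>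
  mulK z18 z170 fun z171 =>
  addcK z171 4722366764344621924352 0 fun z172 =>
  sqrtK z172 fun z173 =>
  addcK z173 4722366764344621924352 0 fun z174 =>
  invK z174 fun z175 =>
  mulK z170 z175 fun z182 =>
  sqrK z182 fun z187 =>
  subK z161 z187 fun z188 =>
  normK z188 fun z189 =>
  mulK z96 z189 fun z190 =>
  subK x0 z18 fun z97 =>
  normK z97 fun z98 =>
  sqrK z98 fun z99 =>
  mulK (cst 4722366511017142884761 1) z99 fun z100 =>
  addcK z100 4722366525090891720294 1 fun z101 =>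
  mulK z99 z101 fun z102 =>
  addcK z102 4722366693975877746688 0 fun z103 =>
  mulK z99 z103 fun z104 =>
  rsubK z104 4722366764344621924352 0 fun z105 =>
  mulK z155 z146 fun z162 =>
  subK z162 z138 fun z163 =>
  normK z163 fun z167 =>
  mulK z18 z167 fun z168 =>
  subK z168 z149 fun z169 =>
  normK z169 fun z176 =>
  mulK z18 z176 fun z177 =>
  addcK z177 4722366764344621924352 0 fun z178 =>
  sqrtK z178 fun z179 =>
  addcK z179 4722366764344621924352 0 fun z180 =>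
  invK z180 fun z181 =>
  mulK z176 z181 fun z183 =>
  sqrK z183 fun z191 =>
  subK z163 z191 fun z192 =>
  normK z192 fun z193 =>
  mulK z105 z193 fun z194 =>
  addK z190 z194 fun z195 =>
  smulK z195 4722366623607133569024 fun z196 =>
  addK z186 z196 fun z197 =>
  posK z197 <|
  smulK z142 4722366588422761480192 fun z198 =>
  mulK z18 z198 fun z203 =>
  addcK z203 4722366764344621924352 0 fun z204 =>
  posK z204 <|
  smulK z144 4722366588422761480192 fun z199 =>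
  subK z199 z139 fun z200 =>
  normK z200 fun z205 =>
  mulK z18 z205 fun z206 =>
  addcK z206 4722366764344621924352 0 fun z207 =>
  posK z207 <|
  addK z198 z140 fun z201 =>
  normK z201 fun z208 =>
  mulK z18 z208 fun z209 =>
  rsubK z209 4722366764344621924352 0 fun z210 =>
  posK z210 <|
  mulK z18 z199 fun z211 =>
  rsubK z211 4722366764344621924352 0 fun z212 =>
  posK z212 <|
  addK z198 z199 fun z202 =>
  normK z202 fun z237 =>
  mulK z237 z119 fun z238 =>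
  subK z134 z238 fun z239 =>
  mulK z198 z205 fun z213 =>
  subK z213 z136 fun z214 =>
  normK z214 fun z217 =>
  mulK z18 z217 fun z218 =>
  addK z202 z218 fun z219 =>
  normK z219 fun z223 =>
  mulK z18 z223 fun z224 =>
  addcK z224 4722366764344621924352 0 fun z225 =>
  sqrtK z225 fun z226 =>
  addcK z226 4722366764344621924352 0 fun z227 =>
  invK z227 fun z228 =>
  mulK z223 z228 fun z235 =>
  sqrK z235 fun z240 =>
  subK z214 z240 fun z241 =>
  normK z241 fun z242 =>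
  mulK z96 z242 fun z243 =>
  mulK z208 z199 fun z215 =>
  subK z215 z138 fun z216 =>
  normK z216 fun z220 =>
  mulK z18 z220 fun z221 =>
  subK z221 z202 fun z222 =>
  normK z222 fun z229 =>
  mulK z18 z229 fun z230 =>
  addcK z230 4722366764344621924352 0 fun z231 =>
  sqrtK z231 fun z232 =>
  addcK z232 4722366764344621924352 0 fun z233 =>
  invK z233 fun z234 =>
  mulK z229 z234 fun z236 =>
  sqrK z236 fun z244 =>
  subK z216 z244 fun z245 =>
  normK z245 fun z246 =>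
  mulK z105 z246 fun z247 =>
  addK z243 z247 fun z248 =>
  smulK z248 4722366623607133569024 fun z249 =>
  addK z239 z249 fun z250 =>
  posK z250 <|
  true

def z2_R (gs ps : ℕ) (m y r u3 : ℝ) : Prop :=
  letR (parV ps 0) fun z3 =>
  letR (parV ps 1) fun z4 =>
  letR (parV ps 2) fun z5 =>
  letR (parV ps 3) fun z6 =>
  letR (parV ps 4) fun z7 =>
  letR (parV ps 5) fun z8 =>
  letR (parV ps 6) fun z9 =>
  letR (parV ps 7) fun z10 =>
  letR (parV ps 8) fun z11 =>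
  letR (parV ps 9) fun z12 =>
  letR (parV gs 0) fun z13 =>
  letR (parV gs 1) fun z14 =>
  letR (z14 * m) fun z15 =>
  letR (z13 + z15) fun z16 =>
  letR z16 fun z17 =>
  letR (y * z17) fun z18 =>
  letR (z8 * r) fun z19 =>
  letR (z7 + z19) fun z20 =>
  posR z20 <|
  letR (z10 * r) fun z21 =>
  letR (z9 + z21) fun z22 =>
  posR z22 <|
  letR (z12 * r) fun z23 =>
  letR (z11 + z23) fun z24 =>
  posR z24 <|
  letR (z6 * r) fun z25 =>
  letR (z5 + z25) fun z26 =>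
  posR z26 <|
  letR (z20 + z22) fun z28 =>
  letR ((3 : ℝ) * z24) fun z27 =>
  letR (z28 + z27) fun z29 =>
  letR (z28 + z24) fun z30 =>
  letR ((5 / 8 : ℝ) * z20) fun z31 =>
  letR (z31 + z22) fun z33 =>
  letR ((15 / 8 : ℝ) * z24) fun z32 =>
  letR (z33 + z32) fun z34 =>
  letR ((1 / 4 : ℝ) * z22) fun z35 =>
  letR (z20 + z35) fun z36 =>
  letR (z36 + z24) fun z37 =>
  letR ((457 / 256 : ℝ) * z20) fun z38 =>
  letR ((3 / 2 : ℝ) * z22) fun z39 =>
  letR (z38 + z39) fun z41 =>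
  letR ((425 / 128 : ℝ) * z24) fun z40 =>
  letR (z41 + z40) fun z42 =>
  letR ((13 / 64 : ℝ) * z20) fun z43 =>
  letR ((25 / 64 : ℝ) * z22) fun z44 =>
  letR (z43 + z44) fun z46 =>
  letR ((33 / 64 : ℝ) * z24) fun z45 =>
  letR (z46 + z45) fun z47 =>
  letR ((-7 / 16 : ℝ) * z20) fun z48 =>
  letR ((-1 / 8 : ℝ) * z22) fun z49 =>
  letR (z48 + z49) fun z51 =>
  letR ((-7 / 16 : ℝ) * z24) fun z50 =>
  letR (z51 + z50) fun z52 =>
  letR (z4 * z18) fun z53 =>
  letR (z3 + z53) fun z54 =>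
  letR z54 fun z55 =>
  letR (z18 * z55) fun z56 =>
  letR (z56 + (-5 / 16 : ℝ)) fun z57 =>
  posR z57 <|
  letR ((1 / 2 : ℝ) - z56) fun z58 =>
  posR z58 <|
  letR ((1 : ℝ) - z30) fun z62 =>
  posR z62 <|
  letR z26 fun z60 =>
  letR (r * z60) fun z61 =>
  letR (r ^ 2) fun z59 =>
  letR z29 fun z63 =>
  letR (z59 * z63) fun z64 =>
  letR (z61 + z64) fun z65 =>
  letR ((1 : ℝ) - z65) fun z66 =>
  posR z66 <|
  letR ((2 : ℝ) * z55) fun z71 =>
  letR (z56 ^ 2) fun z68 =>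
  letR (z68 + (1 : ℝ)) fun z69 =>
  invR z69 fun z70 =>
  letR (z71 * z70) fun z72 =>
  letR z47 fun z74 =>
  letR (z59 * z74) fun z75 =>
  letR ((3 / 8 : ℝ) * z61) fun z76 =>
  letR (z75 + z76) fun z77 =>
  letR z77 fun z141 =>
  letR (z72 * z141) fun z142 =>
  letR ((0 : ℝ) * z142) fun z145 =>
  letR (z18 * z145) fun z150 =>
  letR (z150 + (1 : ℝ)) fun z151 =>
  posR z151 <|
  letR z52 fun z143 =>
  letR (z72 * z143) fun z144 =>
  letR ((0 : ℝ) * z144) fun z146 =>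
  letR (z55 * z72) fun z73 =>
  letR z37 fun z135 =>
  letR (z73 * z135) fun z136 =>
  letR (z18 * z136) fun z139 =>
  letR (z146 - z139) fun z147 =>
  letR z147 fun z152 =>
  letR (z18 * z152) fun z153 =>
  letR (z153 + (1 : ℝ)) fun z154 =>
  posR z154 <|
  letR z34 fun z78 =>
  letR (z59 * z78) fun z79 =>
  letR (z79 + z61) fun z80 =>
  letR z80 fun z137 =>
  letR (z73 * z137) fun z138 =>
  letR (z18 * z138) fun z140 =>
  letR (z145 + z140) fun z148 =>
  letR z148 fun z155 =>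
  letR (z18 * z155) fun z156 =>
  letR ((1 : ℝ) - z156) fun z157 =>
  posR z157 <|
  letR (z18 * z146) fun z158 =>
  letR ((1 : ℝ) - z158) fun z159 =>
  posR z159 <|
  letR z42 fun z81 =>
  letR (r * z81) fun z82 =>
  letR ((9 / 16 : ℝ) * z26) fun z83 =>
  letR (z82 + z83) fun z84 =>
  letR z84 fun z132 =>
  letR (z72 * z132) fun z133 =>
  letR (m ^ 2) fun z85 =>
  letR ((9 / 5 : ℝ) * z85) fun z121 =>
  letR (z121 + (3 / 2 : ℝ)) fun z122 =>
  letR (z18 ^ 2) fun z86 =>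
  letR ((3 / 10 : ℝ) * z86) fun z124 =>
  letR (z122 + z124) fun z125 =>
  letR (z85 ^ 2) fun z107 =>
  letR (z85 * z86) fun z106 =>
  letR (z107 + z106) fun z126 =>
  letR ((3 : ℝ) * z126) fun z127 =>
  letR (z125 + z127) fun z128 =>
  letR (z86 ^ 2) fun z108 =>
  letR ((1 / 5 : ℝ) * z108) fun z130 =>
  letR (z128 + z130) fun z131 =>
  letR (z133 - z131) fun z134 =>
  letR (z145 + z146) fun z149 =>
  letR z149 fun z184 =>
  letR (z85 + z86) fun z109 =>
  letR (z109 + z107) fun z110 =>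
  letR (z110 + z108) fun z111 =>
  letR z111 fun z113 =>
  letR ((3 / 5 : ℝ) * z113) fun z114 =>
  letR (z114 + (3 / 2 : ℝ)) fun z115 =>
  letR ((2 : ℝ) * z106) fun z116 =>
  letR (z115 + z116) fun z117 =>
  letR z117 fun z118 =>
  letR (m * z118) fun z119 =>
  letR (z184 * z119) fun z185 =>
  letR (z134 - z185) fun z186 =>
  letR (m + z18) fun z87 =>
  letR z87 fun z88 =>
  letR (z88 ^ 2) fun z89 =>
  letR ((1 / 10 : ℝ) * z89) fun z91 =>
  letR (z91 + (3 / 20 : ℝ)) fun z92 =>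
  letR (z89 * z92) fun z93 =>
  letR (z93 + (3 / 4 : ℝ)) fun z94 =>
  letR (z89 * z94) fun z95 =>
  letR ((1 : ℝ) - z95) fun z96 =>
  letR (z145 * z152) fun z160 =>
  letR (z160 - z136) fun z161 =>
  letR z161 fun z164 =>
  letR (z18 * z164) fun z165 =>
  letR (z149 + z165) fun z166 =>
  letR z166 fun z170 =>
  letR (z18 * z170) fun z171 =>
  letR (z171 + (1 : ℝ)) fun z172 =>
  letR (√z172) fun z173 =>
  letR (z173 + (1 : ℝ)) fun z174 =>
  invR z174 fun z175 =>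
  letR (z170 * z175) fun z182 =>
  letR (z182 ^ 2) fun z187 =>
  letR (z161 - z187) fun z188 =>
  letR z188 fun z189 =>
  letR (z96 * z189) fun z190 =>
  letR (m - z18) fun z97 =>
  letR z97 fun z98 =>
  letR (z98 ^ 2) fun z99 =>
  letR ((1 / 10 : ℝ) * z99) fun z100 =>
  letR (z100 + (3 / 20 : ℝ)) fun z101 =>
  letR (z99 * z101) fun z102 =>
  letR (z102 + (3 / 4 : ℝ)) fun z103 =>
  letR (z99 * z103) fun z104 =>
  letR ((1 : ℝ) - z104) fun z105 =>
  letR (z155 * z146) fun z162 =>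
  letR (z162 - z138) fun z163 =>
  letR z163 fun z167 =>
  letR (z18 * z167) fun z168 =>
  letR (z168 - z149) fun z169 =>
  letR z169 fun z176 =>
  letR (z18 * z176) fun z177 =>
  letR (z177 + (1 : ℝ)) fun z178 =>
  letR (√z178) fun z179 =>
  letR (z179 + (1 : ℝ)) fun z180 =>
  invR z180 fun z181 =>
  letR (z176 * z181) fun z183 =>
  letR (z183 ^ 2) fun z191 =>
  letR (z163 - z191) fun z192 =>
  letR z192 fun z193 =>
  letR (z105 * z193) fun z194 =>
  letR (z190 + z194) fun z195 =>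
  letR ((1 / 2 : ℝ) * z195) fun z196 =>
  letR (z186 + z196) fun z197 =>
  posR z197 <|
  letR ((3 / 8 : ℝ) * z142) fun z198 =>
  letR (z18 * z198) fun z203 =>
  letR (z203 + (1 : ℝ)) fun z204 =>
  posR z204 <|
  letR ((3 / 8 : ℝ) * z144) fun z199 =>
  letR (z199 - z139) fun z200 =>
  letR z200 fun z205 =>
  letR (z18 * z205) fun z206 =>
  letR (z206 + (1 : ℝ)) fun z207 =>
  posR z207 <|
  letR (z198 + z140) fun z201 =>
  letR z201 fun z208 =>
  letR (z18 * z208) fun z209 =>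
  letR ((1 : ℝ) - z209) fun z210 =>
  posR z210 <|
  letR (z18 * z199) fun z211 =>
  letR ((1 : ℝ) - z211) fun z212 =>
  posR z212 <|
  letR (z198 + z199) fun z202 =>
  letR z202 fun z237 =>
  letR (z237 * z119) fun z238 =>
  letR (z134 - z238) fun z239 =>
  letR (z198 * z205) fun z213 =>
  letR (z213 - z136) fun z214 =>
  letR z214 fun z217 =>
  letR (z18 * z217) fun z218 =>
  letR (z202 + z218) fun z219 =>
  letR z219 fun z223 =>
  letR (z18 * z223) fun z224 =>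
  letR (z224 + (1 : ℝ)) fun z225 =>
  letR (√z225) fun z226 =>
  letR (z226 + (1 : ℝ)) fun z227 =>
  invR z227 fun z228 =>
  letR (z223 * z228) fun z235 =>
  letR (z235 ^ 2) fun z240 =>
  letR (z214 - z240) fun z241 =>
  letR z241 fun z242 =>
  letR (z96 * z242) fun z243 =>
  letR (z208 * z199) fun z215 =>
  letR (z215 - z138) fun z216 =>
  letR z216 fun z220 =>
  letR (z18 * z220) fun z221 =>
  letR (z221 - z202) fun z222 =>
  letR z222 fun z229 =>
  letR (z18 * z229) fun z230 =>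
  letR (z230 + (1 : ℝ)) fun z231 =>
  letR (√z231) fun z232 =>
  letR (z232 + (1 : ℝ)) fun z233 =>
  invR z233 fun z234 =>
  letR (z229 * z234) fun z236 =>
  letR (z236 ^ 2) fun z244 =>
  letR (z216 - z244) fun z245 =>
  letR z245 fun z246 =>
  letR (z105 * z246) fun z247 =>
  letR (z243 + z247) fun z248 =>
  letR ((1 / 2 : ℝ) * z248) fun z249 =>
  letR (z239 + z249) fun z250 =>
  posR z250 <|
  True

theorem z2_S {ε : Fin 4 → ℝ} (gs : ℕ) (hε : ∀ i, |ε i| ≤ 1) (ps : ℕ) (x0 x1 x2 x3 : AF) (m y r u3 : ℝ)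
    (h0 : Rel ε x0 m) (h1 : Rel ε x1 y) (h2 : Rel ε x2 r) (h3 : Rel ε x3 u3) :
    z2_B gs ps x0 x1 x2 x3 = true → z2_R gs ps m y r u3 := by
  delta z2_B z2_R
  exact parS fun z3 t3 g3 =>
  parS fun z4 t4 g4 =>
  parS fun z5 t5 g5 =>
  parS fun z6 t6 g6 =>
  parS fun z7 t7 g7 =>
  parS fun z8 t8 g8 =>
  parS fun z9 t9 g9 =>
  parS fun z10 t10 g10 =>
  parS fun z11 t11 g11 =>
  parS fun z12 t12 g12 =>
  parS fun z13 t13 g13 =>
  parS fun z14 t14 g14 =>
  mulS hε g14 h0 fun z15 t15 g15 =>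
  addS g13 g15 fun z16 t16 g16 =>
  normS g16 fun z17 t17 g17 =>
  mulS hε h1 g17 fun z18 t18 g18 =>
  mulS hε g8 h2 fun z19 t19 g19 =>
  addS g7 g19 fun z20 t20 g20 =>
  posS hε g20 <|
  mulS hε g10 h2 fun z21 t21 g21 =>
  addS g9 g21 fun z22 t22 g22 =>
  posS hε g22 <|
  mulS hε g12 h2 fun z23 t23 g23 =>
  addS g11 g23 fun z24 t24 g24 =>
  posS hε g24 <|
  mulS hε g6 h2 fun z25 t25 g25 =>
  addS g5 g25 fun z26 t26 g26 =>
  posS hε g26 <|
  addS g20 g22 fun z28 t28 g28 =>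
  smulS hε g24 k0 fun z27 t27 g27 =>
  addS g28 g27 fun z29 t29 g29 =>
  addS g28 g24 fun z30 t30 g30 =>
  smulS hε g20 k2 fun z31 t31 g31 =>
  addS g31 g22 fun z33 t33 g33 =>
  smulS hε g24 k3 fun z32 t32 g32 =>
  addS g33 g32 fun z34 t34 g34 =>
  smulS hε g22 k47 fun z35 t35 g35 =>
  addS g20 g35 fun z36 t36 g36 =>
  addS g36 g24 fun z37 t37 g37 =>
  smulS hε g20 k48 fun z38 t38 g38 =>
  smulS hε g22 k32 fun z39 t39 g39 =>
  addS g38 g39 fun z41 t41 g41 =>
  smulS hε g24 k49 fun z40 t40 g40 =>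
  addS g41 g40 fun z42 t42 g42 =>
  smulS hε g20 k50 fun z43 t43 g43 =>
  smulS hε g22 k51 fun z44 t44 g44 =>
  addS g43 g44 fun z46 t46 g46 =>
  smulS hε g24 k52 fun z45 t45 g45 =>
  addS g46 g45 fun z47 t47 g47 =>
  smulS hε g20 k15 fun z48 t48 g48 =>
  smulS hε g22 k53 fun z49 t49 g49 =>
  addS g48 g49 fun z51 t51 g51 =>
  smulS hε g24 k15 fun z50 t50 g50 =>
  addS g51 g50 fun z52 t52 g52 =>
  mulS hε g4 g18 fun z53 t53 g53 =>
  addS g3 g53 fun z54 t54 g54 =>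
  normS g54 fun z55 t55 g55 =>
  mulS hε g18 g55 fun z56 t56 g56 =>
  addcS g56 k54 fun z57 t57 g57 =>
  posS hε g57 <|
  rsubS g56 k55 fun z58 t58 g58 =>
  posS hε g58 <|
  rsubS g30 k20 fun z62 t62 g62 =>
  posS hε g62 <|
  normS g26 fun z60 t60 g60 =>
  mulS hε h2 g60 fun z61 t61 g61 =>
  sqrS hε h2 fun z59 t59 g59 =>
  normS g29 fun z63 t63 g63 =>
  mulS hε g59 g63 fun z64 t64 g64 =>
  addS g61 g64 fun z65 t65 g65 =>
  rsubS g65 k20 fun z66 t66 g66 =>
  posS hε g66 <|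
  smulS hε g55 k21 fun z71 t71 g71 =>
  sqrS hε g56 fun z68 t68 g68 =>
  addcS g68 k20 fun z69 t69 g69 =>
  invS hε g69 fun z70 t70 g70 =>
  mulS hε g71 g70 fun z72 t72 g72 =>
  normS g47 fun z74 t74 g74 =>
  mulS hε g59 g74 fun z75 t75 g75 =>
  smulS hε g61 k13 fun z76 t76 g76 =>
  addS g75 g76 fun z77 t77 g77 =>
  normS g77 fun z141 t141 g141 =>
  mulS hε g72 g141 fun z142 t142 g142 =>
  smulS hε g142 k22 fun z145 t145 g145 =>
  mulS hε g18 g145 fun z150 t150 g150 =>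
  addcS g150 k20 fun z151 t151 g151 =>
  posS hε g151 <|
  normS g52 fun z143 t143 g143 =>
  mulS hε g72 g143 fun z144 t144 g144 =>
  smulS hε g144 k22 fun z146 t146 g146 =>
  mulS hε g55 g72 fun z73 t73 g73 =>
  normS g37 fun z135 t135 g135 =>
  mulS hε g73 g135 fun z136 t136 g136 =>
  mulS hε g18 g136 fun z139 t139 g139 =>
  subS g146 g139 fun z147 t147 g147 =>
  normS g147 fun z152 t152 g152 =>
  mulS hε g18 g152 fun z153 t153 g153 =>
  addcS g153 k20 fun z154 t154 g154 =>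
  posS hε g154 <|
  normS g34 fun z78 t78 g78 =>
  mulS hε g59 g78 fun z79 t79 g79 =>
  addS g79 g61 fun z80 t80 g80 =>
  normS g80 fun z137 t137 g137 =>
  mulS hε g73 g137 fun z138 t138 g138 =>
  mulS hε g18 g138 fun z140 t140 g140 =>
  addS g145 g140 fun z148 t148 g148 =>
  normS g148 fun z155 t155 g155 =>
  mulS hε g18 g155 fun z156 t156 g156 =>
  rsubS g156 k20 fun z157 t157 g157 =>
  posS hε g157 <|
  mulS hε g18 g146 fun z158 t158 g158 =>
  rsubS g158 k20 fun z159 t159 g159 =>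
  posS hε g159 <|
  normS g42 fun z81 t81 g81 =>
  mulS hε h2 g81 fun z82 t82 g82 =>
  smulS hε g26 k23 fun z83 t83 g83 =>
  addS g82 g83 fun z84 t84 g84 =>
  normS g84 fun z132 t132 g132 =>
  mulS hε g72 g132 fun z133 t133 g133 =>
  sqrS hε h0 fun z85 t85 g85 =>
  mulS hε (cst_rel k24) g85 fun z121 t121 g121 =>
  addcS g121 k25 fun z122 t122 g122 =>
  sqrS hε g18 fun z86 t86 g86 =>
  mulS hε (cst_rel k26) g86 fun z124 t124 g124 =>
  addS g122 g124 fun z125 t125 g125 =>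
  sqrS hε g85 fun z107 t107 g107 =>
  mulS hε g85 g86 fun z106 t106 g106 =>
  addS g107 g106 fun z126 t126 g126 =>
  smulS hε g126 k0 fun z127 t127 g127 =>
  addS g125 g127 fun z128 t128 g128 =>
  sqrS hε g86 fun z108 t108 g108 =>
  mulS hε (cst_rel k27) g108 fun z130 t130 g130 =>
  addS g128 g130 fun z131 t131 g131 =>
  subS g133 g131 fun z134 t134 g134 =>
  addS g145 g146 fun z149 t149 g149 =>
  normS g149 fun z184 t184 g184 =>
  addS g85 g86 fun z109 t109 g109 =>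
  addS g109 g107 fun z110 t110 g110 =>
  addS g110 g108 fun z111 t111 g111 =>
  normS g111 fun z113 t113 g113 =>
  mulS hε (cst_rel k28) g113 fun z114 t114 g114 =>
  addcS g114 k25 fun z115 t115 g115 =>
  smulS hε g106 k21 fun z116 t116 g116 =>
  addS g115 g116 fun z117 t117 g117 =>
  normS g117 fun z118 t118 g118 =>
  mulS hε h0 g118 fun z119 t119 g119 =>
  mulS hε g184 g119 fun z185 t185 g185 =>
  subS g134 g185 fun z186 t186 g186 =>
  addS h0 g18 fun z87 t87 g87 =>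
  normS g87 fun z88 t88 g88 =>
  sqrS hε g88 fun z89 t89 g89 =>
  mulS hε (cst_rel k29) g89 fun z91 t91 g91 =>
  addcS g91 k30 fun z92 t92 g92 =>
  mulS hε g89 g92 fun z93 t93 g93 =>
  addcS g93 k31 fun z94 t94 g94 =>
  mulS hε g89 g94 fun z95 t95 g95 =>
  rsubS g95 k20 fun z96 t96 g96 =>
  mulS hε g145 g152 fun z160 t160 g160 =>
  subS g160 g136 fun z161 t161 g161 =>
  normS g161 fun z164 t164 g164 =>
  mulS hε g18 g164 fun z165 t165 g165 =>
  addS g149 g165 fun z166 t166 g166 =>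
  normS g166 fun z170 t170 g170 =>
  mulS hε g18 g170 fun z171 t171 g171 =>
  addcS g171 k20 fun z172 t172 g172 =>
  sqrtS hε g172 fun z173 t173 g173 =>
  addcS g173 k20 fun z174 t174 g174 =>
  invS hε g174 fun z175 t175 g175 =>
  mulS hε g170 g175 fun z182 t182 g182 =>
  sqrS hε g182 fun z187 t187 g187 =>
  subS g161 g187 fun z188 t188 g188 =>
  normS g188 fun z189 t189 g189 =>
  mulS hε g96 g189 fun z190 t190 g190 =>
  subS h0 g18 fun z97 t97 g97 =>
  normS g97 fun z98 t98 g98 =>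
  sqrS hε g98 fun z99 t99 g99 =>
  mulS hε (cst_rel k29) g99 fun z100 t100 g100 =>
  addcS g100 k30 fun z101 t101 g101 =>
  mulS hε g99 g101 fun z102 t102 g102 =>
  addcS g102 k31 fun z103 t103 g103 =>
  mulS hε g99 g103 fun z104 t104 g104 =>
  rsubS g104 k20 fun z105 t105 g105 =>
  mulS hε g155 g146 fun z162 t162 g162 =>
  subS g162 g138 fun z163 t163 g163 =>
  normS g163 fun z167 t167 g167 =>
  mulS hε g18 g167 fun z168 t168 g168 =>
  subS g168 g149 fun z169 t169 g169 =>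
  normS g169 fun z176 t176 g176 =>
  mulS hε g18 g176 fun z177 t177 g177 =>
  addcS g177 k20 fun z178 t178 g178 =>
  sqrtS hε g178 fun z179 t179 g179 =>
  addcS g179 k20 fun z180 t180 g180 =>
  invS hε g180 fun z181 t181 g181 =>
  mulS hε g176 g181 fun z183 t183 g183 =>
  sqrS hε g183 fun z191 t191 g191 =>
  subS g163 g191 fun z192 t192 g192 =>
  normS g192 fun z193 t193 g193 =>
  mulS hε g105 g193 fun z194 t194 g194 =>
  addS g190 g194 fun z195 t195 g195 =>
  smulS hε g195 k4 fun z196 t196 g196 =>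
  addS g186 g196 fun z197 t197 g197 =>
  posS hε g197 <|
  smulS hε g142 k13 fun z198 t198 g198 =>
  mulS hε g18 g198 fun z203 t203 g203 =>
  addcS g203 k20 fun z204 t204 g204 =>
  posS hε g204 <|
  smulS hε g144 k13 fun z199 t199 g199 =>
  subS g199 g139 fun z200 t200 g200 =>
  normS g200 fun z205 t205 g205 =>
  mulS hε g18 g205 fun z206 t206 g206 =>
  addcS g206 k20 fun z207 t207 g207 =>
  posS hε g207 <|
  addS g198 g140 fun z201 t201 g201 =>
  normS g201 fun z208 t208 g208 =>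
  mulS hε g18 g208 fun z209 t209 g209 =>
  rsubS g209 k20 fun z210 t210 g210 =>
  posS hε g210 <|
  mulS hε g18 g199 fun z211 t211 g211 =>
  rsubS g211 k20 fun z212 t212 g212 =>
  posS hε g212 <|
  addS g198 g199 fun z202 t202 g202 =>
  normS g202 fun z237 t237 g237 =>
  mulS hε g237 g119 fun z238 t238 g238 =>
  subS g134 g238 fun z239 t239 g239 =>
  mulS hε g198 g205 fun z213 t213 g213 =>
  subS g213 g136 fun z214 t214 g214 =>
  normS g214 fun z217 t217 g217 =>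
  mulS hε g18 g217 fun z218 t218 g218 =>
  addS g202 g218 fun z219 t219 g219 =>
  normS g219 fun z223 t223 g223 =>
  mulS hε g18 g223 fun z224 t224 g224 =>
  addcS g224 k20 fun z225 t225 g225 =>
  sqrtS hε g225 fun z226 t226 g226 =>
  addcS g226 k20 fun z227 t227 g227 =>
  invS hε g227 fun z228 t228 g228 =>
  mulS hε g223 g228 fun z235 t235 g235 =>
  sqrS hε g235 fun z240 t240 g240 =>
  subS g214 g240 fun z241 t241 g241 =>
  normS g241 fun z242 t242 g242 =>
  mulS hε g96 g242 fun z243 t243 g243 =>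
  mulS hε g208 g199 fun z215 t215 g215 =>
  subS g215 g138 fun z216 t216 g216 =>
  normS g216 fun z220 t220 g220 =>
  mulS hε g18 g220 fun z221 t221 g221 =>
  subS g221 g202 fun z222 t222 g222 =>
  normS g222 fun z229 t229 g229 =>
  mulS hε g18 g229 fun z230 t230 g230 =>
  addcS g230 k20 fun z231 t231 g231 =>
  sqrtS hε g231 fun z232 t232 g232 =>
  addcS g232 k20 fun z233 t233 g233 =>
  invS hε g233 fun z234 t234 g234 =>
  mulS hε g229 g234 fun z236 t236 g236 =>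
  sqrS hε g236 fun z244 t244 g244 =>
  subS g216 g244 fun z245 t245 g245 =>
  normS g245 fun z246 t246 g246 =>
  mulS hε g105 g246 fun z247 t247 g247 =>
  addS g243 g247 fun z248 t248 g248 =>
  smulS hε g248 k4 fun z249 t249 g249 =>
  addS g239 g249 fun z250 t250 g250 =>
  posS hε g250 <|
  fun _ => trivial

def z2_Spec (ca cb m y r : ℝ) : Prop :=
  ∃ ta tb pw qw pa0 pb0 pa1 pb1 pa2 pb2 d v0 v1 v2 w w28 SL Sv SRn SRp S0 S1 S2 tau t rw rr sh a1 sa f1a sb g2a eh ep dp f2a an en dn f3a c0 mm dd m4 md d4 E2 base La E1 Y0u Y0 G0a X0a i0a j0a Y1u Y1 G1a X1a i1a j1a f1b g2b f2b f3b Lb G0b X0b i0b j0b G1b X1b i1b j1b : ℝ,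
    d = (y * (ca + (cb * m))) ∧
    v0 = (pa0 + (pb0 * r)) ∧
    0 ≤ v0 ∧
    v1 = (pa1 + (pb1 * r)) ∧
    0 ≤ v1 ∧
    v2 = (pa2 + (pb2 * r)) ∧
    0 ≤ v2 ∧
    w = (pw + (qw * r)) ∧
    0 ≤ w ∧
    w28 = (v0 + v1) ∧
    SL = (w28 + ((3 : ℝ) * v2)) ∧
    Sv = (w28 + v2) ∧
    SRn = ((((5 / 8 : ℝ) * v0) + v1) + ((15 / 8 : ℝ) * v2)) ∧
    SRp = ((v0 + ((1 / 4 : ℝ) * v1)) + v2) ∧
    S0 = ((((457 / 256 : ℝ) * v0) + ((3 / 2 : ℝ) * v1)) + ((425 / 128 : ℝ) * v2)) ∧
    S1 = ((((13 / 64 : ℝ) * v0) + ((25 / 64 : ℝ) * v1)) + ((33 / 64 : ℝ) * v2)) ∧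
    S2 = ((((-7 / 16 : ℝ) * v0) + ((-1 / 8 : ℝ) * v1)) + ((-7 / 16 : ℝ) * v2)) ∧
    tau = (ta + (tb * d)) ∧
    t = (d * tau) ∧
    0 ≤ (t + (-5 / 16 : ℝ)) ∧
    0 ≤ ((1 / 2 : ℝ) - t) ∧
    0 ≤ ((1 : ℝ) - Sv) ∧
    rw = (r * w) ∧
    rr = (r ^ 2) ∧
    0 ≤ ((1 : ℝ) - (rw + (rr * SL))) ∧
    0 < ((t ^ 2) + (1 : ℝ)) ∧
    sh = (((2 : ℝ) * tau) * (((t ^ 2) + (1 : ℝ))⁻¹)) ∧
    a1 = ((rr * S1) + ((3 / 8 : ℝ) * rw)) ∧
    sa = (sh * a1) ∧
    f1a = ((0 : ℝ) * sa) ∧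
    0 ≤ ((d * f1a) + (1 : ℝ)) ∧
    sb = (sh * S2) ∧
    g2a = ((0 : ℝ) * sb) ∧
    eh = (tau * sh) ∧
    ep = (eh * SRp) ∧
    dp = (d * ep) ∧
    f2a = (g2a - dp) ∧
    0 ≤ ((d * f2a) + (1 : ℝ)) ∧
    an = ((rr * SRn) + rw) ∧
    en = (eh * an) ∧
    dn = (d * en) ∧
    f3a = (f1a + dn) ∧
    0 ≤ ((1 : ℝ) - (d * f3a)) ∧
    0 ≤ ((1 : ℝ) - (d * g2a)) ∧
    c0 = ((r * S0) + ((9 / 16 : ℝ) * w)) ∧
    mm = (m ^ 2) ∧
    dd = (d ^ 2) ∧
    m4 = (mm ^ 2) ∧
    md = (mm * dd) ∧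
    d4 = (dd ^ 2) ∧
    E2 = ((((((9 / 5 : ℝ) * mm) + (3 / 2 : ℝ)) + ((3 / 10 : ℝ) * dd)) + ((3 : ℝ) * (m4 + md))) + ((1 / 5 : ℝ) * d4)) ∧
    base = ((sh * c0) - E2) ∧
    La = (f1a + g2a) ∧
    E1 = (m * ((((3 / 5 : ℝ) * (((mm + dd) + m4) + d4)) + (3 / 2 : ℝ)) + ((2 : ℝ) * md))) ∧
    Y0u = ((m + d) ^ 2) ∧
    Y0 = ((1 : ℝ) - (Y0u * ((Y0u * (((1 / 10 : ℝ) * Y0u) + (3 / 20 : ℝ))) + (3 / 4 : ℝ)))) ∧
    G0a = ((f1a * f2a) - ep) ∧
    X0a = (La + (d * G0a)) ∧
    0 < ((√((d * X0a) + (1 : ℝ))) + (1 : ℝ)) ∧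
    i0a = (((√((d * X0a) + (1 : ℝ))) + (1 : ℝ))⁻¹) ∧
    j0a = (X0a * i0a) ∧
    Y1u = ((m - d) ^ 2) ∧
    Y1 = ((1 : ℝ) - (Y1u * ((Y1u * (((1 / 10 : ℝ) * Y1u) + (3 / 20 : ℝ))) + (3 / 4 : ℝ)))) ∧
    G1a = ((f3a * g2a) - en) ∧
    X1a = ((d * G1a) - La) ∧
    0 < ((√((d * X1a) + (1 : ℝ))) + (1 : ℝ)) ∧
    i1a = (((√((d * X1a) + (1 : ℝ))) + (1 : ℝ))⁻¹) ∧
    j1a = (X1a * i1a) ∧
    0 ≤ ((base - (La * E1)) + ((1 / 2 : ℝ) * ((Y0 * (G0a - (j0a ^ 2))) + (Y1 * (G1a - (j1a ^ 2)))))) ∧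
    f1b = ((3 / 8 : ℝ) * sa) ∧
    0 ≤ ((d * f1b) + (1 : ℝ)) ∧
    g2b = ((3 / 8 : ℝ) * sb) ∧
    f2b = (g2b - dp) ∧
    0 ≤ ((d * f2b) + (1 : ℝ)) ∧
    f3b = (f1b + dn) ∧
    0 ≤ ((1 : ℝ) - (d * f3b)) ∧
    0 ≤ ((1 : ℝ) - (d * g2b)) ∧
    Lb = (f1b + g2b) ∧
    G0b = ((f1b * f2b) - ep) ∧
    X0b = (Lb + (d * G0b)) ∧
    0 < ((√((d * X0b) + (1 : ℝ))) + (1 : ℝ)) ∧
    i0b = (((√((d * X0b) + (1 : ℝ))) + (1 : ℝ))⁻¹) ∧
    j0b = (X0b * i0b) ∧
    G1b = ((f3b * g2b) - en) ∧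
    X1b = ((d * G1b) - Lb) ∧
    0 < ((√((d * X1b) + (1 : ℝ))) + (1 : ℝ)) ∧
    i1b = (((√((d * X1b) + (1 : ℝ))) + (1 : ℝ))⁻¹) ∧
    j1b = (X1b * i1b) ∧
    0 ≤ ((base - (Lb * E1)) + ((1 / 2 : ℝ) * ((Y0 * (G0b - (j0b ^ 2))) + (Y1 * (G1b - (j1b ^ 2))))))

theorem z2_E {gs ps : ℕ} {m y r u3 : ℝ} (h : z2_R gs ps m y r u3) : z2_Spec (parV gs 0) (parV gs 1) m y r := by
  delta z2_R at h
  exact letR_ex h fun ta _ h =>
  letR_ex h fun tb _ h =>
  letR_ex h fun pw _ h =>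
  letR_ex h fun qw _ h =>
  letR_ex h fun pa0 _ h =>
  letR_ex h fun pb0 _ h =>
  letR_ex h fun pa1 _ h =>
  letR_ex h fun pb1 _ h =>
  letR_ex h fun pa2 _ h =>
  letR_ex h fun pb2 _ h =>
  letR_in h fun h =>
  letR_in h fun h =>
  letR_in h fun h =>
  letR_in h fun h =>
  letR_in h fun h =>
  letR_ex h fun d q1 h =>
  letR_in h fun h =>
  letR_ex h fun v0 q2 h =>
  posR_ex h fun q3 h =>
  letR_in h fun h =>
  letR_ex h fun v1 q4 h =>
  posR_ex h fun q5 h =>
  letR_in h fun h =>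
  letR_ex h fun v2 q6 h =>
  posR_ex h fun q7 h =>
  letR_in h fun h =>
  letR_ex h fun w q8 h =>
  posR_ex h fun q9 h =>
  letR_ex h fun w28 q10 h =>
  letR_in h fun h =>
  letR_ex h fun SL q11 h =>
  letR_ex h fun Sv q12 h =>
  letR_in h fun h =>
  letR_in h fun h =>
  letR_in h fun h =>
  letR_ex h fun SRn q13 h =>
  letR_in h fun h =>
  letR_in h fun h =>
  letR_ex h fun SRp q14 h =>
  letR_in h fun h =>
  letR_in h fun h =>
  letR_in h fun h =>
  letR_in h fun h =>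
  letR_ex h fun S0 q15 h =>
  letR_in h fun h =>
  letR_in h fun h =>
  letR_in h fun h =>
  letR_in h fun h =>
  letR_ex h fun S1 q16 h =>
  letR_in h fun h =>
  letR_in h fun h =>
  letR_in h fun h =>
  letR_in h fun h =>
  letR_ex h fun S2 q17 h =>
  letR_in h fun h =>
  letR_ex h fun tau q18 h =>
  letR_in h fun h =>
  letR_ex h fun t q19 h =>
  letR_in h fun h =>
  posR_ex h fun q20 h =>
  letR_in h fun h =>
  posR_ex h fun q21 h =>
  letR_in h fun h =>
  posR_ex h fun q22 h =>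
  letR_in h fun h =>
  letR_ex h fun rw q23 h =>
  letR_ex h fun rr q24 h =>
  letR_in h fun h =>
  letR_in h fun h =>
  letR_in h fun h =>
  letR_in h fun h =>
  posR_ex h fun q25 h =>
  letR_in h fun h =>
  letR_in h fun h =>
  letR_in h fun h =>
  invR_ex h fun q26 h =>
  letR_in h fun h =>
  letR_ex h fun sh q27 h =>
  letR_in h fun h =>
  letR_in h fun h =>
  letR_in h fun h =>
  letR_ex h fun a1 q28 h =>
  letR_in h fun h =>
  letR_ex h fun sa q29 h =>
  letR_ex h fun f1a q30 h =>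
  letR_in h fun h =>
  letR_in h fun h =>
  posR_ex h fun q31 h =>
  letR_in h fun h =>
  letR_ex h fun sb q32 h =>
  letR_ex h fun g2a q33 h =>
  letR_ex h fun eh q34 h =>
  letR_in h fun h =>
  letR_ex h fun ep q35 h =>
  letR_ex h fun dp q36 h =>
  letR_ex h fun f2a q37 h =>
  letR_in h fun h =>
  letR_in h fun h =>
  letR_in h fun h =>
  posR_ex h fun q38 h =>
  letR_in h fun h =>
  letR_in h fun h =>
  letR_ex h fun an q39 h =>
  letR_in h fun h =>
  letR_ex h fun en q40 h =>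
  letR_ex h fun dn q41 h =>
  letR_ex h fun f3a q42 h =>
  letR_in h fun h =>
  letR_in h fun h =>
  letR_in h fun h =>
  posR_ex h fun q43 h =>
  letR_in h fun h =>
  letR_in h fun h =>
  posR_ex h fun q44 h =>
  letR_in h fun h =>
  letR_in h fun h =>
  letR_in h fun h =>
  letR_ex h fun c0 q45 h =>
  letR_in h fun h =>
  letR_in h fun h =>
  letR_ex h fun mm q46 h =>
  letR_in h fun h =>
  letR_in h fun h =>
  letR_ex h fun dd q47 h =>
  letR_in h fun h =>
  letR_in h fun h =>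
  letR_ex h fun m4 q48 h =>
  letR_ex h fun md q49 h =>
  letR_in h fun h =>
  letR_in h fun h =>
  letR_in h fun h =>
  letR_ex h fun d4 q50 h =>
  letR_in h fun h =>
  letR_ex h fun E2 q51 h =>
  letR_ex h fun base q52 h =>
  letR_ex h fun La q53 h =>
  letR_in h fun h =>
  letR_in h fun h =>
  letR_in h fun h =>
  letR_in h fun h =>
  letR_in h fun h =>
  letR_in h fun h =>
  letR_in h fun h =>
  letR_in h fun h =>
  letR_in h fun h =>
  letR_in h fun h =>
  letR_ex h fun E1 q54 h =>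
  letR_in h fun h =>
  letR_in h fun h =>
  letR_in h fun h =>
  letR_in h fun h =>
  letR_ex h fun Y0u q55 h =>
  letR_in h fun h =>
  letR_in h fun h =>
  letR_in h fun h =>
  letR_in h fun h =>
  letR_in h fun h =>
  letR_ex h fun Y0 q56 h =>
  letR_in h fun h =>
  letR_ex h fun G0a q57 h =>
  letR_in h fun h =>
  letR_in h fun h =>
  letR_ex h fun X0a q58 h =>
  letR_in h fun h =>
  letR_in h fun h =>
  letR_in h fun h =>
  letR_in h fun h =>
  letR_in h fun h =>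
  invR_ex h fun q59 h =>
  letR_ex h fun i0a q60 h =>
  letR_ex h fun j0a q61 h =>
  letR_in h fun h =>
  letR_in h fun h =>
  letR_in h fun h =>
  letR_in h fun h =>
  letR_in h fun h =>
  letR_in h fun h =>
  letR_ex h fun Y1u q62 h =>
  letR_in h fun h =>
  letR_in h fun h =>
  letR_in h fun h =>
  letR_in h fun h =>
  letR_in h fun h =>
  letR_ex h fun Y1 q63 h =>
  letR_in h fun h =>
  letR_ex h fun G1a q64 h =>
  letR_in h fun h =>
  letR_in h fun h =>
  letR_ex h fun X1a q65 h =>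
  letR_in h fun h =>
  letR_in h fun h =>
  letR_in h fun h =>
  letR_in h fun h =>
  letR_in h fun h =>
  invR_ex h fun q66 h =>
  letR_ex h fun i1a q67 h =>
  letR_ex h fun j1a q68 h =>
  letR_in h fun h =>
  letR_in h fun h =>
  letR_in h fun h =>
  letR_in h fun h =>
  letR_in h fun h =>
  letR_in h fun h =>
  letR_in h fun h =>
  posR_ex h fun q69 h =>
  letR_ex h fun f1b q70 h =>
  letR_in h fun h =>
  letR_in h fun h =>
  posR_ex h fun q71 h =>
  letR_ex h fun g2b q72 h =>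
  letR_ex h fun f2b q73 h =>
  letR_in h fun h =>
  letR_in h fun h =>
  letR_in h fun h =>
  posR_ex h fun q74 h =>
  letR_ex h fun f3b q75 h =>
  letR_in h fun h =>
  letR_in h fun h =>
  letR_in h fun h =>
  posR_ex h fun q76 h =>
  letR_in h fun h =>
  letR_in h fun h =>
  posR_ex h fun q77 h =>
  letR_ex h fun Lb q78 h =>
  letR_in h fun h =>
  letR_in h fun h =>
  letR_in h fun h =>
  letR_in h fun h =>
  letR_ex h fun G0b q79 h =>
  letR_in h fun h =>
  letR_in h fun h =>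
  letR_ex h fun X0b q80 h =>
  letR_in h fun h =>
  letR_in h fun h =>
  letR_in h fun h =>
  letR_in h fun h =>
  letR_in h fun h =>
  invR_ex h fun q81 h =>
  letR_ex h fun i0b q82 h =>
  letR_ex h fun j0b q83 h =>
  letR_in h fun h =>
  letR_in h fun h =>
  letR_in h fun h =>
  letR_in h fun h =>
  letR_in h fun h =>
  letR_ex h fun G1b q84 h =>
  letR_in h fun h =>
  letR_in h fun h =>
  letR_ex h fun X1b q85 h =>
  letR_in h fun h =>
  letR_in h fun h =>
  letR_in h fun h =>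
  letR_in h fun h =>
  letR_in h fun h =>
  invR_ex h fun q86 h =>
  letR_ex h fun i1b q87 h =>
  letR_ex h fun j1b q88 h =>
  letR_in h fun h =>
  letR_in h fun h =>
  letR_in h fun h =>
  letR_in h fun h =>
  letR_in h fun h =>
  letR_in h fun h =>
  letR_in h fun h =>
  posR_ex h fun q89 h =>
  ⟨ta, tb, pw, qw, pa0, pb0, pa1, pb1, pa2, pb2, d, v0, v1, v2, w, w28, SL, Sv, SRn, SRp, S0, S1, S2, tau, t, rw, rr, sh, a1, sa, f1a, sb, g2a, eh, ep, dp, f2a, an, en, dn, f3a, c0, mm, dd, m4, md, d4, E2, base, La, E1, Y0u, Y0, G0a, X0a, i0a, j0a, Y1u, Y1, G1a, X1a, i1a, j1a, f1b, g2b, f2b, f3b, Lb, G0b, X0b, i0b, j0b, G1b, X1b, i1b, j1b, q1, q2, q3, q4, q5, q6, q7, q8, q9, q10, q11, q12, q13, q14, q15, q16, q17, q18, q19, q20, q21, q22, q23, q24, q25, q26, q27, q28, q29, q30, q31, q32, q33, q34, q35, q36, q37, q38, q39, q40, q41, q42, q43, q44, q45, q46, q47, q48, q49, q50, q51, q52, q53, q54, q55, q56, q57, q58, q59, q60, q61,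 q62, q63, q64, q65, q66, q67, q68, q69, q70, q71, q72, q73, q74, q75, q76, q77, q78, q79, q80, q81, q82, q83, q84, q85, q86, q87, q88, q89⟩

theorem k56 : (9 / 4 : ℝ) = val 4722367116188342812672 := by norm_num [val]
theorem k57 : (45 / 32 : ℝ) = val 4722366878693831213056 := by norm_num [val]
theorem k58 : (1085 / 512 : ℝ) = val 4722367079354703282176 := by norm_num [val]
theorem k59 : (925 / 512 : ℝ) = val 4722366991393773060096 := by norm_num [val]
theorem k60 : (877 / 512 : ℝ) = val 4722366965005493993472 := by norm_num [val]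
theorem k61 : (179 / 64 : ℝ) = val 4722367270119970701312 := by norm_num [val]
theorem k62 : (45 / 128 : ℝ) = val 4722366581825691713536 := by norm_num [val]
theorem k63 : (1 / 8 : ℝ) = val 4722366518054017302528 := by norm_num [val]
theorem k64 : (-17 / 64 : ℝ) = val 4722366408102854524928 := by norm_num [val]
theorem k65 : (-7 / 64 : ℝ) = val 4722366452083319635968 := by norm_num [val]
theorem k66 : (-7 / 32 : ℝ) = val 4722366421296994058240 := by norm_num [val]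
theorem k67 : |2 ^ 48 * (-1 / 2 : ℝ) - (((4722366342132156858368 : ℕ) : ℝ) - 2 ^ 72)| ≤ ((0 : ℕ) : ℝ) := by norm_num [abs_le]
def z3_B (gs ps : ℕ) (x0 x1 x2 x3 : AF) : Bool :=
  parK ps 0 fun z3 =>
  parK ps 1 fun z4 =>
  parK ps 2 fun z5 =>
  parK ps 3 fun z6 =>
  parK ps 4 fun z7 =>
  parK ps 5 fun z8 =>
  parK ps 6 fun z9 =>
  parK ps 7 fun z10 =>
  parK ps 8 fun z11 =>
  parK ps 9 fun z12 =>
  parK ps 10 fun z13 =>
  parK ps 11 fun z14 =>
  parK gs 0 fun z15 =>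
  parK gs 1 fun z16 =>
  mulK z16 x0 fun z17 =>
  addK z15 z17 fun z18 =>
  normK z18 fun z19 =>
  mulK x1 z19 fun z20 =>
  mulK z8 x2 fun z21 =>
  addK z7 z21 fun z22 =>
  posK z22 <|
  mulK z10 x2 fun z23 =>
  addK z9 z23 fun z24 =>
  posK z24 <|
  mulK z12 x2 fun z25 =>
  addK z11 z25 fun z26 =>
  posK z26 <|
  mulK z14 x2 fun z27 =>
  addK z13 z27 fun z28 =>
  posK z28 <|
  mulK z6 x2 fun z29 =>
  addK z5 z29 fun z30 =>
  posK z30 <|
  smulK z22 4722366905082110279680 fun z31 =>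
  addK z31 z24 fun z33 =>
  addK z33 z26 fun z34 =>
  smulK z28 4722367116188342812672 fun z32 =>
  addK z34 z32 fun z35 =>
  addK z22 z24 fun z36 =>
  addK z36 z26 fun z37 =>
  addK z37 z28 fun z38 =>
  smulK z24 4722366658791505657856 fun z39 =>
  addK z31 z39 fun z41 =>
  addK z41 z26 fun z42 =>
  smulK z28 4722366878693831213056 fun z40 =>
  addK z42 z40 fun z43 =>
  smulK z22 4722366588422761480192 fun z44 =>
  addK z44 z24 fun z46 =>
  smulK z26 4722366623607133569024 fun z45 =>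
  addK z46 z45 fun z47 =>
  addK z47 z28 fun z48 =>
  smulK z22 4722367079354703282176 fun z49 =>
  smulK z24 4722366991393773060096 fun z50 =>
  addK z49 z50 fun z53 =>
  smulK z26 4722366965005493993472 fun z51 =>
  addK z53 z51 fun z54 =>
  smulK z28 4722367270119970701312 fun z52 =>
  addK z54 z52 fun z55 =>
  smulK z22 4722366581825691713536 fun z56 =>
  smulK z24 4722366518054017302528 fun z57 =>
  addK z56 z57 fun z60 =>
  smulK z26 4722366540044249858048 fun z58 =>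
  addK z60 z58 fun z61 =>
  smulK z28 4722366581825691713536 fun z59 =>
  addK z61 z59 fun z62 =>
  smulK z22 4722366447685273124864 fun z63 =>
  smulK z24 4722366408102854524928 fun z64 =>
  addK z63 z64 fun z67 =>
  smulK z26 4722366452083319635968 fun z65 =>
  addK z67 z65 fun z68 =>
  smulK z28 4722366421296994058240 fun z66 =>
  addK z68 z66 fun z69 =>
  mulK z4 z20 fun z70 =>
  addK z3 z70 fun z71 =>
  normK z71 fun z72 =>
  mulK z20 z72 fun z73 =>
  addcK z73 4722366342132156858368 0 fun z74 =>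
  posK z74 <|
  rsubK z73 4722366693975877746688 0 fun z75 =>
  posK z75 <|
  rsubK z38 4722366764344621924352 0 fun z79 =>
  posK z79 <|
  normK z30 fun z77 =>
  mulK x2 z77 fun z78 =>
  sqrK x2 fun z76 =>
  normK z35 fun z80 =>
  mulK z76 z80 fun z81 =>
  addK z78 z81 fun z82 =>
  rsubK z82 4722366764344621924352 0 fun z83 =>
  posK z83 <|
  smulK z72 4722367045819598635008 fun z88 =>
  sqrK z73 fun z85 =>
  addcK z85 4722366764344621924352 0 fun z86 =>
  invK z86 fun z87 =>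
  mulK z88 z87 fun z89 =>
  normK z62 fun z91 =>
  mulK z76 z91 fun z92 =>
  smulK z78 4722366588422761480192 fun z93 =>
  addK z92 z93 fun z94 =>
  normK z94 fun z158 =>
  mulK z89 z158 fun z159 =>
  smulK z159 4722366482869645213696 fun z162 =>
  mulK z20 z162 fun z167 =>
  addcK z167 4722366764344621924352 0 fun z168 =>
  posK z168 <|
  normK z69 fun z160 =>
  mulK z89 z160 fun z161 =>
  smulK z161 4722366482869645213696 fun z163 =>
  mulK z72 z89 fun z90 =>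
  normK z48 fun z152 =>
  mulK z90 z152 fun z153 =>
  mulK z20 z153 fun z156 =>
  subK z163 z156 fun z164 =>
  normK z164 fun z169 =>
  mulK z20 z169 fun z170 =>
  addcK z170 4722366764344621924352 0 fun z171 =>
  posK z171 <|
  normK z43 fun z95 =>
  mulK z76 z95 fun z96 =>
  addK z96 z78 fun z97 =>
  normK z97 fun z154 =>
  mulK z90 z154 fun z155 =>
  mulK z20 z155 fun z157 =>
  addK z162 z157 fun z165 =>
  normK z165 fun z172 =>
  mulK z20 z172 fun z173 =>
  rsubK z173 4722366764344621924352 0 fun z174 =>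
  posK z174 <|
  mulK z20 z163 fun z175 =>
  rsubK z175 4722366764344621924352 0 fun z176 =>
  posK z176 <|
  normK z55 fun z98 =>
  mulK x2 z98 fun z99 =>
  smulK z30 4722366641199319613440 fun z100 =>
  addK z99 z100 fun z101 =>
  normK z101 fun z149 =>
  mulK z89 z149 fun z150 =>
  sqrK x0 fun z102 =>
  mulK (cst 4722366989524603292876 1) z102 fun z138 =>
  addcK z138 4722366905082110279680 0 fun z139 =>
  sqrK z20 fun z103 =>
  mulK (cst 4722366567312138226892 1) z103 fun z141 =>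
  addK z139 z141 fun z142 =>
  sqrK z102 fun z124 =>
  mulK z102 z103 fun z123 =>
  addK z124 z123 fun z143 =>
  smulK z143 4722367327294575345664 fun z144 =>
  addK z142 z144 fun z145 =>
  sqrK z103 fun z125 =>
  mulK (cst 4722366539164640555827 1) z125 fun z147 =>
  addK z145 z147 fun z148 =>
  subK z150 z148 fun z151 =>
  addK z162 z163 fun z166 =>
  normK z166 fun z201 =>
  addK z102 z103 fun z126 =>
  addK z126 z124 fun z127 =>
  addK z127 z125 fun z128 =>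
  normK z128 fun z130 =>
  mulK (cst 4722366651754631240089 1) z130 fun z131 =>
  addcK z131 4722366905082110279680 0 fun z132 =>
  smulK z123 4722367045819598635008 fun z133 =>
  addK z132 z133 fun z134 =>
  normK z134 fun z135 =>
  mulK x0 z135 fun z136 =>
  mulK z201 z136 fun z202 =>
  subK z151 z202 fun z203 =>
  addK x0 z20 fun z104 =>
  normK z104 fun z105 =>
  sqrK z105 fun z106 =>
  mulK (cst 4722366511017142884761 1) z106 fun z108 =>
  addcK z108 4722366525090891720294 1 fun z109 =>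
  mulK z106 z109 fun z110 =>
  addcK z110 4722366693975877746688 0 fun z111 =>
  mulK z106 z111 fun z112 =>
  rsubK z112 4722366764344621924352 0 fun z113 =>
  mulK z162 z169 fun z177 =>
  subK z177 z153 fun z178 =>
  normK z178 fun z181 =>
  mulK z20 z181 fun z182 =>
  addK z166 z182 fun z183 =>
  normK z183 fun z187 =>
  mulK z20 z187 fun z188 =>
  addcK z188 4722366764344621924352 0 fun z189 =>
  sqrtK z189 fun z190 =>
  addcK z190 4722366764344621924352 0 fun z191 =>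
  invK z191 fun z192 =>
  mulK z187 z192 fun z199 =>
  sqrK z199 fun z204 =>
  subK z178 z204 fun z205 =>
  normK z205 fun z206 =>
  mulK z113 z206 fun z207 =>
  subK x0 z20 fun z114 =>
  normK z114 fun z115 =>
  sqrK z115 fun z116 =>
  mulK (cst 4722366511017142884761 1) z116 fun z117 =>
  addcK z117 4722366525090891720294 1 fun z118 =>
  mulK z116 z118 fun z119 =>
  addcK z119 4722366693975877746688 0 fun z120 =>
  mulK z116 z120 fun z121 =>
  rsubK z121 4722366764344621924352 0 fun z122 =>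
  mulK z172 z163 fun z179 =>
  subK z179 z155 fun z180 =>
  normK z180 fun z184 =>
  mulK z20 z184 fun z185 =>
  subK z185 z166 fun z186 =>
  normK z186 fun z193 =>
  mulK z20 z193 fun z194 =>
  addcK z194 4722366764344621924352 0 fun z195 =>
  sqrtK z195 fun z196 =>
  addcK z196 4722366764344621924352 0 fun z197 =>
  invK z197 fun z198 =>
  mulK z193 z198 fun z200 =>
  sqrK z200 fun z208 =>
  subK z180 z208 fun z209 =>
  normK z209 fun z210 =>
  mulK z122 z210 fun z211 =>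
  addK z207 z211 fun z212 =>
  smulK z212 4722366623607133569024 fun z213 =>
  addK z203 z213 fun z214 =>
  posK z214 <|
  smulK z159 4722366588422761480192 fun z215 =>
  mulK z20 z215 fun z220 =>
  addcK z220 4722366764344621924352 0 fun z221 =>
  posK z221 <|
  smulK z161 4722366588422761480192 fun z216 =>
  subK z216 z156 fun z217 =>
  normK z217 fun z222 =>
  mulK z20 z222 fun z223 =>
  addcK z223 4722366764344621924352 0 fun z224 =>
  posK z224 <|
  addK z215 z157 fun z218 =>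
  normK z218 fun z225 =>
  mulK z20 z225 fun z226 =>
  rsubK z226 4722366764344621924352 0 fun z227 =>
  posK z227 <|
  mulK z20 z216 fun z228 =>
  rsubK z228 4722366764344621924352 0 fun z229 =>
  posK z229 <|
  addK z215 z216 fun z219 =>
  normK z219 fun z254 =>
  mulK z254 z136 fun z255 =>
  subK z151 z255 fun z256 =>
  mulK z215 z222 fun z230 =>
  subK z230 z153 fun z231 =>
  normK z231 fun z234 =>
  mulK z20 z234 fun z235 =>
  addK z219 z235 fun z236 =>
  normK z236 fun z240 =>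
  mulK z20 z240 fun z241 =>
  addcK z241 4722366764344621924352 0 fun z242 =>
  sqrtK z242 fun z243 =>
  addcK z243 4722366764344621924352 0 fun z244 =>
  invK z244 fun z245 =>
  mulK z240 z245 fun z252 =>
  sqrK z252 fun z257 =>
  subK z231 z257 fun z258 =>
  normK z258 fun z259 =>
  mulK z113 z259 fun z260 =>
  mulK z225 z216 fun z232 =>
  subK z232 z155 fun z233 =>
  normK z233 fun z237 =>
  mulK z20 z237 fun z238 =>
  subK z238 z219 fun z239 =>
  normK z239 fun z246 =>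
  mulK z20 z246 fun z247 =>
  addcK z247 4722366764344621924352 0 fun z248 =>
  sqrtK z248 fun z249 =>
  addcK z249 4722366764344621924352 0 fun z250 =>
  invK z250 fun z251 =>
  mulK z246 z251 fun z253 =>
  sqrK z253 fun z261 =>
  subK z233 z261 fun z262 =>
  normK z262 fun z263 =>
  mulK z122 z263 fun z264 =>
  addK z260 z264 fun z265 =>
  smulK z265 4722366623607133569024 fun z266 =>
  addK z256 z266 fun z267 =>
  posK z267 <|
  true

def z3_R (gs ps : ℕ) (m y r u3 : ℝ) : Prop :=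
  letR (parV ps 0) fun z3 =>
  letR (parV ps 1) fun z4 =>
  letR (parV ps 2) fun z5 =>
  letR (parV ps 3) fun z6 =>
  letR (parV ps 4) fun z7 =>
  letR (parV ps 5) fun z8 =>
  letR (parV ps 6) fun z9 =>
  letR (parV ps 7) fun z10 =>
  letR (parV ps 8) fun z11 =>
  letR (parV ps 9) fun z12 =>
  letR (parV ps 10) fun z13 =>
  letR (parV ps 11) fun z14 =>
  letR (parV gs 0) fun z15 =>
  letR (parV gs 1) fun z16 =>
  letR (z16 * m) fun z17 =>
  letR (z15 + z17) fun z18 =>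
  letR z18 fun z19 =>
  letR (y * z19) fun z20 =>
  letR (z8 * r) fun z21 =>
  letR (z7 + z21) fun z22 =>
  posR z22 <|
  letR (z10 * r) fun z23 =>
  letR (z9 + z23) fun z24 =>
  posR z24 <|
  letR (z12 * r) fun z25 =>
  letR (z11 + z25) fun z26 =>
  posR z26 <|
  letR (z14 * r) fun z27 =>
  letR (z13 + z27) fun z28 =>
  posR z28 <|
  letR (z6 * r) fun z29 =>
  letR (z5 + z29) fun z30 =>
  posR z30 <|
  letR ((3 / 2 : ℝ) * z22) fun z31 =>
  letR (z31 + z24) fun z33 =>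
  letR (z33 + z26) fun z34 =>
  letR ((9 / 4 : ℝ) * z28) fun z32 =>
  letR (z34 + z32) fun z35 =>
  letR (z22 + z24) fun z36 =>
  letR (z36 + z26) fun z37 =>
  letR (z37 + z28) fun z38 =>
  letR ((5 / 8 : ℝ) * z24) fun z39 =>
  letR (z31 + z39) fun z41 =>
  letR (z41 + z26) fun z42 =>
  letR ((45 / 32 : ℝ) * z28) fun z40 =>
  letR (z42 + z40) fun z43 =>
  letR ((3 / 8 : ℝ) * z22) fun z44 =>
  letR (z44 + z24) fun z46 =>
  letR ((1 / 2 : ℝ) * z26) fun z45 =>
  letR (z46 + z45) fun z47 =>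
  letR (z47 + z28) fun z48 =>
  letR ((1085 / 512 : ℝ) * z22) fun z49 =>
  letR ((925 / 512 : ℝ) * z24) fun z50 =>
  letR (z49 + z50) fun z53 =>
  letR ((877 / 512 : ℝ) * z26) fun z51 =>
  letR (z53 + z51) fun z54 =>
  letR ((179 / 64 : ℝ) * z28) fun z52 =>
  letR (z54 + z52) fun z55 =>
  letR ((45 / 128 : ℝ) * z22) fun z56 =>
  letR ((1 / 8 : ℝ) * z24) fun z57 =>
  letR (z56 + z57) fun z60 =>
  letR ((13 / 64 : ℝ) * z26) fun z58 =>
  letR (z60 + z58) fun z61 =>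
  letR ((45 / 128 : ℝ) * z28) fun z59 =>
  letR (z61 + z59) fun z62 =>
  letR ((-1 / 8 : ℝ) * z22) fun z63 =>
  letR ((-17 / 64 : ℝ) * z24) fun z64 =>
  letR (z63 + z64) fun z67 =>
  letR ((-7 / 64 : ℝ) * z26) fun z65 =>
  letR (z67 + z65) fun z68 =>
  letR ((-7 / 32 : ℝ) * z28) fun z66 =>
  letR (z68 + z66) fun z69 =>
  letR (z4 * z20) fun z70 =>
  letR (z3 + z70) fun z71 =>
  letR z71 fun z72 =>
  letR (z20 * z72) fun z73 =>
  letR (z73 + (-1 / 2 : ℝ)) fun z74 =>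
  posR z74 <|
  letR ((3 / 4 : ℝ) - z73) fun z75 =>
  posR z75 <|
  letR ((1 : ℝ) - z38) fun z79 =>
  posR z79 <|
  letR z30 fun z77 =>
  letR (r * z77) fun z78 =>
  letR (r ^ 2) fun z76 =>
  letR z35 fun z80 =>
  letR (z76 * z80) fun z81 =>
  letR (z78 + z81) fun z82 =>
  letR ((1 : ℝ) - z82) fun z83 =>
  posR z83 <|
  letR ((2 : ℝ) * z72) fun z88 =>
  letR (z73 ^ 2) fun z85 =>
  letR (z85 + (1 : ℝ)) fun z86 =>
  invR z86 fun z87 =>
  letR (z88 * z87) fun z89 =>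
  letR z62 fun z91 =>
  letR (z76 * z91) fun z92 =>
  letR ((3 / 8 : ℝ) * z78) fun z93 =>
  letR (z92 + z93) fun z94 =>
  letR z94 fun z158 =>
  letR (z89 * z158) fun z159 =>
  letR ((0 : ℝ) * z159) fun z162 =>
  letR (z20 * z162) fun z167 =>
  letR (z167 + (1 : ℝ)) fun z168 =>
  posR z168 <|
  letR z69 fun z160 =>
  letR (z89 * z160) fun z161 =>
  letR ((0 : ℝ) * z161) fun z163 =>
  letR (z72 * z89) fun z90 =>
  letR z48 fun z152 =>
  letR (z90 * z152) fun z153 =>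
  letR (z20 * z153) fun z156 =>
  letR (z163 - z156) fun z164 =>
  letR z164 fun z169 =>
  letR (z20 * z169) fun z170 =>
  letR (z170 + (1 : ℝ)) fun z171 =>
  posR z171 <|
  letR z43 fun z95 =>
  letR (z76 * z95) fun z96 =>
  letR (z96 + z78) fun z97 =>
  letR z97 fun z154 =>
  letR (z90 * z154) fun z155 =>
  letR (z20 * z155) fun z157 =>
  letR (z162 + z157) fun z165 =>
  letR z165 fun z172 =>
  letR (z20 * z172) fun z173 =>
  letR ((1 : ℝ) - z173) fun z174 =>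
  posR z174 <|
  letR (z20 * z163) fun z175 =>
  letR ((1 : ℝ) - z175) fun z176 =>
  posR z176 <|
  letR z55 fun z98 =>
  letR (r * z98) fun z99 =>
  letR ((9 / 16 : ℝ) * z30) fun z100 =>
  letR (z99 + z100) fun z101 =>
  letR z101 fun z149 =>
  letR (z89 * z149) fun z150 =>
  letR (m ^ 2) fun z102 =>
  letR ((9 / 5 : ℝ) * z102) fun z138 =>
  letR (z138 + (3 / 2 : ℝ)) fun z139 =>
  letR (z20 ^ 2) fun z103 =>
  letR ((3 / 10 : ℝ) * z103) fun z141 =>
  letR (z139 + z141) fun z142 =>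
  letR (z102 ^ 2) fun z124 =>
  letR (z102 * z103) fun z123 =>
  letR (z124 + z123) fun z143 =>
  letR ((3 : ℝ) * z143) fun z144 =>
  letR (z142 + z144) fun z145 =>
  letR (z103 ^ 2) fun z125 =>
  letR ((1 / 5 : ℝ) * z125) fun z147 =>
  letR (z145 + z147) fun z148 =>
  letR (z150 - z148) fun z151 =>
  letR (z162 + z163) fun z166 =>
  letR z166 fun z201 =>
  letR (z102 + z103) fun z126 =>
  letR (z126 + z124) fun z127 =>
  letR (z127 + z125) fun z128 =>
  letR z128 fun z130 =>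
  letR ((3 / 5 : ℝ) * z130) fun z131 =>
  letR (z131 + (3 / 2 : ℝ)) fun z132 =>
  letR ((2 : ℝ) * z123) fun z133 =>
  letR (z132 + z133) fun z134 =>
  letR z134 fun z135 =>
  letR (m * z135) fun z136 =>
  letR (z201 * z136) fun z202 =>
  letR (z151 - z202) fun z203 =>
  letR (m + z20) fun z104 =>
  letR z104 fun z105 =>
  letR (z105 ^ 2) fun z106 =>
  letR ((1 / 10 : ℝ) * z106) fun z108 =>
  letR (z108 + (3 / 20 : ℝ)) fun z109 =>
  letR (z106 * z109) fun z110 =>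
  letR (z110 + (3 / 4 : ℝ)) fun z111 =>
  letR (z106 * z111) fun z112 =>
  letR ((1 : ℝ) - z112) fun z113 =>
  letR (z162 * z169) fun z177 =>
  letR (z177 - z153) fun z178 =>
  letR z178 fun z181 =>
  letR (z20 * z181) fun z182 =>
  letR (z166 + z182) fun z183 =>
  letR z183 fun z187 =>
  letR (z20 * z187) fun z188 =>
  letR (z188 + (1 : ℝ)) fun z189 =>
  letR (√z189) fun z190 =>
  letR (z190 + (1 : ℝ)) fun z191 =>
  invR z191 fun z192 =>
  letR (z187 * z192) fun z199 =>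
  letR (z199 ^ 2) fun z204 =>
  letR (z178 - z204) fun z205 =>
  letR z205 fun z206 =>
  letR (z113 * z206) fun z207 =>
  letR (m - z20) fun z114 =>
  letR z114 fun z115 =>
  letR (z115 ^ 2) fun z116 =>
  letR ((1 / 10 : ℝ) * z116) fun z117 =>
  letR (z117 + (3 / 20 : ℝ)) fun z118 =>
  letR (z116 * z118) fun z119 =>
  letR (z119 + (3 / 4 : ℝ)) fun z120 =>
  letR (z116 * z120) fun z121 =>
  letR ((1 : ℝ) - z121) fun z122 =>
  letR (z172 * z163) fun z179 =>
  letR (z179 - z155) fun z180 =>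
  letR z180 fun z184 =>
  letR (z20 * z184) fun z185 =>
  letR (z185 - z166) fun z186 =>
  letR z186 fun z193 =>
  letR (z20 * z193) fun z194 =>
  letR (z194 + (1 : ℝ)) fun z195 =>
  letR (√z195) fun z196 =>
  letR (z196 + (1 : ℝ)) fun z197 =>
  invR z197 fun z198 =>
  letR (z193 * z198) fun z200 =>
  letR (z200 ^ 2) fun z208 =>
  letR (z180 - z208) fun z209 =>
  letR z209 fun z210 =>
  letR (z122 * z210) fun z211 =>
  letR (z207 + z211) fun z212 =>
  letR ((1 / 2 : ℝ) * z212) fun z213 =>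
  letR (z203 + z213) fun z214 =>
  posR z214 <|
  letR ((3 / 8 : ℝ) * z159) fun z215 =>
  letR (z20 * z215) fun z220 =>
  letR (z220 + (1 : ℝ)) fun z221 =>
  posR z221 <|
  letR ((3 / 8 : ℝ) * z161) fun z216 =>
  letR (z216 - z156) fun z217 =>
  letR z217 fun z222 =>
  letR (z20 * z222) fun z223 =>
  letR (z223 + (1 : ℝ)) fun z224 =>
  posR z224 <|
  letR (z215 + z157) fun z218 =>
  letR z218 fun z225 =>
  letR (z20 * z225) fun z226 =>
  letR ((1 : ℝ) - z226) fun z227 =>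
  posR z227 <|
  letR (z20 * z216) fun z228 =>
  letR ((1 : ℝ) - z228) fun z229 =>
  posR z229 <|
  letR (z215 + z216) fun z219 =>
  letR z219 fun z254 =>
  letR (z254 * z136) fun z255 =>
  letR (z151 - z255) fun z256 =>
  letR (z215 * z222) fun z230 =>
  letR (z230 - z153) fun z231 =>
  letR z231 fun z234 =>
  letR (z20 * z234) fun z235 =>
  letR (z219 + z235) fun z236 =>
  letR z236 fun z240 =>
  letR (z20 * z240) fun z241 =>
  letR (z241 + (1 : ℝ)) fun z242 =>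
  letR (√z242) fun z243 =>
  letR (z243 + (1 : ℝ)) fun z244 =>
  invR z244 fun z245 =>
  letR (z240 * z245) fun z252 =>
  letR (z252 ^ 2) fun z257 =>
  letR (z231 - z257) fun z258 =>
  letR z258 fun z259 =>
  letR (z113 * z259) fun z260 =>
  letR (z225 * z216) fun z232 =>
  letR (z232 - z155) fun z233 =>
  letR z233 fun z237 =>
  letR (z20 * z237) fun z238 =>
  letR (z238 - z219) fun z239 =>
  letR z239 fun z246 =>
  letR (z20 * z246) fun z247 =>
  letR (z247 + (1 : ℝ)) fun z248 =>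
  letR (√z248) fun z249 =>
  letR (z249 + (1 : ℝ)) fun z250 =>
  invR z250 fun z251 =>
  letR (z246 * z251) fun z253 =>
  letR (z253 ^ 2) fun z261 =>
  letR (z233 - z261) fun z262 =>
  letR z262 fun z263 =>
  letR (z122 * z263) fun z264 =>
  letR (z260 + z264) fun z265 =>
  letR ((1 / 2 : ℝ) * z265) fun z266 =>
  letR (z256 + z266) fun z267 =>
  posR z267 <|
  True

theorem z3_S {ε : Fin 4 → ℝ} (gs : ℕ) (hε : ∀ i, |ε i| ≤ 1) (ps : ℕ) (x0 x1 x2 x3 : AF) (m y r u3 : ℝ)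
    (h0 : Rel ε x0 m) (h1 : Rel ε x1 y) (h2 : Rel ε x2 r) (h3 : Rel ε x3 u3) :
    z3_B gs ps x0 x1 x2 x3 = true → z3_R gs ps m y r u3 := by
  delta z3_B z3_R
  exact parS fun z3 t3 g3 =>
  parS fun z4 t4 g4 =>
  parS fun z5 t5 g5 =>
  parS fun z6 t6 g6 =>
  parS fun z7 t7 g7 =>
  parS fun z8 t8 g8 =>
  parS fun z9 t9 g9 =>
  parS fun z10 t10 g10 =>
  parS fun z11 t11 g11 =>
  parS fun z12 t12 g12 =>
  parS fun z13 t13 g13 =>
  parS fun z14 t14 g14 =>
  parS fun z15 t15 g15 =>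
  parS fun z16 t16 g16 =>
  mulS hε g16 h0 fun z17 t17 g17 =>
  addS g15 g17 fun z18 t18 g18 =>
  normS g18 fun z19 t19 g19 =>
  mulS hε h1 g19 fun z20 t20 g20 =>
  mulS hε g8 h2 fun z21 t21 g21 =>
  addS g7 g21 fun z22 t22 g22 =>
  posS hε g22 <|
  mulS hε g10 h2 fun z23 t23 g23 =>
  addS g9 g23 fun z24 t24 g24 =>
  posS hε g24 <|
  mulS hε g12 h2 fun z25 t25 g25 =>
  addS g11 g25 fun z26 t26 g26 =>
  posS hε g26 <|
  mulS hε g14 h2 fun z27 t27 g27 =>
  addS g13 g27 fun z28 t28 g28 =>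
  posS hε g28 <|
  mulS hε g6 h2 fun z29 t29 g29 =>
  addS g5 g29 fun z30 t30 g30 =>
  posS hε g30 <|
  smulS hε g22 k32 fun z31 t31 g31 =>
  addS g31 g24 fun z33 t33 g33 =>
  addS g33 g26 fun z34 t34 g34 =>
  smulS hε g28 k56 fun z32 t32 g32 =>
  addS g34 g32 fun z35 t35 g35 =>
  addS g22 g24 fun z36 t36 g36 =>
  addS g36 g26 fun z37 t37 g37 =>
  addS g37 g28 fun z38 t38 g38 =>
  smulS hε g24 k2 fun z39 t39 g39 =>
  addS g31 g39 fun z41 t41 g41 =>
  addS g41 g26 fun z42 t42 g42 =>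
  smulS hε g28 k57 fun z40 t40 g40 =>
  addS g42 g40 fun z43 t43 g43 =>
  smulS hε g22 k13 fun z44 t44 g44 =>
  addS g44 g24 fun z46 t46 g46 =>
  smulS hε g26 k4 fun z45 t45 g45 =>
  addS g46 g45 fun z47 t47 g47 =>
  addS g47 g28 fun z48 t48 g48 =>
  smulS hε g22 k58 fun z49 t49 g49 =>
  smulS hε g24 k59 fun z50 t50 g50 =>
  addS g49 g50 fun z53 t53 g53 =>
  smulS hε g26 k60 fun z51 t51 g51 =>
  addS g53 g51 fun z54 t54 g54 =>
  smulS hε g28 k61 fun z52 t52 g52 =>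
  addS g54 g52 fun z55 t55 g55 =>
  smulS hε g22 k62 fun z56 t56 g56 =>
  smulS hε g24 k63 fun z57 t57 g57 =>
  addS g56 g57 fun z60 t60 g60 =>
  smulS hε g26 k50 fun z58 t58 g58 =>
  addS g60 g58 fun z61 t61 g61 =>
  smulS hε g28 k62 fun z59 t59 g59 =>
  addS g61 g59 fun z62 t62 g62 =>
  smulS hε g22 k53 fun z63 t63 g63 =>
  smulS hε g24 k64 fun z64 t64 g64 =>
  addS g63 g64 fun z67 t67 g67 =>
  smulS hε g26 k65 fun z65 t65 g65 =>
  addS g67 g65 fun z68 t68 g68 =>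
  smulS hε g28 k66 fun z66 t66 g66 =>
  addS g68 g66 fun z69 t69 g69 =>
  mulS hε g4 g20 fun z70 t70 g70 =>
  addS g3 g70 fun z71 t71 g71 =>
  normS g71 fun z72 t72 g72 =>
  mulS hε g20 g72 fun z73 t73 g73 =>
  addcS g73 k67 fun z74 t74 g74 =>
  posS hε g74 <|
  rsubS g73 k31 fun z75 t75 g75 =>
  posS hε g75 <|
  rsubS g38 k20 fun z79 t79 g79 =>
  posS hε g79 <|
  normS g30 fun z77 t77 g77 =>
  mulS hε h2 g77 fun z78 t78 g78 =>
  sqrS hε h2 fun z76 t76 g76 =>
  normS g35 fun z80 t80 g80 =>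
  mulS hε g76 g80 fun z81 t81 g81 =>
  addS g78 g81 fun z82 t82 g82 =>
  rsubS g82 k20 fun z83 t83 g83 =>
  posS hε g83 <|
  smulS hε g72 k21 fun z88 t88 g88 =>
  sqrS hε g73 fun z85 t85 g85 =>
  addcS g85 k20 fun z86 t86 g86 =>
  invS hε g86 fun z87 t87 g87 =>
  mulS hε g88 g87 fun z89 t89 g89 =>
  normS g62 fun z91 t91 g91 =>
  mulS hε g76 g91 fun z92 t92 g92 =>
  smulS hε g78 k13 fun z93 t93 g93 =>
  addS g92 g93 fun z94 t94 g94 =>
  normS g94 fun z158 t158 g158 =>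
  mulS hε g89 g158 fun z159 t159 g159 =>
  smulS hε g159 k22 fun z162 t162 g162 =>
  mulS hε g20 g162 fun z167 t167 g167 =>
  addcS g167 k20 fun z168 t168 g168 =>
  posS hε g168 <|
  normS g69 fun z160 t160 g160 =>
  mulS hε g89 g160 fun z161 t161 g161 =>
  smulS hε g161 k22 fun z163 t163 g163 =>
  mulS hε g72 g89 fun z90 t90 g90 =>
  normS g48 fun z152 t152 g152 =>
  mulS hε g90 g152 fun z153 t153 g153 =>
  mulS hε g20 g153 fun z156 t156 g156 =>
  subS g163 g156 fun z164 t164 g164 =>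
  normS g164 fun z169 t169 g169 =>
  mulS hε g20 g169 fun z170 t170 g170 =>
  addcS g170 k20 fun z171 t171 g171 =>
  posS hε g171 <|
  normS g43 fun z95 t95 g95 =>
  mulS hε g76 g95 fun z96 t96 g96 =>
  addS g96 g78 fun z97 t97 g97 =>
  normS g97 fun z154 t154 g154 =>
  mulS hε g90 g154 fun z155 t155 g155 =>
  mulS hε g20 g155 fun z157 t157 g157 =>
  addS g162 g157 fun z165 t165 g165 =>
  normS g165 fun z172 t172 g172 =>
  mulS hε g20 g172 fun z173 t173 g173 =>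
  rsubS g173 k20 fun z174 t174 g174 =>
  posS hε g174 <|
  mulS hε g20 g163 fun z175 t175 g175 =>
  rsubS g175 k20 fun z176 t176 g176 =>
  posS hε g176 <|
  normS g55 fun z98 t98 g98 =>
  mulS hε h2 g98 fun z99 t99 g99 =>
  smulS hε g30 k23 fun z100 t100 g100 =>
  addS g99 g100 fun z101 t101 g101 =>
  normS g101 fun z149 t149 g149 =>
  mulS hε g89 g149 fun z150 t150 g150 =>
  sqrS hε h0 fun z102 t102 g102 =>
  mulS hε (cst_rel k24) g102 fun z138 t138 g138 =>
  addcS g138 k25 fun z139 t139 g139 =>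
  sqrS hε g20 fun z103 t103 g103 =>
  mulS hε (cst_rel k26) g103 fun z141 t141 g141 =>
  addS g139 g141 fun z142 t142 g142 =>
  sqrS hε g102 fun z124 t124 g124 =>
  mulS hε g102 g103 fun z123 t123 g123 =>
  addS g124 g123 fun z143 t143 g143 =>
  smulS hε g143 k0 fun z144 t144 g144 =>
  addS g142 g144 fun z145 t145 g145 =>
  sqrS hε g103 fun z125 t125 g125 =>
  mulS hε (cst_rel k27) g125 fun z147 t147 g147 =>
  addS g145 g147 fun z148 t148 g148 =>
  subS g150 g148 fun z151 t151 g151 =>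
  addS g162 g163 fun z166 t166 g166 =>
  normS g166 fun z201 t201 g201 =>
  addS g102 g103 fun z126 t126 g126 =>
  addS g126 g124 fun z127 t127 g127 =>
  addS g127 g125 fun z128 t128 g128 =>
  normS g128 fun z130 t130 g130 =>
  mulS hε (cst_rel k28) g130 fun z131 t131 g131 =>
  addcS g131 k25 fun z132 t132 g132 =>
  smulS hε g123 k21 fun z133 t133 g133 =>
  addS g132 g133 fun z134 t134 g134 =>
  normS g134 fun z135 t135 g135 =>
  mulS hε h0 g135 fun z136 t136 g136 =>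
  mulS hε g201 g136 fun z202 t202 g202 =>
  subS g151 g202 fun z203 t203 g203 =>
  addS h0 g20 fun z104 t104 g104 =>
  normS g104 fun z105 t105 g105 =>
  sqrS hε g105 fun z106 t106 g106 =>
  mulS hε (cst_rel k29) g106 fun z108 t108 g108 =>
  addcS g108 k30 fun z109 t109 g109 =>
  mulS hε g106 g109 fun z110 t110 g110 =>
  addcS g110 k31 fun z111 t111 g111 =>
  mulS hε g106 g111 fun z112 t112 g112 =>
  rsubS g112 k20 fun z113 t113 g113 =>
  mulS hε g162 g169 fun z177 t177 g177 =>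
  subS g177 g153 fun z178 t178 g178 =>
  normS g178 fun z181 t181 g181 =>
  mulS hε g20 g181 fun z182 t182 g182 =>
  addS g166 g182 fun z183 t183 g183 =>
  normS g183 fun z187 t187 g187 =>
  mulS hε g20 g187 fun z188 t188 g188 =>
  addcS g188 k20 fun z189 t189 g189 =>
  sqrtS hε g189 fun z190 t190 g190 =>
  addcS g190 k20 fun z191 t191 g191 =>
  invS hε g191 fun z192 t192 g192 =>
  mulS hε g187 g192 fun z199 t199 g199 =>
  sqrS hε g199 fun z204 t204 g204 =>
  subS g178 g204 fun z205 t205 g205 =>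
  normS g205 fun z206 t206 g206 =>
  mulS hε g113 g206 fun z207 t207 g207 =>
  subS h0 g20 fun z114 t114 g114 =>
  normS g114 fun z115 t115 g115 =>
  sqrS hε g115 fun z116 t116 g116 =>
  mulS hε (cst_rel k29) g116 fun z117 t117 g117 =>
  addcS g117 k30 fun z118 t118 g118 =>
  mulS hε g116 g118 fun z119 t119 g119 =>
  addcS g119 k31 fun z120 t120 g120 =>
  mulS hε g116 g120 fun z121 t121 g121 =>
  rsubS g121 k20 fun z122 t122 g122 =>
  mulS hε g172 g163 fun z179 t179 g179 =>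
  subS g179 g155 fun z180 t180 g180 =>
  normS g180 fun z184 t184 g184 =>
  mulS hε g20 g184 fun z185 t185 g185 =>
  subS g185 g166 fun z186 t186 g186 =>
  normS g186 fun z193 t193 g193 =>
  mulS hε g20 g193 fun z194 t194 g194 =>
  addcS g194 k20 fun z195 t195 g195 =>
  sqrtS hε g195 fun z196 t196 g196 =>
  addcS g196 k20 fun z197 t197 g197 =>
  invS hε g197 fun z198 t198 g198 =>
  mulS hε g193 g198 fun z200 t200 g200 =>
  sqrS hε g200 fun z208 t208 g208 =>
  subS g180 g208 fun z209 t209 g209 =>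
  normS g209 fun z210 t210 g210 =>
  mulS hε g122 g210 fun z211 t211 g211 =>
  addS g207 g211 fun z212 t212 g212 =>
  smulS hε g212 k4 fun z213 t213 g213 =>
  addS g203 g213 fun z214 t214 g214 =>
  posS hε g214 <|
  smulS hε g159 k13 fun z215 t215 g215 =>
  mulS hε g20 g215 fun z220 t220 g220 =>
  addcS g220 k20 fun z221 t221 g221 =>
  posS hε g221 <|
  smulS hε g161 k13 fun z216 t216 g216 =>
  subS g216 g156 fun z217 t217 g217 =>
  normS g217 fun z222 t222 g222 =>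
  mulS hε g20 g222 fun z223 t223 g223 =>
  addcS g223 k20 fun z224 t224 g224 =>
  posS hε g224 <|
  addS g215 g157 fun z218 t218 g218 =>
  normS g218 fun z225 t225 g225 =>
  mulS hε g20 g225 fun z226 t226 g226 =>
  rsubS g226 k20 fun z227 t227 g227 =>
  posS hε g227 <|
  mulS hε g20 g216 fun z228 t228 g228 =>
  rsubS g228 k20 fun z229 t229 g229 =>
  posS hε g229 <|
  addS g215 g216 fun z219 t219 g219 =>
  normS g219 fun z254 t254 g254 =>
  mulS hε g254 g136 fun z255 t255 g255 =>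
  subS g151 g255 fun z256 t256 g256 =>
  mulS hε g215 g222 fun z230 t230 g230 =>
  subS g230 g153 fun z231 t231 g231 =>
  normS g231 fun z234 t234 g234 =>
  mulS hε g20 g234 fun z235 t235 g235 =>
  addS g219 g235 fun z236 t236 g236 =>
  normS g236 fun z240 t240 g240 =>
  mulS hε g20 g240 fun z241 t241 g241 =>
  addcS g241 k20 fun z242 t242 g242 =>
  sqrtS hε g242 fun z243 t243 g243 =>
  addcS g243 k20 fun z244 t244 g244 =>
  invS hε g244 fun z245 t245 g245 =>
  mulS hε g240 g245 fun z252 t252 g252 =>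
  sqrS hε g252 fun z257 t257 g257 =>
  subS g231 g257 fun z258 t258 g258 =>
  normS g258 fun z259 t259 g259 =>
  mulS hε g113 g259 fun z260 t260 g260 =>
  mulS hε g225 g216 fun z232 t232 g232 =>
  subS g232 g155 fun z233 t233 g233 =>
  normS g233 fun z237 t237 g237 =>
  mulS hε g20 g237 fun z238 t238 g238 =>
  subS g238 g219 fun z239 t239 g239 =>
  normS g239 fun z246 t246 g246 =>
  mulS hε g20 g246 fun z247 t247 g247 =>
  addcS g247 k20 fun z248 t248 g248 =>
  sqrtS hε g248 fun z249 t249 g249 =>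
  addcS g249 k20 fun z250 t250 g250 =>
  invS hε g250 fun z251 t251 g251 =>
  mulS hε g246 g251 fun z253 t253 g253 =>
  sqrS hε g253 fun z261 t261 g261 =>
  subS g233 g261 fun z262 t262 g262 =>
  normS g262 fun z263 t263 g263 =>
  mulS hε g122 g263 fun z264 t264 g264 =>
  addS g260 g264 fun z265 t265 g265 =>
  smulS hε g265 k4 fun z266 t266 g266 =>
  addS g256 g266 fun z267 t267 g267 =>
  posS hε g267 <|
  fun _ => trivial

def z3_Spec (ca cb m y r : ℝ) : Prop :=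
  ∃ ta tb pw qw pa0 pb0 pa1 pb1 pa2 pb2 pa3 pb3 d v0 v1 v2 v3 w w31 SL Sv SRn SRp S0 S1 S2 tau t rw rr sh a1 sa f1a sb g2a eh ep dp f2a an en dn f3a c0 mm dd m4 md d4 E2 base La E1 Y0u Y0 G0a X0a i0a j0a Y1u Y1 G1a X1a i1a j1a f1b g2b f2b f3b Lb G0b X0b i0b j0b G1b X1b i1b j1b : ℝ,
    d = (y * (ca + (cb * m))) ∧
    v0 = (pa0 + (pb0 * r)) ∧
    0 ≤ v0 ∧
    v1 = (pa1 + (pb1 * r)) ∧
    0 ≤ v1 ∧
    v2 = (pa2 + (pb2 * r)) ∧
    0 ≤ v2 ∧
    v3 = (pa3 + (pb3 * r)) ∧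
    0 ≤ v3 ∧
    w = (pw + (qw * r)) ∧
    0 ≤ w ∧
    w31 = ((3 / 2 : ℝ) * v0) ∧
    SL = (((w31 + v1) + v2) + ((9 / 4 : ℝ) * v3)) ∧
    Sv = (((v0 + v1) + v2) + v3) ∧
    SRn = (((w31 + ((5 / 8 : ℝ) * v1)) + v2) + ((45 / 32 : ℝ) * v3)) ∧
    SRp = (((((3 / 8 : ℝ) * v0) + v1) + ((1 / 2 : ℝ) * v2)) + v3) ∧
    S0 = (((((1085 / 512 : ℝ) * v0) + ((925 / 512 : ℝ) * v1)) + ((877 / 512 : ℝ) * v2)) + ((179 / 64 : ℝ) * v3)) ∧
    S1 = (((((45 / 128 : ℝ) * v0) + ((1 / 8 : ℝ) * v1)) + ((13 / 64 : ℝ) * v2)) + ((45 / 128 : ℝ) * v3)) ∧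
    S2 = (((((-1 / 8 : ℝ) * v0) + ((-17 / 64 : ℝ) * v1)) + ((-7 / 64 : ℝ) * v2)) + ((-7 / 32 : ℝ) * v3)) ∧
    tau = (ta + (tb * d)) ∧
    t = (d * tau) ∧
    0 ≤ (t + (-1 / 2 : ℝ)) ∧
    0 ≤ ((3 / 4 : ℝ) - t) ∧
    0 ≤ ((1 : ℝ) - Sv) ∧
    rw = (r * w) ∧
    rr = (r ^ 2) ∧
    0 ≤ ((1 : ℝ) - (rw + (rr * SL))) ∧
    0 < ((t ^ 2) + (1 : ℝ)) ∧
    sh = (((2 : ℝ) * tau) * (((t ^ 2) + (1 : ℝ))⁻¹)) ∧
    a1 = ((rr * S1) + ((3 / 8 : ℝ) * rw)) ∧
    sa = (sh * a1) ∧
    f1a = ((0 : ℝ) * sa) ∧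
    0 ≤ ((d * f1a) + (1 : ℝ)) ∧
    sb = (sh * S2) ∧
    g2a = ((0 : ℝ) * sb) ∧
    eh = (tau * sh) ∧
    ep = (eh * SRp) ∧
    dp = (d * ep) ∧
    f2a = (g2a - dp) ∧
    0 ≤ ((d * f2a) + (1 : ℝ)) ∧
    an = ((rr * SRn) + rw) ∧
    en = (eh * an) ∧
    dn = (d * en) ∧
    f3a = (f1a + dn) ∧
    0 ≤ ((1 : ℝ) - (d * f3a)) ∧
    0 ≤ ((1 : ℝ) - (d * g2a)) ∧
    c0 = ((r * S0) + ((9 / 16 : ℝ) * w)) ∧
    mm = (m ^ 2) ∧
    dd = (d ^ 2) ∧
    m4 = (mm ^ 2) ∧
    md = (mm * dd) ∧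
    d4 = (dd ^ 2) ∧
    E2 = ((((((9 / 5 : ℝ) * mm) + (3 / 2 : ℝ)) + ((3 / 10 : ℝ) * dd)) + ((3 : ℝ) * (m4 + md))) + ((1 / 5 : ℝ) * d4)) ∧
    base = ((sh * c0) - E2) ∧
    La = (f1a + g2a) ∧
    E1 = (m * ((((3 / 5 : ℝ) * (((mm + dd) + m4) + d4)) + (3 / 2 : ℝ)) + ((2 : ℝ) * md))) ∧
    Y0u = ((m + d) ^ 2) ∧
    Y0 = ((1 : ℝ) - (Y0u * ((Y0u * (((1 / 10 : ℝ) * Y0u) + (3 / 20 : ℝ))) + (3 / 4 : ℝ)))) ∧
    G0a = ((f1a * f2a) - ep) ∧
    X0a = (La + (d * G0a)) ∧
    0 < ((√((d * X0a) + (1 : ℝ))) + (1 : ℝ)) ∧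
    i0a = (((√((d * X0a) + (1 : ℝ))) + (1 : ℝ))⁻¹) ∧
    j0a = (X0a * i0a) ∧
    Y1u = ((m - d) ^ 2) ∧
    Y1 = ((1 : ℝ) - (Y1u * ((Y1u * (((1 / 10 : ℝ) * Y1u) + (3 / 20 : ℝ))) + (3 / 4 : ℝ)))) ∧
    G1a = ((f3a * g2a) - en) ∧
    X1a = ((d * G1a) - La) ∧
    0 < ((√((d * X1a) + (1 : ℝ))) + (1 : ℝ)) ∧
    i1a = (((√((d * X1a) + (1 : ℝ))) + (1 : ℝ))⁻¹) ∧
    j1a = (X1a * i1a) ∧
    0 ≤ ((base - (La * E1)) + ((1 / 2 : ℝ) * ((Y0 * (G0a - (j0a ^ 2))) + (Y1 * (G1a - (j1a ^ 2)))))) ∧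
    f1b = ((3 / 8 : ℝ) * sa) ∧
    0 ≤ ((d * f1b) + (1 : ℝ)) ∧
    g2b = ((3 / 8 : ℝ) * sb) ∧
    f2b = (g2b - dp) ∧
    0 ≤ ((d * f2b) + (1 : ℝ)) ∧
    f3b = (f1b + dn) ∧
    0 ≤ ((1 : ℝ) - (d * f3b)) ∧
    0 ≤ ((1 : ℝ) - (d * g2b)) ∧
    Lb = (f1b + g2b) ∧
    G0b = ((f1b * f2b) - ep) ∧
    X0b = (Lb + (d * G0b)) ∧
    0 < ((√((d * X0b) + (1 : ℝ))) + (1 : ℝ)) ∧
    i0b = (((√((d * X0b) + (1 : ℝ))) + (1 : ℝ))⁻¹) ∧
    j0b = (X0b * i0b) ∧
    G1b = ((f3b * g2b) - en) ∧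
    X1b = ((d * G1b) - Lb) ∧
    0 < ((√((d * X1b) + (1 : ℝ))) + (1 : ℝ)) ∧
    i1b = (((√((d * X1b) + (1 : ℝ))) + (1 : ℝ))⁻¹) ∧
    j1b = (X1b * i1b) ∧
    0 ≤ ((base - (Lb * E1)) + ((1 / 2 : ℝ) * ((Y0 * (G0b - (j0b ^ 2))) + (Y1 * (G1b - (j1b ^ 2))))))

theorem z3_E {gs ps : ℕ} {m y r u3 : ℝ} (h : z3_R gs ps m y r u3) : z3_Spec (parV gs 0) (parV gs 1) m y r := by
  delta z3_R at h
  exact letR_ex h fun ta _ h =>
  letR_ex h fun tb _ h =>
  letR_ex h fun pw _ h =>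
  letR_ex h fun qw _ h =>
  letR_ex h fun pa0 _ h =>
  letR_ex h fun pb0 _ h =>
  letR_ex h fun pa1 _ h =>
  letR_ex h fun pb1 _ h =>
  letR_ex h fun pa2 _ h =>
  letR_ex h fun pb2 _ h =>
  letR_ex h fun pa3 _ h =>
  letR_ex h fun pb3 _ h =>
  letR_in h fun h =>
  letR_in h fun h =>
  letR_in h fun h =>
  letR_in h fun h =>
  letR_in h fun h =>
  letR_ex h fun d q1 h =>
  letR_in h fun h =>
  letR_ex h fun v0 q2 h =>
  posR_ex h fun q3 h =>
  letR_in h fun h =>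
  letR_ex h fun v1 q4 h =>
  posR_ex h fun q5 h =>
  letR_in h fun h =>
  letR_ex h fun v2 q6 h =>
  posR_ex h fun q7 h =>
  letR_in h fun h =>
  letR_ex h fun v3 q8 h =>
  posR_ex h fun q9 h =>
  letR_in h fun h =>
  letR_ex h fun w q10 h =>
  posR_ex h fun q11 h =>
  letR_ex h fun w31 q12 h =>
  letR_in h fun h =>
  letR_in h fun h =>
  letR_in h fun h =>
  letR_ex h fun SL q13 h =>
  letR_in h fun h =>
  letR_in h fun h =>
  letR_ex h fun Sv q14 h =>
  letR_in h fun h =>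
  letR_in h fun h =>
  letR_in h fun h =>
  letR_in h fun h =>
  letR_ex h fun SRn q15 h =>
  letR_in h fun h =>
  letR_in h fun h =>
  letR_in h fun h =>
  letR_in h fun h =>
  letR_ex h fun SRp q16 h =>
  letR_in h fun h =>
  letR_in h fun h =>
  letR_in h fun h =>
  letR_in h fun h =>
  letR_in h fun h =>
  letR_in h fun h =>
  letR_ex h fun S0 q17 h =>
  letR_in h fun h =>
  letR_in h fun h =>
  letR_in h fun h =>
  letR_in h fun h =>
  letR_in h fun h =>
  letR_in h fun h =>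
  letR_ex h fun S1 q18 h =>
  letR_in h fun h =>
  letR_in h fun h =>
  letR_in h fun h =>
  letR_in h fun h =>
  letR_in h fun h =>
  letR_in h fun h =>
  letR_ex h fun S2 q19 h =>
  letR_in h fun h =>
  letR_ex h fun tau q20 h =>
  letR_in h fun h =>
  letR_ex h fun t q21 h =>
  letR_in h fun h =>
  posR_ex h fun q22 h =>
  letR_in h fun h =>
  posR_ex h fun q23 h =>
  letR_in h fun h =>
  posR_ex h fun q24 h =>
  letR_in h fun h =>
  letR_ex h fun rw q25 h =>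
  letR_ex h fun rr q26 h =>
  letR_in h fun h =>
  letR_in h fun h =>
  letR_in h fun h =>
  letR_in h fun h =>
  posR_ex h fun q27 h =>
  letR_in h fun h =>
  letR_in h fun h =>
  letR_in h fun h =>
  invR_ex h fun q28 h =>
  letR_in h fun h =>
  letR_ex h fun sh q29 h =>
  letR_in h fun h =>
  letR_in h fun h =>
  letR_in h fun h =>
  letR_ex h fun a1 q30 h =>
  letR_in h fun h =>
  letR_ex h fun sa q31 h =>
  letR_ex h fun f1a q32 h =>
  letR_in h fun h =>
  letR_in h fun h =>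
  posR_ex h fun q33 h =>
  letR_in h fun h =>
  letR_ex h fun sb q34 h =>
  letR_ex h fun g2a q35 h =>
  letR_ex h fun eh q36 h =>
  letR_in h fun h =>
  letR_ex h fun ep q37 h =>
  letR_ex h fun dp q38 h =>
  letR_ex h fun f2a q39 h =>
  letR_in h fun h =>
  letR_in h fun h =>
  letR_in h fun h =>
  posR_ex h fun q40 h =>
  letR_in h fun h =>
  letR_in h fun h =>
  letR_ex h fun an q41 h =>
  letR_in h fun h =>
  letR_ex h fun en q42 h =>
  letR_ex h fun dn q43 h =>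
  letR_ex h fun f3a q44 h =>
  letR_in h fun h =>
  letR_in h fun h =>
  letR_in h fun h =>
  posR_ex h fun q45 h =>
  letR_in h fun h =>
  letR_in h fun h =>
  posR_ex h fun q46 h =>
  letR_in h fun h =>
  letR_in h fun h =>
  letR_in h fun h =>
  letR_ex h fun c0 q47 h =>
  letR_in h fun h =>
  letR_in h fun h =>
  letR_ex h fun mm q48 h =>
  letR_in h fun h =>
  letR_in h fun h =>
  letR_ex h fun dd q49 h =>
  letR_in h fun h =>
  letR_in h fun h =>
  letR_ex h fun m4 q50 h =>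
  letR_ex h fun md q51 h =>
  letR_in h fun h =>
  letR_in h fun h =>
  letR_in h fun h =>
  letR_ex h fun d4 q52 h =>
  letR_in h fun h =>
  letR_ex h fun E2 q53 h =>
  letR_ex h fun base q54 h =>
  letR_ex h fun La q55 h =>
  letR_in h fun h =>
  letR_in h fun h =>
  letR_in h fun h =>
  letR_in h fun h =>
  letR_in h fun h =>
  letR_in h fun h =>
  letR_in h fun h =>
  letR_in h fun h =>
  letR_in h fun h =>
  letR_in h fun h =>
  letR_ex h fun E1 q56 h =>
  letR_in h fun h =>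
  letR_in h fun h =>
  letR_in h fun h =>
  letR_in h fun h =>
  letR_ex h fun Y0u q57 h =>
  letR_in h fun h =>
  letR_in h fun h =>
  letR_in h fun h =>
  letR_in h fun h =>
  letR_in h fun h =>
  letR_ex h fun Y0 q58 h =>
  letR_in h fun h =>
  letR_ex h fun G0a q59 h =>
  letR_in h fun h =>
  letR_in h fun h =>
  letR_ex h fun X0a q60 h =>
  letR_in h fun h =>
  letR_in h fun h =>
  letR_in h fun h =>
  letR_in h fun h =>
  letR_in h fun h =>
  invR_ex h fun q61 h =>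
  letR_ex h fun i0a q62 h =>
  letR_ex h fun j0a q63 h =>
  letR_in h fun h =>
  letR_in h fun h =>
  letR_in h fun h =>
  letR_in h fun h =>
  letR_in h fun h =>
  letR_in h fun h =>
  letR_ex h fun Y1u q64 h =>
  letR_in h fun h =>
  letR_in h fun h =>
  letR_in h fun h =>
  letR_in h fun h =>
  letR_in h fun h =>
  letR_ex h fun Y1 q65 h =>
  letR_in h fun h =>
  letR_ex h fun G1a q66 h =>
  letR_in h fun h =>
  letR_in h fun h =>
  letR_ex h fun X1a q67 h =>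
  letR_in h fun h =>
  letR_in h fun h =>
  letR_in h fun h =>
  letR_in h fun h =>
  letR_in h fun h =>
  invR_ex h fun q68 h =>
  letR_ex h fun i1a q69 h =>
  letR_ex h fun j1a q70 h =>
  letR_in h fun h =>
  letR_in h fun h =>
  letR_in h fun h =>
  letR_in h fun h =>
  letR_in h fun h =>
  letR_in h fun h =>
  letR_in h fun h =>
  posR_ex h fun q71 h =>
  letR_ex h fun f1b q72 h =>
  letR_in h fun h =>
  letR_in h fun h =>
  posR_ex h fun q73 h =>
  letR_ex h fun g2b q74 h =>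
  letR_ex h fun f2b q75 h =>
  letR_in h fun h =>
  letR_in h fun h =>
  letR_in h fun h =>
  posR_ex h fun q76 h =>
  letR_ex h fun f3b q77 h =>
  letR_in h fun h =>
  letR_in h fun h =>
  letR_in h fun h =>
  posR_ex h fun q78 h =>
  letR_in h fun h =>
  letR_in h fun h =>
  posR_ex h fun q79 h =>
  letR_ex h fun Lb q80 h =>
  letR_in h fun h =>
  letR_in h fun h =>
  letR_in h fun h =>
  letR_in h fun h =>
  letR_ex h fun G0b q81 h =>
  letR_in h fun h =>
  letR_in h fun h =>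
  letR_ex h fun X0b q82 h =>
  letR_in h fun h =>
  letR_in h fun h =>
  letR_in h fun h =>
  letR_in h fun h =>
  letR_in h fun h =>
  invR_ex h fun q83 h =>
  letR_ex h fun i0b q84 h =>
  letR_ex h fun j0b q85 h =>
  letR_in h fun h =>
  letR_in h fun h =>
  letR_in h fun h =>
  letR_in h fun h =>
  letR_in h fun h =>
  letR_ex h fun G1b q86 h =>
  letR_in h fun h =>
  letR_in h fun h =>
  letR_ex h fun X1b q87 h =>
  letR_in h fun h =>
  letR_in h fun h =>
  letR_in h fun h =>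
  letR_in h fun h =>
  letR_in h fun h =>
  invR_ex h fun q88 h =>
  letR_ex h fun i1b q89 h =>
  letR_ex h fun j1b q90 h =>
  letR_in h fun h =>
  letR_in h fun h =>
  letR_in h fun h =>
  letR_in h fun h =>
  letR_in h fun h =>
  letR_in h fun h =>
  letR_in h fun h =>
  posR_ex h fun q91 h =>
  ⟨ta, tb, pw, qw, pa0, pb0, pa1, pb1, pa2, pb2, pa3, pb3, d, v0, v1, v2, v3, w, w31, SL, Sv, SRn, SRp, S0, S1, S2, tau, t, rw, rr, sh, a1, sa, f1a, sb, g2a, eh, ep, dp, f2a, an, en, dn, f3a, c0, mm, dd, m4, md, d4, E2, base, La, E1, Y0u, Y0, G0a, X0a, i0a, j0a, Y1u, Y1, G1a, X1a, i1a, j1a, f1b, g2b, f2b, f3b, Lb, G0b, X0b, i0b, j0b, G1b, X1b, i1b, j1b, q1, q2, q3, q4, q5, q6, q7, q8, q9, q10, q11, q12, q13, q14, q15, q16, q17, q18, q19, q20, q21, q22, q23, q24, q25, q26, q27, q28, q29, q30, q31, q32, q33, q34, q35, q36, q37, q38, q39, q40, q41, q42, q43, q44, q45, q46, q47, q48, q49, q50, q51, q52, q53, q54, q55, q56, q57, q58,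 q59, q60, q61, q62, q63, q64, q65, q66, q67, q68, q69, q70, q71, q72, q73, q74, q75, q76, q77, q78, q79, q80, q81, q82, q83, q84, q85, q86, q87, q88, q89, q90, q91⟩

def PB (gs : ℕ) : Prog := fun j ps x0 x1 x2 x3 =>
  Nat.rec (motive := fun _ => Bool) (z0_B gs ps x0 x1 x2 x3) (fun j _ => Nat.rec (motive := fun _ => Bool) (z1_B gs ps x0 x1 x2 x3) (fun j _ => Nat.rec (motive := fun _ => Bool) (z2_B gs ps x0 x1 x2 x3) (fun j _ => z3_B gs ps x0 x1 x2 x3) j) j) j

def PR (gs : ℕ) : ℕ → ℕ → ℝ → ℝ → ℝ → ℝ → Prop := fun j ps m y r u3 =>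
  Nat.rec (motive := fun _ => Prop) (z0_R gs ps m y r u3) (fun j _ => Nat.rec (motive := fun _ => Prop) (z1_R gs ps m y r u3) (fun j _ => Nat.rec (motive := fun _ => Prop) (z2_R gs ps m y r u3) (fun j _ => z3_R gs ps m y r u3) j) j) j

theorem PS (gs : ℕ) : Sound (PB gs) (PR gs) := fun _ hε j => match j with
  | 0 => z0_S gs hε
  | 1 => z1_S gs hε
  | 2 => z2_S gs hε
  | _ + 3 => z3_S gs hε

theorem PE {j gs ps : ℕ} {m y r u3 : ℝ} : PR gs j ps m y r u3 → z0_Spec (parV gs 0) (parV gs 1) m y r ∨ z1_Spec (parV gs 0) (parV gs 1) m y r ∨ z2_Spec (parV gs 0) (parV gs 1) m y r ∨ z3_Spec (parV gs 0) (parV gs 1) m y r := match j with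
  | 0 => fun h => Or.inl (@z0_E gs ps m y r u3 h)
  | 1 => fun h => Or.inr (Or.inl (@z1_E gs ps m y r u3 h))
  | 2 => fun h => Or.inr (Or.inr (Or.inl (@z2_E gs ps m y r u3 h)))
  | _ + 3 => fun h => Or.inr (Or.inr (Or.inr (@z3_E gs ps m y r u3 h)))

theorem of_good {gs l0 h0 l1 h1 l2 h2 l3 h3 : ℕ} (h : Good (PR gs) l0 h0 l1 h1 l2 h2 l3 h3) {m y r u3 : ℝ}
    (hb : InBox l0 h0 l1 h1 l2 h2 l3 h3 m y r u3) : z0_Spec (parV gs 0) (parV gs 1) m y r ∨ z1_Spec (parV gs 0) (parV gs 1) m y r ∨ z2_Spec (parV gs 0) (parV gs 1) m y r ∨ z3_Spec (parV gs 0) (parV gs 1) m y r := by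
  obtain ⟨j, ps, h⟩ := h m y r u3 hb
  exact PE h

def l0 : Tree := Tree.leaf 0
def l1 : Tree := Tree.leaf 1
def l2 : Tree := Tree.leaf 2
def l3 : Tree := Tree.leaf 3

end

end Crest.Agent.R307.LSa
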