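import Crest.Agent.R307.AA

set_option autoImplicit false
set_option maxRecDepth 100000
set_option linter.unusedVariables false

namespace Crest.Agent.R307.LSb
open Crest.Agent.R307.AA

noncomputable section

theorem k0 : (3 : ℝ) = val 4722367327294575345664 := by norm_num [val]
theorem k1 : (3 / 2 : ℝ) = val 4722366905082110279680 := by norm_num [val]
theorem k2 : (1 / 2 : ℝ) = val 4722366623607133569024 := by norm_num [val]
theorem k3 : (15 / 8 : ℝ) = val 4722367010635226546176 := by norm_num [val]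
theorem k4 : (9 / 16 : ℝ) = val 4722366641199319613440 := by norm_num [val]
theorem k5 : (3 / 8 : ℝ) = val 4722366588422761480192 := by norm_num [val]
theorem k6 : (429 / 256 : ℝ) = val 4722366954560133529600 := by norm_num [val]
theorem k7 : (1741 / 512 : ℝ) = val 4722367439994517192704 := by norm_num [val]
theorem k8 : (427 / 256 : ℝ) = val 4722366952361110274048 := by norm_num [val]
theorem k9 : (515 / 128 : ℝ) = val 4722367615366621822976 := by norm_num [val]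
theorem k10 : (255 / 128 : ℝ) = val 4722367043620575379456 := by norm_num [val]
theorem k11 : (19 / 64 : ℝ) = val 4722366566432528924672 := by norm_num [val]
theorem k12 : (81 / 64 : ℝ) = val 4722366839111412613120 := by norm_num [val]
theorem k13 : (51 / 32 : ℝ) = val 4722366931470389346304 := by norm_num [val]
theorem k14 : (33 / 64 : ℝ) = val 4722366628005180080128 := by norm_num [val]
theorem k15 : (-35 / 64 : ℝ) = val 4722366328938017325056 := by norm_num [val]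
theorem k16 : (-33 / 64 : ℝ) = val 4722366337734110347264 := by norm_num [val]
theorem k17 : (-11 / 32 : ℝ) = val 4722366386112621969408 := by norm_num [val]
theorem k18 : |2 ^ 48 * (5 / 32 : ℝ) - (((4722366526850110324736 : ℕ) : ℝ) - 2 ^ 72)| ≤ ((0 : ℕ) : ℝ) := by norm_num [abs_le]
theorem k19 : |2 ^ 48 * (1 : ℝ) - (((4722366764344621924352 : ℕ) : ℝ) - 2 ^ 72)| ≤ ((0 : ℕ) : ℝ) := by norm_num [abs_le]
theorem k20 : (2 : ℝ) = val 4722367045819598635008 := by norm_num [val]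
theorem k21 : |2 ^ 48 * (9 / 5 : ℝ) - (((4722366989524603292876 : ℕ) : ℝ) - 2 ^ 72)| ≤ ((1 : ℕ) : ℝ) := by norm_num [abs_le]
theorem k22 : |2 ^ 48 * (3 / 2 : ℝ) - (((4722366905082110279680 : ℕ) : ℝ) - 2 ^ 72)| ≤ ((0 : ℕ) : ℝ) := by norm_num [abs_le]
theorem k23 : |2 ^ 48 * (3 / 10 : ℝ) - (((4722366567312138226892 : ℕ) : ℝ) - 2 ^ 72)| ≤ ((1 : ℕ) : ℝ) := by norm_num [abs_le]
theorem k24 : |2 ^ 48 * (1 / 5 : ℝ) - (((4722366539164640555827 : ℕ) : ℝ) - 2 ^ 72)| ≤ ((1 : ℕ) : ℝ) := by norm_num [abs_le]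
theorem k25 : |2 ^ 48 * (3 / 5 : ℝ) - (((4722366651754631240089 : ℕ) : ℝ) - 2 ^ 72)| ≤ ((1 : ℕ) : ℝ) := by norm_num [abs_le]
theorem k26 : |2 ^ 48 * (1 / 10 : ℝ) - (((4722366511017142884761 : ℕ) : ℝ) - 2 ^ 72)| ≤ ((1 : ℕ) : ℝ) := by norm_num [abs_le]
theorem k27 : |2 ^ 48 * (3 / 20 : ℝ) - (((4722366525090891720294 : ℕ) : ℝ) - 2 ^ 72)| ≤ ((1 : ℕ) : ℝ) := by norm_num [abs_le]
theorem k28 : |2 ^ 48 * (3 / 4 : ℝ) - (((4722366693975877746688 : ℕ) : ℝ) - 2 ^ 72)| ≤ ((0 : ℕ) : ℝ) := by norm_num [abs_le]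
theorem k29 : (1229 / 2048 : ℝ) = val 4722366651782119030784 := by norm_num [val]
def z0_B (gs ps : ℕ) (x0 x1 x2 x3 : AF) : Bool :=
  parK ps 0 fun z3 =>
  parK ps 1 fun z4 =>
  parK ps 2 fun z5 =>
  parK ps 3 fun z6 =>
  parK ps 4 fun z7 =>
  parK ps 5 fun z8 =>
  parK ps 6 fun z9 =>
  parK ps 7 fun z10 =>
  parK ps 8 fun z11 =>
  parK ps 9 fun z12 =>
  parK ps 10 fun z13 =>
  parK ps 11 fun z14 =>
  parK ps 12 fun z15 =>
  parK ps 13 fun z16 =>
  parK gs 0 fun z17 =>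
  parK gs 1 fun z18 =>
  mulK z18 x0 fun z19 =>
  addK z17 z19 fun z20 =>
  normK z20 fun z21 =>
  mulK x1 z21 fun z22 =>
  mulK z8 x2 fun z23 =>
  addK z7 z23 fun z24 =>
  posK z24 <|
  mulK z10 x2 fun z25 =>
  addK z9 z25 fun z26 =>
  posK z26 <|
  mulK z12 x2 fun z27 =>
  addK z11 z27 fun z28 =>
  posK z28 <|
  mulK z14 x2 fun z29 =>
  addK z13 z29 fun z30 =>
  posK z30 <|
  mulK z16 x2 fun z31 =>
  addK z15 z31 fun z32 =>
  posK z32 <|
  mulK z6 x2 fun z33 =>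
  addK z5 z33 fun z34 =>
  posK z34 <|
  smulK z26 4722367327294575345664 fun z35 =>
  addK z24 z35 fun z38 =>
  addK z38 z28 fun z39 =>
  smulK z30 4722367327294575345664 fun z36 =>
  addK z39 z36 fun z40 =>
  smulK z32 4722366905082110279680 fun z37 =>
  addK z40 z37 fun z41 =>
  addK z24 z26 fun z42 =>
  addK z42 z28 fun z43 =>
  addK z43 z30 fun z44 =>
  addK z44 z32 fun z45 =>
  smulK z24 4722366623607133569024 fun z46 =>
  smulK z26 4722367010635226546176 fun z47 =>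
  addK z46 z47 fun z49 =>
  addK z49 z28 fun z50 =>
  addK z50 z36 fun z51 =>
  smulK z32 4722366641199319613440 fun z48 =>
  addK z51 z48 fun z52 =>
  smulK z28 4722366588422761480192 fun z53 =>
  addK z42 z53 fun z54 =>
  addK z54 z30 fun z55 =>
  addK z55 z32 fun z56 =>
  smulK z24 4722366954560133529600 fun z57 =>
  smulK z26 4722367439994517192704 fun z58 =>
  addK z57 z58 fun z62 =>
  smulK z28 4722366952361110274048 fun z59 =>
  addK z62 z59 fun z63 =>
  smulK z30 4722367615366621822976 fun z60 =>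
  addK z63 z60 fun z64 =>
  smulK z32 4722367043620575379456 fun z61 =>
  addK z64 z61 fun z65 =>
  smulK z24 4722366566432528924672 fun z66 =>
  smulK z26 4722366839111412613120 fun z67 =>
  addK z66 z67 fun z71 =>
  smulK z28 4722366641199319613440 fun z68 =>
  addK z71 z68 fun z72 =>
  smulK z30 4722366931470389346304 fun z69 =>
  addK z72 z69 fun z73 =>
  smulK z32 4722366628005180080128 fun z70 =>
  addK z73 z70 fun z74 =>
  smulK z24 4722366328938017325056 fun z75 =>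
  smulK z26 4722366337734110347264 fun z76 =>
  addK z75 z76 fun z80 =>
  smulK z28 4722366386112621969408 fun z77 =>
  addK z80 z77 fun z81 =>
  smulK z30 4722366337734110347264 fun z78 =>
  addK z81 z78 fun z82 =>
  smulK z32 4722366328938017325056 fun z79 =>
  addK z82 z79 fun z83 =>
  mulK z4 z22 fun z84 =>
  addK z3 z84 fun z85 =>
  posK z85 <|
  normK z85 fun z86 =>
  mulK z22 z86 fun z87 =>
  rsubK z87 4722366526850110324736 0 fun z88 =>
  posK z88 <|
  rsubK z45 4722366764344621924352 0 fun z92 =>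
  posK z92 <|
  normK z34 fun z90 =>
  mulK x2 z90 fun z91 =>
  sqrK x2 fun z89 =>
  normK z41 fun z93 =>
  mulK z89 z93 fun z94 =>
  addK z91 z94 fun z95 =>
  rsubK z95 4722366764344621924352 0 fun z96 =>
  posK z96 <|
  smulK z86 4722367045819598635008 fun z101 =>
  sqrK z87 fun z98 =>
  addcK z98 4722366764344621924352 0 fun z99 =>
  invK z99 fun z100 =>
  mulK z101 z100 fun z102 =>
  normK z74 fun z104 =>
  mulK z89 z104 fun z105 =>
  smulK z91 4722366588422761480192 fun z106 =>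
  addK z105 z106 fun z107 =>
  normK z107 fun z171 =>
  mulK z102 z171 fun z172 =>
  smulK z172 4722366588422761480192 fun z175 =>
  mulK z22 z175 fun z180 =>
  addcK z180 4722366764344621924352 0 fun z181 =>
  posK z181 <|
  normK z83 fun z173 =>
  mulK z102 z173 fun z174 =>
  smulK z174 4722366588422761480192 fun z176 =>
  mulK z86 z102 fun z103 =>
  normK z56 fun z165 =>
  mulK z103 z165 fun z166 =>
  mulK z22 z166 fun z169 =>
  subK z176 z169 fun z177 =>
  normK z177 fun z182 =>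
  mulK z22 z182 fun z183 =>
  addcK z183 4722366764344621924352 0 fun z184 =>
  posK z184 <|
  normK z52 fun z108 =>
  mulK z89 z108 fun z109 =>
  addK z109 z91 fun z110 =>
  normK z110 fun z167 =>
  mulK z103 z167 fun z168 =>
  mulK z22 z168 fun z170 =>
  addK z175 z170 fun z178 =>
  normK z178 fun z185 =>
  mulK z22 z185 fun z186 =>
  rsubK z186 4722366764344621924352 0 fun z187 =>
  posK z187 <|
  mulK z22 z176 fun z188 =>
  rsubK z188 4722366764344621924352 0 fun z189 =>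
  posK z189 <|
  normK z65 fun z111 =>
  mulK x2 z111 fun z112 =>
  smulK z34 4722366641199319613440 fun z113 =>
  addK z112 z113 fun z114 =>
  normK z114 fun z162 =>
  mulK z102 z162 fun z163 =>
  sqrK x0 fun z115 =>
  mulK (cst 4722366989524603292876 1) z115 fun z151 =>
  addcK z151 4722366905082110279680 0 fun z152 =>
  sqrK z22 fun z116 =>
  mulK (cst 4722366567312138226892 1) z116 fun z154 =>
  addK z152 z154 fun z155 =>
  sqrK z115 fun z137 =>
  mulK z115 z116 fun z136 =>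
  addK z137 z136 fun z156 =>
  smulK z156 4722367327294575345664 fun z157 =>
  addK z155 z157 fun z158 =>
  sqrK z116 fun z138 =>
  mulK (cst 4722366539164640555827 1) z138 fun z160 =>
  addK z158 z160 fun z161 =>
  subK z163 z161 fun z164 =>
  addK z175 z176 fun z179 =>
  normK z179 fun z214 =>
  addK z115 z116 fun z139 =>
  addK z139 z137 fun z140 =>
  addK z140 z138 fun z141 =>
  normK z141 fun z143 =>
  mulK (cst 4722366651754631240089 1) z143 fun z144 =>
  addcK z144 4722366905082110279680 0 fun z145 =>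
  smulK z136 4722367045819598635008 fun z146 =>
  addK z145 z146 fun z147 =>
  normK z147 fun z148 =>
  mulK x0 z148 fun z149 =>
  mulK z214 z149 fun z215 =>
  subK z164 z215 fun z216 =>
  addK x0 z22 fun z117 =>
  normK z117 fun z118 =>
  sqrK z118 fun z119 =>
  mulK (cst 4722366511017142884761 1) z119 fun z121 =>
  addcK z121 4722366525090891720294 1 fun z122 =>
  mulK z119 z122 fun z123 =>
  addcK z123 4722366693975877746688 0 fun z124 =>
  mulK z119 z124 fun z125 =>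
  rsubK z125 4722366764344621924352 0 fun z126 =>
  mulK z175 z182 fun z190 =>
  subK z190 z166 fun z191 =>
  normK z191 fun z194 =>
  mulK z22 z194 fun z195 =>
  addK z179 z195 fun z196 =>
  normK z196 fun z200 =>
  mulK z22 z200 fun z201 =>
  addcK z201 4722366764344621924352 0 fun z202 =>
  sqrtK z202 fun z203 =>
  addcK z203 4722366764344621924352 0 fun z204 =>
  invK z204 fun z205 =>
  mulK z200 z205 fun z212 =>
  sqrK z212 fun z217 =>
  subK z191 z217 fun z218 =>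
  normK z218 fun z219 =>
  mulK z126 z219 fun z220 =>
  subK x0 z22 fun z127 =>
  normK z127 fun z128 =>
  sqrK z128 fun z129 =>
  mulK (cst 4722366511017142884761 1) z129 fun z130 =>
  addcK z130 4722366525090891720294 1 fun z131 =>
  mulK z129 z131 fun z132 =>
  addcK z132 4722366693975877746688 0 fun z133 =>
  mulK z129 z133 fun z134 =>
  rsubK z134 4722366764344621924352 0 fun z135 =>
  mulK z185 z176 fun z192 =>
  subK z192 z168 fun z193 =>
  normK z193 fun z197 =>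
  mulK z22 z197 fun z198 =>
  subK z198 z179 fun z199 =>
  normK z199 fun z206 =>
  mulK z22 z206 fun z207 =>
  addcK z207 4722366764344621924352 0 fun z208 =>
  sqrtK z208 fun z209 =>
  addcK z209 4722366764344621924352 0 fun z210 =>
  invK z210 fun z211 =>
  mulK z206 z211 fun z213 =>
  sqrK z213 fun z221 =>
  subK z193 z221 fun z222 =>
  normK z222 fun z223 =>
  mulK z135 z223 fun z224 =>
  addK z220 z224 fun z225 =>
  smulK z225 4722366623607133569024 fun z226 =>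
  addK z216 z226 fun z227 =>
  posK z227 <|
  smulK z172 4722366651782119030784 fun z228 =>
  mulK z22 z228 fun z233 =>
  addcK z233 4722366764344621924352 0 fun z234 =>
  posK z234 <|
  smulK z174 4722366651782119030784 fun z229 =>
  subK z229 z169 fun z230 =>
  normK z230 fun z235 =>
  mulK z22 z235 fun z236 =>
  addcK z236 4722366764344621924352 0 fun z237 =>
  posK z237 <|
  addK z228 z170 fun z231 =>
  normK z231 fun z238 =>
  mulK z22 z238 fun z239 =>
  rsubK z239 4722366764344621924352 0 fun z240 =>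
  posK z240 <|
  mulK z22 z229 fun z241 =>
  rsubK z241 4722366764344621924352 0 fun z242 =>
  posK z242 <|
  addK z228 z229 fun z232 =>
  normK z232 fun z267 =>
  mulK z267 z149 fun z268 =>
  subK z164 z268 fun z269 =>
  mulK z228 z235 fun z243 =>
  subK z243 z166 fun z244 =>
  normK z244 fun z247 =>
  mulK z22 z247 fun z248 =>
  addK z232 z248 fun z249 =>
  normK z249 fun z253 =>
  mulK z22 z253 fun z254 =>
  addcK z254 4722366764344621924352 0 fun z255 =>
  sqrtK z255 fun z256 =>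
  addcK z256 4722366764344621924352 0 fun z257 =>
  invK z257 fun z258 =>
  mulK z253 z258 fun z265 =>
  sqrK z265 fun z270 =>
  subK z244 z270 fun z271 =>
  normK z271 fun z272 =>
  mulK z126 z272 fun z273 =>
  mulK z238 z229 fun z245 =>
  subK z245 z168 fun z246 =>
  normK z246 fun z250 =>
  mulK z22 z250 fun z251 =>
  subK z251 z232 fun z252 =>
  normK z252 fun z259 =>
  mulK z22 z259 fun z260 =>
  addcK z260 4722366764344621924352 0 fun z261 =>
  sqrtK z261 fun z262 =>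
  addcK z262 4722366764344621924352 0 fun z263 =>
  invK z263 fun z264 =>
  mulK z259 z264 fun z266 =>
  sqrK z266 fun z274 =>
  subK z246 z274 fun z275 =>
  normK z275 fun z276 =>
  mulK z135 z276 fun z277 =>
  addK z273 z277 fun z278 =>
  smulK z278 4722366623607133569024 fun z279 =>
  addK z269 z279 fun z280 =>
  posK z280 <|
  true

def z0_R (gs ps : ℕ) (m y r u3 : ℝ) : Prop :=
  letR (parV ps 0) fun z3 =>
  letR (parV ps 1) fun z4 =>
  letR (parV ps 2) fun z5 =>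
  letR (parV ps 3) fun z6 =>
  letR (parV ps 4) fun z7 =>
  letR (parV ps 5) fun z8 =>
  letR (parV ps 6) fun z9 =>
  letR (parV ps 7) fun z10 =>
  letR (parV ps 8) fun z11 =>
  letR (parV ps 9) fun z12 =>
  letR (parV ps 10) fun z13 =>
  letR (parV ps 11) fun z14 =>
  letR (parV ps 12) fun z15 =>
  letR (parV ps 13) fun z16 =>
  letR (parV gs 0) fun z17 =>
  letR (parV gs 1) fun z18 =>
  letR (z18 * m) fun z19 =>
  letR (z17 + z19) fun z20 =>
  letR z20 fun z21 =>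
  letR (y * z21) fun z22 =>
  letR (z8 * r) fun z23 =>
  letR (z7 + z23) fun z24 =>
  posR z24 <|
  letR (z10 * r) fun z25 =>
  letR (z9 + z25) fun z26 =>
  posR z26 <|
  letR (z12 * r) fun z27 =>
  letR (z11 + z27) fun z28 =>
  posR z28 <|
  letR (z14 * r) fun z29 =>
  letR (z13 + z29) fun z30 =>
  posR z30 <|
  letR (z16 * r) fun z31 =>
  letR (z15 + z31) fun z32 =>
  posR z32 <|
  letR (z6 * r) fun z33 =>
  letR (z5 + z33) fun z34 =>
  posR z34 <|
  letR ((3 : ℝ) * z26) fun z35 =>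
  letR (z24 + z35) fun z38 =>
  letR (z38 + z28) fun z39 =>
  letR ((3 : ℝ) * z30) fun z36 =>
  letR (z39 + z36) fun z40 =>
  letR ((3 / 2 : ℝ) * z32) fun z37 =>
  letR (z40 + z37) fun z41 =>
  letR (z24 + z26) fun z42 =>
  letR (z42 + z28) fun z43 =>
  letR (z43 + z30) fun z44 =>
  letR (z44 + z32) fun z45 =>
  letR ((1 / 2 : ℝ) * z24) fun z46 =>
  letR ((15 / 8 : ℝ) * z26) fun z47 =>
  letR (z46 + z47) fun z49 =>
  letR (z49 + z28) fun z50 =>
  letR (z50 + z36) fun z51 =>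
  letR ((9 / 16 : ℝ) * z32) fun z48 =>
  letR (z51 + z48) fun z52 =>
  letR ((3 / 8 : ℝ) * z28) fun z53 =>
  letR (z42 + z53) fun z54 =>
  letR (z54 + z30) fun z55 =>
  letR (z55 + z32) fun z56 =>
  letR ((429 / 256 : ℝ) * z24) fun z57 =>
  letR ((1741 / 512 : ℝ) * z26) fun z58 =>
  letR (z57 + z58) fun z62 =>
  letR ((427 / 256 : ℝ) * z28) fun z59 =>
  letR (z62 + z59) fun z63 =>
  letR ((515 / 128 : ℝ) * z30) fun z60 =>
  letR (z63 + z60) fun z64 =>
  letR ((255 / 128 : ℝ) * z32) fun z61 =>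
  letR (z64 + z61) fun z65 =>
  letR ((19 / 64 : ℝ) * z24) fun z66 =>
  letR ((81 / 64 : ℝ) * z26) fun z67 =>
  letR (z66 + z67) fun z71 =>
  letR ((9 / 16 : ℝ) * z28) fun z68 =>
  letR (z71 + z68) fun z72 =>
  letR ((51 / 32 : ℝ) * z30) fun z69 =>
  letR (z72 + z69) fun z73 =>
  letR ((33 / 64 : ℝ) * z32) fun z70 =>
  letR (z73 + z70) fun z74 =>
  letR ((-35 / 64 : ℝ) * z24) fun z75 =>
  letR ((-33 / 64 : ℝ) * z26) fun z76 =>
  letR (z75 + z76) fun z80 =>
  letR ((-11 / 32 : ℝ) * z28) fun z77 =>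
  letR (z80 + z77) fun z81 =>
  letR ((-33 / 64 : ℝ) * z30) fun z78 =>
  letR (z81 + z78) fun z82 =>
  letR ((-35 / 64 : ℝ) * z32) fun z79 =>
  letR (z82 + z79) fun z83 =>
  letR (z4 * z22) fun z84 =>
  letR (z3 + z84) fun z85 =>
  posR z85 <|
  letR z85 fun z86 =>
  letR (z22 * z86) fun z87 =>
  letR ((5 / 32 : ℝ) - z87) fun z88 =>
  posR z88 <|
  letR ((1 : ℝ) - z45) fun z92 =>
  posR z92 <|
  letR z34 fun z90 =>
  letR (r * z90) fun z91 =>
  letR (r ^ 2) fun z89 =>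
  letR z41 fun z93 =>
  letR (z89 * z93) fun z94 =>
  letR (z91 + z94) fun z95 =>
  letR ((1 : ℝ) - z95) fun z96 =>
  posR z96 <|
  letR ((2 : ℝ) * z86) fun z101 =>
  letR (z87 ^ 2) fun z98 =>
  letR (z98 + (1 : ℝ)) fun z99 =>
  invR z99 fun z100 =>
  letR (z101 * z100) fun z102 =>
  letR z74 fun z104 =>
  letR (z89 * z104) fun z105 =>
  letR ((3 / 8 : ℝ) * z91) fun z106 =>
  letR (z105 + z106) fun z107 =>
  letR z107 fun z171 =>
  letR (z102 * z171) fun z172 =>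
  letR ((3 / 8 : ℝ) * z172) fun z175 =>
  letR (z22 * z175) fun z180 =>
  letR (z180 + (1 : ℝ)) fun z181 =>
  posR z181 <|
  letR z83 fun z173 =>
  letR (z102 * z173) fun z174 =>
  letR ((3 / 8 : ℝ) * z174) fun z176 =>
  letR (z86 * z102) fun z103 =>
  letR z56 fun z165 =>
  letR (z103 * z165) fun z166 =>
  letR (z22 * z166) fun z169 =>
  letR (z176 - z169) fun z177 =>
  letR z177 fun z182 =>
  letR (z22 * z182) fun z183 =>
  letR (z183 + (1 : ℝ)) fun z184 =>
  posR z184 <|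
  letR z52 fun z108 =>
  letR (z89 * z108) fun z109 =>
  letR (z109 + z91) fun z110 =>
  letR z110 fun z167 =>
  letR (z103 * z167) fun z168 =>
  letR (z22 * z168) fun z170 =>
  letR (z175 + z170) fun z178 =>
  letR z178 fun z185 =>
  letR (z22 * z185) fun z186 =>
  letR ((1 : ℝ) - z186) fun z187 =>
  posR z187 <|
  letR (z22 * z176) fun z188 =>
  letR ((1 : ℝ) - z188) fun z189 =>
  posR z189 <|
  letR z65 fun z111 =>
  letR (r * z111) fun z112 =>
  letR ((9 / 16 : ℝ) * z34) fun z113 =>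
  letR (z112 + z113) fun z114 =>
  letR z114 fun z162 =>
  letR (z102 * z162) fun z163 =>
  letR (m ^ 2) fun z115 =>
  letR ((9 / 5 : ℝ) * z115) fun z151 =>
  letR (z151 + (3 / 2 : ℝ)) fun z152 =>
  letR (z22 ^ 2) fun z116 =>
  letR ((3 / 10 : ℝ) * z116) fun z154 =>
  letR (z152 + z154) fun z155 =>
  letR (z115 ^ 2) fun z137 =>
  letR (z115 * z116) fun z136 =>
  letR (z137 + z136) fun z156 =>
  letR ((3 : ℝ) * z156) fun z157 =>
  letR (z155 + z157) fun z158 =>
  letR (z116 ^ 2) fun z138 =>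
  letR ((1 / 5 : ℝ) * z138) fun z160 =>
  letR (z158 + z160) fun z161 =>
  letR (z163 - z161) fun z164 =>
  letR (z175 + z176) fun z179 =>
  letR z179 fun z214 =>
  letR (z115 + z116) fun z139 =>
  letR (z139 + z137) fun z140 =>
  letR (z140 + z138) fun z141 =>
  letR z141 fun z143 =>
  letR ((3 / 5 : ℝ) * z143) fun z144 =>
  letR (z144 + (3 / 2 : ℝ)) fun z145 =>
  letR ((2 : ℝ) * z136) fun z146 =>
  letR (z145 + z146) fun z147 =>
  letR z147 fun z148 =>
  letR (m * z148) fun z149 =>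
  letR (z214 * z149) fun z215 =>
  letR (z164 - z215) fun z216 =>
  letR (m + z22) fun z117 =>
  letR z117 fun z118 =>
  letR (z118 ^ 2) fun z119 =>
  letR ((1 / 10 : ℝ) * z119) fun z121 =>
  letR (z121 + (3 / 20 : ℝ)) fun z122 =>
  letR (z119 * z122) fun z123 =>
  letR (z123 + (3 / 4 : ℝ)) fun z124 =>
  letR (z119 * z124) fun z125 =>
  letR ((1 : ℝ) - z125) fun z126 =>
  letR (z175 * z182) fun z190 =>
  letR (z190 - z166) fun z191 =>
  letR z191 fun z194 =>
  letR (z22 * z194) fun z195 =>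
  letR (z179 + z195) fun z196 =>
  letR z196 fun z200 =>
  letR (z22 * z200) fun z201 =>
  letR (z201 + (1 : ℝ)) fun z202 =>
  letR (√z202) fun z203 =>
  letR (z203 + (1 : ℝ)) fun z204 =>
  invR z204 fun z205 =>
  letR (z200 * z205) fun z212 =>
  letR (z212 ^ 2) fun z217 =>
  letR (z191 - z217) fun z218 =>
  letR z218 fun z219 =>
  letR (z126 * z219) fun z220 =>
  letR (m - z22) fun z127 =>
  letR z127 fun z128 =>
  letR (z128 ^ 2) fun z129 =>
  letR ((1 / 10 : ℝ) * z129) fun z130 =>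
  letR (z130 + (3 / 20 : ℝ)) fun z131 =>
  letR (z129 * z131) fun z132 =>
  letR (z132 + (3 / 4 : ℝ)) fun z133 =>
  letR (z129 * z133) fun z134 =>
  letR ((1 : ℝ) - z134) fun z135 =>
  letR (z185 * z176) fun z192 =>
  letR (z192 - z168) fun z193 =>
  letR z193 fun z197 =>
  letR (z22 * z197) fun z198 =>
  letR (z198 - z179) fun z199 =>
  letR z199 fun z206 =>
  letR (z22 * z206) fun z207 =>
  letR (z207 + (1 : ℝ)) fun z208 =>
  letR (√z208) fun z209 =>
  letR (z209 + (1 : ℝ)) fun z210 =>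
  invR z210 fun z211 =>
  letR (z206 * z211) fun z213 =>
  letR (z213 ^ 2) fun z221 =>
  letR (z193 - z221) fun z222 =>
  letR z222 fun z223 =>
  letR (z135 * z223) fun z224 =>
  letR (z220 + z224) fun z225 =>
  letR ((1 / 2 : ℝ) * z225) fun z226 =>
  letR (z216 + z226) fun z227 =>
  posR z227 <|
  letR ((1229 / 2048 : ℝ) * z172) fun z228 =>
  letR (z22 * z228) fun z233 =>
  letR (z233 + (1 : ℝ)) fun z234 =>
  posR z234 <|
  letR ((1229 / 2048 : ℝ) * z174) fun z229 =>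
  letR (z229 - z169) fun z230 =>
  letR z230 fun z235 =>
  letR (z22 * z235) fun z236 =>
  letR (z236 + (1 : ℝ)) fun z237 =>
  posR z237 <|
  letR (z228 + z170) fun z231 =>
  letR z231 fun z238 =>
  letR (z22 * z238) fun z239 =>
  letR ((1 : ℝ) - z239) fun z240 =>
  posR z240 <|
  letR (z22 * z229) fun z241 =>
  letR ((1 : ℝ) - z241) fun z242 =>
  posR z242 <|
  letR (z228 + z229) fun z232 =>
  letR z232 fun z267 =>
  letR (z267 * z149) fun z268 =>
  letR (z164 - z268) fun z269 =>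
  letR (z228 * z235) fun z243 =>
  letR (z243 - z166) fun z244 =>
  letR z244 fun z247 =>
  letR (z22 * z247) fun z248 =>
  letR (z232 + z248) fun z249 =>
  letR z249 fun z253 =>
  letR (z22 * z253) fun z254 =>
  letR (z254 + (1 : ℝ)) fun z255 =>
  letR (√z255) fun z256 =>
  letR (z256 + (1 : ℝ)) fun z257 =>
  invR z257 fun z258 =>
  letR (z253 * z258) fun z265 =>
  letR (z265 ^ 2) fun z270 =>
  letR (z244 - z270) fun z271 =>
  letR z271 fun z272 =>
  letR (z126 * z272) fun z273 =>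
  letR (z238 * z229) fun z245 =>
  letR (z245 - z168) fun z246 =>
  letR z246 fun z250 =>
  letR (z22 * z250) fun z251 =>
  letR (z251 - z232) fun z252 =>
  letR z252 fun z259 =>
  letR (z22 * z259) fun z260 =>
  letR (z260 + (1 : ℝ)) fun z261 =>
  letR (√z261) fun z262 =>
  letR (z262 + (1 : ℝ)) fun z263 =>
  invR z263 fun z264 =>
  letR (z259 * z264) fun z266 =>
  letR (z266 ^ 2) fun z274 =>
  letR (z246 - z274) fun z275 =>
  letR z275 fun z276 =>
  letR (z135 * z276) fun z277 =>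
  letR (z273 + z277) fun z278 =>
  letR ((1 / 2 : ℝ) * z278) fun z279 =>
  letR (z269 + z279) fun z280 =>
  posR z280 <|
  True

theorem z0_S {ε : Fin 4 → ℝ} (gs : ℕ) (hε : ∀ i, |ε i| ≤ 1) (ps : ℕ) (x0 x1 x2 x3 : AF) (m y r u3 : ℝ)
    (h0 : Rel ε x0 m) (h1 : Rel ε x1 y) (h2 : Rel ε x2 r) (h3 : Rel ε x3 u3) :
    z0_B gs ps x0 x1 x2 x3 = true → z0_R gs ps m y r u3 := by
  delta z0_B z0_R
  exact parS fun z3 t3 g3 =>
  parS fun z4 t4 g4 =>
  parS fun z5 t5 g5 =>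
  parS fun z6 t6 g6 =>
  parS fun z7 t7 g7 =>
  parS fun z8 t8 g8 =>
  parS fun z9 t9 g9 =>
  parS fun z10 t10 g10 =>
  parS fun z11 t11 g11 =>
  parS fun z12 t12 g12 =>
  parS fun z13 t13 g13 =>
  parS fun z14 t14 g14 =>
  parS fun z15 t15 g15 =>
  parS fun z16 t16 g16 =>
  parS fun z17 t17 g17 =>
  parS fun z18 t18 g18 =>
  mulS hε g18 h0 fun z19 t19 g19 =>
  addS g17 g19 fun z20 t20 g20 =>
  normS g20 fun z21 t21 g21 =>
  mulS hε h1 g21 fun z22 t22 g22 =>
  mulS hε g8 h2 fun z23 t23 g23 =>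
  addS g7 g23 fun z24 t24 g24 =>
  posS hε g24 <|
  mulS hε g10 h2 fun z25 t25 g25 =>
  addS g9 g25 fun z26 t26 g26 =>
  posS hε g26 <|
  mulS hε g12 h2 fun z27 t27 g27 =>
  addS g11 g27 fun z28 t28 g28 =>
  posS hε g28 <|
  mulS hε g14 h2 fun z29 t29 g29 =>
  addS g13 g29 fun z30 t30 g30 =>
  posS hε g30 <|
  mulS hε g16 h2 fun z31 t31 g31 =>
  addS g15 g31 fun z32 t32 g32 =>
  posS hε g32 <|
  mulS hε g6 h2 fun z33 t33 g33 =>
  addS g5 g33 fun z34 t34 g34 =>
  posS hε g34 <|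
  smulS hε g26 k0 fun z35 t35 g35 =>
  addS g24 g35 fun z38 t38 g38 =>
  addS g38 g28 fun z39 t39 g39 =>
  smulS hε g30 k0 fun z36 t36 g36 =>
  addS g39 g36 fun z40 t40 g40 =>
  smulS hε g32 k1 fun z37 t37 g37 =>
  addS g40 g37 fun z41 t41 g41 =>
  addS g24 g26 fun z42 t42 g42 =>
  addS g42 g28 fun z43 t43 g43 =>
  addS g43 g30 fun z44 t44 g44 =>
  addS g44 g32 fun z45 t45 g45 =>
  smulS hε g24 k2 fun z46 t46 g46 =>
  smulS hε g26 k3 fun z47 t47 g47 =>
  addS g46 g47 fun z49 t49 g49 =>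
  addS g49 g28 fun z50 t50 g50 =>
  addS g50 g36 fun z51 t51 g51 =>
  smulS hε g32 k4 fun z48 t48 g48 =>
  addS g51 g48 fun z52 t52 g52 =>
  smulS hε g28 k5 fun z53 t53 g53 =>
  addS g42 g53 fun z54 t54 g54 =>
  addS g54 g30 fun z55 t55 g55 =>
  addS g55 g32 fun z56 t56 g56 =>
  smulS hε g24 k6 fun z57 t57 g57 =>
  smulS hε g26 k7 fun z58 t58 g58 =>
  addS g57 g58 fun z62 t62 g62 =>
  smulS hε g28 k8 fun z59 t59 g59 =>
  addS g62 g59 fun z63 t63 g63 =>
  smulS hε g30 k9 fun z60 t60 g60 =>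
  addS g63 g60 fun z64 t64 g64 =>
  smulS hε g32 k10 fun z61 t61 g61 =>
  addS g64 g61 fun z65 t65 g65 =>
  smulS hε g24 k11 fun z66 t66 g66 =>
  smulS hε g26 k12 fun z67 t67 g67 =>
  addS g66 g67 fun z71 t71 g71 =>
  smulS hε g28 k4 fun z68 t68 g68 =>
  addS g71 g68 fun z72 t72 g72 =>
  smulS hε g30 k13 fun z69 t69 g69 =>
  addS g72 g69 fun z73 t73 g73 =>
  smulS hε g32 k14 fun z70 t70 g70 =>
  addS g73 g70 fun z74 t74 g74 =>
  smulS hε g24 k15 fun z75 t75 g75 =>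
  smulS hε g26 k16 fun z76 t76 g76 =>
  addS g75 g76 fun z80 t80 g80 =>
  smulS hε g28 k17 fun z77 t77 g77 =>
  addS g80 g77 fun z81 t81 g81 =>
  smulS hε g30 k16 fun z78 t78 g78 =>
  addS g81 g78 fun z82 t82 g82 =>
  smulS hε g32 k15 fun z79 t79 g79 =>
  addS g82 g79 fun z83 t83 g83 =>
  mulS hε g4 g22 fun z84 t84 g84 =>
  addS g3 g84 fun z85 t85 g85 =>
  posS hε g85 <|
  normS g85 fun z86 t86 g86 =>
  mulS hε g22 g86 fun z87 t87 g87 =>
  rsubS g87 k18 fun z88 t88 g88 =>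
  posS hε g88 <|
  rsubS g45 k19 fun z92 t92 g92 =>
  posS hε g92 <|
  normS g34 fun z90 t90 g90 =>
  mulS hε h2 g90 fun z91 t91 g91 =>
  sqrS hε h2 fun z89 t89 g89 =>
  normS g41 fun z93 t93 g93 =>
  mulS hε g89 g93 fun z94 t94 g94 =>
  addS g91 g94 fun z95 t95 g95 =>
  rsubS g95 k19 fun z96 t96 g96 =>
  posS hε g96 <|
  smulS hε g86 k20 fun z101 t101 g101 =>
  sqrS hε g87 fun z98 t98 g98 =>
  addcS g98 k19 fun z99 t99 g99 =>
  invS hε g99 fun z100 t100 g100 =>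
  mulS hε g101 g100 fun z102 t102 g102 =>
  normS g74 fun z104 t104 g104 =>
  mulS hε g89 g104 fun z105 t105 g105 =>
  smulS hε g91 k5 fun z106 t106 g106 =>
  addS g105 g106 fun z107 t107 g107 =>
  normS g107 fun z171 t171 g171 =>
  mulS hε g102 g171 fun z172 t172 g172 =>
  smulS hε g172 k5 fun z175 t175 g175 =>
  mulS hε g22 g175 fun z180 t180 g180 =>
  addcS g180 k19 fun z181 t181 g181 =>
  posS hε g181 <|
  normS g83 fun z173 t173 g173 =>
  mulS hε g102 g173 fun z174 t174 g174 =>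
  smulS hε g174 k5 fun z176 t176 g176 =>
  mulS hε g86 g102 fun z103 t103 g103 =>
  normS g56 fun z165 t165 g165 =>
  mulS hε g103 g165 fun z166 t166 g166 =>
  mulS hε g22 g166 fun z169 t169 g169 =>
  subS g176 g169 fun z177 t177 g177 =>
  normS g177 fun z182 t182 g182 =>
  mulS hε g22 g182 fun z183 t183 g183 =>
  addcS g183 k19 fun z184 t184 g184 =>
  posS hε g184 <|
  normS g52 fun z108 t108 g108 =>
  mulS hε g89 g108 fun z109 t109 g109 =>
  addS g109 g91 fun z110 t110 g110 =>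
  normS g110 fun z167 t167 g167 =>
  mulS hε g103 g167 fun z168 t168 g168 =>
  mulS hε g22 g168 fun z170 t170 g170 =>
  addS g175 g170 fun z178 t178 g178 =>
  normS g178 fun z185 t185 g185 =>
  mulS hε g22 g185 fun z186 t186 g186 =>
  rsubS g186 k19 fun z187 t187 g187 =>
  posS hε g187 <|
  mulS hε g22 g176 fun z188 t188 g188 =>
  rsubS g188 k19 fun z189 t189 g189 =>
  posS hε g189 <|
  normS g65 fun z111 t111 g111 =>
  mulS hε h2 g111 fun z112 t112 g112 =>
  smulS hε g34 k4 fun z113 t113 g113 =>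
  addS g112 g113 fun z114 t114 g114 =>
  normS g114 fun z162 t162 g162 =>
  mulS hε g102 g162 fun z163 t163 g163 =>
  sqrS hε h0 fun z115 t115 g115 =>
  mulS hε (cst_rel k21) g115 fun z151 t151 g151 =>
  addcS g151 k22 fun z152 t152 g152 =>
  sqrS hε g22 fun z116 t116 g116 =>
  mulS hε (cst_rel k23) g116 fun z154 t154 g154 =>
  addS g152 g154 fun z155 t155 g155 =>
  sqrS hε g115 fun z137 t137 g137 =>
  mulS hε g115 g116 fun z136 t136 g136 =>
  addS g137 g136 fun z156 t156 g156 =>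
  smulS hε g156 k0 fun z157 t157 g157 =>
  addS g155 g157 fun z158 t158 g158 =>
  sqrS hε g116 fun z138 t138 g138 =>
  mulS hε (cst_rel k24) g138 fun z160 t160 g160 =>
  addS g158 g160 fun z161 t161 g161 =>
  subS g163 g161 fun z164 t164 g164 =>
  addS g175 g176 fun z179 t179 g179 =>
  normS g179 fun z214 t214 g214 =>
  addS g115 g116 fun z139 t139 g139 =>
  addS g139 g137 fun z140 t140 g140 =>
  addS g140 g138 fun z141 t141 g141 =>
  normS g141 fun z143 t143 g143 =>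
  mulS hε (cst_rel k25) g143 fun z144 t144 g144 =>
  addcS g144 k22 fun z145 t145 g145 =>
  smulS hε g136 k20 fun z146 t146 g146 =>
  addS g145 g146 fun z147 t147 g147 =>
  normS g147 fun z148 t148 g148 =>
  mulS hε h0 g148 fun z149 t149 g149 =>
  mulS hε g214 g149 fun z215 t215 g215 =>
  subS g164 g215 fun z216 t216 g216 =>
  addS h0 g22 fun z117 t117 g117 =>
  normS g117 fun z118 t118 g118 =>
  sqrS hε g118 fun z119 t119 g119 =>
  mulS hε (cst_rel k26) g119 fun z121 t121 g121 =>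
  addcS g121 k27 fun z122 t122 g122 =>
  mulS hε g119 g122 fun z123 t123 g123 =>
  addcS g123 k28 fun z124 t124 g124 =>
  mulS hε g119 g124 fun z125 t125 g125 =>
  rsubS g125 k19 fun z126 t126 g126 =>
  mulS hε g175 g182 fun z190 t190 g190 =>
  subS g190 g166 fun z191 t191 g191 =>
  normS g191 fun z194 t194 g194 =>
  mulS hε g22 g194 fun z195 t195 g195 =>
  addS g179 g195 fun z196 t196 g196 =>
  normS g196 fun z200 t200 g200 =>
  mulS hε g22 g200 fun z201 t201 g201 =>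
  addcS g201 k19 fun z202 t202 g202 =>
  sqrtS hε g202 fun z203 t203 g203 =>
  addcS g203 k19 fun z204 t204 g204 =>
  invS hε g204 fun z205 t205 g205 =>
  mulS hε g200 g205 fun z212 t212 g212 =>
  sqrS hε g212 fun z217 t217 g217 =>
  subS g191 g217 fun z218 t218 g218 =>
  normS g218 fun z219 t219 g219 =>
  mulS hε g126 g219 fun z220 t220 g220 =>
  subS h0 g22 fun z127 t127 g127 =>
  normS g127 fun z128 t128 g128 =>
  sqrS hε g128 fun z129 t129 g129 =>
  mulS hε (cst_rel k26) g129 fun z130 t130 g130 =>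
  addcS g130 k27 fun z131 t131 g131 =>
  mulS hε g129 g131 fun z132 t132 g132 =>
  addcS g132 k28 fun z133 t133 g133 =>
  mulS hε g129 g133 fun z134 t134 g134 =>
  rsubS g134 k19 fun z135 t135 g135 =>
  mulS hε g185 g176 fun z192 t192 g192 =>
  subS g192 g168 fun z193 t193 g193 =>
  normS g193 fun z197 t197 g197 =>
  mulS hε g22 g197 fun z198 t198 g198 =>
  subS g198 g179 fun z199 t199 g199 =>
  normS g199 fun z206 t206 g206 =>
  mulS hε g22 g206 fun z207 t207 g207 =>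
  addcS g207 k19 fun z208 t208 g208 =>
  sqrtS hε g208 fun z209 t209 g209 =>
  addcS g209 k19 fun z210 t210 g210 =>
  invS hε g210 fun z211 t211 g211 =>
  mulS hε g206 g211 fun z213 t213 g213 =>
  sqrS hε g213 fun z221 t221 g221 =>
  subS g193 g221 fun z222 t222 g222 =>
  normS g222 fun z223 t223 g223 =>
  mulS hε g135 g223 fun z224 t224 g224 =>
  addS g220 g224 fun z225 t225 g225 =>
  smulS hε g225 k2 fun z226 t226 g226 =>
  addS g216 g226 fun z227 t227 g227 =>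
  posS hε g227 <|
  smulS hε g172 k29 fun z228 t228 g228 =>
  mulS hε g22 g228 fun z233 t233 g233 =>
  addcS g233 k19 fun z234 t234 g234 =>
  posS hε g234 <|
  smulS hε g174 k29 fun z229 t229 g229 =>
  subS g229 g169 fun z230 t230 g230 =>
  normS g230 fun z235 t235 g235 =>
  mulS hε g22 g235 fun z236 t236 g236 =>
  addcS g236 k19 fun z237 t237 g237 =>
  posS hε g237 <|
  addS g228 g170 fun z231 t231 g231 =>
  normS g231 fun z238 t238 g238 =>
  mulS hε g22 g238 fun z239 t239 g239 =>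
  rsubS g239 k19 fun z240 t240 g240 =>
  posS hε g240 <|
  mulS hε g22 g229 fun z241 t241 g241 =>
  rsubS g241 k19 fun z242 t242 g242 =>
  posS hε g242 <|
  addS g228 g229 fun z232 t232 g232 =>
  normS g232 fun z267 t267 g267 =>
  mulS hε g267 g149 fun z268 t268 g268 =>
  subS g164 g268 fun z269 t269 g269 =>
  mulS hε g228 g235 fun z243 t243 g243 =>
  subS g243 g166 fun z244 t244 g244 =>
  normS g244 fun z247 t247 g247 =>
  mulS hε g22 g247 fun z248 t248 g248 =>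
  addS g232 g248 fun z249 t249 g249 =>
  normS g249 fun z253 t253 g253 =>
  mulS hε g22 g253 fun z254 t254 g254 =>
  addcS g254 k19 fun z255 t255 g255 =>
  sqrtS hε g255 fun z256 t256 g256 =>
  addcS g256 k19 fun z257 t257 g257 =>
  invS hε g257 fun z258 t258 g258 =>
  mulS hε g253 g258 fun z265 t265 g265 =>
  sqrS hε g265 fun z270 t270 g270 =>
  subS g244 g270 fun z271 t271 g271 =>
  normS g271 fun z272 t272 g272 =>
  mulS hε g126 g272 fun z273 t273 g273 =>
  mulS hε g238 g229 fun z245 t245 g245 =>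
  subS g245 g168 fun z246 t246 g246 =>
  normS g246 fun z250 t250 g250 =>
  mulS hε g22 g250 fun z251 t251 g251 =>
  subS g251 g232 fun z252 t252 g252 =>
  normS g252 fun z259 t259 g259 =>
  mulS hε g22 g259 fun z260 t260 g260 =>
  addcS g260 k19 fun z261 t261 g261 =>
  sqrtS hε g261 fun z262 t262 g262 =>
  addcS g262 k19 fun z263 t263 g263 =>
  invS hε g263 fun z264 t264 g264 =>
  mulS hε g259 g264 fun z266 t266 g266 =>
  sqrS hε g266 fun z274 t274 g274 =>
  subS g246 g274 fun z275 t275 g275 =>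
  normS g275 fun z276 t276 g276 =>
  mulS hε g135 g276 fun z277 t277 g277 =>
  addS g273 g277 fun z278 t278 g278 =>
  smulS hε g278 k2 fun z279 t279 g279 =>
  addS g269 g279 fun z280 t280 g280 =>
  posS hε g280 <|
  fun _ => trivial

def z0_Spec (ca cb m y r : ℝ) : Prop :=
  ∃ ta tb pw qw pa0 pb0 pa1 pb1 pa2 pb2 pa3 pb3 pa4 pb4 d v0 v1 v2 v3 v4 w w36 SL w42 Sv SRn SRp S0 S1 S2 tau t rw rr sh a1 sa f1a sb g2a eh ep dp f2a an en dn f3a c0 mm dd m4 md d4 E2 base La E1 Y0u Y0 G0a X0a i0a j0a Y1u Y1 G1a X1a i1a j1a f1b g2b f2b f3b Lb G0b X0b i0b j0b G1b X1b i1b j1b : ℝ,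
    d = (y * (ca + (cb * m))) ∧
    v0 = (pa0 + (pb0 * r)) ∧
    0 ≤ v0 ∧
    v1 = (pa1 + (pb1 * r)) ∧
    0 ≤ v1 ∧
    v2 = (pa2 + (pb2 * r)) ∧
    0 ≤ v2 ∧
    v3 = (pa3 + (pb3 * r)) ∧
    0 ≤ v3 ∧
    v4 = (pa4 + (pb4 * r)) ∧
    0 ≤ v4 ∧
    w = (pw + (qw * r)) ∧
    0 ≤ w ∧
    w36 = ((3 : ℝ) * v3) ∧
    SL = ((((v0 + ((3 : ℝ) * v1)) + v2) + w36) + ((3 / 2 : ℝ) * v4)) ∧
    w42 = (v0 + v1) ∧
    Sv = (((w42 + v2) + v3) + v4) ∧
    SRn = ((((((1 / 2 : ℝ) * v0) + ((15 / 8 : ℝ) * v1)) + v2) + w36) + ((9 / 16 : ℝ) * v4)) ∧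
    SRp = (((w42 + ((3 / 8 : ℝ) * v2)) + v3) + v4) ∧
    S0 = ((((((429 / 256 : ℝ) * v0) + ((1741 / 512 : ℝ) * v1)) + ((427 / 256 : ℝ) * v2)) + ((515 / 128 : ℝ) * v3)) + ((255 / 128 : ℝ) * v4)) ∧
    S1 = ((((((19 / 64 : ℝ) * v0) + ((81 / 64 : ℝ) * v1)) + ((9 / 16 : ℝ) * v2)) + ((51 / 32 : ℝ) * v3)) + ((33 / 64 : ℝ) * v4)) ∧
    S2 = ((((((-35 / 64 : ℝ) * v0) + ((-33 / 64 : ℝ) * v1)) + ((-11 / 32 : ℝ) * v2)) + ((-33 / 64 : ℝ) * v3)) + ((-35 / 64 : ℝ) * v4)) ∧
    tau = (ta + (tb * d)) ∧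
    0 ≤ tau ∧
    t = (d * tau) ∧
    0 ≤ ((5 / 32 : ℝ) - t) ∧
    0 ≤ ((1 : ℝ) - Sv) ∧
    rw = (r * w) ∧
    rr = (r ^ 2) ∧
    0 ≤ ((1 : ℝ) - (rw + (rr * SL))) ∧
    0 < ((t ^ 2) + (1 : ℝ)) ∧
    sh = (((2 : ℝ) * tau) * (((t ^ 2) + (1 : ℝ))⁻¹)) ∧
    a1 = ((rr * S1) + ((3 / 8 : ℝ) * rw)) ∧
    sa = (sh * a1) ∧
    f1a = ((3 / 8 : ℝ) * sa) ∧
    0 ≤ ((d * f1a) + (1 : ℝ)) ∧
    sb = (sh * S2) ∧
    g2a = ((3 / 8 : ℝ) * sb) ∧
    eh = (tau * sh) ∧
    ep = (eh * SRp) ∧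
    dp = (d * ep) ∧
    f2a = (g2a - dp) ∧
    0 ≤ ((d * f2a) + (1 : ℝ)) ∧
    an = ((rr * SRn) + rw) ∧
    en = (eh * an) ∧
    dn = (d * en) ∧
    f3a = (f1a + dn) ∧
    0 ≤ ((1 : ℝ) - (d * f3a)) ∧
    0 ≤ ((1 : ℝ) - (d * g2a)) ∧
    c0 = ((r * S0) + ((9 / 16 : ℝ) * w)) ∧
    mm = (m ^ 2) ∧
    dd = (d ^ 2) ∧
    m4 = (mm ^ 2) ∧
    md = (mm * dd) ∧
    d4 = (dd ^ 2) ∧
    E2 = ((((((9 / 5 : ℝ) * mm) + (3 / 2 : ℝ)) + ((3 / 10 : ℝ) * dd)) + ((3 : ℝ) * (m4 + md))) + ((1 / 5 : ℝ) * d4)) ∧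
    base = ((sh * c0) - E2) ∧
    La = (f1a + g2a) ∧
    E1 = (m * ((((3 / 5 : ℝ) * (((mm + dd) + m4) + d4)) + (3 / 2 : ℝ)) + ((2 : ℝ) * md))) ∧
    Y0u = ((m + d) ^ 2) ∧
    Y0 = ((1 : ℝ) - (Y0u * ((Y0u * (((1 / 10 : ℝ) * Y0u) + (3 / 20 : ℝ))) + (3 / 4 : ℝ)))) ∧
    G0a = ((f1a * f2a) - ep) ∧
    X0a = (La + (d * G0a)) ∧
    0 < ((√((d * X0a) + (1 : ℝ))) + (1 : ℝ)) ∧
    i0a = (((√((d * X0a) + (1 : ℝ))) + (1 : ℝ))⁻¹) ∧
    j0a = (X0a * i0a) ∧
    Y1u = ((m - d) ^ 2) ∧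
    Y1 = ((1 : ℝ) - (Y1u * ((Y1u * (((1 / 10 : ℝ) * Y1u) + (3 / 20 : ℝ))) + (3 / 4 : ℝ)))) ∧
    G1a = ((f3a * g2a) - en) ∧
    X1a = ((d * G1a) - La) ∧
    0 < ((√((d * X1a) + (1 : ℝ))) + (1 : ℝ)) ∧
    i1a = (((√((d * X1a) + (1 : ℝ))) + (1 : ℝ))⁻¹) ∧
    j1a = (X1a * i1a) ∧
    0 ≤ ((base - (La * E1)) + ((1 / 2 : ℝ) * ((Y0 * (G0a - (j0a ^ 2))) + (Y1 * (G1a - (j1a ^ 2)))))) ∧
    f1b = ((1229 / 2048 : ℝ) * sa) ∧
    0 ≤ ((d * f1b) + (1 : ℝ)) ∧
    g2b = ((1229 / 2048 : ℝ) * sb) ∧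
    f2b = (g2b - dp) ∧
    0 ≤ ((d * f2b) + (1 : ℝ)) ∧
    f3b = (f1b + dn) ∧
    0 ≤ ((1 : ℝ) - (d * f3b)) ∧
    0 ≤ ((1 : ℝ) - (d * g2b)) ∧
    Lb = (f1b + g2b) ∧
    G0b = ((f1b * f2b) - ep) ∧
    X0b = (Lb + (d * G0b)) ∧
    0 < ((√((d * X0b) + (1 : ℝ))) + (1 : ℝ)) ∧
    i0b = (((√((d * X0b) + (1 : ℝ))) + (1 : ℝ))⁻¹) ∧
    j0b = (X0b * i0b) ∧
    G1b = ((f3b * g2b) - en) ∧
    X1b = ((d * G1b) - Lb) ∧
    0 < ((√((d * X1b) + (1 : ℝ))) + (1 : ℝ)) ∧
    i1b = (((√((d * X1b) + (1 : ℝ))) + (1 : ℝ))⁻¹) ∧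
    j1b = (X1b * i1b) ∧
    0 ≤ ((base - (Lb * E1)) + ((1 / 2 : ℝ) * ((Y0 * (G0b - (j0b ^ 2))) + (Y1 * (G1b - (j1b ^ 2))))))

theorem z0_E {gs ps : ℕ} {m y r u3 : ℝ} (h : z0_R gs ps m y r u3) : z0_Spec (parV gs 0) (parV gs 1) m y r := by
  delta z0_R at h
  exact letR_ex h fun ta _ h =>
  letR_ex h fun tb _ h =>
  letR_ex h fun pw _ h =>
  letR_ex h fun qw _ h =>
  letR_ex h fun pa0 _ h =>
  letR_ex h fun pb0 _ h =>
  letR_ex h fun pa1 _ h =>
  letR_ex h fun pb1 _ h =>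
  letR_ex h fun pa2 _ h =>
  letR_ex h fun pb2 _ h =>
  letR_ex h fun pa3 _ h =>
  letR_ex h fun pb3 _ h =>
  letR_ex h fun pa4 _ h =>
  letR_ex h fun pb4 _ h =>
  letR_in h fun h =>
  letR_in h fun h =>
  letR_in h fun h =>
  letR_in h fun h =>
  letR_in h fun h =>
  letR_ex h fun d q1 h =>
  letR_in h fun h =>
  letR_ex h fun v0 q2 h =>
  posR_ex h fun q3 h =>
  letR_in h fun h =>
  letR_ex h fun v1 q4 h =>
  posR_ex h fun q5 h =>
  letR_in h fun h =>
  letR_ex h fun v2 q6 h =>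
  posR_ex h fun q7 h =>
  letR_in h fun h =>
  letR_ex h fun v3 q8 h =>
  posR_ex h fun q9 h =>
  letR_in h fun h =>
  letR_ex h fun v4 q10 h =>
  posR_ex h fun q11 h =>
  letR_in h fun h =>
  letR_ex h fun w q12 h =>
  posR_ex h fun q13 h =>
  letR_in h fun h =>
  letR_in h fun h =>
  letR_in h fun h =>
  letR_ex h fun w36 q14 h =>
  letR_in h fun h =>
  letR_in h fun h =>
  letR_ex h fun SL q15 h =>
  letR_ex h fun w42 q16 h =>
  letR_in h fun h =>
  letR_in h fun h =>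
  letR_ex h fun Sv q17 h =>
  letR_in h fun h =>
  letR_in h fun h =>
  letR_in h fun h =>
  letR_in h fun h =>
  letR_in h fun h =>
  letR_in h fun h =>
  letR_ex h fun SRn q18 h =>
  letR_in h fun h =>
  letR_in h fun h =>
  letR_in h fun h =>
  letR_ex h fun SRp q19 h =>
  letR_in h fun h =>
  letR_in h fun h =>
  letR_in h fun h =>
  letR_in h fun h =>
  letR_in h fun h =>
  letR_in h fun h =>
  letR_in h fun h =>
  letR_in h fun h =>
  letR_ex h fun S0 q20 h =>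
  letR_in h fun h =>
  letR_in h fun h =>
  letR_in h fun h =>
  letR_in h fun h =>
  letR_in h fun h =>
  letR_in h fun h =>
  letR_in h fun h =>
  letR_in h fun h =>
  letR_ex h fun S1 q21 h =>
  letR_in h fun h =>
  letR_in h fun h =>
  letR_in h fun h =>
  letR_in h fun h =>
  letR_in h fun h =>
  letR_in h fun h =>
  letR_in h fun h =>
  letR_in h fun h =>
  letR_ex h fun S2 q22 h =>
  letR_in h fun h =>
  letR_ex h fun tau q23 h =>
  posR_ex h fun q24 h =>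
  letR_in h fun h =>
  letR_ex h fun t q25 h =>
  letR_in h fun h =>
  posR_ex h fun q26 h =>
  letR_in h fun h =>
  posR_ex h fun q27 h =>
  letR_in h fun h =>
  letR_ex h fun rw q28 h =>
  letR_ex h fun rr q29 h =>
  letR_in h fun h =>
  letR_in h fun h =>
  letR_in h fun h =>
  letR_in h fun h =>
  posR_ex h fun q30 h =>
  letR_in h fun h =>
  letR_in h fun h =>
  letR_in h fun h =>
  invR_ex h fun q31 h =>
  letR_in h fun h =>
  letR_ex h fun sh q32 h =>
  letR_in h fun h =>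
  letR_in h fun h =>
  letR_in h fun h =>
  letR_ex h fun a1 q33 h =>
  letR_in h fun h =>
  letR_ex h fun sa q34 h =>
  letR_ex h fun f1a q35 h =>
  letR_in h fun h =>
  letR_in h fun h =>
  posR_ex h fun q36 h =>
  letR_in h fun h =>
  letR_ex h fun sb q37 h =>
  letR_ex h fun g2a q38 h =>
  letR_ex h fun eh q39 h =>
  letR_in h fun h =>
  letR_ex h fun ep q40 h =>
  letR_ex h fun dp q41 h =>
  letR_ex h fun f2a q42 h =>
  letR_in h fun h =>
  letR_in h fun h =>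
  letR_in h fun h =>
  posR_ex h fun q43 h =>
  letR_in h fun h =>
  letR_in h fun h =>
  letR_ex h fun an q44 h =>
  letR_in h fun h =>
  letR_ex h fun en q45 h =>
  letR_ex h fun dn q46 h =>
  letR_ex h fun f3a q47 h =>
  letR_in h fun h =>
  letR_in h fun h =>
  letR_in h fun h =>
  posR_ex h fun q48 h =>
  letR_in h fun h =>
  letR_in h fun h =>
  posR_ex h fun q49 h =>
  letR_in h fun h =>
  letR_in h fun h =>
  letR_in h fun h =>
  letR_ex h fun c0 q50 h =>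
  letR_in h fun h =>
  letR_in h fun h =>
  letR_ex h fun mm q51 h =>
  letR_in h fun h =>
  letR_in h fun h =>
  letR_ex h fun dd q52 h =>
  letR_in h fun h =>
  letR_in h fun h =>
  letR_ex h fun m4 q53 h =>
  letR_ex h fun md q54 h =>
  letR_in h fun h =>
  letR_in h fun h =>
  letR_in h fun h =>
  letR_ex h fun d4 q55 h =>
  letR_in h fun h =>
  letR_ex h fun E2 q56 h =>
  letR_ex h fun base q57 h =>
  letR_ex h fun La q58 h =>
  letR_in h fun h =>
  letR_in h fun h =>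
  letR_in h fun h =>
  letR_in h fun h =>
  letR_in h fun h =>
  letR_in h fun h =>
  letR_in h fun h =>
  letR_in h fun h =>
  letR_in h fun h =>
  letR_in h fun h =>
  letR_ex h fun E1 q59 h =>
  letR_in h fun h =>
  letR_in h fun h =>
  letR_in h fun h =>
  letR_in h fun h =>
  letR_ex h fun Y0u q60 h =>
  letR_in h fun h =>
  letR_in h fun h =>
  letR_in h fun h =>
  letR_in h fun h =>
  letR_in h fun h =>
  letR_ex h fun Y0 q61 h =>
  letR_in h fun h =>
  letR_ex h fun G0a q62 h =>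
  letR_in h fun h =>
  letR_in h fun h =>
  letR_ex h fun X0a q63 h =>
  letR_in h fun h =>
  letR_in h fun h =>
  letR_in h fun h =>
  letR_in h fun h =>
  letR_in h fun h =>
  invR_ex h fun q64 h =>
  letR_ex h fun i0a q65 h =>
  letR_ex h fun j0a q66 h =>
  letR_in h fun h =>
  letR_in h fun h =>
  letR_in h fun h =>
  letR_in h fun h =>
  letR_in h fun h =>
  letR_in h fun h =>
  letR_ex h fun Y1u q67 h =>
  letR_in h fun h =>
  letR_in h fun h =>
  letR_in h fun h =>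
  letR_in h fun h =>
  letR_in h fun h =>
  letR_ex h fun Y1 q68 h =>
  letR_in h fun h =>
  letR_ex h fun G1a q69 h =>
  letR_in h fun h =>
  letR_in h fun h =>
  letR_ex h fun X1a q70 h =>
  letR_in h fun h =>
  letR_in h fun h =>
  letR_in h fun h =>
  letR_in h fun h =>
  letR_in h fun h =>
  invR_ex h fun q71 h =>
  letR_ex h fun i1a q72 h =>
  letR_ex h fun j1a q73 h =>
  letR_in h fun h =>
  letR_in h fun h =>
  letR_in h fun h =>
  letR_in h fun h =>
  letR_in h fun h =>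
  letR_in h fun h =>
  letR_in h fun h =>
  posR_ex h fun q74 h =>
  letR_ex h fun f1b q75 h =>
  letR_in h fun h =>
  letR_in h fun h =>
  posR_ex h fun q76 h =>
  letR_ex h fun g2b q77 h =>
  letR_ex h fun f2b q78 h =>
  letR_in h fun h =>
  letR_in h fun h =>
  letR_in h fun h =>
  posR_ex h fun q79 h =>
  letR_ex h fun f3b q80 h =>
  letR_in h fun h =>
  letR_in h fun h =>
  letR_in h fun h =>
  posR_ex h fun q81 h =>
  letR_in h fun h =>
  letR_in h fun h =>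
  posR_ex h fun q82 h =>
  letR_ex h fun Lb q83 h =>
  letR_in h fun h =>
  letR_in h fun h =>
  letR_in h fun h =>
  letR_in h fun h =>
  letR_ex h fun G0b q84 h =>
  letR_in h fun h =>
  letR_in h fun h =>
  letR_ex h fun X0b q85 h =>
  letR_in h fun h =>
  letR_in h fun h =>
  letR_in h fun h =>
  letR_in h fun h =>
  letR_in h fun h =>
  invR_ex h fun q86 h =>
  letR_ex h fun i0b q87 h =>
  letR_ex h fun j0b q88 h =>
  letR_in h fun h =>
  letR_in h fun h =>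
  letR_in h fun h =>
  letR_in h fun h =>
  letR_in h fun h =>
  letR_ex h fun G1b q89 h =>
  letR_in h fun h =>
  letR_in h fun h =>
  letR_ex h fun X1b q90 h =>
  letR_in h fun h =>
  letR_in h fun h =>
  letR_in h fun h =>
  letR_in h fun h =>
  letR_in h fun h =>
  invR_ex h fun q91 h =>
  letR_ex h fun i1b q92 h =>
  letR_ex h fun j1b q93 h =>
  letR_in h fun h =>
  letR_in h fun h =>
  letR_in h fun h =>
  letR_in h fun h =>
  letR_in h fun h =>
  letR_in h fun h =>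
  letR_in h fun h =>
  posR_ex h fun q94 h =>
  ⟨ta, tb, pw, qw, pa0, pb0, pa1, pb1, pa2, pb2, pa3, pb3, pa4, pb4, d, v0, v1, v2, v3, v4, w, w36, SL, w42, Sv, SRn, SRp, S0, S1, S2, tau, t, rw, rr, sh, a1, sa, f1a, sb, g2a, eh, ep, dp, f2a, an, en, dn, f3a, c0, mm, dd, m4, md, d4, E2, base, La, E1, Y0u, Y0, G0a, X0a, i0a, j0a, Y1u, Y1, G1a, X1a, i1a, j1a, f1b, g2b, f2b, f3b, Lb, G0b, X0b, i0b, j0b, G1b, X1b, i1b, j1b, q1, q2, q3, q4, q5, q6, q7, q8, q9, q10, q11, q12, q13, q14, q15, q16, q17, q18, q19, q20, q21, q22, q23, q24, q25, q26, q27, q28, q29, q30, q31, q32, q33, q34, q35, q36, q37, q38, q39, q40, q41, q42, q43, q44, q45, q46, q47, q48, q49, q50, q51, q52, q53, q54, q55, q56, q57, q58, q59, q60, q61, q62, q63, q64, q65, q66, q67, q68, q69, q70, q71, q72, q73, q74, q75, q76, q77, q78, q79, q80, q81, q82, q83, q84, q85, q86, q87, q88, q89, q90, q91, q92, q93, q94⟩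

theorem k30 : (9 / 4 : ℝ) = val 4722367116188342812672 := by norm_num [val]
theorem k31 : (1 / 4 : ℝ) = val 4722366553238389391360 := by norm_num [val]
theorem k32 : (851 / 512 : ℝ) = val 4722366950711842832384 := by norm_num [val]
theorem k33 : (513 / 256 : ℝ) = val 4722367046919110262784 := by norm_num [val]
theorem k34 : (435 / 256 : ℝ) = val 4722366961157203296256 := by norm_num [val]
theorem k35 : (1169 / 512 : ℝ) = val 4722367125534191648768 := by norm_num [val]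
theorem k36 : (21 / 32 : ℝ) = val 4722366667587598680064 := by norm_num [val]
theorem k37 : (13 / 32 : ℝ) = val 4722366597218854502400 := by norm_num [val]
theorem k38 : (81 / 128 : ℝ) = val 4722366660990528913408 := by norm_num [val]
theorem k39 : (-25 / 64 : ℝ) = val 4722366372918482436096 := by norm_num [val]
theorem k40 : (-5 / 32 : ℝ) = val 4722366438889180102656 := by norm_num [val]
theorem k41 : |2 ^ 48 * (-5 / 32 : ℝ) - (((4722366438889180102656 : ℕ) : ℝ) - 2 ^ 72)| ≤ ((0 : ℕ) : ℝ) := by norm_num [abs_le]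
theorem k42 : |2 ^ 48 * (5 / 16 : ℝ) - (((4722366570830575435776 : ℕ) : ℝ) - 2 ^ 72)| ≤ ((0 : ℕ) : ℝ) := by norm_num [abs_le]
def z1_B (gs ps : ℕ) (x0 x1 x2 x3 : AF) : Bool :=
  parK ps 0 fun z3 =>
  parK ps 1 fun z4 =>
  parK ps 2 fun z5 =>
  parK ps 3 fun z6 =>
  parK ps 4 fun z7 =>
  parK ps 5 fun z8 =>
  parK ps 6 fun z9 =>
  parK ps 7 fun z10 =>
  parK ps 8 fun z11 =>
  parK ps 9 fun z12 =>
  parK ps 10 fun z13 =>
  parK ps 11 fun z14 =>
  parK gs 0 fun z15 =>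
  parK gs 1 fun z16 =>
  mulK z16 x0 fun z17 =>
  addK z15 z17 fun z18 =>
  normK z18 fun z19 =>
  mulK x1 z19 fun z20 =>
  mulK z8 x2 fun z21 =>
  addK z7 z21 fun z22 =>
  posK z22 <|
  mulK z10 x2 fun z23 =>
  addK z9 z23 fun z24 =>
  posK z24 <|
  mulK z12 x2 fun z25 =>
  addK z11 z25 fun z26 =>
  posK z26 <|
  mulK z14 x2 fun z27 =>
  addK z13 z27 fun z28 =>
  posK z28 <|
  mulK z6 x2 fun z29 =>
  addK z5 z29 fun z30 =>
  posK z30 <|
  smulK z24 4722366905082110279680 fun z31 =>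
  addK z22 z31 fun z33 =>
  addK z33 z26 fun z34 =>
  smulK z28 4722367116188342812672 fun z32 =>
  addK z34 z32 fun z35 =>
  addK z22 z24 fun z36 =>
  addK z36 z26 fun z37 =>
  addK z37 z28 fun z38 =>
  smulK z22 4722366588422761480192 fun z39 =>
  addK z39 z31 fun z41 =>
  addK z41 z26 fun z42 =>
  smulK z28 4722366641199319613440 fun z40 =>
  addK z42 z40 fun z43 =>
  smulK z24 4722366553238389391360 fun z44 =>
  addK z22 z44 fun z46 =>
  smulK z26 4722366588422761480192 fun z45 =>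
  addK z46 z45 fun z47 =>
  addK z47 z28 fun z48 =>
  smulK z22 4722366950711842832384 fun z49 =>
  smulK z24 4722367046919110262784 fun z50 =>
  addK z49 z50 fun z53 =>
  smulK z26 4722366961157203296256 fun z51 =>
  addK z53 z51 fun z54 =>
  smulK z28 4722367125534191648768 fun z52 =>
  addK z54 z52 fun z55 =>
  smulK z22 4722366566432528924672 fun z56 =>
  smulK z24 4722366667587598680064 fun z57 =>
  addK z56 z57 fun z60 =>
  smulK z26 4722366597218854502400 fun z58 =>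
  addK z60 z58 fun z61 =>
  smulK z28 4722366660990528913408 fun z59 =>
  addK z61 z59 fun z62 =>
  smulK z22 4722366372918482436096 fun z63 =>
  smulK z24 4722366438889180102656 fun z64 =>
  addK z63 z64 fun z67 =>
  smulK z26 4722366386112621969408 fun z65 =>
  addK z67 z65 fun z68 =>
  smulK z28 4722366337734110347264 fun z66 =>
  addK z68 z66 fun z69 =>
  mulK z4 z20 fun z70 =>
  addK z3 z70 fun z71 =>
  normK z71 fun z72 =>
  mulK z20 z72 fun z73 =>
  addcK z73 4722366438889180102656 0 fun z74 =>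
  posK z74 <|
  rsubK z73 4722366570830575435776 0 fun z75 =>
  posK z75 <|
  rsubK z38 4722366764344621924352 0 fun z79 =>
  posK z79 <|
  normK z30 fun z77 =>
  mulK x2 z77 fun z78 =>
  sqrK x2 fun z76 =>
  normK z35 fun z80 =>
  mulK z76 z80 fun z81 =>
  addK z78 z81 fun z82 =>
  rsubK z82 4722366764344621924352 0 fun z83 =>
  posK z83 <|
  smulK z72 4722367045819598635008 fun z88 =>
  sqrK z73 fun z85 =>
  addcK z85 4722366764344621924352 0 fun z86 =>
  invK z86 fun z87 =>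
  mulK z88 z87 fun z89 =>
  normK z62 fun z91 =>
  mulK z76 z91 fun z92 =>
  smulK z78 4722366588422761480192 fun z93 =>
  addK z92 z93 fun z94 =>
  normK z94 fun z158 =>
  mulK z89 z158 fun z159 =>
  smulK z159 4722366588422761480192 fun z162 =>
  mulK z20 z162 fun z167 =>
  addcK z167 4722366764344621924352 0 fun z168 =>
  posK z168 <|
  normK z69 fun z160 =>
  mulK z89 z160 fun z161 =>
  smulK z161 4722366588422761480192 fun z163 =>
  mulK z72 z89 fun z90 =>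
  normK z48 fun z152 =>
  mulK z90 z152 fun z153 =>
  mulK z20 z153 fun z156 =>
  subK z163 z156 fun z164 =>
  normK z164 fun z169 =>
  mulK z20 z169 fun z170 =>
  addcK z170 4722366764344621924352 0 fun z171 =>
  posK z171 <|
  normK z43 fun z95 =>
  mulK z76 z95 fun z96 =>
  addK z96 z78 fun z97 =>
  normK z97 fun z154 =>
  mulK z90 z154 fun z155 =>
  mulK z20 z155 fun z157 =>
  addK z162 z157 fun z165 =>
  normK z165 fun z172 =>
  mulK z20 z172 fun z173 =>
  rsubK z173 4722366764344621924352 0 fun z174 =>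
  posK z174 <|
  mulK z20 z163 fun z175 =>
  rsubK z175 4722366764344621924352 0 fun z176 =>
  posK z176 <|
  normK z55 fun z98 =>
  mulK x2 z98 fun z99 =>
  smulK z30 4722366641199319613440 fun z100 =>
  addK z99 z100 fun z101 =>
  normK z101 fun z149 =>
  mulK z89 z149 fun z150 =>
  sqrK x0 fun z102 =>
  mulK (cst 4722366989524603292876 1) z102 fun z138 =>
  addcK z138 4722366905082110279680 0 fun z139 =>
  sqrK z20 fun z103 =>
  mulK (cst 4722366567312138226892 1) z103 fun z141 =>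
  addK z139 z141 fun z142 =>
  sqrK z102 fun z124 =>
  mulK z102 z103 fun z123 =>
  addK z124 z123 fun z143 =>
  smulK z143 4722367327294575345664 fun z144 =>
  addK z142 z144 fun z145 =>
  sqrK z103 fun z125 =>
  mulK (cst 4722366539164640555827 1) z125 fun z147 =>
  addK z145 z147 fun z148 =>
  subK z150 z148 fun z151 =>
  addK z162 z163 fun z166 =>
  normK z166 fun z201 =>
  addK z102 z103 fun z126 =>
  addK z126 z124 fun z127 =>
  addK z127 z125 fun z128 =>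
  normK z128 fun z130 =>
  mulK (cst 4722366651754631240089 1) z130 fun z131 =>
  addcK z131 4722366905082110279680 0 fun z132 =>
  smulK z123 4722367045819598635008 fun z133 =>
  addK z132 z133 fun z134 =>
  normK z134 fun z135 =>
  mulK x0 z135 fun z136 =>
  mulK z201 z136 fun z202 =>
  subK z151 z202 fun z203 =>
  addK x0 z20 fun z104 =>
  normK z104 fun z105 =>
  sqrK z105 fun z106 =>
  mulK (cst 4722366511017142884761 1) z106 fun z108 =>
  addcK z108 4722366525090891720294 1 fun z109 =>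
  mulK z106 z109 fun z110 =>
  addcK z110 4722366693975877746688 0 fun z111 =>
  mulK z106 z111 fun z112 =>
  rsubK z112 4722366764344621924352 0 fun z113 =>
  mulK z162 z169 fun z177 =>
  subK z177 z153 fun z178 =>
  normK z178 fun z181 =>
  mulK z20 z181 fun z182 =>
  addK z166 z182 fun z183 =>
  normK z183 fun z187 =>
  mulK z20 z187 fun z188 =>
  addcK z188 4722366764344621924352 0 fun z189 =>
  sqrtK z189 fun z190 =>
  addcK z190 4722366764344621924352 0 fun z191 =>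
  invK z191 fun z192 =>
  mulK z187 z192 fun z199 =>
  sqrK z199 fun z204 =>
  subK z178 z204 fun z205 =>
  normK z205 fun z206 =>
  mulK z113 z206 fun z207 =>
  subK x0 z20 fun z114 =>
  normK z114 fun z115 =>
  sqrK z115 fun z116 =>
  mulK (cst 4722366511017142884761 1) z116 fun z117 =>
  addcK z117 4722366525090891720294 1 fun z118 =>
  mulK z116 z118 fun z119 =>
  addcK z119 4722366693975877746688 0 fun z120 =>
  mulK z116 z120 fun z121 =>
  rsubK z121 4722366764344621924352 0 fun z122 =>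
  mulK z172 z163 fun z179 =>
  subK z179 z155 fun z180 =>
  normK z180 fun z184 =>
  mulK z20 z184 fun z185 =>
  subK z185 z166 fun z186 =>
  normK z186 fun z193 =>
  mulK z20 z193 fun z194 =>
  addcK z194 4722366764344621924352 0 fun z195 =>
  sqrtK z195 fun z196 =>
  addcK z196 4722366764344621924352 0 fun z197 =>
  invK z197 fun z198 =>
  mulK z193 z198 fun z200 =>
  sqrK z200 fun z208 =>
  subK z180 z208 fun z209 =>
  normK z209 fun z210 =>
  mulK z122 z210 fun z211 =>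
  addK z207 z211 fun z212 =>
  smulK z212 4722366623607133569024 fun z213 =>
  addK z203 z213 fun z214 =>
  posK z214 <|
  smulK z159 4722366651782119030784 fun z215 =>
  mulK z20 z215 fun z220 =>
  addcK z220 4722366764344621924352 0 fun z221 =>
  posK z221 <|
  smulK z161 4722366651782119030784 fun z216 =>
  subK z216 z156 fun z217 =>
  normK z217 fun z222 =>
  mulK z20 z222 fun z223 =>
  addcK z223 4722366764344621924352 0 fun z224 =>
  posK z224 <|
  addK z215 z157 fun z218 =>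
  normK z218 fun z225 =>
  mulK z20 z225 fun z226 =>
  rsubK z226 4722366764344621924352 0 fun z227 =>
  posK z227 <|
  mulK z20 z216 fun z228 =>
  rsubK z228 4722366764344621924352 0 fun z229 =>
  posK z229 <|
  addK z215 z216 fun z219 =>
  normK z219 fun z254 =>
  mulK z254 z136 fun z255 =>
  subK z151 z255 fun z256 =>
  mulK z215 z222 fun z230 =>
  subK z230 z153 fun z231 =>
  normK z231 fun z234 =>
  mulK z20 z234 fun z235 =>
  addK z219 z235 fun z236 =>
  normK z236 fun z240 =>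
  mulK z20 z240 fun z241 =>
  addcK z241 4722366764344621924352 0 fun z242 =>
  sqrtK z242 fun z243 =>
  addcK z243 4722366764344621924352 0 fun z244 =>
  invK z244 fun z245 =>
  mulK z240 z245 fun z252 =>
  sqrK z252 fun z257 =>
  subK z231 z257 fun z258 =>
  normK z258 fun z259 =>
  mulK z113 z259 fun z260 =>
  mulK z225 z216 fun z232 =>
  subK z232 z155 fun z233 =>
  normK z233 fun z237 =>
  mulK z20 z237 fun z238 =>
  subK z238 z219 fun z239 =>
  normK z239 fun z246 =>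
  mulK z20 z246 fun z247 =>
  addcK z247 4722366764344621924352 0 fun z248 =>
  sqrtK z248 fun z249 =>
  addcK z249 4722366764344621924352 0 fun z250 =>
  invK z250 fun z251 =>
  mulK z246 z251 fun z253 =>
  sqrK z253 fun z261 =>
  subK z233 z261 fun z262 =>
  normK z262 fun z263 =>
  mulK z122 z263 fun z264 =>
  addK z260 z264 fun z265 =>
  smulK z265 4722366623607133569024 fun z266 =>
  addK z256 z266 fun z267 =>
  posK z267 <|
  true

def z1_R (gs ps : ℕ) (m y r u3 : ℝ) : Prop :=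
  letR (parV ps 0) fun z3 =>
  letR (parV ps 1) fun z4 =>
  letR (parV ps 2) fun z5 =>
  letR (parV ps 3) fun z6 =>
  letR (parV ps 4) fun z7 =>
  letR (parV ps 5) fun z8 =>
  letR (parV ps 6) fun z9 =>
  letR (parV ps 7) fun z10 =>
  letR (parV ps 8) fun z11 =>
  letR (parV ps 9) fun z12 =>
  letR (parV ps 10) fun z13 =>
  letR (parV ps 11) fun z14 =>
  letR (parV gs 0) fun z15 =>
  letR (parV gs 1) fun z16 =>
  letR (z16 * m) fun z17 =>
  letR (z15 + z17) fun z18 =>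
  letR z18 fun z19 =>
  letR (y * z19) fun z20 =>
  letR (z8 * r) fun z21 =>
  letR (z7 + z21) fun z22 =>
  posR z22 <|
  letR (z10 * r) fun z23 =>
  letR (z9 + z23) fun z24 =>
  posR z24 <|
  letR (z12 * r) fun z25 =>
  letR (z11 + z25) fun z26 =>
  posR z26 <|
  letR (z14 * r) fun z27 =>
  letR (z13 + z27) fun z28 =>
  posR z28 <|
  letR (z6 * r) fun z29 =>
  letR (z5 + z29) fun z30 =>
  posR z30 <|
  letR ((3 / 2 : ℝ) * z24) fun z31 =>
  letR (z22 + z31) fun z33 =>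
  letR (z33 + z26) fun z34 =>
  letR ((9 / 4 : ℝ) * z28) fun z32 =>
  letR (z34 + z32) fun z35 =>
  letR (z22 + z24) fun z36 =>
  letR (z36 + z26) fun z37 =>
  letR (z37 + z28) fun z38 =>
  letR ((3 / 8 : ℝ) * z22) fun z39 =>
  letR (z39 + z31) fun z41 =>
  letR (z41 + z26) fun z42 =>
  letR ((9 / 16 : ℝ) * z28) fun z40 =>
  letR (z42 + z40) fun z43 =>
  letR ((1 / 4 : ℝ) * z24) fun z44 =>
  letR (z22 + z44) fun z46 =>
  letR ((3 / 8 : ℝ) * z26) fun z45 =>
  letR (z46 + z45) fun z47 =>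
  letR (z47 + z28) fun z48 =>
  letR ((851 / 512 : ℝ) * z22) fun z49 =>
  letR ((513 / 256 : ℝ) * z24) fun z50 =>
  letR (z49 + z50) fun z53 =>
  letR ((435 / 256 : ℝ) * z26) fun z51 =>
  letR (z53 + z51) fun z54 =>
  letR ((1169 / 512 : ℝ) * z28) fun z52 =>
  letR (z54 + z52) fun z55 =>
  letR ((19 / 64 : ℝ) * z22) fun z56 =>
  letR ((21 / 32 : ℝ) * z24) fun z57 =>
  letR (z56 + z57) fun z60 =>
  letR ((13 / 32 : ℝ) * z26) fun z58 =>
  letR (z60 + z58) fun z61 =>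
  letR ((81 / 128 : ℝ) * z28) fun z59 =>
  letR (z61 + z59) fun z62 =>
  letR ((-25 / 64 : ℝ) * z22) fun z63 =>
  letR ((-5 / 32 : ℝ) * z24) fun z64 =>
  letR (z63 + z64) fun z67 =>
  letR ((-11 / 32 : ℝ) * z26) fun z65 =>
  letR (z67 + z65) fun z68 =>
  letR ((-33 / 64 : ℝ) * z28) fun z66 =>
  letR (z68 + z66) fun z69 =>
  letR (z4 * z20) fun z70 =>
  letR (z3 + z70) fun z71 =>
  letR z71 fun z72 =>
  letR (z20 * z72) fun z73 =>
  letR (z73 + (-5 / 32 : ℝ)) fun z74 =>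
  posR z74 <|
  letR ((5 / 16 : ℝ) - z73) fun z75 =>
  posR z75 <|
  letR ((1 : ℝ) - z38) fun z79 =>
  posR z79 <|
  letR z30 fun z77 =>
  letR (r * z77) fun z78 =>
  letR (r ^ 2) fun z76 =>
  letR z35 fun z80 =>
  letR (z76 * z80) fun z81 =>
  letR (z78 + z81) fun z82 =>
  letR ((1 : ℝ) - z82) fun z83 =>
  posR z83 <|
  letR ((2 : ℝ) * z72) fun z88 =>
  letR (z73 ^ 2) fun z85 =>
  letR (z85 + (1 : ℝ)) fun z86 =>
  invR z86 fun z87 =>
  letR (z88 * z87) fun z89 =>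
  letR z62 fun z91 =>
  letR (z76 * z91) fun z92 =>
  letR ((3 / 8 : ℝ) * z78) fun z93 =>
  letR (z92 + z93) fun z94 =>
  letR z94 fun z158 =>
  letR (z89 * z158) fun z159 =>
  letR ((3 / 8 : ℝ) * z159) fun z162 =>
  letR (z20 * z162) fun z167 =>
  letR (z167 + (1 : ℝ)) fun z168 =>
  posR z168 <|
  letR z69 fun z160 =>
  letR (z89 * z160) fun z161 =>
  letR ((3 / 8 : ℝ) * z161) fun z163 =>
  letR (z72 * z89) fun z90 =>
  letR z48 fun z152 =>
  letR (z90 * z152) fun z153 =>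
  letR (z20 * z153) fun z156 =>
  letR (z163 - z156) fun z164 =>
  letR z164 fun z169 =>
  letR (z20 * z169) fun z170 =>
  letR (z170 + (1 : ℝ)) fun z171 =>
  posR z171 <|
  letR z43 fun z95 =>
  letR (z76 * z95) fun z96 =>
  letR (z96 + z78) fun z97 =>
  letR z97 fun z154 =>
  letR (z90 * z154) fun z155 =>
  letR (z20 * z155) fun z157 =>
  letR (z162 + z157) fun z165 =>
  letR z165 fun z172 =>
  letR (z20 * z172) fun z173 =>
  letR ((1 : ℝ) - z173) fun z174 =>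
  posR z174 <|
  letR (z20 * z163) fun z175 =>
  letR ((1 : ℝ) - z175) fun z176 =>
  posR z176 <|
  letR z55 fun z98 =>
  letR (r * z98) fun z99 =>
  letR ((9 / 16 : ℝ) * z30) fun z100 =>
  letR (z99 + z100) fun z101 =>
  letR z101 fun z149 =>
  letR (z89 * z149) fun z150 =>
  letR (m ^ 2) fun z102 =>
  letR ((9 / 5 : ℝ) * z102) fun z138 =>
  letR (z138 + (3 / 2 : ℝ)) fun z139 =>
  letR (z20 ^ 2) fun z103 =>
  letR ((3 / 10 : ℝ) * z103) fun z141 =>
  letR (z139 + z141) fun z142 =>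
  letR (z102 ^ 2) fun z124 =>
  letR (z102 * z103) fun z123 =>
  letR (z124 + z123) fun z143 =>
  letR ((3 : ℝ) * z143) fun z144 =>
  letR (z142 + z144) fun z145 =>
  letR (z103 ^ 2) fun z125 =>
  letR ((1 / 5 : ℝ) * z125) fun z147 =>
  letR (z145 + z147) fun z148 =>
  letR (z150 - z148) fun z151 =>
  letR (z162 + z163) fun z166 =>
  letR z166 fun z201 =>
  letR (z102 + z103) fun z126 =>
  letR (z126 + z124) fun z127 =>
  letR (z127 + z125) fun z128 =>
  letR z128 fun z130 =>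
  letR ((3 / 5 : ℝ) * z130) fun z131 =>
  letR (z131 + (3 / 2 : ℝ)) fun z132 =>
  letR ((2 : ℝ) * z123) fun z133 =>
  letR (z132 + z133) fun z134 =>
  letR z134 fun z135 =>
  letR (m * z135) fun z136 =>
  letR (z201 * z136) fun z202 =>
  letR (z151 - z202) fun z203 =>
  letR (m + z20) fun z104 =>
  letR z104 fun z105 =>
  letR (z105 ^ 2) fun z106 =>
  letR ((1 / 10 : ℝ) * z106) fun z108 =>
  letR (z108 + (3 / 20 : ℝ)) fun z109 =>
  letR (z106 * z109) fun z110 =>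
  letR (z110 + (3 / 4 : ℝ)) fun z111 =>
  letR (z106 * z111) fun z112 =>
  letR ((1 : ℝ) - z112) fun z113 =>
  letR (z162 * z169) fun z177 =>
  letR (z177 - z153) fun z178 =>
  letR z178 fun z181 =>
  letR (z20 * z181) fun z182 =>
  letR (z166 + z182) fun z183 =>
  letR z183 fun z187 =>
  letR (z20 * z187) fun z188 =>
  letR (z188 + (1 : ℝ)) fun z189 =>
  letR (√z189) fun z190 =>
  letR (z190 + (1 : ℝ)) fun z191 =>
  invR z191 fun z192 =>
  letR (z187 * z192) fun z199 =>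
  letR (z199 ^ 2) fun z204 =>
  letR (z178 - z204) fun z205 =>
  letR z205 fun z206 =>
  letR (z113 * z206) fun z207 =>
  letR (m - z20) fun z114 =>
  letR z114 fun z115 =>
  letR (z115 ^ 2) fun z116 =>
  letR ((1 / 10 : ℝ) * z116) fun z117 =>
  letR (z117 + (3 / 20 : ℝ)) fun z118 =>
  letR (z116 * z118) fun z119 =>
  letR (z119 + (3 / 4 : ℝ)) fun z120 =>
  letR (z116 * z120) fun z121 =>
  letR ((1 : ℝ) - z121) fun z122 =>
  letR (z172 * z163) fun z179 =>
  letR (z179 - z155) fun z180 =>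
  letR z180 fun z184 =>
  letR (z20 * z184) fun z185 =>
  letR (z185 - z166) fun z186 =>
  letR z186 fun z193 =>
  letR (z20 * z193) fun z194 =>
  letR (z194 + (1 : ℝ)) fun z195 =>
  letR (√z195) fun z196 =>
  letR (z196 + (1 : ℝ)) fun z197 =>
  invR z197 fun z198 =>
  letR (z193 * z198) fun z200 =>
  letR (z200 ^ 2) fun z208 =>
  letR (z180 - z208) fun z209 =>
  letR z209 fun z210 =>
  letR (z122 * z210) fun z211 =>
  letR (z207 + z211) fun z212 =>
  letR ((1 / 2 : ℝ) * z212) fun z213 =>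
  letR (z203 + z213) fun z214 =>
  posR z214 <|
  letR ((1229 / 2048 : ℝ) * z159) fun z215 =>
  letR (z20 * z215) fun z220 =>
  letR (z220 + (1 : ℝ)) fun z221 =>
  posR z221 <|
  letR ((1229 / 2048 : ℝ) * z161) fun z216 =>
  letR (z216 - z156) fun z217 =>
  letR z217 fun z222 =>
  letR (z20 * z222) fun z223 =>
  letR (z223 + (1 : ℝ)) fun z224 =>
  posR z224 <|
  letR (z215 + z157) fun z218 =>
  letR z218 fun z225 =>
  letR (z20 * z225) fun z226 =>
  letR ((1 : ℝ) - z226) fun z227 =>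
  posR z227 <|
  letR (z20 * z216) fun z228 =>
  letR ((1 : ℝ) - z228) fun z229 =>
  posR z229 <|
  letR (z215 + z216) fun z219 =>
  letR z219 fun z254 =>
  letR (z254 * z136) fun z255 =>
  letR (z151 - z255) fun z256 =>
  letR (z215 * z222) fun z230 =>
  letR (z230 - z153) fun z231 =>
  letR z231 fun z234 =>
  letR (z20 * z234) fun z235 =>
  letR (z219 + z235) fun z236 =>
  letR z236 fun z240 =>
  letR (z20 * z240) fun z241 =>
  letR (z241 + (1 : ℝ)) fun z242 =>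
  letR (√z242) fun z243 =>
  letR (z243 + (1 : ℝ)) fun z244 =>
  invR z244 fun z245 =>
  letR (z240 * z245) fun z252 =>
  letR (z252 ^ 2) fun z257 =>
  letR (z231 - z257) fun z258 =>
  letR z258 fun z259 =>
  letR (z113 * z259) fun z260 =>
  letR (z225 * z216) fun z232 =>
  letR (z232 - z155) fun z233 =>
  letR z233 fun z237 =>
  letR (z20 * z237) fun z238 =>
  letR (z238 - z219) fun z239 =>
  letR z239 fun z246 =>
  letR (z20 * z246) fun z247 =>
  letR (z247 + (1 : ℝ)) fun z248 =>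
  letR (√z248) fun z249 =>
  letR (z249 + (1 : ℝ)) fun z250 =>
  invR z250 fun z251 =>
  letR (z246 * z251) fun z253 =>
  letR (z253 ^ 2) fun z261 =>
  letR (z233 - z261) fun z262 =>
  letR z262 fun z263 =>
  letR (z122 * z263) fun z264 =>
  letR (z260 + z264) fun z265 =>
  letR ((1 / 2 : ℝ) * z265) fun z266 =>
  letR (z256 + z266) fun z267 =>
  posR z267 <|
  True

theorem z1_S {ε : Fin 4 → ℝ} (gs : ℕ) (hε : ∀ i, |ε i| ≤ 1) (ps : ℕ) (x0 x1 x2 x3 : AF) (m y r u3 : ℝ)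
    (h0 : Rel ε x0 m) (h1 : Rel ε x1 y) (h2 : Rel ε x2 r) (h3 : Rel ε x3 u3) :
    z1_B gs ps x0 x1 x2 x3 = true → z1_R gs ps m y r u3 := by
  delta z1_B z1_R
  exact parS fun z3 t3 g3 =>
  parS fun z4 t4 g4 =>
  parS fun z5 t5 g5 =>
  parS fun z6 t6 g6 =>
  parS fun z7 t7 g7 =>
  parS fun z8 t8 g8 =>
  parS fun z9 t9 g9 =>
  parS fun z10 t10 g10 =>
  parS fun z11 t11 g11 =>
  parS fun z12 t12 g12 =>
  parS fun z13 t13 g13 =>
  parS fun z14 t14 g14 =>
  parS fun z15 t15 g15 =>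
  parS fun z16 t16 g16 =>
  mulS hε g16 h0 fun z17 t17 g17 =>
  addS g15 g17 fun z18 t18 g18 =>
  normS g18 fun z19 t19 g19 =>
  mulS hε h1 g19 fun z20 t20 g20 =>
  mulS hε g8 h2 fun z21 t21 g21 =>
  addS g7 g21 fun z22 t22 g22 =>
  posS hε g22 <|
  mulS hε g10 h2 fun z23 t23 g23 =>
  addS g9 g23 fun z24 t24 g24 =>
  posS hε g24 <|
  mulS hε g12 h2 fun z25 t25 g25 =>
  addS g11 g25 fun z26 t26 g26 =>
  posS hε g26 <|
  mulS hε g14 h2 fun z27 t27 g27 =>
  addS g13 g27 fun z28 t28 g28 =>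
  posS hε g28 <|
  mulS hε g6 h2 fun z29 t29 g29 =>
  addS g5 g29 fun z30 t30 g30 =>
  posS hε g30 <|
  smulS hε g24 k1 fun z31 t31 g31 =>
  addS g22 g31 fun z33 t33 g33 =>
  addS g33 g26 fun z34 t34 g34 =>
  smulS hε g28 k30 fun z32 t32 g32 =>
  addS g34 g32 fun z35 t35 g35 =>
  addS g22 g24 fun z36 t36 g36 =>
  addS g36 g26 fun z37 t37 g37 =>
  addS g37 g28 fun z38 t38 g38 =>
  smulS hε g22 k5 fun z39 t39 g39 =>
  addS g39 g31 fun z41 t41 g41 =>
  addS g41 g26 fun z42 t42 g42 =>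
  smulS hε g28 k4 fun z40 t40 g40 =>
  addS g42 g40 fun z43 t43 g43 =>
  smulS hε g24 k31 fun z44 t44 g44 =>
  addS g22 g44 fun z46 t46 g46 =>
  smulS hε g26 k5 fun z45 t45 g45 =>
  addS g46 g45 fun z47 t47 g47 =>
  addS g47 g28 fun z48 t48 g48 =>
  smulS hε g22 k32 fun z49 t49 g49 =>
  smulS hε g24 k33 fun z50 t50 g50 =>
  addS g49 g50 fun z53 t53 g53 =>
  smulS hε g26 k34 fun z51 t51 g51 =>
  addS g53 g51 fun z54 t54 g54 =>
  smulS hε g28 k35 fun z52 t52 g52 =>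
  addS g54 g52 fun z55 t55 g55 =>
  smulS hε g22 k11 fun z56 t56 g56 =>
  smulS hε g24 k36 fun z57 t57 g57 =>
  addS g56 g57 fun z60 t60 g60 =>
  smulS hε g26 k37 fun z58 t58 g58 =>
  addS g60 g58 fun z61 t61 g61 =>
  smulS hε g28 k38 fun z59 t59 g59 =>
  addS g61 g59 fun z62 t62 g62 =>
  smulS hε g22 k39 fun z63 t63 g63 =>
  smulS hε g24 k40 fun z64 t64 g64 =>
  addS g63 g64 fun z67 t67 g67 =>
  smulS hε g26 k17 fun z65 t65 g65 =>
  addS g67 g65 fun z68 t68 g68 =>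
  smulS hε g28 k16 fun z66 t66 g66 =>
  addS g68 g66 fun z69 t69 g69 =>
  mulS hε g4 g20 fun z70 t70 g70 =>
  addS g3 g70 fun z71 t71 g71 =>
  normS g71 fun z72 t72 g72 =>
  mulS hε g20 g72 fun z73 t73 g73 =>
  addcS g73 k41 fun z74 t74 g74 =>
  posS hε g74 <|
  rsubS g73 k42 fun z75 t75 g75 =>
  posS hε g75 <|
  rsubS g38 k19 fun z79 t79 g79 =>
  posS hε g79 <|
  normS g30 fun z77 t77 g77 =>
  mulS hε h2 g77 fun z78 t78 g78 =>
  sqrS hε h2 fun z76 t76 g76 =>
  normS g35 fun z80 t80 g80 =>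
  mulS hε g76 g80 fun z81 t81 g81 =>
  addS g78 g81 fun z82 t82 g82 =>
  rsubS g82 k19 fun z83 t83 g83 =>
  posS hε g83 <|
  smulS hε g72 k20 fun z88 t88 g88 =>
  sqrS hε g73 fun z85 t85 g85 =>
  addcS g85 k19 fun z86 t86 g86 =>
  invS hε g86 fun z87 t87 g87 =>
  mulS hε g88 g87 fun z89 t89 g89 =>
  normS g62 fun z91 t91 g91 =>
  mulS hε g76 g91 fun z92 t92 g92 =>
  smulS hε g78 k5 fun z93 t93 g93 =>
  addS g92 g93 fun z94 t94 g94 =>
  normS g94 fun z158 t158 g158 =>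
  mulS hε g89 g158 fun z159 t159 g159 =>
  smulS hε g159 k5 fun z162 t162 g162 =>
  mulS hε g20 g162 fun z167 t167 g167 =>
  addcS g167 k19 fun z168 t168 g168 =>
  posS hε g168 <|
  normS g69 fun z160 t160 g160 =>
  mulS hε g89 g160 fun z161 t161 g161 =>
  smulS hε g161 k5 fun z163 t163 g163 =>
  mulS hε g72 g89 fun z90 t90 g90 =>
  normS g48 fun z152 t152 g152 =>
  mulS hε g90 g152 fun z153 t153 g153 =>
  mulS hε g20 g153 fun z156 t156 g156 =>
  subS g163 g156 fun z164 t164 g164 =>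
  normS g164 fun z169 t169 g169 =>
  mulS hε g20 g169 fun z170 t170 g170 =>
  addcS g170 k19 fun z171 t171 g171 =>
  posS hε g171 <|
  normS g43 fun z95 t95 g95 =>
  mulS hε g76 g95 fun z96 t96 g96 =>
  addS g96 g78 fun z97 t97 g97 =>
  normS g97 fun z154 t154 g154 =>
  mulS hε g90 g154 fun z155 t155 g155 =>
  mulS hε g20 g155 fun z157 t157 g157 =>
  addS g162 g157 fun z165 t165 g165 =>
  normS g165 fun z172 t172 g172 =>
  mulS hε g20 g172 fun z173 t173 g173 =>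
  rsubS g173 k19 fun z174 t174 g174 =>
  posS hε g174 <|
  mulS hε g20 g163 fun z175 t175 g175 =>
  rsubS g175 k19 fun z176 t176 g176 =>
  posS hε g176 <|
  normS g55 fun z98 t98 g98 =>
  mulS hε h2 g98 fun z99 t99 g99 =>
  smulS hε g30 k4 fun z100 t100 g100 =>
  addS g99 g100 fun z101 t101 g101 =>
  normS g101 fun z149 t149 g149 =>
  mulS hε g89 g149 fun z150 t150 g150 =>
  sqrS hε h0 fun z102 t102 g102 =>
  mulS hε (cst_rel k21) g102 fun z138 t138 g138 =>
  addcS g138 k22 fun z139 t139 g139 =>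
  sqrS hε g20 fun z103 t103 g103 =>
  mulS hε (cst_rel k23) g103 fun z141 t141 g141 =>
  addS g139 g141 fun z142 t142 g142 =>
  sqrS hε g102 fun z124 t124 g124 =>
  mulS hε g102 g103 fun z123 t123 g123 =>
  addS g124 g123 fun z143 t143 g143 =>
  smulS hε g143 k0 fun z144 t144 g144 =>
  addS g142 g144 fun z145 t145 g145 =>
  sqrS hε g103 fun z125 t125 g125 =>
  mulS hε (cst_rel k24) g125 fun z147 t147 g147 =>
  addS g145 g147 fun z148 t148 g148 =>
  subS g150 g148 fun z151 t151 g151 =>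
  addS g162 g163 fun z166 t166 g166 =>
  normS g166 fun z201 t201 g201 =>
  addS g102 g103 fun z126 t126 g126 =>
  addS g126 g124 fun z127 t127 g127 =>
  addS g127 g125 fun z128 t128 g128 =>
  normS g128 fun z130 t130 g130 =>
  mulS hε (cst_rel k25) g130 fun z131 t131 g131 =>
  addcS g131 k22 fun z132 t132 g132 =>
  smulS hε g123 k20 fun z133 t133 g133 =>
  addS g132 g133 fun z134 t134 g134 =>
  normS g134 fun z135 t135 g135 =>
  mulS hε h0 g135 fun z136 t136 g136 =>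
  mulS hε g201 g136 fun z202 t202 g202 =>
  subS g151 g202 fun z203 t203 g203 =>
  addS h0 g20 fun z104 t104 g104 =>
  normS g104 fun z105 t105 g105 =>
  sqrS hε g105 fun z106 t106 g106 =>
  mulS hε (cst_rel k26) g106 fun z108 t108 g108 =>
  addcS g108 k27 fun z109 t109 g109 =>
  mulS hε g106 g109 fun z110 t110 g110 =>
  addcS g110 k28 fun z111 t111 g111 =>
  mulS hε g106 g111 fun z112 t112 g112 =>
  rsubS g112 k19 fun z113 t113 g113 =>
  mulS hε g162 g169 fun z177 t177 g177 =>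
  subS g177 g153 fun z178 t178 g178 =>
  normS g178 fun z181 t181 g181 =>
  mulS hε g20 g181 fun z182 t182 g182 =>
  addS g166 g182 fun z183 t183 g183 =>
  normS g183 fun z187 t187 g187 =>
  mulS hε g20 g187 fun z188 t188 g188 =>
  addcS g188 k19 fun z189 t189 g189 =>
  sqrtS hε g189 fun z190 t190 g190 =>
  addcS g190 k19 fun z191 t191 g191 =>
  invS hε g191 fun z192 t192 g192 =>
  mulS hε g187 g192 fun z199 t199 g199 =>
  sqrS hε g199 fun z204 t204 g204 =>
  subS g178 g204 fun z205 t205 g205 =>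
  normS g205 fun z206 t206 g206 =>
  mulS hε g113 g206 fun z207 t207 g207 =>
  subS h0 g20 fun z114 t114 g114 =>
  normS g114 fun z115 t115 g115 =>
  sqrS hε g115 fun z116 t116 g116 =>
  mulS hε (cst_rel k26) g116 fun z117 t117 g117 =>
  addcS g117 k27 fun z118 t118 g118 =>
  mulS hε g116 g118 fun z119 t119 g119 =>
  addcS g119 k28 fun z120 t120 g120 =>
  mulS hε g116 g120 fun z121 t121 g121 =>
  rsubS g121 k19 fun z122 t122 g122 =>
  mulS hε g172 g163 fun z179 t179 g179 =>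
  subS g179 g155 fun z180 t180 g180 =>
  normS g180 fun z184 t184 g184 =>
  mulS hε g20 g184 fun z185 t185 g185 =>
  subS g185 g166 fun z186 t186 g186 =>
  normS g186 fun z193 t193 g193 =>
  mulS hε g20 g193 fun z194 t194 g194 =>
  addcS g194 k19 fun z195 t195 g195 =>
  sqrtS hε g195 fun z196 t196 g196 =>
  addcS g196 k19 fun z197 t197 g197 =>
  invS hε g197 fun z198 t198 g198 =>
  mulS hε g193 g198 fun z200 t200 g200 =>
  sqrS hε g200 fun z208 t208 g208 =>
  subS g180 g208 fun z209 t209 g209 =>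
  normS g209 fun z210 t210 g210 =>
  mulS hε g122 g210 fun z211 t211 g211 =>
  addS g207 g211 fun z212 t212 g212 =>
  smulS hε g212 k2 fun z213 t213 g213 =>
  addS g203 g213 fun z214 t214 g214 =>
  posS hε g214 <|
  smulS hε g159 k29 fun z215 t215 g215 =>
  mulS hε g20 g215 fun z220 t220 g220 =>
  addcS g220 k19 fun z221 t221 g221 =>
  posS hε g221 <|
  smulS hε g161 k29 fun z216 t216 g216 =>
  subS g216 g156 fun z217 t217 g217 =>
  normS g217 fun z222 t222 g222 =>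
  mulS hε g20 g222 fun z223 t223 g223 =>
  addcS g223 k19 fun z224 t224 g224 =>
  posS hε g224 <|
  addS g215 g157 fun z218 t218 g218 =>
  normS g218 fun z225 t225 g225 =>
  mulS hε g20 g225 fun z226 t226 g226 =>
  rsubS g226 k19 fun z227 t227 g227 =>
  posS hε g227 <|
  mulS hε g20 g216 fun z228 t228 g228 =>
  rsubS g228 k19 fun z229 t229 g229 =>
  posS hε g229 <|
  addS g215 g216 fun z219 t219 g219 =>
  normS g219 fun z254 t254 g254 =>
  mulS hε g254 g136 fun z255 t255 g255 =>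
  subS g151 g255 fun z256 t256 g256 =>
  mulS hε g215 g222 fun z230 t230 g230 =>
  subS g230 g153 fun z231 t231 g231 =>
  normS g231 fun z234 t234 g234 =>
  mulS hε g20 g234 fun z235 t235 g235 =>
  addS g219 g235 fun z236 t236 g236 =>
  normS g236 fun z240 t240 g240 =>
  mulS hε g20 g240 fun z241 t241 g241 =>
  addcS g241 k19 fun z242 t242 g242 =>
  sqrtS hε g242 fun z243 t243 g243 =>
  addcS g243 k19 fun z244 t244 g244 =>
  invS hε g244 fun z245 t245 g245 =>
  mulS hε g240 g245 fun z252 t252 g252 =>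
  sqrS hε g252 fun z257 t257 g257 =>
  subS g231 g257 fun z258 t258 g258 =>
  normS g258 fun z259 t259 g259 =>
  mulS hε g113 g259 fun z260 t260 g260 =>
  mulS hε g225 g216 fun z232 t232 g232 =>
  subS g232 g155 fun z233 t233 g233 =>
  normS g233 fun z237 t237 g237 =>
  mulS hε g20 g237 fun z238 t238 g238 =>
  subS g238 g219 fun z239 t239 g239 =>
  normS g239 fun z246 t246 g246 =>
  mulS hε g20 g246 fun z247 t247 g247 =>
  addcS g247 k19 fun z248 t248 g248 =>
  sqrtS hε g248 fun z249 t249 g249 =>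
  addcS g249 k19 fun z250 t250 g250 =>
  invS hε g250 fun z251 t251 g251 =>
  mulS hε g246 g251 fun z253 t253 g253 =>
  sqrS hε g253 fun z261 t261 g261 =>
  subS g233 g261 fun z262 t262 g262 =>
  normS g262 fun z263 t263 g263 =>
  mulS hε g122 g263 fun z264 t264 g264 =>
  addS g260 g264 fun z265 t265 g265 =>
  smulS hε g265 k2 fun z266 t266 g266 =>
  addS g256 g266 fun z267 t267 g267 =>
  posS hε g267 <|
  fun _ => trivial

def z1_Spec (ca cb m y r : ℝ) : Prop :=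
  ∃ ta tb pw qw pa0 pb0 pa1 pb1 pa2 pb2 pa3 pb3 d v0 v1 v2 v3 w w31 SL Sv SRn SRp S0 S1 S2 tau t rw rr sh a1 sa f1a sb g2a eh ep dp f2a an en dn f3a c0 mm dd m4 md d4 E2 base La E1 Y0u Y0 G0a X0a i0a j0a Y1u Y1 G1a X1a i1a j1a f1b g2b f2b f3b Lb G0b X0b i0b j0b G1b X1b i1b j1b : ℝ,
    d = (y * (ca + (cb * m))) ∧
    v0 = (pa0 + (pb0 * r)) ∧
    0 ≤ v0 ∧
    v1 = (pa1 + (pb1 * r)) ∧
    0 ≤ v1 ∧
    v2 = (pa2 + (pb2 * r)) ∧
    0 ≤ v2 ∧
    v3 = (pa3 + (pb3 * r)) ∧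
    0 ≤ v3 ∧
    w = (pw + (qw * r)) ∧
    0 ≤ w ∧
    w31 = ((3 / 2 : ℝ) * v1) ∧
    SL = (((v0 + w31) + v2) + ((9 / 4 : ℝ) * v3)) ∧
    Sv = (((v0 + v1) + v2) + v3) ∧
    SRn = (((((3 / 8 : ℝ) * v0) + w31) + v2) + ((9 / 16 : ℝ) * v3)) ∧
    SRp = (((v0 + ((1 / 4 : ℝ) * v1)) + ((3 / 8 : ℝ) * v2)) + v3) ∧
    S0 = (((((851 / 512 : ℝ) * v0) + ((513 / 256 : ℝ) * v1)) + ((435 / 256 : ℝ) * v2)) + ((1169 / 512 : ℝ) * v3)) ∧
    S1 = (((((19 / 64 : ℝ) * v0) + ((21 / 32 : ℝ) * v1)) + ((13 / 32 : ℝ) * v2)) + ((81 / 128 : ℝ) * v3)) ∧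
    S2 = (((((-25 / 64 : ℝ) * v0) + ((-5 / 32 : ℝ) * v1)) + ((-11 / 32 : ℝ) * v2)) + ((-33 / 64 : ℝ) * v3)) ∧
    tau = (ta + (tb * d)) ∧
    t = (d * tau) ∧
    0 ≤ (t + (-5 / 32 : ℝ)) ∧
    0 ≤ ((5 / 16 : ℝ) - t) ∧
    0 ≤ ((1 : ℝ) - Sv) ∧
    rw = (r * w) ∧
    rr = (r ^ 2) ∧
    0 ≤ ((1 : ℝ) - (rw + (rr * SL))) ∧
    0 < ((t ^ 2) + (1 : ℝ)) ∧
    sh = (((2 : ℝ) * tau) * (((t ^ 2) + (1 : ℝ))⁻¹)) ∧
    a1 = ((rr * S1) + ((3 / 8 : ℝ) * rw)) ∧
    sa = (sh * a1) ∧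
    f1a = ((3 / 8 : ℝ) * sa) ∧
    0 ≤ ((d * f1a) + (1 : ℝ)) ∧
    sb = (sh * S2) ∧
    g2a = ((3 / 8 : ℝ) * sb) ∧
    eh = (tau * sh) ∧
    ep = (eh * SRp) ∧
    dp = (d * ep) ∧
    f2a = (g2a - dp) ∧
    0 ≤ ((d * f2a) + (1 : ℝ)) ∧
    an = ((rr * SRn) + rw) ∧
    en = (eh * an) ∧
    dn = (d * en) ∧
    f3a = (f1a + dn) ∧
    0 ≤ ((1 : ℝ) - (d * f3a)) ∧
    0 ≤ ((1 : ℝ) - (d * g2a)) ∧
    c0 = ((r * S0) + ((9 / 16 : ℝ) * w)) ∧
    mm = (m ^ 2) ∧
    dd = (d ^ 2) ∧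
    m4 = (mm ^ 2) ∧
    md = (mm * dd) ∧
    d4 = (dd ^ 2) ∧
    E2 = ((((((9 / 5 : ℝ) * mm) + (3 / 2 : ℝ)) + ((3 / 10 : ℝ) * dd)) + ((3 : ℝ) * (m4 + md))) + ((1 / 5 : ℝ) * d4)) ∧
    base = ((sh * c0) - E2) ∧
    La = (f1a + g2a) ∧
    E1 = (m * ((((3 / 5 : ℝ) * (((mm + dd) + m4) + d4)) + (3 / 2 : ℝ)) + ((2 : ℝ) * md))) ∧
    Y0u = ((m + d) ^ 2) ∧
    Y0 = ((1 : ℝ) - (Y0u * ((Y0u * (((1 / 10 : ℝ) * Y0u) + (3 / 20 : ℝ))) + (3 / 4 : ℝ)))) ∧
    G0a = ((f1a * f2a) - ep) ∧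
    X0a = (La + (d * G0a)) ∧
    0 < ((√((d * X0a) + (1 : ℝ))) + (1 : ℝ)) ∧
    i0a = (((√((d * X0a) + (1 : ℝ))) + (1 : ℝ))⁻¹) ∧
    j0a = (X0a * i0a) ∧
    Y1u = ((m - d) ^ 2) ∧
    Y1 = ((1 : ℝ) - (Y1u * ((Y1u * (((1 / 10 : ℝ) * Y1u) + (3 / 20 : ℝ))) + (3 / 4 : ℝ)))) ∧
    G1a = ((f3a * g2a) - en) ∧
    X1a = ((d * G1a) - La) ∧
    0 < ((√((d * X1a) + (1 : ℝ))) + (1 : ℝ)) ∧
    i1a = (((√((d * X1a) + (1 : ℝ))) + (1 : ℝ))⁻¹) ∧
    j1a = (X1a * i1a) ∧
    0 ≤ ((base - (La * E1)) + ((1 / 2 : ℝ) * ((Y0 * (G0a - (j0a ^ 2))) + (Y1 * (G1a - (j1a ^ 2)))))) ∧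
    f1b = ((1229 / 2048 : ℝ) * sa) ∧
    0 ≤ ((d * f1b) + (1 : ℝ)) ∧
    g2b = ((1229 / 2048 : ℝ) * sb) ∧
    f2b = (g2b - dp) ∧
    0 ≤ ((d * f2b) + (1 : ℝ)) ∧
    f3b = (f1b + dn) ∧
    0 ≤ ((1 : ℝ) - (d * f3b)) ∧
    0 ≤ ((1 : ℝ) - (d * g2b)) ∧
    Lb = (f1b + g2b) ∧
    G0b = ((f1b * f2b) - ep) ∧
    X0b = (Lb + (d * G0b)) ∧
    0 < ((√((d * X0b) + (1 : ℝ))) + (1 : ℝ)) ∧
    i0b = (((√((d * X0b) + (1 : ℝ))) + (1 : ℝ))⁻¹) ∧
    j0b = (X0b * i0b) ∧
    G1b = ((f3b * g2b) - en) ∧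
    X1b = ((d * G1b) - Lb) ∧
    0 < ((√((d * X1b) + (1 : ℝ))) + (1 : ℝ)) ∧
    i1b = (((√((d * X1b) + (1 : ℝ))) + (1 : ℝ))⁻¹) ∧
    j1b = (X1b * i1b) ∧
    0 ≤ ((base - (Lb * E1)) + ((1 / 2 : ℝ) * ((Y0 * (G0b - (j0b ^ 2))) + (Y1 * (G1b - (j1b ^ 2))))))

theorem z1_E {gs ps : ℕ} {m y r u3 : ℝ} (h : z1_R gs ps m y r u3) : z1_Spec (parV gs 0) (parV gs 1) m y r := by
  delta z1_R at h
  exact letR_ex h fun ta _ h =>
  letR_ex h fun tb _ h =>
  letR_ex h fun pw _ h =>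
  letR_ex h fun qw _ h =>
  letR_ex h fun pa0 _ h =>
  letR_ex h fun pb0 _ h =>
  letR_ex h fun pa1 _ h =>
  letR_ex h fun pb1 _ h =>
  letR_ex h fun pa2 _ h =>
  letR_ex h fun pb2 _ h =>
  letR_ex h fun pa3 _ h =>
  letR_ex h fun pb3 _ h =>
  letR_in h fun h =>
  letR_in h fun h =>
  letR_in h fun h =>
  letR_in h fun h =>
  letR_in h fun h =>
  letR_ex h fun d q1 h =>
  letR_in h fun h =>
  letR_ex h fun v0 q2 h =>
  posR_ex h fun q3 h =>
  letR_in h fun h =>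
  letR_ex h fun v1 q4 h =>
  posR_ex h fun q5 h =>
  letR_in h fun h =>
  letR_ex h fun v2 q6 h =>
  posR_ex h fun q7 h =>
  letR_in h fun h =>
  letR_ex h fun v3 q8 h =>
  posR_ex h fun q9 h =>
  letR_in h fun h =>
  letR_ex h fun w q10 h =>
  posR_ex h fun q11 h =>
  letR_ex h fun w31 q12 h =>
  letR_in h fun h =>
  letR_in h fun h =>
  letR_in h fun h =>
  letR_ex h fun SL q13 h =>
  letR_in h fun h =>
  letR_in h fun h =>
  letR_ex h fun Sv q14 h =>
  letR_in h fun h =>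
  letR_in h fun h =>
  letR_in h fun h =>
  letR_in h fun h =>
  letR_ex h fun SRn q15 h =>
  letR_in h fun h =>
  letR_in h fun h =>
  letR_in h fun h =>
  letR_in h fun h =>
  letR_ex h fun SRp q16 h =>
  letR_in h fun h =>
  letR_in h fun h =>
  letR_in h fun h =>
  letR_in h fun h =>
  letR_in h fun h =>
  letR_in h fun h =>
  letR_ex h fun S0 q17 h =>
  letR_in h fun h =>
  letR_in h fun h =>
  letR_in h fun h =>
  letR_in h fun h =>
  letR_in h fun h =>
  letR_in h fun h =>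
  letR_ex h fun S1 q18 h =>
  letR_in h fun h =>
  letR_in h fun h =>
  letR_in h fun h =>
  letR_in h fun h =>
  letR_in h fun h =>
  letR_in h fun h =>
  letR_ex h fun S2 q19 h =>
  letR_in h fun h =>
  letR_ex h fun tau q20 h =>
  letR_in h fun h =>
  letR_ex h fun t q21 h =>
  letR_in h fun h =>
  posR_ex h fun q22 h =>
  letR_in h fun h =>
  posR_ex h fun q23 h =>
  letR_in h fun h =>
  posR_ex h fun q24 h =>
  letR_in h fun h =>
  letR_ex h fun rw q25 h =>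
  letR_ex h fun rr q26 h =>
  letR_in h fun h =>
  letR_in h fun h =>
  letR_in h fun h =>
  letR_in h fun h =>
  posR_ex h fun q27 h =>
  letR_in h fun h =>
  letR_in h fun h =>
  letR_in h fun h =>
  invR_ex h fun q28 h =>
  letR_in h fun h =>
  letR_ex h fun sh q29 h =>
  letR_in h fun h =>
  letR_in h fun h =>
  letR_in h fun h =>
  letR_ex h fun a1 q30 h =>
  letR_in h fun h =>
  letR_ex h fun sa q31 h =>
  letR_ex h fun f1a q32 h =>
  letR_in h fun h =>
  letR_in h fun h =>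
  posR_ex h fun q33 h =>
  letR_in h fun h =>
  letR_ex h fun sb q34 h =>
  letR_ex h fun g2a q35 h =>
  letR_ex h fun eh q36 h =>
  letR_in h fun h =>
  letR_ex h fun ep q37 h =>
  letR_ex h fun dp q38 h =>
  letR_ex h fun f2a q39 h =>
  letR_in h fun h =>
  letR_in h fun h =>
  letR_in h fun h =>
  posR_ex h fun q40 h =>
  letR_in h fun h =>
  letR_in h fun h =>
  letR_ex h fun an q41 h =>
  letR_in h fun h =>
  letR_ex h fun en q42 h =>
  letR_ex h fun dn q43 h =>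
  letR_ex h fun f3a q44 h =>
  letR_in h fun h =>
  letR_in h fun h =>
  letR_in h fun h =>
  posR_ex h fun q45 h =>
  letR_in h fun h =>
  letR_in h fun h =>
  posR_ex h fun q46 h =>
  letR_in h fun h =>
  letR_in h fun h =>
  letR_in h fun h =>
  letR_ex h fun c0 q47 h =>
  letR_in h fun h =>
  letR_in h fun h =>
  letR_ex h fun mm q48 h =>
  letR_in h fun h =>
  letR_in h fun h =>
  letR_ex h fun dd q49 h =>
  letR_in h fun h =>
  letR_in h fun h =>
  letR_ex h fun m4 q50 h =>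
  letR_ex h fun md q51 h =>
  letR_in h fun h =>
  letR_in h fun h =>
  letR_in h fun h =>
  letR_ex h fun d4 q52 h =>
  letR_in h fun h =>
  letR_ex h fun E2 q53 h =>
  letR_ex h fun base q54 h =>
  letR_ex h fun La q55 h =>
  letR_in h fun h =>
  letR_in h fun h =>
  letR_in h fun h =>
  letR_in h fun h =>
  letR_in h fun h =>
  letR_in h fun h =>
  letR_in h fun h =>
  letR_in h fun h =>
  letR_in h fun h =>
  letR_in h fun h =>
  letR_ex h fun E1 q56 h =>
  letR_in h fun h =>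
  letR_in h fun h =>
  letR_in h fun h =>
  letR_in h fun h =>
  letR_ex h fun Y0u q57 h =>
  letR_in h fun h =>
  letR_in h fun h =>
  letR_in h fun h =>
  letR_in h fun h =>
  letR_in h fun h =>
  letR_ex h fun Y0 q58 h =>
  letR_in h fun h =>
  letR_ex h fun G0a q59 h =>
  letR_in h fun h =>
  letR_in h fun h =>
  letR_ex h fun X0a q60 h =>
  letR_in h fun h =>
  letR_in h fun h =>
  letR_in h fun h =>
  letR_in h fun h =>
  letR_in h fun h =>
  invR_ex h fun q61 h =>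
  letR_ex h fun i0a q62 h =>
  letR_ex h fun j0a q63 h =>
  letR_in h fun h =>
  letR_in h fun h =>
  letR_in h fun h =>
  letR_in h fun h =>
  letR_in h fun h =>
  letR_in h fun h =>
  letR_ex h fun Y1u q64 h =>
  letR_in h fun h =>
  letR_in h fun h =>
  letR_in h fun h =>
  letR_in h fun h =>
  letR_in h fun h =>
  letR_ex h fun Y1 q65 h =>
  letR_in h fun h =>
  letR_ex h fun G1a q66 h =>
  letR_in h fun h =>
  letR_in h fun h =>
  letR_ex h fun X1a q67 h =>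
  letR_in h fun h =>
  letR_in h fun h =>
  letR_in h fun h =>
  letR_in h fun h =>
  letR_in h fun h =>
  invR_ex h fun q68 h =>
  letR_ex h fun i1a q69 h =>
  letR_ex h fun j1a q70 h =>
  letR_in h fun h =>
  letR_in h fun h =>
  letR_in h fun h =>
  letR_in h fun h =>
  letR_in h fun h =>
  letR_in h fun h =>
  letR_in h fun h =>
  posR_ex h fun q71 h =>
  letR_ex h fun f1b q72 h =>
  letR_in h fun h =>
  letR_in h fun h =>
  posR_ex h fun q73 h =>
  letR_ex h fun g2b q74 h =>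
  letR_ex h fun f2b q75 h =>
  letR_in h fun h =>
  letR_in h fun h =>
  letR_in h fun h =>
  posR_ex h fun q76 h =>
  letR_ex h fun f3b q77 h =>
  letR_in h fun h =>
  letR_in h fun h =>
  letR_in h fun h =>
  posR_ex h fun q78 h =>
  letR_in h fun h =>
  letR_in h fun h =>
  posR_ex h fun q79 h =>
  letR_ex h fun Lb q80 h =>
  letR_in h fun h =>
  letR_in h fun h =>
  letR_in h fun h =>
  letR_in h fun h =>
  letR_ex h fun G0b q81 h =>
  letR_in h fun h =>
  letR_in h fun h =>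
  letR_ex h fun X0b q82 h =>
  letR_in h fun h =>
  letR_in h fun h =>
  letR_in h fun h =>
  letR_in h fun h =>
  letR_in h fun h =>
  invR_ex h fun q83 h =>
  letR_ex h fun i0b q84 h =>
  letR_ex h fun j0b q85 h =>
  letR_in h fun h =>
  letR_in h fun h =>
  letR_in h fun h =>
  letR_in h fun h =>
  letR_in h fun h =>
  letR_ex h fun G1b q86 h =>
  letR_in h fun h =>
  letR_in h fun h =>
  letR_ex h fun X1b q87 h =>
  letR_in h fun h =>
  letR_in h fun h =>
  letR_in h fun h =>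
  letR_in h fun h =>
  letR_in h fun h =>
  invR_ex h fun q88 h =>
  letR_ex h fun i1b q89 h =>
  letR_ex h fun j1b q90 h =>
  letR_in h fun h =>
  letR_in h fun h =>
  letR_in h fun h =>
  letR_in h fun h =>
  letR_in h fun h =>
  letR_in h fun h =>
  letR_in h fun h =>
  posR_ex h fun q91 h =>
  ⟨ta, tb, pw, qw, pa0, pb0, pa1, pb1, pa2, pb2, pa3, pb3, d, v0, v1, v2, v3, w, w31, SL, Sv, SRn, SRp, S0, S1, S2, tau, t, rw, rr, sh, a1, sa, f1a, sb, g2a, eh, ep, dp, f2a, an, en, dn, f3a, c0, mm, dd, m4, md, d4, E2, base, La, E1, Y0u, Y0, G0a, X0a, i0a, j0a, Y1u, Y1, G1a, X1a, i1a, j1a, f1b, g2b, f2b, f3b, Lb, G0b, X0b, i0b, j0b, G1b, X1b, i1b, j1b, q1, q2, q3, q4, q5, q6, q7, q8, q9, q10, q11, q12, q13, q14, q15, q16, q17, q18, q19, q20, q21, q22, q23, q24, q25, q26, q27, q28, q29, q30, q31, q32, q33, q34, q35, q36, q37, q38, q39, q40, q41, q42, q43, q44, q45, q46, q47, q48, q49, q50, q51, q52, q53, q54, q55, q56, q57, q58,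 q59, q60, q61, q62, q63, q64, q65, q66, q67, q68, q69, q70, q71, q72, q73, q74, q75, q76, q77, q78, q79, q80, q81, q82, q83, q84, q85, q86, q87, q88, q89, q90, q91⟩

theorem k43 : (949 / 512 : ℝ) = val 4722367004587912593408 := by norm_num [val]
theorem k44 : (1779 / 512 : ℝ) = val 4722367460885238120448 := by norm_num [val]
theorem k45 : (57 / 64 : ℝ) = val 4722366733558296346624 := by norm_num [val]
theorem k46 : (-15 / 32 : ℝ) = val 4722366350928249880576 := by norm_num [val]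
theorem k47 : |2 ^ 48 * (-5 / 16 : ℝ) - (((4722366394908714991616 : ℕ) : ℝ) - 2 ^ 72)| ≤ ((0 : ℕ) : ℝ) := by norm_num [abs_le]
theorem k48 : |2 ^ 48 * (7 / 16 : ℝ) - (((4722366606014947524608 : ℕ) : ℝ) - 2 ^ 72)| ≤ ((0 : ℕ) : ℝ) := by norm_num [abs_le]
def z2_B (gs ps : ℕ) (x0 x1 x2 x3 : AF) : Bool :=
  parK ps 0 fun z3 =>
  parK ps 1 fun z4 =>
  parK ps 2 fun z5 =>
  parK ps 3 fun z6 =>
  parK ps 4 fun z7 =>
  parK ps 5 fun z8 =>
  parK ps 6 fun z9 =>
  parK ps 7 fun z10 =>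
  parK gs 0 fun z11 =>
  parK gs 1 fun z12 =>
  mulK z12 x0 fun z13 =>
  addK z11 z13 fun z14 =>
  normK z14 fun z15 =>
  mulK x1 z15 fun z16 =>
  mulK z8 x2 fun z17 =>
  addK z7 z17 fun z18 =>
  posK z18 <|
  mulK z10 x2 fun z19 =>
  addK z9 z19 fun z20 =>
  posK z20 <|
  mulK z6 x2 fun z21 =>
  addK z5 z21 fun z22 =>
  posK z22 <|
  smulK z20 4722367327294575345664 fun z23 =>
  addK z18 z23 fun z24 =>
  addK z18 z20 fun z25 =>
  smulK z18 4722366623607133569024 fun z26 =>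
  smulK z20 4722367010635226546176 fun z27 =>
  addK z26 z27 fun z28 =>
  normK z25 fun z29 =>
  smulK z18 4722367004587912593408 fun z30 =>
  smulK z20 4722367460885238120448 fun z31 =>
  addK z30 z31 fun z32 =>
  smulK z18 4722366588422761480192 fun z33 =>
  smulK z20 4722366733558296346624 fun z34 =>
  addK z33 z34 fun z35 =>
  smulK z18 4722366350928249880576 fun z36 =>
  smulK z20 4722366372918482436096 fun z37 =>
  addK z36 z37 fun z38 =>
  mulK z4 z16 fun z39 =>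
  addK z3 z39 fun z40 =>
  normK z40 fun z41 =>
  mulK z16 z41 fun z42 =>
  addcK z42 4722366394908714991616 0 fun z43 =>
  posK z43 <|
  rsubK z42 4722366606014947524608 0 fun z44 =>
  posK z44 <|
  rsubK z25 4722366764344621924352 0 fun z48 =>
  posK z48 <|
  normK z22 fun z46 =>
  mulK x2 z46 fun z47 =>
  sqrK x2 fun z45 =>
  normK z24 fun z49 =>
  mulK z45 z49 fun z50 =>
  addK z47 z50 fun z51 =>
  rsubK z51 4722366764344621924352 0 fun z52 =>
  posK z52 <|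
  smulK z41 4722367045819598635008 fun z57 =>
  sqrK z42 fun z54 =>
  addcK z54 4722366764344621924352 0 fun z55 =>
  invK z55 fun z56 =>
  mulK z57 z56 fun z58 =>
  normK z35 fun z60 =>
  mulK z45 z60 fun z61 =>
  smulK z47 4722366588422761480192 fun z62 =>
  addK z61 z62 fun z63 =>
  normK z63 fun z126 =>
  mulK z58 z126 fun z127 =>
  smulK z127 4722366588422761480192 fun z130 =>
  mulK z16 z130 fun z135 =>
  addcK z135 4722366764344621924352 0 fun z136 =>
  posK z136 <|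
  normK z38 fun z128 =>
  mulK z58 z128 fun z129 =>
  smulK z129 4722366588422761480192 fun z131 =>
  mulK z41 z58 fun z59 =>
  mulK z59 z29 fun z121 =>
  mulK z16 z121 fun z124 =>
  subK z131 z124 fun z132 =>
  normK z132 fun z137 =>
  mulK z16 z137 fun z138 =>
  addcK z138 4722366764344621924352 0 fun z139 =>
  posK z139 <|
  normK z28 fun z64 =>
  mulK z45 z64 fun z65 =>
  addK z65 z47 fun z66 =>
  normK z66 fun z122 =>
  mulK z59 z122 fun z123 =>
  mulK z16 z123 fun z125 =>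
  addK z130 z125 fun z133 =>
  normK z133 fun z140 =>
  mulK z16 z140 fun z141 =>
  rsubK z141 4722366764344621924352 0 fun z142 =>
  posK z142 <|
  mulK z16 z131 fun z143 =>
  rsubK z143 4722366764344621924352 0 fun z144 =>
  posK z144 <|
  normK z32 fun z67 =>
  mulK x2 z67 fun z68 =>
  smulK z22 4722366641199319613440 fun z69 =>
  addK z68 z69 fun z70 =>
  normK z70 fun z118 =>
  mulK z58 z118 fun z119 =>
  sqrK x0 fun z71 =>
  mulK (cst 4722366989524603292876 1) z71 fun z107 =>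
  addcK z107 4722366905082110279680 0 fun z108 =>
  sqrK z16 fun z72 =>
  mulK (cst 4722366567312138226892 1) z72 fun z110 =>
  addK z108 z110 fun z111 =>
  sqrK z71 fun z93 =>
  mulK z71 z72 fun z92 =>
  addK z93 z92 fun z112 =>
  smulK z112 4722367327294575345664 fun z113 =>
  addK z111 z113 fun z114 =>
  sqrK z72 fun z94 =>
  mulK (cst 4722366539164640555827 1) z94 fun z116 =>
  addK z114 z116 fun z117 =>
  subK z119 z117 fun z120 =>
  addK z130 z131 fun z134 =>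
  normK z134 fun z169 =>
  addK z71 z72 fun z95 =>
  addK z95 z93 fun z96 =>
  addK z96 z94 fun z97 =>
  normK z97 fun z99 =>
  mulK (cst 4722366651754631240089 1) z99 fun z100 =>
  addcK z100 4722366905082110279680 0 fun z101 =>
  smulK z92 4722367045819598635008 fun z102 =>
  addK z101 z102 fun z103 =>
  normK z103 fun z104 =>
  mulK x0 z104 fun z105 =>
  mulK z169 z105 fun z170 =>
  subK z120 z170 fun z171 =>
  addK x0 z16 fun z73 =>
  normK z73 fun z74 =>
  sqrK z74 fun z75 =>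
  mulK (cst 4722366511017142884761 1) z75 fun z77 =>
  addcK z77 4722366525090891720294 1 fun z78 =>
  mulK z75 z78 fun z79 =>
  addcK z79 4722366693975877746688 0 fun z80 =>
  mulK z75 z80 fun z81 =>
  rsubK z81 4722366764344621924352 0 fun z82 =>
  mulK z130 z137 fun z145 =>
  subK z145 z121 fun z146 =>
  normK z146 fun z149 =>
  mulK z16 z149 fun z150 =>
  addK z134 z150 fun z151 =>
  normK z151 fun z155 =>
  mulK z16 z155 fun z156 =>
  addcK z156 4722366764344621924352 0 fun z157 =>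
  sqrtK z157 fun z158 =>
  addcK z158 4722366764344621924352 0 fun z159 =>
  invK z159 fun z160 =>
  mulK z155 z160 fun z167 =>
  sqrK z167 fun z172 =>
  subK z146 z172 fun z173 =>
  normK z173 fun z174 =>
  mulK z82 z174 fun z175 =>
  subK x0 z16 fun z83 =>
  normK z83 fun z84 =>
  sqrK z84 fun z85 =>
  mulK (cst 4722366511017142884761 1) z85 fun z86 =>
  addcK z86 4722366525090891720294 1 fun z87 =>
  mulK z85 z87 fun z88 =>
  addcK z88 4722366693975877746688 0 fun z89 =>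
  mulK z85 z89 fun z90 =>
  rsubK z90 4722366764344621924352 0 fun z91 =>
  mulK z140 z131 fun z147 =>
  subK z147 z123 fun z148 =>
  normK z148 fun z152 =>
  mulK z16 z152 fun z153 =>
  subK z153 z134 fun z154 =>
  normK z154 fun z161 =>
  mulK z16 z161 fun z162 =>
  addcK z162 4722366764344621924352 0 fun z163 =>
  sqrtK z163 fun z164 =>
  addcK z164 4722366764344621924352 0 fun z165 =>
  invK z165 fun z166 =>
  mulK z161 z166 fun z168 =>
  sqrK z168 fun z176 =>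
  subK z148 z176 fun z177 =>
  normK z177 fun z178 =>
  mulK z91 z178 fun z179 =>
  addK z175 z179 fun z180 =>
  smulK z180 4722366623607133569024 fun z181 =>
  addK z171 z181 fun z182 =>
  posK z182 <|
  smulK z127 4722366651782119030784 fun z183 =>
  mulK z16 z183 fun z188 =>
  addcK z188 4722366764344621924352 0 fun z189 =>
  posK z189 <|
  smulK z129 4722366651782119030784 fun z184 =>
  subK z184 z124 fun z185 =>
  normK z185 fun z190 =>
  mulK z16 z190 fun z191 =>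
  addcK z191 4722366764344621924352 0 fun z192 =>
  posK z192 <|
  addK z183 z125 fun z186 =>
  normK z186 fun z193 =>
  mulK z16 z193 fun z194 =>
  rsubK z194 4722366764344621924352 0 fun z195 =>
  posK z195 <|
  mulK z16 z184 fun z196 =>
  rsubK z196 4722366764344621924352 0 fun z197 =>
  posK z197 <|
  addK z183 z184 fun z187 =>
  normK z187 fun z222 =>
  mulK z222 z105 fun z223 =>
  subK z120 z223 fun z224 =>
  mulK z183 z190 fun z198 =>
  subK z198 z121 fun z199 =>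
  normK z199 fun z202 =>
  mulK z16 z202 fun z203 =>
  addK z187 z203 fun z204 =>
  normK z204 fun z208 =>
  mulK z16 z208 fun z209 =>
  addcK z209 4722366764344621924352 0 fun z210 =>
  sqrtK z210 fun z211 =>
  addcK z211 4722366764344621924352 0 fun z212 =>
  invK z212 fun z213 =>
  mulK z208 z213 fun z220 =>
  sqrK z220 fun z225 =>
  subK z199 z225 fun z226 =>
  normK z226 fun z227 =>
  mulK z82 z227 fun z228 =>
  mulK z193 z184 fun z200 =>
  subK z200 z123 fun z201 =>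
  normK z201 fun z205 =>
  mulK z16 z205 fun z206 =>
  subK z206 z187 fun z207 =>
  normK z207 fun z214 =>
  mulK z16 z214 fun z215 =>
  addcK z215 4722366764344621924352 0 fun z216 =>
  sqrtK z216 fun z217 =>
  addcK z217 4722366764344621924352 0 fun z218 =>
  invK z218 fun z219 =>
  mulK z214 z219 fun z221 =>
  sqrK z221 fun z229 =>
  subK z201 z229 fun z230 =>
  normK z230 fun z231 =>
  mulK z91 z231 fun z232 =>
  addK z228 z232 fun z233 =>
  smulK z233 4722366623607133569024 fun z234 =>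
  addK z224 z234 fun z235 =>
  posK z235 <|
  true

def z2_R (gs ps : ℕ) (m y r u3 : ℝ) : Prop :=
  letR (parV ps 0) fun z3 =>
  letR (parV ps 1) fun z4 =>
  letR (parV ps 2) fun z5 =>
  letR (parV ps 3) fun z6 =>
  letR (parV ps 4) fun z7 =>
  letR (parV ps 5) fun z8 =>
  letR (parV ps 6) fun z9 =>
  letR (parV ps 7) fun z10 =>
  letR (parV gs 0) fun z11 =>
  letR (parV gs 1) fun z12 =>
  letR (z12 * m) fun z13 =>
  letR (z11 + z13) fun z14 =>
  letR z14 fun z15 =>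
  letR (y * z15) fun z16 =>
  letR (z8 * r) fun z17 =>
  letR (z7 + z17) fun z18 =>
  posR z18 <|
  letR (z10 * r) fun z19 =>
  letR (z9 + z19) fun z20 =>
  posR z20 <|
  letR (z6 * r) fun z21 =>
  letR (z5 + z21) fun z22 =>
  posR z22 <|
  letR ((3 : ℝ) * z20) fun z23 =>
  letR (z18 + z23) fun z24 =>
  letR (z18 + z20) fun z25 =>
  letR ((1 / 2 : ℝ) * z18) fun z26 =>
  letR ((15 / 8 : ℝ) * z20) fun z27 =>
  letR (z26 + z27) fun z28 =>
  letR z25 fun z29 =>
  letR ((949 / 512 : ℝ) * z18) fun z30 =>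
  letR ((1779 / 512 : ℝ) * z20) fun z31 =>
  letR (z30 + z31) fun z32 =>
  letR ((3 / 8 : ℝ) * z18) fun z33 =>
  letR ((57 / 64 : ℝ) * z20) fun z34 =>
  letR (z33 + z34) fun z35 =>
  letR ((-15 / 32 : ℝ) * z18) fun z36 =>
  letR ((-25 / 64 : ℝ) * z20) fun z37 =>
  letR (z36 + z37) fun z38 =>
  letR (z4 * z16) fun z39 =>
  letR (z3 + z39) fun z40 =>
  letR z40 fun z41 =>
  letR (z16 * z41) fun z42 =>
  letR (z42 + (-5 / 16 : ℝ)) fun z43 =>
  posR z43 <|
  letR ((7 / 16 : ℝ) - z42) fun z44 =>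
  posR z44 <|
  letR ((1 : ℝ) - z25) fun z48 =>
  posR z48 <|
  letR z22 fun z46 =>
  letR (r * z46) fun z47 =>
  letR (r ^ 2) fun z45 =>
  letR z24 fun z49 =>
  letR (z45 * z49) fun z50 =>
  letR (z47 + z50) fun z51 =>
  letR ((1 : ℝ) - z51) fun z52 =>
  posR z52 <|
  letR ((2 : ℝ) * z41) fun z57 =>
  letR (z42 ^ 2) fun z54 =>
  letR (z54 + (1 : ℝ)) fun z55 =>
  invR z55 fun z56 =>
  letR (z57 * z56) fun z58 =>
  letR z35 fun z60 =>
  letR (z45 * z60) fun z61 =>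
  letR ((3 / 8 : ℝ) * z47) fun z62 =>
  letR (z61 + z62) fun z63 =>
  letR z63 fun z126 =>
  letR (z58 * z126) fun z127 =>
  letR ((3 / 8 : ℝ) * z127) fun z130 =>
  letR (z16 * z130) fun z135 =>
  letR (z135 + (1 : ℝ)) fun z136 =>
  posR z136 <|
  letR z38 fun z128 =>
  letR (z58 * z128) fun z129 =>
  letR ((3 / 8 : ℝ) * z129) fun z131 =>
  letR (z41 * z58) fun z59 =>
  letR (z59 * z29) fun z121 =>
  letR (z16 * z121) fun z124 =>
  letR (z131 - z124) fun z132 =>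
  letR z132 fun z137 =>
  letR (z16 * z137) fun z138 =>
  letR (z138 + (1 : ℝ)) fun z139 =>
  posR z139 <|
  letR z28 fun z64 =>
  letR (z45 * z64) fun z65 =>
  letR (z65 + z47) fun z66 =>
  letR z66 fun z122 =>
  letR (z59 * z122) fun z123 =>
  letR (z16 * z123) fun z125 =>
  letR (z130 + z125) fun z133 =>
  letR z133 fun z140 =>
  letR (z16 * z140) fun z141 =>
  letR ((1 : ℝ) - z141) fun z142 =>
  posR z142 <|
  letR (z16 * z131) fun z143 =>
  letR ((1 : ℝ) - z143) fun z144 =>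
  posR z144 <|
  letR z32 fun z67 =>
  letR (r * z67) fun z68 =>
  letR ((9 / 16 : ℝ) * z22) fun z69 =>
  letR (z68 + z69) fun z70 =>
  letR z70 fun z118 =>
  letR (z58 * z118) fun z119 =>
  letR (m ^ 2) fun z71 =>
  letR ((9 / 5 : ℝ) * z71) fun z107 =>
  letR (z107 + (3 / 2 : ℝ)) fun z108 =>
  letR (z16 ^ 2) fun z72 =>
  letR ((3 / 10 : ℝ) * z72) fun z110 =>
  letR (z108 + z110) fun z111 =>
  letR (z71 ^ 2) fun z93 =>
  letR (z71 * z72) fun z92 =>
  letR (z93 + z92) fun z112 =>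
  letR ((3 : ℝ) * z112) fun z113 =>
  letR (z111 + z113) fun z114 =>
  letR (z72 ^ 2) fun z94 =>
  letR ((1 / 5 : ℝ) * z94) fun z116 =>
  letR (z114 + z116) fun z117 =>
  letR (z119 - z117) fun z120 =>
  letR (z130 + z131) fun z134 =>
  letR z134 fun z169 =>
  letR (z71 + z72) fun z95 =>
  letR (z95 + z93) fun z96 =>
  letR (z96 + z94) fun z97 =>
  letR z97 fun z99 =>
  letR ((3 / 5 : ℝ) * z99) fun z100 =>
  letR (z100 + (3 / 2 : ℝ)) fun z101 =>
  letR ((2 : ℝ) * z92) fun z102 =>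
  letR (z101 + z102) fun z103 =>
  letR z103 fun z104 =>
  letR (m * z104) fun z105 =>
  letR (z169 * z105) fun z170 =>
  letR (z120 - z170) fun z171 =>
  letR (m + z16) fun z73 =>
  letR z73 fun z74 =>
  letR (z74 ^ 2) fun z75 =>
  letR ((1 / 10 : ℝ) * z75) fun z77 =>
  letR (z77 + (3 / 20 : ℝ)) fun z78 =>
  letR (z75 * z78) fun z79 =>
  letR (z79 + (3 / 4 : ℝ)) fun z80 =>
  letR (z75 * z80) fun z81 =>
  letR ((1 : ℝ) - z81) fun z82 =>
  letR (z130 * z137) fun z145 =>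
  letR (z145 - z121) fun z146 =>
  letR z146 fun z149 =>
  letR (z16 * z149) fun z150 =>
  letR (z134 + z150) fun z151 =>
  letR z151 fun z155 =>
  letR (z16 * z155) fun z156 =>
  letR (z156 + (1 : ℝ)) fun z157 =>
  letR (√z157) fun z158 =>
  letR (z158 + (1 : ℝ)) fun z159 =>
  invR z159 fun z160 =>
  letR (z155 * z160) fun z167 =>
  letR (z167 ^ 2) fun z172 =>
  letR (z146 - z172) fun z173 =>
  letR z173 fun z174 =>
  letR (z82 * z174) fun z175 =>
  letR (m - z16) fun z83 =>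
  letR z83 fun z84 =>
  letR (z84 ^ 2) fun z85 =>
  letR ((1 / 10 : ℝ) * z85) fun z86 =>
  letR (z86 + (3 / 20 : ℝ)) fun z87 =>
  letR (z85 * z87) fun z88 =>
  letR (z88 + (3 / 4 : ℝ)) fun z89 =>
  letR (z85 * z89) fun z90 =>
  letR ((1 : ℝ) - z90) fun z91 =>
  letR (z140 * z131) fun z147 =>
  letR (z147 - z123) fun z148 =>
  letR z148 fun z152 =>
  letR (z16 * z152) fun z153 =>
  letR (z153 - z134) fun z154 =>
  letR z154 fun z161 =>
  letR (z16 * z161) fun z162 =>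
  letR (z162 + (1 : ℝ)) fun z163 =>
  letR (√z163) fun z164 =>
  letR (z164 + (1 : ℝ)) fun z165 =>
  invR z165 fun z166 =>
  letR (z161 * z166) fun z168 =>
  letR (z168 ^ 2) fun z176 =>
  letR (z148 - z176) fun z177 =>
  letR z177 fun z178 =>
  letR (z91 * z178) fun z179 =>
  letR (z175 + z179) fun z180 =>
  letR ((1 / 2 : ℝ) * z180) fun z181 =>
  letR (z171 + z181) fun z182 =>
  posR z182 <|
  letR ((1229 / 2048 : ℝ) * z127) fun z183 =>
  letR (z16 * z183) fun z188 =>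
  letR (z188 + (1 : ℝ)) fun z189 =>
  posR z189 <|
  letR ((1229 / 2048 : ℝ) * z129) fun z184 =>
  letR (z184 - z124) fun z185 =>
  letR z185 fun z190 =>
  letR (z16 * z190) fun z191 =>
  letR (z191 + (1 : ℝ)) fun z192 =>
  posR z192 <|
  letR (z183 + z125) fun z186 =>
  letR z186 fun z193 =>
  letR (z16 * z193) fun z194 =>
  letR ((1 : ℝ) - z194) fun z195 =>
  posR z195 <|
  letR (z16 * z184) fun z196 =>
  letR ((1 : ℝ) - z196) fun z197 =>
  posR z197 <|
  letR (z183 + z184) fun z187 =>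
  letR z187 fun z222 =>
  letR (z222 * z105) fun z223 =>
  letR (z120 - z223) fun z224 =>
  letR (z183 * z190) fun z198 =>
  letR (z198 - z121) fun z199 =>
  letR z199 fun z202 =>
  letR (z16 * z202) fun z203 =>
  letR (z187 + z203) fun z204 =>
  letR z204 fun z208 =>
  letR (z16 * z208) fun z209 =>
  letR (z209 + (1 : ℝ)) fun z210 =>
  letR (√z210) fun z211 =>
  letR (z211 + (1 : ℝ)) fun z212 =>
  invR z212 fun z213 =>
  letR (z208 * z213) fun z220 =>
  letR (z220 ^ 2) fun z225 =>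
  letR (z199 - z225) fun z226 =>
  letR z226 fun z227 =>
  letR (z82 * z227) fun z228 =>
  letR (z193 * z184) fun z200 =>
  letR (z200 - z123) fun z201 =>
  letR z201 fun z205 =>
  letR (z16 * z205) fun z206 =>
  letR (z206 - z187) fun z207 =>
  letR z207 fun z214 =>
  letR (z16 * z214) fun z215 =>
  letR (z215 + (1 : ℝ)) fun z216 =>
  letR (√z216) fun z217 =>
  letR (z217 + (1 : ℝ)) fun z218 =>
  invR z218 fun z219 =>
  letR (z214 * z219) fun z221 =>
  letR (z221 ^ 2) fun z229 =>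
  letR (z201 - z229) fun z230 =>
  letR z230 fun z231 =>
  letR (z91 * z231) fun z232 =>
  letR (z228 + z232) fun z233 =>
  letR ((1 / 2 : ℝ) * z233) fun z234 =>
  letR (z224 + z234) fun z235 =>
  posR z235 <|
  True

theorem z2_S {ε : Fin 4 → ℝ} (gs : ℕ) (hε : ∀ i, |ε i| ≤ 1) (ps : ℕ) (x0 x1 x2 x3 : AF) (m y r u3 : ℝ)
    (h0 : Rel ε x0 m) (h1 : Rel ε x1 y) (h2 : Rel ε x2 r) (h3 : Rel ε x3 u3) :
    z2_B gs ps x0 x1 x2 x3 = true → z2_R gs ps m y r u3 := by
  delta z2_B z2_R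
  exact parS fun z3 t3 g3 =>
  parS fun z4 t4 g4 =>
  parS fun z5 t5 g5 =>
  parS fun z6 t6 g6 =>
  parS fun z7 t7 g7 =>
  parS fun z8 t8 g8 =>
  parS fun z9 t9 g9 =>
  parS fun z10 t10 g10 =>
  parS fun z11 t11 g11 =>
  parS fun z12 t12 g12 =>
  mulS hε g12 h0 fun z13 t13 g13 =>
  addS g11 g13 fun z14 t14 g14 =>
  normS g14 fun z15 t15 g15 =>
  mulS hε h1 g15 fun z16 t16 g16 =>
  mulS hε g8 h2 fun z17 t17 g17 =>
  addS g7 g17 fun z18 t18 g18 =>
  posS hε g18 <|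
  mulS hε g10 h2 fun z19 t19 g19 =>
  addS g9 g19 fun z20 t20 g20 =>
  posS hε g20 <|
  mulS hε g6 h2 fun z21 t21 g21 =>
  addS g5 g21 fun z22 t22 g22 =>
  posS hε g22 <|
  smulS hε g20 k0 fun z23 t23 g23 =>
  addS g18 g23 fun z24 t24 g24 =>
  addS g18 g20 fun z25 t25 g25 =>
  smulS hε g18 k2 fun z26 t26 g26 =>
  smulS hε g20 k3 fun z27 t27 g27 =>
  addS g26 g27 fun z28 t28 g28 =>
  normS g25 fun z29 t29 g29 =>
  smulS hε g18 k43 fun z30 t30 g30 =>
  smulS hε g20 k44 fun z31 t31 g31 =>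
  addS g30 g31 fun z32 t32 g32 =>
  smulS hε g18 k5 fun z33 t33 g33 =>
  smulS hε g20 k45 fun z34 t34 g34 =>
  addS g33 g34 fun z35 t35 g35 =>
  smulS hε g18 k46 fun z36 t36 g36 =>
  smulS hε g20 k39 fun z37 t37 g37 =>
  addS g36 g37 fun z38 t38 g38 =>
  mulS hε g4 g16 fun z39 t39 g39 =>
  addS g3 g39 fun z40 t40 g40 =>
  normS g40 fun z41 t41 g41 =>
  mulS hε g16 g41 fun z42 t42 g42 =>
  addcS g42 k47 fun z43 t43 g43 =>
  posS hε g43 <|
  rsubS g42 k48 fun z44 t44 g44 =>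
  posS hε g44 <|
  rsubS g25 k19 fun z48 t48 g48 =>
  posS hε g48 <|
  normS g22 fun z46 t46 g46 =>
  mulS hε h2 g46 fun z47 t47 g47 =>
  sqrS hε h2 fun z45 t45 g45 =>
  normS g24 fun z49 t49 g49 =>
  mulS hε g45 g49 fun z50 t50 g50 =>
  addS g47 g50 fun z51 t51 g51 =>
  rsubS g51 k19 fun z52 t52 g52 =>
  posS hε g52 <|
  smulS hε g41 k20 fun z57 t57 g57 =>
  sqrS hε g42 fun z54 t54 g54 =>
  addcS g54 k19 fun z55 t55 g55 =>
  invS hε g55 fun z56 t56 g56 =>
  mulS hε g57 g56 fun z58 t58 g58 =>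
  normS g35 fun z60 t60 g60 =>
  mulS hε g45 g60 fun z61 t61 g61 =>
  smulS hε g47 k5 fun z62 t62 g62 =>
  addS g61 g62 fun z63 t63 g63 =>
  normS g63 fun z126 t126 g126 =>
  mulS hε g58 g126 fun z127 t127 g127 =>
  smulS hε g127 k5 fun z130 t130 g130 =>
  mulS hε g16 g130 fun z135 t135 g135 =>
  addcS g135 k19 fun z136 t136 g136 =>
  posS hε g136 <|
  normS g38 fun z128 t128 g128 =>
  mulS hε g58 g128 fun z129 t129 g129 =>
  smulS hε g129 k5 fun z131 t131 g131 =>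
  mulS hε g41 g58 fun z59 t59 g59 =>
  mulS hε g59 g29 fun z121 t121 g121 =>
  mulS hε g16 g121 fun z124 t124 g124 =>
  subS g131 g124 fun z132 t132 g132 =>
  normS g132 fun z137 t137 g137 =>
  mulS hε g16 g137 fun z138 t138 g138 =>
  addcS g138 k19 fun z139 t139 g139 =>
  posS hε g139 <|
  normS g28 fun z64 t64 g64 =>
  mulS hε g45 g64 fun z65 t65 g65 =>
  addS g65 g47 fun z66 t66 g66 =>
  normS g66 fun z122 t122 g122 =>
  mulS hε g59 g122 fun z123 t123 g123 =>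
  mulS hε g16 g123 fun z125 t125 g125 =>
  addS g130 g125 fun z133 t133 g133 =>
  normS g133 fun z140 t140 g140 =>
  mulS hε g16 g140 fun z141 t141 g141 =>
  rsubS g141 k19 fun z142 t142 g142 =>
  posS hε g142 <|
  mulS hε g16 g131 fun z143 t143 g143 =>
  rsubS g143 k19 fun z144 t144 g144 =>
  posS hε g144 <|
  normS g32 fun z67 t67 g67 =>
  mulS hε h2 g67 fun z68 t68 g68 =>
  smulS hε g22 k4 fun z69 t69 g69 =>
  addS g68 g69 fun z70 t70 g70 =>
  normS g70 fun z118 t118 g118 =>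
  mulS hε g58 g118 fun z119 t119 g119 =>
  sqrS hε h0 fun z71 t71 g71 =>
  mulS hε (cst_rel k21) g71 fun z107 t107 g107 =>
  addcS g107 k22 fun z108 t108 g108 =>
  sqrS hε g16 fun z72 t72 g72 =>
  mulS hε (cst_rel k23) g72 fun z110 t110 g110 =>
  addS g108 g110 fun z111 t111 g111 =>
  sqrS hε g71 fun z93 t93 g93 =>
  mulS hε g71 g72 fun z92 t92 g92 =>
  addS g93 g92 fun z112 t112 g112 =>
  smulS hε g112 k0 fun z113 t113 g113 =>
  addS g111 g113 fun z114 t114 g114 =>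
  sqrS hε g72 fun z94 t94 g94 =>
  mulS hε (cst_rel k24) g94 fun z116 t116 g116 =>
  addS g114 g116 fun z117 t117 g117 =>
  subS g119 g117 fun z120 t120 g120 =>
  addS g130 g131 fun z134 t134 g134 =>
  normS g134 fun z169 t169 g169 =>
  addS g71 g72 fun z95 t95 g95 =>
  addS g95 g93 fun z96 t96 g96 =>
  addS g96 g94 fun z97 t97 g97 =>
  normS g97 fun z99 t99 g99 =>
  mulS hε (cst_rel k25) g99 fun z100 t100 g100 =>
  addcS g100 k22 fun z101 t101 g101 =>
  smulS hε g92 k20 fun z102 t102 g102 =>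
  addS g101 g102 fun z103 t103 g103 =>
  normS g103 fun z104 t104 g104 =>
  mulS hε h0 g104 fun z105 t105 g105 =>
  mulS hε g169 g105 fun z170 t170 g170 =>
  subS g120 g170 fun z171 t171 g171 =>
  addS h0 g16 fun z73 t73 g73 =>
  normS g73 fun z74 t74 g74 =>
  sqrS hε g74 fun z75 t75 g75 =>
  mulS hε (cst_rel k26) g75 fun z77 t77 g77 =>
  addcS g77 k27 fun z78 t78 g78 =>
  mulS hε g75 g78 fun z79 t79 g79 =>
  addcS g79 k28 fun z80 t80 g80 =>
  mulS hε g75 g80 fun z81 t81 g81 =>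
  rsubS g81 k19 fun z82 t82 g82 =>
  mulS hε g130 g137 fun z145 t145 g145 =>
  subS g145 g121 fun z146 t146 g146 =>
  normS g146 fun z149 t149 g149 =>
  mulS hε g16 g149 fun z150 t150 g150 =>
  addS g134 g150 fun z151 t151 g151 =>
  normS g151 fun z155 t155 g155 =>
  mulS hε g16 g155 fun z156 t156 g156 =>
  addcS g156 k19 fun z157 t157 g157 =>
  sqrtS hε g157 fun z158 t158 g158 =>
  addcS g158 k19 fun z159 t159 g159 =>
  invS hε g159 fun z160 t160 g160 =>
  mulS hε g155 g160 fun z167 t167 g167 =>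
  sqrS hε g167 fun z172 t172 g172 =>
  subS g146 g172 fun z173 t173 g173 =>
  normS g173 fun z174 t174 g174 =>
  mulS hε g82 g174 fun z175 t175 g175 =>
  subS h0 g16 fun z83 t83 g83 =>
  normS g83 fun z84 t84 g84 =>
  sqrS hε g84 fun z85 t85 g85 =>
  mulS hε (cst_rel k26) g85 fun z86 t86 g86 =>
  addcS g86 k27 fun z87 t87 g87 =>
  mulS hε g85 g87 fun z88 t88 g88 =>
  addcS g88 k28 fun z89 t89 g89 =>
  mulS hε g85 g89 fun z90 t90 g90 =>
  rsubS g90 k19 fun z91 t91 g91 =>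
  mulS hε g140 g131 fun z147 t147 g147 =>
  subS g147 g123 fun z148 t148 g148 =>
  normS g148 fun z152 t152 g152 =>
  mulS hε g16 g152 fun z153 t153 g153 =>
  subS g153 g134 fun z154 t154 g154 =>
  normS g154 fun z161 t161 g161 =>
  mulS hε g16 g161 fun z162 t162 g162 =>
  addcS g162 k19 fun z163 t163 g163 =>
  sqrtS hε g163 fun z164 t164 g164 =>
  addcS g164 k19 fun z165 t165 g165 =>
  invS hε g165 fun z166 t166 g166 =>
  mulS hε g161 g166 fun z168 t168 g168 =>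
  sqrS hε g168 fun z176 t176 g176 =>
  subS g148 g176 fun z177 t177 g177 =>
  normS g177 fun z178 t178 g178 =>
  mulS hε g91 g178 fun z179 t179 g179 =>
  addS g175 g179 fun z180 t180 g180 =>
  smulS hε g180 k2 fun z181 t181 g181 =>
  addS g171 g181 fun z182 t182 g182 =>
  posS hε g182 <|
  smulS hε g127 k29 fun z183 t183 g183 =>
  mulS hε g16 g183 fun z188 t188 g188 =>
  addcS g188 k19 fun z189 t189 g189 =>
  posS hε g189 <|
  smulS hε g129 k29 fun z184 t184 g184 =>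
  subS g184 g124 fun z185 t185 g185 =>
  normS g185 fun z190 t190 g190 =>
  mulS hε g16 g190 fun z191 t191 g191 =>
  addcS g191 k19 fun z192 t192 g192 =>
  posS hε g192 <|
  addS g183 g125 fun z186 t186 g186 =>
  normS g186 fun z193 t193 g193 =>
  mulS hε g16 g193 fun z194 t194 g194 =>
  rsubS g194 k19 fun z195 t195 g195 =>
  posS hε g195 <|
  mulS hε g16 g184 fun z196 t196 g196 =>
  rsubS g196 k19 fun z197 t197 g197 =>
  posS hε g197 <|
  addS g183 g184 fun z187 t187 g187 =>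
  normS g187 fun z222 t222 g222 =>
  mulS hε g222 g105 fun z223 t223 g223 =>
  subS g120 g223 fun z224 t224 g224 =>
  mulS hε g183 g190 fun z198 t198 g198 =>
  subS g198 g121 fun z199 t199 g199 =>
  normS g199 fun z202 t202 g202 =>
  mulS hε g16 g202 fun z203 t203 g203 =>
  addS g187 g203 fun z204 t204 g204 =>
  normS g204 fun z208 t208 g208 =>
  mulS hε g16 g208 fun z209 t209 g209 =>
  addcS g209 k19 fun z210 t210 g210 =>
  sqrtS hε g210 fun z211 t211 g211 =>
  addcS g211 k19 fun z212 t212 g212 =>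
  invS hε g212 fun z213 t213 g213 =>
  mulS hε g208 g213 fun z220 t220 g220 =>
  sqrS hε g220 fun z225 t225 g225 =>
  subS g199 g225 fun z226 t226 g226 =>
  normS g226 fun z227 t227 g227 =>
  mulS hε g82 g227 fun z228 t228 g228 =>
  mulS hε g193 g184 fun z200 t200 g200 =>
  subS g200 g123 fun z201 t201 g201 =>
  normS g201 fun z205 t205 g205 =>
  mulS hε g16 g205 fun z206 t206 g206 =>
  subS g206 g187 fun z207 t207 g207 =>
  normS g207 fun z214 t214 g214 =>
  mulS hε g16 g214 fun z215 t215 g215 =>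
  addcS g215 k19 fun z216 t216 g216 =>
  sqrtS hε g216 fun z217 t217 g217 =>
  addcS g217 k19 fun z218 t218 g218 =>
  invS hε g218 fun z219 t219 g219 =>
  mulS hε g214 g219 fun z221 t221 g221 =>
  sqrS hε g221 fun z229 t229 g229 =>
  subS g201 g229 fun z230 t230 g230 =>
  normS g230 fun z231 t231 g231 =>
  mulS hε g91 g231 fun z232 t232 g232 =>
  addS g228 g232 fun z233 t233 g233 =>
  smulS hε g233 k2 fun z234 t234 g234 =>
  addS g224 g234 fun z235 t235 g235 =>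
  posS hε g235 <|
  fun _ => trivial

def z2_Spec (ca cb m y r : ℝ) : Prop :=
  ∃ ta tb pw qw pa0 pb0 pa1 pb1 d v0 v1 w SL Sv SRn SRp S0 S1 S2 tau t rw rr sh a1 sa f1a sb g2a eh ep dp f2a an en dn f3a c0 mm dd m4 md d4 E2 base La E1 Y0u Y0 G0a X0a i0a j0a Y1u Y1 G1a X1a i1a j1a f1b g2b f2b f3b Lb G0b X0b i0b j0b G1b X1b i1b j1b : ℝ,
    d = (y * (ca + (cb * m))) ∧
    v0 = (pa0 + (pb0 * r)) ∧
    0 ≤ v0 ∧
    v1 = (pa1 + (pb1 * r)) ∧
    0 ≤ v1 ∧
    w = (pw + (qw * r)) ∧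
    0 ≤ w ∧
    SL = (v0 + ((3 : ℝ) * v1)) ∧
    Sv = (v0 + v1) ∧
    SRn = (((1 / 2 : ℝ) * v0) + ((15 / 8 : ℝ) * v1)) ∧
    SRp = Sv ∧
    S0 = (((949 / 512 : ℝ) * v0) + ((1779 / 512 : ℝ) * v1)) ∧
    S1 = (((3 / 8 : ℝ) * v0) + ((57 / 64 : ℝ) * v1)) ∧
    S2 = (((-15 / 32 : ℝ) * v0) + ((-25 / 64 : ℝ) * v1)) ∧
    tau = (ta + (tb * d)) ∧
    t = (d * tau) ∧
    0 ≤ (t + (-5 / 16 : ℝ)) ∧
    0 ≤ ((7 / 16 : ℝ) - t) ∧
    0 ≤ ((1 : ℝ) - Sv) ∧
    rw = (r * w) ∧
    rr = (r ^ 2) ∧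
    0 ≤ ((1 : ℝ) - (rw + (rr * SL))) ∧
    0 < ((t ^ 2) + (1 : ℝ)) ∧
    sh = (((2 : ℝ) * tau) * (((t ^ 2) + (1 : ℝ))⁻¹)) ∧
    a1 = ((rr * S1) + ((3 / 8 : ℝ) * rw)) ∧
    sa = (sh * a1) ∧
    f1a = ((3 / 8 : ℝ) * sa) ∧
    0 ≤ ((d * f1a) + (1 : ℝ)) ∧
    sb = (sh * S2) ∧
    g2a = ((3 / 8 : ℝ) * sb) ∧
    eh = (tau * sh) ∧
    ep = (eh * SRp) ∧
    dp = (d * ep) ∧
    f2a = (g2a - dp) ∧
    0 ≤ ((d * f2a) + (1 : ℝ)) ∧
    an = ((rr * SRn) + rw) ∧
    en = (eh * an) ∧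
    dn = (d * en) ∧
    f3a = (f1a + dn) ∧
    0 ≤ ((1 : ℝ) - (d * f3a)) ∧
    0 ≤ ((1 : ℝ) - (d * g2a)) ∧
    c0 = ((r * S0) + ((9 / 16 : ℝ) * w)) ∧
    mm = (m ^ 2) ∧
    dd = (d ^ 2) ∧
    m4 = (mm ^ 2) ∧
    md = (mm * dd) ∧
    d4 = (dd ^ 2) ∧
    E2 = ((((((9 / 5 : ℝ) * mm) + (3 / 2 : ℝ)) + ((3 / 10 : ℝ) * dd)) + ((3 : ℝ) * (m4 + md))) + ((1 / 5 : ℝ) * d4)) ∧
    base = ((sh * c0) - E2) ∧
    La = (f1a + g2a) ∧
    E1 = (m * ((((3 / 5 : ℝ) * (((mm + dd) + m4) + d4)) + (3 / 2 : ℝ)) + ((2 : ℝ) * md))) ∧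
    Y0u = ((m + d) ^ 2) ∧
    Y0 = ((1 : ℝ) - (Y0u * ((Y0u * (((1 / 10 : ℝ) * Y0u) + (3 / 20 : ℝ))) + (3 / 4 : ℝ)))) ∧
    G0a = ((f1a * f2a) - ep) ∧
    X0a = (La + (d * G0a)) ∧
    0 < ((√((d * X0a) + (1 : ℝ))) + (1 : ℝ)) ∧
    i0a = (((√((d * X0a) + (1 : ℝ))) + (1 : ℝ))⁻¹) ∧
    j0a = (X0a * i0a) ∧
    Y1u = ((m - d) ^ 2) ∧
    Y1 = ((1 : ℝ) - (Y1u * ((Y1u * (((1 / 10 : ℝ) * Y1u) + (3 / 20 : ℝ))) + (3 / 4 : ℝ)))) ∧
    G1a = ((f3a * g2a) - en) ∧
    X1a = ((d * G1a) - La) ∧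
    0 < ((√((d * X1a) + (1 : ℝ))) + (1 : ℝ)) ∧
    i1a = (((√((d * X1a) + (1 : ℝ))) + (1 : ℝ))⁻¹) ∧
    j1a = (X1a * i1a) ∧
    0 ≤ ((base - (La * E1)) + ((1 / 2 : ℝ) * ((Y0 * (G0a - (j0a ^ 2))) + (Y1 * (G1a - (j1a ^ 2)))))) ∧
    f1b = ((1229 / 2048 : ℝ) * sa) ∧
    0 ≤ ((d * f1b) + (1 : ℝ)) ∧
    g2b = ((1229 / 2048 : ℝ) * sb) ∧
    f2b = (g2b - dp) ∧
    0 ≤ ((d * f2b) + (1 : ℝ)) ∧
    f3b = (f1b + dn) ∧
    0 ≤ ((1 : ℝ) - (d * f3b)) ∧
    0 ≤ ((1 : ℝ) - (d * g2b)) ∧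
    Lb = (f1b + g2b) ∧
    G0b = ((f1b * f2b) - ep) ∧
    X0b = (Lb + (d * G0b)) ∧
    0 < ((√((d * X0b) + (1 : ℝ))) + (1 : ℝ)) ∧
    i0b = (((√((d * X0b) + (1 : ℝ))) + (1 : ℝ))⁻¹) ∧
    j0b = (X0b * i0b) ∧
    G1b = ((f3b * g2b) - en) ∧
    X1b = ((d * G1b) - Lb) ∧
    0 < ((√((d * X1b) + (1 : ℝ))) + (1 : ℝ)) ∧
    i1b = (((√((d * X1b) + (1 : ℝ))) + (1 : ℝ))⁻¹) ∧
    j1b = (X1b * i1b) ∧
    0 ≤ ((base - (Lb * E1)) + ((1 / 2 : ℝ) * ((Y0 * (G0b - (j0b ^ 2))) + (Y1 * (G1b - (j1b ^ 2))))))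

theorem z2_E {gs ps : ℕ} {m y r u3 : ℝ} (h : z2_R gs ps m y r u3) : z2_Spec (parV gs 0) (parV gs 1) m y r := by
  delta z2_R at h
  exact letR_ex h fun ta _ h =>
  letR_ex h fun tb _ h =>
  letR_ex h fun pw _ h =>
  letR_ex h fun qw _ h =>
  letR_ex h fun pa0 _ h =>
  letR_ex h fun pb0 _ h =>
  letR_ex h fun pa1 _ h =>
  letR_ex h fun pb1 _ h =>
  letR_in h fun h =>
  letR_in h fun h =>
  letR_in h fun h =>
  letR_in h fun h =>
  letR_in h fun h =>
  letR_ex h fun d q1 h =>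
  letR_in h fun h =>
  letR_ex h fun v0 q2 h =>
  posR_ex h fun q3 h =>
  letR_in h fun h =>
  letR_ex h fun v1 q4 h =>
  posR_ex h fun q5 h =>
  letR_in h fun h =>
  letR_ex h fun w q6 h =>
  posR_ex h fun q7 h =>
  letR_in h fun h =>
  letR_ex h fun SL q8 h =>
  letR_ex h fun Sv q9 h =>
  letR_in h fun h =>
  letR_in h fun h =>
  letR_ex h fun SRn q10 h =>
  letR_ex h fun SRp q11 h =>
  letR_in h fun h =>
  letR_in h fun h =>
  letR_ex h fun S0 q12 h =>
  letR_in h fun h =>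
  letR_in h fun h =>
  letR_ex h fun S1 q13 h =>
  letR_in h fun h =>
  letR_in h fun h =>
  letR_ex h fun S2 q14 h =>
  letR_in h fun h =>
  letR_ex h fun tau q15 h =>
  letR_in h fun h =>
  letR_ex h fun t q16 h =>
  letR_in h fun h =>
  posR_ex h fun q17 h =>
  letR_in h fun h =>
  posR_ex h fun q18 h =>
  letR_in h fun h =>
  posR_ex h fun q19 h =>
  letR_in h fun h =>
  letR_ex h fun rw q20 h =>
  letR_ex h fun rr q21 h =>
  letR_in h fun h =>
  letR_in h fun h =>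
  letR_in h fun h =>
  letR_in h fun h =>
  posR_ex h fun q22 h =>
  letR_in h fun h =>
  letR_in h fun h =>
  letR_in h fun h =>
  invR_ex h fun q23 h =>
  letR_in h fun h =>
  letR_ex h fun sh q24 h =>
  letR_in h fun h =>
  letR_in h fun h =>
  letR_in h fun h =>
  letR_ex h fun a1 q25 h =>
  letR_in h fun h =>
  letR_ex h fun sa q26 h =>
  letR_ex h fun f1a q27 h =>
  letR_in h fun h =>
  letR_in h fun h =>
  posR_ex h fun q28 h =>
  letR_in h fun h =>
  letR_ex h fun sb q29 h =>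
  letR_ex h fun g2a q30 h =>
  letR_ex h fun eh q31 h =>
  letR_ex h fun ep q32 h =>
  letR_ex h fun dp q33 h =>
  letR_ex h fun f2a q34 h =>
  letR_in h fun h =>
  letR_in h fun h =>
  letR_in h fun h =>
  posR_ex h fun q35 h =>
  letR_in h fun h =>
  letR_in h fun h =>
  letR_ex h fun an q36 h =>
  letR_in h fun h =>
  letR_ex h fun en q37 h =>
  letR_ex h fun dn q38 h =>
  letR_ex h fun f3a q39 h =>
  letR_in h fun h =>
  letR_in h fun h =>
  letR_in h fun h =>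
  posR_ex h fun q40 h =>
  letR_in h fun h =>
  letR_in h fun h =>
  posR_ex h fun q41 h =>
  letR_in h fun h =>
  letR_in h fun h =>
  letR_in h fun h =>
  letR_ex h fun c0 q42 h =>
  letR_in h fun h =>
  letR_in h fun h =>
  letR_ex h fun mm q43 h =>
  letR_in h fun h =>
  letR_in h fun h =>
  letR_ex h fun dd q44 h =>
  letR_in h fun h =>
  letR_in h fun h =>
  letR_ex h fun m4 q45 h =>
  letR_ex h fun md q46 h =>
  letR_in h fun h =>
  letR_in h fun h =>
  letR_in h fun h =>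
  letR_ex h fun d4 q47 h =>
  letR_in h fun h =>
  letR_ex h fun E2 q48 h =>
  letR_ex h fun base q49 h =>
  letR_ex h fun La q50 h =>
  letR_in h fun h =>
  letR_in h fun h =>
  letR_in h fun h =>
  letR_in h fun h =>
  letR_in h fun h =>
  letR_in h fun h =>
  letR_in h fun h =>
  letR_in h fun h =>
  letR_in h fun h =>
  letR_in h fun h =>
  letR_ex h fun E1 q51 h =>
  letR_in h fun h =>
  letR_in h fun h =>
  letR_in h fun h =>
  letR_in h fun h =>
  letR_ex h fun Y0u q52 h =>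
  letR_in h fun h =>
  letR_in h fun h =>
  letR_in h fun h =>
  letR_in h fun h =>
  letR_in h fun h =>
  letR_ex h fun Y0 q53 h =>
  letR_in h fun h =>
  letR_ex h fun G0a q54 h =>
  letR_in h fun h =>
  letR_in h fun h =>
  letR_ex h fun X0a q55 h =>
  letR_in h fun h =>
  letR_in h fun h =>
  letR_in h fun h =>
  letR_in h fun h =>
  letR_in h fun h =>
  invR_ex h fun q56 h =>
  letR_ex h fun i0a q57 h =>
  letR_ex h fun j0a q58 h =>
  letR_in h fun h =>
  letR_in h fun h =>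
  letR_in h fun h =>
  letR_in h fun h =>
  letR_in h fun h =>
  letR_in h fun h =>
  letR_ex h fun Y1u q59 h =>
  letR_in h fun h =>
  letR_in h fun h =>
  letR_in h fun h =>
  letR_in h fun h =>
  letR_in h fun h =>
  letR_ex h fun Y1 q60 h =>
  letR_in h fun h =>
  letR_ex h fun G1a q61 h =>
  letR_in h fun h =>
  letR_in h fun h =>
  letR_ex h fun X1a q62 h =>
  letR_in h fun h =>
  letR_in h fun h =>
  letR_in h fun h =>
  letR_in h fun h =>
  letR_in h fun h =>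
  invR_ex h fun q63 h =>
  letR_ex h fun i1a q64 h =>
  letR_ex h fun j1a q65 h =>
  letR_in h fun h =>
  letR_in h fun h =>
  letR_in h fun h =>
  letR_in h fun h =>
  letR_in h fun h =>
  letR_in h fun h =>
  letR_in h fun h =>
  posR_ex h fun q66 h =>
  letR_ex h fun f1b q67 h =>
  letR_in h fun h =>
  letR_in h fun h =>
  posR_ex h fun q68 h =>
  letR_ex h fun g2b q69 h =>
  letR_ex h fun f2b q70 h =>
  letR_in h fun h =>
  letR_in h fun h =>
  letR_in h fun h =>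
  posR_ex h fun q71 h =>
  letR_ex h fun f3b q72 h =>
  letR_in h fun h =>
  letR_in h fun h =>
  letR_in h fun h =>
  posR_ex h fun q73 h =>
  letR_in h fun h =>
  letR_in h fun h =>
  posR_ex h fun q74 h =>
  letR_ex h fun Lb q75 h =>
  letR_in h fun h =>
  letR_in h fun h =>
  letR_in h fun h =>
  letR_in h fun h =>
  letR_ex h fun G0b q76 h =>
  letR_in h fun h =>
  letR_in h fun h =>
  letR_ex h fun X0b q77 h =>
  letR_in h fun h =>
  letR_in h fun h =>
  letR_in h fun h =>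
  letR_in h fun h =>
  letR_in h fun h =>
  invR_ex h fun q78 h =>
  letR_ex h fun i0b q79 h =>
  letR_ex h fun j0b q80 h =>
  letR_in h fun h =>
  letR_in h fun h =>
  letR_in h fun h =>
  letR_in h fun h =>
  letR_in h fun h =>
  letR_ex h fun G1b q81 h =>
  letR_in h fun h =>
  letR_in h fun h =>
  letR_ex h fun X1b q82 h =>
  letR_in h fun h =>
  letR_in h fun h =>
  letR_in h fun h =>
  letR_in h fun h =>
  letR_in h fun h =>
  invR_ex h fun q83 h =>
  letR_ex h fun i1b q84 h =>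
  letR_ex h fun j1b q85 h =>
  letR_in h fun h =>
  letR_in h fun h =>
  letR_in h fun h =>
  letR_in h fun h =>
  letR_in h fun h =>
  letR_in h fun h =>
  letR_in h fun h =>
  posR_ex h fun q86 h =>
  ⟨ta, tb, pw, qw, pa0, pb0, pa1, pb1, d, v0, v1, w, SL, Sv, SRn, SRp, S0, S1, S2, tau, t, rw, rr, sh, a1, sa, f1a, sb, g2a, eh, ep, dp, f2a, an, en, dn, f3a, c0, mm, dd, m4, md, d4, E2, base, La, E1, Y0u, Y0, G0a, X0a, i0a, j0a, Y1u, Y1, G1a, X1a, i1a, j1a, f1b, g2b, f2b, f3b, Lb, G0b, X0b, i0b, j0b, G1b, X1b, i1b, j1b, q1, q2, q3, q4, q5, q6, q7, q8, q9, q10, q11, q12, q13, q14, q15, q16, q17, q18, q19, q20, q21, q22, q23, q24, q25, q26, q27, q28, q29, q30, q31, q32, q33, q34, q35, q36, q37, q38, q39, q40, q41, q42, q43, q44, q45, q46, q47, q48, q49, q50, q51, q52, q53, q54, q55, q56, q57, q58, q59, q60, q61, q62, q63, q64, q65, q66, q67, q68, q69, q70, q71, q72, q73, q74, q75, q76, q77, q78, q79, q80, q81, q82, q83, q84,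 q85, q86⟩

theorem k49 : (9 / 8 : ℝ) = val 4722366799528994013184 := by norm_num [val]
theorem k50 : (13 / 16 : ℝ) = val 4722366711568063791104 := by norm_num [val]
theorem k51 : (1 / 8 : ℝ) = val 4722366518054017302528 := by norm_num [val]
theorem k52 : (1743 / 512 : ℝ) = val 4722367441094028820480 := by norm_num [val]
theorem k53 : (433 / 256 : ℝ) = val 4722366958958180040704 := by norm_num [val]
theorem k54 : (357 / 128 : ℝ) = val 4722367267920947445760 := by norm_num [val]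
theorem k55 : (251 / 128 : ℝ) = val 4722367034824482357248 := by norm_num [val]
theorem k56 : (461 / 256 : ℝ) = val 4722366989744505618432 := by norm_num [val]
theorem k57 : (23 / 64 : ℝ) = val 4722366584024714969088 := by norm_num [val]
theorem k58 : (171 / 256 : ℝ) = val 4722366670886133563392 := by norm_num [val]
theorem k59 : (-15 / 64 : ℝ) = val 4722366416898947547136 := by norm_num [val]
theorem k60 : (-29 / 64 : ℝ) = val 4722366355326296391680 := by norm_num [val]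
theorem k61 : (-5 / 16 : ℝ) = val 4722366394908714991616 := by norm_num [val]
theorem k62 : |2 ^ 48 * (-7 / 16 : ℝ) - (((4722366359724342902784 : ℕ) : ℝ) - 2 ^ 72)| ≤ ((0 : ℕ) : ℝ) := by norm_num [abs_le]
theorem k63 : |2 ^ 48 * (9 / 16 : ℝ) - (((4722366641199319613440 : ℕ) : ℝ) - 2 ^ 72)| ≤ ((0 : ℕ) : ℝ) := by norm_num [abs_le]
def z3_B (gs ps : ℕ) (x0 x1 x2 x3 : AF) : Bool :=
  parK ps 0 fun z3 =>
  parK ps 1 fun z4 =>
  parK ps 2 fun z5 =>
  parK ps 3 fun z6 =>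
  parK ps 4 fun z7 =>
  parK ps 5 fun z8 =>
  parK ps 6 fun z9 =>
  parK ps 7 fun z10 =>
  parK ps 8 fun z11 =>
  parK ps 9 fun z12 =>
  parK ps 10 fun z13 =>
  parK ps 11 fun z14 =>
  parK ps 12 fun z15 =>
  parK ps 13 fun z16 =>
  parK gs 0 fun z17 =>
  parK gs 1 fun z18 =>
  mulK z18 x0 fun z19 =>
  addK z17 z19 fun z20 =>
  normK z20 fun z21 =>
  mulK x1 z21 fun z22 =>
  mulK z8 x2 fun z23 =>
  addK z7 z23 fun z24 =>
  posK z24 <|
  mulK z10 x2 fun z25 =>
  addK z9 z25 fun z26 =>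
  posK z26 <|
  mulK z12 x2 fun z27 =>
  addK z11 z27 fun z28 =>
  posK z28 <|
  mulK z14 x2 fun z29 =>
  addK z13 z29 fun z30 =>
  posK z30 <|
  mulK z16 x2 fun z31 =>
  addK z15 z31 fun z32 =>
  posK z32 <|
  mulK z6 x2 fun z33 =>
  addK z5 z33 fun z34 =>
  posK z34 <|
  smulK z24 4722367327294575345664 fun z35 =>
  addK z35 z26 fun z37 =>
  smulK z28 4722367116188342812672 fun z36 =>
  addK z37 z36 fun z38 =>
  addK z38 z30 fun z39 =>
  addK z39 z32 fun z40 =>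
  addK z24 z26 fun z41 =>
  addK z41 z28 fun z42 =>
  addK z42 z30 fun z43 =>
  addK z43 z32 fun z44 =>
  smulK z28 4722366799528994013184 fun z45 =>
  addK z37 z45 fun z47 =>
  smulK z30 4722366711568063791104 fun z46 =>
  addK z47 z46 fun z48 =>
  addK z48 z32 fun z49 =>
  smulK z24 4722366518054017302528 fun z50 =>
  smulK z26 4722366588422761480192 fun z51 =>
  addK z50 z51 fun z53 =>
  addK z53 z28 fun z54 =>
  addK z54 z30 fun z55 =>
  smulK z32 4722366623607133569024 fun z52 =>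
  addK z55 z52 fun z56 =>
  smulK z24 4722367441094028820480 fun z57 =>
  smulK z26 4722366958958180040704 fun z58 =>
  addK z57 z58 fun z62 =>
  smulK z28 4722367267920947445760 fun z59 =>
  addK z62 z59 fun z63 =>
  smulK z30 4722367034824482357248 fun z60 =>
  addK z63 z60 fun z64 =>
  smulK z32 4722366989744505618432 fun z61 =>
  addK z64 z61 fun z65 =>
  smulK z24 4722366799528994013184 fun z66 =>
  smulK z26 4722366584024714969088 fun z67 =>
  addK z66 z67 fun z71 =>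
  smulK z28 4722366670886133563392 fun z68 =>
  addK z71 z68 fun z72 =>
  smulK z30 4722366553238389391360 fun z69 =>
  addK z72 z69 fun z73 =>
  smulK z32 4722366566432528924672 fun z70 =>
  addK z73 z70 fun z74 =>
  smulK z24 4722366438889180102656 fun z75 =>
  smulK z26 4722366416898947547136 fun z76 =>
  addK z75 z76 fun z80 =>
  smulK z28 4722366355326296391680 fun z77 =>
  addK z80 z77 fun z81 =>
  smulK z30 4722366350928249880576 fun z78 =>
  addK z81 z78 fun z82 =>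
  smulK z32 4722366394908714991616 fun z79 =>
  addK z82 z79 fun z83 =>
  mulK z4 z22 fun z84 =>
  addK z3 z84 fun z85 =>
  normK z85 fun z86 =>
  mulK z22 z86 fun z87 =>
  addcK z87 4722366359724342902784 0 fun z88 =>
  posK z88 <|
  rsubK z87 4722366641199319613440 0 fun z89 =>
  posK z89 <|
  rsubK z44 4722366764344621924352 0 fun z93 =>
  posK z93 <|
  normK z34 fun z91 =>
  mulK x2 z91 fun z92 =>
  sqrK x2 fun z90 =>
  normK z40 fun z94 =>
  mulK z90 z94 fun z95 =>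
  addK z92 z95 fun z96 =>
  rsubK z96 4722366764344621924352 0 fun z97 =>
  posK z97 <|
  smulK z86 4722367045819598635008 fun z102 =>
  sqrK z87 fun z99 =>
  addcK z99 4722366764344621924352 0 fun z100 =>
  invK z100 fun z101 =>
  mulK z102 z101 fun z103 =>
  normK z74 fun z105 =>
  mulK z90 z105 fun z106 =>
  smulK z92 4722366588422761480192 fun z107 =>
  addK z106 z107 fun z108 =>
  normK z108 fun z172 =>
  mulK z103 z172 fun z173 =>
  smulK z173 4722366588422761480192 fun z176 =>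
  mulK z22 z176 fun z181 =>
  addcK z181 4722366764344621924352 0 fun z182 =>
  posK z182 <|
  normK z83 fun z174 =>
  mulK z103 z174 fun z175 =>
  smulK z175 4722366588422761480192 fun z177 =>
  mulK z86 z103 fun z104 =>
  normK z56 fun z166 =>
  mulK z104 z166 fun z167 =>
  mulK z22 z167 fun z170 =>
  subK z177 z170 fun z178 =>
  normK z178 fun z183 =>
  mulK z22 z183 fun z184 =>
  addcK z184 4722366764344621924352 0 fun z185 =>
  posK z185 <|
  normK z49 fun z109 =>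
  mulK z90 z109 fun z110 =>
  addK z110 z92 fun z111 =>
  normK z111 fun z168 =>
  mulK z104 z168 fun z169 =>
  mulK z22 z169 fun z171 =>
  addK z176 z171 fun z179 =>
  normK z179 fun z186 =>
  mulK z22 z186 fun z187 =>
  rsubK z187 4722366764344621924352 0 fun z188 =>
  posK z188 <|
  mulK z22 z177 fun z189 =>
  rsubK z189 4722366764344621924352 0 fun z190 =>
  posK z190 <|
  normK z65 fun z112 =>
  mulK x2 z112 fun z113 =>
  smulK z34 4722366641199319613440 fun z114 =>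
  addK z113 z114 fun z115 =>
  normK z115 fun z163 =>
  mulK z103 z163 fun z164 =>
  sqrK x0 fun z116 =>
  mulK (cst 4722366989524603292876 1) z116 fun z152 =>
  addcK z152 4722366905082110279680 0 fun z153 =>
  sqrK z22 fun z117 =>
  mulK (cst 4722366567312138226892 1) z117 fun z155 =>
  addK z153 z155 fun z156 =>
  sqrK z116 fun z138 =>
  mulK z116 z117 fun z137 =>
  addK z138 z137 fun z157 =>
  smulK z157 4722367327294575345664 fun z158 =>
  addK z156 z158 fun z159 =>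
  sqrK z117 fun z139 =>
  mulK (cst 4722366539164640555827 1) z139 fun z161 =>
  addK z159 z161 fun z162 =>
  subK z164 z162 fun z165 =>
  addK z176 z177 fun z180 =>
  normK z180 fun z215 =>
  addK z116 z117 fun z140 =>
  addK z140 z138 fun z141 =>
  addK z141 z139 fun z142 =>
  normK z142 fun z144 =>
  mulK (cst 4722366651754631240089 1) z144 fun z145 =>
  addcK z145 4722366905082110279680 0 fun z146 =>
  smulK z137 4722367045819598635008 fun z147 =>
  addK z146 z147 fun z148 =>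
  normK z148 fun z149 =>
  mulK x0 z149 fun z150 =>
  mulK z215 z150 fun z216 =>
  subK z165 z216 fun z217 =>
  addK x0 z22 fun z118 =>
  normK z118 fun z119 =>
  sqrK z119 fun z120 =>
  mulK (cst 4722366511017142884761 1) z120 fun z122 =>
  addcK z122 4722366525090891720294 1 fun z123 =>
  mulK z120 z123 fun z124 =>
  addcK z124 4722366693975877746688 0 fun z125 =>
  mulK z120 z125 fun z126 =>
  rsubK z126 4722366764344621924352 0 fun z127 =>
  mulK z176 z183 fun z191 =>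
  subK z191 z167 fun z192 =>
  normK z192 fun z195 =>
  mulK z22 z195 fun z196 =>
  addK z180 z196 fun z197 =>
  normK z197 fun z201 =>
  mulK z22 z201 fun z202 =>
  addcK z202 4722366764344621924352 0 fun z203 =>
  sqrtK z203 fun z204 =>
  addcK z204 4722366764344621924352 0 fun z205 =>
  invK z205 fun z206 =>
  mulK z201 z206 fun z213 =>
  sqrK z213 fun z218 =>
  subK z192 z218 fun z219 =>
  normK z219 fun z220 =>
  mulK z127 z220 fun z221 =>
  subK x0 z22 fun z128 =>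
  normK z128 fun z129 =>
  sqrK z129 fun z130 =>
  mulK (cst 4722366511017142884761 1) z130 fun z131 =>
  addcK z131 4722366525090891720294 1 fun z132 =>
  mulK z130 z132 fun z133 =>
  addcK z133 4722366693975877746688 0 fun z134 =>
  mulK z130 z134 fun z135 =>
  rsubK z135 4722366764344621924352 0 fun z136 =>
  mulK z186 z177 fun z193 =>
  subK z193 z169 fun z194 =>
  normK z194 fun z198 =>
  mulK z22 z198 fun z199 =>
  subK z199 z180 fun z200 =>
  normK z200 fun z207 =>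
  mulK z22 z207 fun z208 =>
  addcK z208 4722366764344621924352 0 fun z209 =>
  sqrtK z209 fun z210 =>
  addcK z210 4722366764344621924352 0 fun z211 =>
  invK z211 fun z212 =>
  mulK z207 z212 fun z214 =>
  sqrK z214 fun z222 =>
  subK z194 z222 fun z223 =>
  normK z223 fun z224 =>
  mulK z136 z224 fun z225 =>
  addK z221 z225 fun z226 =>
  smulK z226 4722366623607133569024 fun z227 =>
  addK z217 z227 fun z228 =>
  posK z228 <|
  smulK z173 4722366651782119030784 fun z229 =>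
  mulK z22 z229 fun z234 =>
  addcK z234 4722366764344621924352 0 fun z235 =>
  posK z235 <|
  smulK z175 4722366651782119030784 fun z230 =>
  subK z230 z170 fun z231 =>
  normK z231 fun z236 =>
  mulK z22 z236 fun z237 =>
  addcK z237 4722366764344621924352 0 fun z238 =>
  posK z238 <|
  addK z229 z171 fun z232 =>
  normK z232 fun z239 =>
  mulK z22 z239 fun z240 =>
  rsubK z240 4722366764344621924352 0 fun z241 =>
  posK z241 <|
  mulK z22 z230 fun z242 =>
  rsubK z242 4722366764344621924352 0 fun z243 =>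
  posK z243 <|
  addK z229 z230 fun z233 =>
  normK z233 fun z268 =>
  mulK z268 z150 fun z269 =>
  subK z165 z269 fun z270 =>
  mulK z229 z236 fun z244 =>
  subK z244 z167 fun z245 =>
  normK z245 fun z248 =>
  mulK z22 z248 fun z249 =>
  addK z233 z249 fun z250 =>
  normK z250 fun z254 =>
  mulK z22 z254 fun z255 =>
  addcK z255 4722366764344621924352 0 fun z256 =>
  sqrtK z256 fun z257 =>
  addcK z257 4722366764344621924352 0 fun z258 =>
  invK z258 fun z259 =>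
  mulK z254 z259 fun z266 =>
  sqrK z266 fun z271 =>
  subK z245 z271 fun z272 =>
  normK z272 fun z273 =>
  mulK z127 z273 fun z274 =>
  mulK z239 z230 fun z246 =>
  subK z246 z169 fun z247 =>
  normK z247 fun z251 =>
  mulK z22 z251 fun z252 =>
  subK z252 z233 fun z253 =>
  normK z253 fun z260 =>
  mulK z22 z260 fun z261 =>
  addcK z261 4722366764344621924352 0 fun z262 =>
  sqrtK z262 fun z263 =>
  addcK z263 4722366764344621924352 0 fun z264 =>
  invK z264 fun z265 =>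
  mulK z260 z265 fun z267 =>
  sqrK z267 fun z275 =>
  subK z247 z275 fun z276 =>
  normK z276 fun z277 =>
  mulK z136 z277 fun z278 =>
  addK z274 z278 fun z279 =>
  smulK z279 4722366623607133569024 fun z280 =>
  addK z270 z280 fun z281 =>
  posK z281 <|
  true

def z3_R (gs ps : ℕ) (m y r u3 : ℝ) : Prop :=
  letR (parV ps 0) fun z3 =>
  letR (parV ps 1) fun z4 =>
  letR (parV ps 2) fun z5 =>
  letR (parV ps 3) fun z6 =>
  letR (parV ps 4) fun z7 =>
  letR (parV ps 5) fun z8 =>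
  letR (parV ps 6) fun z9 =>
  letR (parV ps 7) fun z10 =>
  letR (parV ps 8) fun z11 =>
  letR (parV ps 9) fun z12 =>
  letR (parV ps 10) fun z13 =>
  letR (parV ps 11) fun z14 =>
  letR (parV ps 12) fun z15 =>
  letR (parV ps 13) fun z16 =>
  letR (parV gs 0) fun z17 =>
  letR (parV gs 1) fun z18 =>
  letR (z18 * m) fun z19 =>
  letR (z17 + z19) fun z20 =>
  letR z20 fun z21 =>
  letR (y * z21) fun z22 =>
  letR (z8 * r) fun z23 =>
  letR (z7 + z23) fun z24 =>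
  posR z24 <|
  letR (z10 * r) fun z25 =>
  letR (z9 + z25) fun z26 =>
  posR z26 <|
  letR (z12 * r) fun z27 =>
  letR (z11 + z27) fun z28 =>
  posR z28 <|
  letR (z14 * r) fun z29 =>
  letR (z13 + z29) fun z30 =>
  posR z30 <|
  letR (z16 * r) fun z31 =>
  letR (z15 + z31) fun z32 =>
  posR z32 <|
  letR (z6 * r) fun z33 =>
  letR (z5 + z33) fun z34 =>
  posR z34 <|
  letR ((3 : ℝ) * z24) fun z35 =>
  letR (z35 + z26) fun z37 =>
  letR ((9 / 4 : ℝ) * z28) fun z36 =>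
  letR (z37 + z36) fun z38 =>
  letR (z38 + z30) fun z39 =>
  letR (z39 + z32) fun z40 =>
  letR (z24 + z26) fun z41 =>
  letR (z41 + z28) fun z42 =>
  letR (z42 + z30) fun z43 =>
  letR (z43 + z32) fun z44 =>
  letR ((9 / 8 : ℝ) * z28) fun z45 =>
  letR (z37 + z45) fun z47 =>
  letR ((13 / 16 : ℝ) * z30) fun z46 =>
  letR (z47 + z46) fun z48 =>
  letR (z48 + z32) fun z49 =>
  letR ((1 / 8 : ℝ) * z24) fun z50 =>
  letR ((3 / 8 : ℝ) * z26) fun z51 =>
  letR (z50 + z51) fun z53 =>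
  letR (z53 + z28) fun z54 =>
  letR (z54 + z30) fun z55 =>
  letR ((1 / 2 : ℝ) * z32) fun z52 =>
  letR (z55 + z52) fun z56 =>
  letR ((1743 / 512 : ℝ) * z24) fun z57 =>
  letR ((433 / 256 : ℝ) * z26) fun z58 =>
  letR (z57 + z58) fun z62 =>
  letR ((357 / 128 : ℝ) * z28) fun z59 =>
  letR (z62 + z59) fun z63 =>
  letR ((251 / 128 : ℝ) * z30) fun z60 =>
  letR (z63 + z60) fun z64 =>
  letR ((461 / 256 : ℝ) * z32) fun z61 =>
  letR (z64 + z61) fun z65 =>
  letR ((9 / 8 : ℝ) * z24) fun z66 =>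
  letR ((23 / 64 : ℝ) * z26) fun z67 =>
  letR (z66 + z67) fun z71 =>
  letR ((171 / 256 : ℝ) * z28) fun z68 =>
  letR (z71 + z68) fun z72 =>
  letR ((1 / 4 : ℝ) * z30) fun z69 =>
  letR (z72 + z69) fun z73 =>
  letR ((19 / 64 : ℝ) * z32) fun z70 =>
  letR (z73 + z70) fun z74 =>
  letR ((-5 / 32 : ℝ) * z24) fun z75 =>
  letR ((-15 / 64 : ℝ) * z26) fun z76 =>
  letR (z75 + z76) fun z80 =>
  letR ((-29 / 64 : ℝ) * z28) fun z77 =>
  letR (z80 + z77) fun z81 =>
  letR ((-15 / 32 : ℝ) * z30) fun z78 =>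
  letR (z81 + z78) fun z82 =>
  letR ((-5 / 16 : ℝ) * z32) fun z79 =>
  letR (z82 + z79) fun z83 =>
  letR (z4 * z22) fun z84 =>
  letR (z3 + z84) fun z85 =>
  letR z85 fun z86 =>
  letR (z22 * z86) fun z87 =>
  letR (z87 + (-7 / 16 : ℝ)) fun z88 =>
  posR z88 <|
  letR ((9 / 16 : ℝ) - z87) fun z89 =>
  posR z89 <|
  letR ((1 : ℝ) - z44) fun z93 =>
  posR z93 <|
  letR z34 fun z91 =>
  letR (r * z91) fun z92 =>
  letR (r ^ 2) fun z90 =>
  letR z40 fun z94 =>
  letR (z90 * z94) fun z95 =>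
  letR (z92 + z95) fun z96 =>
  letR ((1 : ℝ) - z96) fun z97 =>
  posR z97 <|
  letR ((2 : ℝ) * z86) fun z102 =>
  letR (z87 ^ 2) fun z99 =>
  letR (z99 + (1 : ℝ)) fun z100 =>
  invR z100 fun z101 =>
  letR (z102 * z101) fun z103 =>
  letR z74 fun z105 =>
  letR (z90 * z105) fun z106 =>
  letR ((3 / 8 : ℝ) * z92) fun z107 =>
  letR (z106 + z107) fun z108 =>
  letR z108 fun z172 =>
  letR (z103 * z172) fun z173 =>
  letR ((3 / 8 : ℝ) * z173) fun z176 =>
  letR (z22 * z176) fun z181 =>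
  letR (z181 + (1 : ℝ)) fun z182 =>
  posR z182 <|
  letR z83 fun z174 =>
  letR (z103 * z174) fun z175 =>
  letR ((3 / 8 : ℝ) * z175) fun z177 =>
  letR (z86 * z103) fun z104 =>
  letR z56 fun z166 =>
  letR (z104 * z166) fun z167 =>
  letR (z22 * z167) fun z170 =>
  letR (z177 - z170) fun z178 =>
  letR z178 fun z183 =>
  letR (z22 * z183) fun z184 =>
  letR (z184 + (1 : ℝ)) fun z185 =>
  posR z185 <|
  letR z49 fun z109 =>
  letR (z90 * z109) fun z110 =>
  letR (z110 + z92) fun z111 =>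
  letR z111 fun z168 =>
  letR (z104 * z168) fun z169 =>
  letR (z22 * z169) fun z171 =>
  letR (z176 + z171) fun z179 =>
  letR z179 fun z186 =>
  letR (z22 * z186) fun z187 =>
  letR ((1 : ℝ) - z187) fun z188 =>
  posR z188 <|
  letR (z22 * z177) fun z189 =>
  letR ((1 : ℝ) - z189) fun z190 =>
  posR z190 <|
  letR z65 fun z112 =>
  letR (r * z112) fun z113 =>
  letR ((9 / 16 : ℝ) * z34) fun z114 =>
  letR (z113 + z114) fun z115 =>
  letR z115 fun z163 =>
  letR (z103 * z163) fun z164 =>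
  letR (m ^ 2) fun z116 =>
  letR ((9 / 5 : ℝ) * z116) fun z152 =>
  letR (z152 + (3 / 2 : ℝ)) fun z153 =>
  letR (z22 ^ 2) fun z117 =>
  letR ((3 / 10 : ℝ) * z117) fun z155 =>
  letR (z153 + z155) fun z156 =>
  letR (z116 ^ 2) fun z138 =>
  letR (z116 * z117) fun z137 =>
  letR (z138 + z137) fun z157 =>
  letR ((3 : ℝ) * z157) fun z158 =>
  letR (z156 + z158) fun z159 =>
  letR (z117 ^ 2) fun z139 =>
  letR ((1 / 5 : ℝ) * z139) fun z161 =>
  letR (z159 + z161) fun z162 =>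
  letR (z164 - z162) fun z165 =>
  letR (z176 + z177) fun z180 =>
  letR z180 fun z215 =>
  letR (z116 + z117) fun z140 =>
  letR (z140 + z138) fun z141 =>
  letR (z141 + z139) fun z142 =>
  letR z142 fun z144 =>
  letR ((3 / 5 : ℝ) * z144) fun z145 =>
  letR (z145 + (3 / 2 : ℝ)) fun z146 =>
  letR ((2 : ℝ) * z137) fun z147 =>
  letR (z146 + z147) fun z148 =>
  letR z148 fun z149 =>
  letR (m * z149) fun z150 =>
  letR (z215 * z150) fun z216 =>
  letR (z165 - z216) fun z217 =>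
  letR (m + z22) fun z118 =>
  letR z118 fun z119 =>
  letR (z119 ^ 2) fun z120 =>
  letR ((1 / 10 : ℝ) * z120) fun z122 =>
  letR (z122 + (3 / 20 : ℝ)) fun z123 =>
  letR (z120 * z123) fun z124 =>
  letR (z124 + (3 / 4 : ℝ)) fun z125 =>
  letR (z120 * z125) fun z126 =>
  letR ((1 : ℝ) - z126) fun z127 =>
  letR (z176 * z183) fun z191 =>
  letR (z191 - z167) fun z192 =>
  letR z192 fun z195 =>
  letR (z22 * z195) fun z196 =>
  letR (z180 + z196) fun z197 =>
  letR z197 fun z201 =>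
  letR (z22 * z201) fun z202 =>
  letR (z202 + (1 : ℝ)) fun z203 =>
  letR (√z203) fun z204 =>
  letR (z204 + (1 : ℝ)) fun z205 =>
  invR z205 fun z206 =>
  letR (z201 * z206) fun z213 =>
  letR (z213 ^ 2) fun z218 =>
  letR (z192 - z218) fun z219 =>
  letR z219 fun z220 =>
  letR (z127 * z220) fun z221 =>
  letR (m - z22) fun z128 =>
  letR z128 fun z129 =>
  letR (z129 ^ 2) fun z130 =>
  letR ((1 / 10 : ℝ) * z130) fun z131 =>
  letR (z131 + (3 / 20 : ℝ)) fun z132 =>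
  letR (z130 * z132) fun z133 =>
  letR (z133 + (3 / 4 : ℝ)) fun z134 =>
  letR (z130 * z134) fun z135 =>
  letR ((1 : ℝ) - z135) fun z136 =>
  letR (z186 * z177) fun z193 =>
  letR (z193 - z169) fun z194 =>
  letR z194 fun z198 =>
  letR (z22 * z198) fun z199 =>
  letR (z199 - z180) fun z200 =>
  letR z200 fun z207 =>
  letR (z22 * z207) fun z208 =>
  letR (z208 + (1 : ℝ)) fun z209 =>
  letR (√z209) fun z210 =>
  letR (z210 + (1 : ℝ)) fun z211 =>
  invR z211 fun z212 =>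
  letR (z207 * z212) fun z214 =>
  letR (z214 ^ 2) fun z222 =>
  letR (z194 - z222) fun z223 =>
  letR z223 fun z224 =>
  letR (z136 * z224) fun z225 =>
  letR (z221 + z225) fun z226 =>
  letR ((1 / 2 : ℝ) * z226) fun z227 =>
  letR (z217 + z227) fun z228 =>
  posR z228 <|
  letR ((1229 / 2048 : ℝ) * z173) fun z229 =>
  letR (z22 * z229) fun z234 =>
  letR (z234 + (1 : ℝ)) fun z235 =>
  posR z235 <|
  letR ((1229 / 2048 : ℝ) * z175) fun z230 =>
  letR (z230 - z170) fun z231 =>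
  letR z231 fun z236 =>
  letR (z22 * z236) fun z237 =>
  letR (z237 + (1 : ℝ)) fun z238 =>
  posR z238 <|
  letR (z229 + z171) fun z232 =>
  letR z232 fun z239 =>
  letR (z22 * z239) fun z240 =>
  letR ((1 : ℝ) - z240) fun z241 =>
  posR z241 <|
  letR (z22 * z230) fun z242 =>
  letR ((1 : ℝ) - z242) fun z243 =>
  posR z243 <|
  letR (z229 + z230) fun z233 =>
  letR z233 fun z268 =>
  letR (z268 * z150) fun z269 =>
  letR (z165 - z269) fun z270 =>
  letR (z229 * z236) fun z244 =>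
  letR (z244 - z167) fun z245 =>
  letR z245 fun z248 =>
  letR (z22 * z248) fun z249 =>
  letR (z233 + z249) fun z250 =>
  letR z250 fun z254 =>
  letR (z22 * z254) fun z255 =>
  letR (z255 + (1 : ℝ)) fun z256 =>
  letR (√z256) fun z257 =>
  letR (z257 + (1 : ℝ)) fun z258 =>
  invR z258 fun z259 =>
  letR (z254 * z259) fun z266 =>
  letR (z266 ^ 2) fun z271 =>
  letR (z245 - z271) fun z272 =>
  letR z272 fun z273 =>
  letR (z127 * z273) fun z274 =>
  letR (z239 * z230) fun z246 =>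
  letR (z246 - z169) fun z247 =>
  letR z247 fun z251 =>
  letR (z22 * z251) fun z252 =>
  letR (z252 - z233) fun z253 =>
  letR z253 fun z260 =>
  letR (z22 * z260) fun z261 =>
  letR (z261 + (1 : ℝ)) fun z262 =>
  letR (√z262) fun z263 =>
  letR (z263 + (1 : ℝ)) fun z264 =>
  invR z264 fun z265 =>
  letR (z260 * z265) fun z267 =>
  letR (z267 ^ 2) fun z275 =>
  letR (z247 - z275) fun z276 =>
  letR z276 fun z277 =>
  letR (z136 * z277) fun z278 =>
  letR (z274 + z278) fun z279 =>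
  letR ((1 / 2 : ℝ) * z279) fun z280 =>
  letR (z270 + z280) fun z281 =>
  posR z281 <|
  True

theorem z3_S {ε : Fin 4 → ℝ} (gs : ℕ) (hε : ∀ i, |ε i| ≤ 1) (ps : ℕ) (x0 x1 x2 x3 : AF) (m y r u3 : ℝ)
    (h0 : Rel ε x0 m) (h1 : Rel ε x1 y) (h2 : Rel ε x2 r) (h3 : Rel ε x3 u3) :
    z3_B gs ps x0 x1 x2 x3 = true → z3_R gs ps m y r u3 := by
  delta z3_B z3_R
  exact parS fun z3 t3 g3 =>
  parS fun z4 t4 g4 =>
  parS fun z5 t5 g5 =>
  parS fun z6 t6 g6 =>
  parS fun z7 t7 g7 =>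
  parS fun z8 t8 g8 =>
  parS fun z9 t9 g9 =>
  parS fun z10 t10 g10 =>
  parS fun z11 t11 g11 =>
  parS fun z12 t12 g12 =>
  parS fun z13 t13 g13 =>
  parS fun z14 t14 g14 =>
  parS fun z15 t15 g15 =>
  parS fun z16 t16 g16 =>
  parS fun z17 t17 g17 =>
  parS fun z18 t18 g18 =>
  mulS hε g18 h0 fun z19 t19 g19 =>
  addS g17 g19 fun z20 t20 g20 =>
  normS g20 fun z21 t21 g21 =>
  mulS hε h1 g21 fun z22 t22 g22 =>
  mulS hε g8 h2 fun z23 t23 g23 =>
  addS g7 g23 fun z24 t24 g24 =>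
  posS hε g24 <|
  mulS hε g10 h2 fun z25 t25 g25 =>
  addS g9 g25 fun z26 t26 g26 =>
  posS hε g26 <|
  mulS hε g12 h2 fun z27 t27 g27 =>
  addS g11 g27 fun z28 t28 g28 =>
  posS hε g28 <|
  mulS hε g14 h2 fun z29 t29 g29 =>
  addS g13 g29 fun z30 t30 g30 =>
  posS hε g30 <|
  mulS hε g16 h2 fun z31 t31 g31 =>
  addS g15 g31 fun z32 t32 g32 =>
  posS hε g32 <|
  mulS hε g6 h2 fun z33 t33 g33 =>
  addS g5 g33 fun z34 t34 g34 =>
  posS hε g34 <|
  smulS hε g24 k0 fun z35 t35 g35 =>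
  addS g35 g26 fun z37 t37 g37 =>
  smulS hε g28 k30 fun z36 t36 g36 =>
  addS g37 g36 fun z38 t38 g38 =>
  addS g38 g30 fun z39 t39 g39 =>
  addS g39 g32 fun z40 t40 g40 =>
  addS g24 g26 fun z41 t41 g41 =>
  addS g41 g28 fun z42 t42 g42 =>
  addS g42 g30 fun z43 t43 g43 =>
  addS g43 g32 fun z44 t44 g44 =>
  smulS hε g28 k49 fun z45 t45 g45 =>
  addS g37 g45 fun z47 t47 g47 =>
  smulS hε g30 k50 fun z46 t46 g46 =>
  addS g47 g46 fun z48 t48 g48 =>
  addS g48 g32 fun z49 t49 g49 =>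
  smulS hε g24 k51 fun z50 t50 g50 =>
  smulS hε g26 k5 fun z51 t51 g51 =>
  addS g50 g51 fun z53 t53 g53 =>
  addS g53 g28 fun z54 t54 g54 =>
  addS g54 g30 fun z55 t55 g55 =>
  smulS hε g32 k2 fun z52 t52 g52 =>
  addS g55 g52 fun z56 t56 g56 =>
  smulS hε g24 k52 fun z57 t57 g57 =>
  smulS hε g26 k53 fun z58 t58 g58 =>
  addS g57 g58 fun z62 t62 g62 =>
  smulS hε g28 k54 fun z59 t59 g59 =>
  addS g62 g59 fun z63 t63 g63 =>
  smulS hε g30 k55 fun z60 t60 g60 =>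
  addS g63 g60 fun z64 t64 g64 =>
  smulS hε g32 k56 fun z61 t61 g61 =>
  addS g64 g61 fun z65 t65 g65 =>
  smulS hε g24 k49 fun z66 t66 g66 =>
  smulS hε g26 k57 fun z67 t67 g67 =>
  addS g66 g67 fun z71 t71 g71 =>
  smulS hε g28 k58 fun z68 t68 g68 =>
  addS g71 g68 fun z72 t72 g72 =>
  smulS hε g30 k31 fun z69 t69 g69 =>
  addS g72 g69 fun z73 t73 g73 =>
  smulS hε g32 k11 fun z70 t70 g70 =>
  addS g73 g70 fun z74 t74 g74 =>
  smulS hε g24 k40 fun z75 t75 g75 =>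
  smulS hε g26 k59 fun z76 t76 g76 =>
  addS g75 g76 fun z80 t80 g80 =>
  smulS hε g28 k60 fun z77 t77 g77 =>
  addS g80 g77 fun z81 t81 g81 =>
  smulS hε g30 k46 fun z78 t78 g78 =>
  addS g81 g78 fun z82 t82 g82 =>
  smulS hε g32 k61 fun z79 t79 g79 =>
  addS g82 g79 fun z83 t83 g83 =>
  mulS hε g4 g22 fun z84 t84 g84 =>
  addS g3 g84 fun z85 t85 g85 =>
  normS g85 fun z86 t86 g86 =>
  mulS hε g22 g86 fun z87 t87 g87 =>
  addcS g87 k62 fun z88 t88 g88 =>
  posS hε g88 <|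
  rsubS g87 k63 fun z89 t89 g89 =>
  posS hε g89 <|
  rsubS g44 k19 fun z93 t93 g93 =>
  posS hε g93 <|
  normS g34 fun z91 t91 g91 =>
  mulS hε h2 g91 fun z92 t92 g92 =>
  sqrS hε h2 fun z90 t90 g90 =>
  normS g40 fun z94 t94 g94 =>
  mulS hε g90 g94 fun z95 t95 g95 =>
  addS g92 g95 fun z96 t96 g96 =>
  rsubS g96 k19 fun z97 t97 g97 =>
  posS hε g97 <|
  smulS hε g86 k20 fun z102 t102 g102 =>
  sqrS hε g87 fun z99 t99 g99 =>
  addcS g99 k19 fun z100 t100 g100 =>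
  invS hε g100 fun z101 t101 g101 =>
  mulS hε g102 g101 fun z103 t103 g103 =>
  normS g74 fun z105 t105 g105 =>
  mulS hε g90 g105 fun z106 t106 g106 =>
  smulS hε g92 k5 fun z107 t107 g107 =>
  addS g106 g107 fun z108 t108 g108 =>
  normS g108 fun z172 t172 g172 =>
  mulS hε g103 g172 fun z173 t173 g173 =>
  smulS hε g173 k5 fun z176 t176 g176 =>
  mulS hε g22 g176 fun z181 t181 g181 =>
  addcS g181 k19 fun z182 t182 g182 =>
  posS hε g182 <|
  normS g83 fun z174 t174 g174 =>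
  mulS hε g103 g174 fun z175 t175 g175 =>
  smulS hε g175 k5 fun z177 t177 g177 =>
  mulS hε g86 g103 fun z104 t104 g104 =>
  normS g56 fun z166 t166 g166 =>
  mulS hε g104 g166 fun z167 t167 g167 =>
  mulS hε g22 g167 fun z170 t170 g170 =>
  subS g177 g170 fun z178 t178 g178 =>
  normS g178 fun z183 t183 g183 =>
  mulS hε g22 g183 fun z184 t184 g184 =>
  addcS g184 k19 fun z185 t185 g185 =>
  posS hε g185 <|
  normS g49 fun z109 t109 g109 =>
  mulS hε g90 g109 fun z110 t110 g110 =>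
  addS g110 g92 fun z111 t111 g111 =>
  normS g111 fun z168 t168 g168 =>
  mulS hε g104 g168 fun z169 t169 g169 =>
  mulS hε g22 g169 fun z171 t171 g171 =>
  addS g176 g171 fun z179 t179 g179 =>
  normS g179 fun z186 t186 g186 =>
  mulS hε g22 g186 fun z187 t187 g187 =>
  rsubS g187 k19 fun z188 t188 g188 =>
  posS hε g188 <|
  mulS hε g22 g177 fun z189 t189 g189 =>
  rsubS g189 k19 fun z190 t190 g190 =>
  posS hε g190 <|
  normS g65 fun z112 t112 g112 =>
  mulS hε h2 g112 fun z113 t113 g113 =>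
  smulS hε g34 k4 fun z114 t114 g114 =>
  addS g113 g114 fun z115 t115 g115 =>
  normS g115 fun z163 t163 g163 =>
  mulS hε g103 g163 fun z164 t164 g164 =>
  sqrS hε h0 fun z116 t116 g116 =>
  mulS hε (cst_rel k21) g116 fun z152 t152 g152 =>
  addcS g152 k22 fun z153 t153 g153 =>
  sqrS hε g22 fun z117 t117 g117 =>
  mulS hε (cst_rel k23) g117 fun z155 t155 g155 =>
  addS g153 g155 fun z156 t156 g156 =>
  sqrS hε g116 fun z138 t138 g138 =>
  mulS hε g116 g117 fun z137 t137 g137 =>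
  addS g138 g137 fun z157 t157 g157 =>
  smulS hε g157 k0 fun z158 t158 g158 =>
  addS g156 g158 fun z159 t159 g159 =>
  sqrS hε g117 fun z139 t139 g139 =>
  mulS hε (cst_rel k24) g139 fun z161 t161 g161 =>
  addS g159 g161 fun z162 t162 g162 =>
  subS g164 g162 fun z165 t165 g165 =>
  addS g176 g177 fun z180 t180 g180 =>
  normS g180 fun z215 t215 g215 =>
  addS g116 g117 fun z140 t140 g140 =>
  addS g140 g138 fun z141 t141 g141 =>
  addS g141 g139 fun z142 t142 g142 =>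
  normS g142 fun z144 t144 g144 =>
  mulS hε (cst_rel k25) g144 fun z145 t145 g145 =>
  addcS g145 k22 fun z146 t146 g146 =>
  smulS hε g137 k20 fun z147 t147 g147 =>
  addS g146 g147 fun z148 t148 g148 =>
  normS g148 fun z149 t149 g149 =>
  mulS hε h0 g149 fun z150 t150 g150 =>
  mulS hε g215 g150 fun z216 t216 g216 =>
  subS g165 g216 fun z217 t217 g217 =>
  addS h0 g22 fun z118 t118 g118 =>
  normS g118 fun z119 t119 g119 =>
  sqrS hε g119 fun z120 t120 g120 =>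
  mulS hε (cst_rel k26) g120 fun z122 t122 g122 =>
  addcS g122 k27 fun z123 t123 g123 =>
  mulS hε g120 g123 fun z124 t124 g124 =>
  addcS g124 k28 fun z125 t125 g125 =>
  mulS hε g120 g125 fun z126 t126 g126 =>
  rsubS g126 k19 fun z127 t127 g127 =>
  mulS hε g176 g183 fun z191 t191 g191 =>
  subS g191 g167 fun z192 t192 g192 =>
  normS g192 fun z195 t195 g195 =>
  mulS hε g22 g195 fun z196 t196 g196 =>
  addS g180 g196 fun z197 t197 g197 =>
  normS g197 fun z201 t201 g201 =>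
  mulS hε g22 g201 fun z202 t202 g202 =>
  addcS g202 k19 fun z203 t203 g203 =>
  sqrtS hε g203 fun z204 t204 g204 =>
  addcS g204 k19 fun z205 t205 g205 =>
  invS hε g205 fun z206 t206 g206 =>
  mulS hε g201 g206 fun z213 t213 g213 =>
  sqrS hε g213 fun z218 t218 g218 =>
  subS g192 g218 fun z219 t219 g219 =>
  normS g219 fun z220 t220 g220 =>
  mulS hε g127 g220 fun z221 t221 g221 =>
  subS h0 g22 fun z128 t128 g128 =>
  normS g128 fun z129 t129 g129 =>
  sqrS hε g129 fun z130 t130 g130 =>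
  mulS hε (cst_rel k26) g130 fun z131 t131 g131 =>
  addcS g131 k27 fun z132 t132 g132 =>
  mulS hε g130 g132 fun z133 t133 g133 =>
  addcS g133 k28 fun z134 t134 g134 =>
  mulS hε g130 g134 fun z135 t135 g135 =>
  rsubS g135 k19 fun z136 t136 g136 =>
  mulS hε g186 g177 fun z193 t193 g193 =>
  subS g193 g169 fun z194 t194 g194 =>
  normS g194 fun z198 t198 g198 =>
  mulS hε g22 g198 fun z199 t199 g199 =>
  subS g199 g180 fun z200 t200 g200 =>
  normS g200 fun z207 t207 g207 =>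
  mulS hε g22 g207 fun z208 t208 g208 =>
  addcS g208 k19 fun z209 t209 g209 =>
  sqrtS hε g209 fun z210 t210 g210 =>
  addcS g210 k19 fun z211 t211 g211 =>
  invS hε g211 fun z212 t212 g212 =>
  mulS hε g207 g212 fun z214 t214 g214 =>
  sqrS hε g214 fun z222 t222 g222 =>
  subS g194 g222 fun z223 t223 g223 =>
  normS g223 fun z224 t224 g224 =>
  mulS hε g136 g224 fun z225 t225 g225 =>
  addS g221 g225 fun z226 t226 g226 =>
  smulS hε g226 k2 fun z227 t227 g227 =>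
  addS g217 g227 fun z228 t228 g228 =>
  posS hε g228 <|
  smulS hε g173 k29 fun z229 t229 g229 =>
  mulS hε g22 g229 fun z234 t234 g234 =>
  addcS g234 k19 fun z235 t235 g235 =>
  posS hε g235 <|
  smulS hε g175 k29 fun z230 t230 g230 =>
  subS g230 g170 fun z231 t231 g231 =>
  normS g231 fun z236 t236 g236 =>
  mulS hε g22 g236 fun z237 t237 g237 =>
  addcS g237 k19 fun z238 t238 g238 =>
  posS hε g238 <|
  addS g229 g171 fun z232 t232 g232 =>
  normS g232 fun z239 t239 g239 =>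
  mulS hε g22 g239 fun z240 t240 g240 =>
  rsubS g240 k19 fun z241 t241 g241 =>
  posS hε g241 <|
  mulS hε g22 g230 fun z242 t242 g242 =>
  rsubS g242 k19 fun z243 t243 g243 =>
  posS hε g243 <|
  addS g229 g230 fun z233 t233 g233 =>
  normS g233 fun z268 t268 g268 =>
  mulS hε g268 g150 fun z269 t269 g269 =>
  subS g165 g269 fun z270 t270 g270 =>
  mulS hε g229 g236 fun z244 t244 g244 =>
  subS g244 g167 fun z245 t245 g245 =>
  normS g245 fun z248 t248 g248 =>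
  mulS hε g22 g248 fun z249 t249 g249 =>
  addS g233 g249 fun z250 t250 g250 =>
  normS g250 fun z254 t254 g254 =>
  mulS hε g22 g254 fun z255 t255 g255 =>
  addcS g255 k19 fun z256 t256 g256 =>
  sqrtS hε g256 fun z257 t257 g257 =>
  addcS g257 k19 fun z258 t258 g258 =>
  invS hε g258 fun z259 t259 g259 =>
  mulS hε g254 g259 fun z266 t266 g266 =>
  sqrS hε g266 fun z271 t271 g271 =>
  subS g245 g271 fun z272 t272 g272 =>
  normS g272 fun z273 t273 g273 =>
  mulS hε g127 g273 fun z274 t274 g274 =>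
  mulS hε g239 g230 fun z246 t246 g246 =>
  subS g246 g169 fun z247 t247 g247 =>
  normS g247 fun z251 t251 g251 =>
  mulS hε g22 g251 fun z252 t252 g252 =>
  subS g252 g233 fun z253 t253 g253 =>
  normS g253 fun z260 t260 g260 =>
  mulS hε g22 g260 fun z261 t261 g261 =>
  addcS g261 k19 fun z262 t262 g262 =>
  sqrtS hε g262 fun z263 t263 g263 =>
  addcS g263 k19 fun z264 t264 g264 =>
  invS hε g264 fun z265 t265 g265 =>
  mulS hε g260 g265 fun z267 t267 g267 =>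
  sqrS hε g267 fun z275 t275 g275 =>
  subS g247 g275 fun z276 t276 g276 =>
  normS g276 fun z277 t277 g277 =>
  mulS hε g136 g277 fun z278 t278 g278 =>
  addS g274 g278 fun z279 t279 g279 =>
  smulS hε g279 k2 fun z280 t280 g280 =>
  addS g270 g280 fun z281 t281 g281 =>
  posS hε g281 <|
  fun _ => trivial

def z3_Spec (ca cb m y r : ℝ) : Prop :=
  ∃ ta tb pw qw pa0 pb0 pa1 pb1 pa2 pb2 pa3 pb3 pa4 pb4 d v0 v1 v2 v3 v4 w w37 SL Sv SRn SRp S0 S1 S2 tau t rw rr sh a1 sa f1a sb g2a eh ep dp f2a an en dn f3a c0 mm dd m4 md d4 E2 base La E1 Y0u Y0 G0a X0a i0a j0a Y1u Y1 G1a X1a i1a j1a f1b g2b f2b f3b Lb G0b X0b i0b j0b G1b X1b i1b j1b : ℝ,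
    d = (y * (ca + (cb * m))) ∧
    v0 = (pa0 + (pb0 * r)) ∧
    0 ≤ v0 ∧
    v1 = (pa1 + (pb1 * r)) ∧
    0 ≤ v1 ∧
    v2 = (pa2 + (pb2 * r)) ∧
    0 ≤ v2 ∧
    v3 = (pa3 + (pb3 * r)) ∧
    0 ≤ v3 ∧
    v4 = (pa4 + (pb4 * r)) ∧
    0 ≤ v4 ∧
    w = (pw + (qw * r)) ∧
    0 ≤ w ∧
    w37 = (((3 : ℝ) * v0) + v1) ∧
    SL = (((w37 + ((9 / 4 : ℝ) * v2)) + v3) + v4) ∧
    Sv = ((((v0 + v1) + v2) + v3) + v4) ∧
    SRn = (((w37 + ((9 / 8 : ℝ) * v2)) + ((13 / 16 : ℝ) * v3)) + v4) ∧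
    SRp = ((((((1 / 8 : ℝ) * v0) + ((3 / 8 : ℝ) * v1)) + v2) + v3) + ((1 / 2 : ℝ) * v4)) ∧
    S0 = ((((((1743 / 512 : ℝ) * v0) + ((433 / 256 : ℝ) * v1)) + ((357 / 128 : ℝ) * v2)) + ((251 / 128 : ℝ) * v3)) + ((461 / 256 : ℝ) * v4)) ∧
    S1 = ((((((9 / 8 : ℝ) * v0) + ((23 / 64 : ℝ) * v1)) + ((171 / 256 : ℝ) * v2)) + ((1 / 4 : ℝ) * v3)) + ((19 / 64 : ℝ) * v4)) ∧
    S2 = ((((((-5 / 32 : ℝ) * v0) + ((-15 / 64 : ℝ) * v1)) + ((-29 / 64 : ℝ) * v2)) + ((-15 / 32 : ℝ) * v3)) + ((-5 / 16 : ℝ) * v4)) ∧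
    tau = (ta + (tb * d)) ∧
    t = (d * tau) ∧
    0 ≤ (t + (-7 / 16 : ℝ)) ∧
    0 ≤ ((9 / 16 : ℝ) - t) ∧
    0 ≤ ((1 : ℝ) - Sv) ∧
    rw = (r * w) ∧
    rr = (r ^ 2) ∧
    0 ≤ ((1 : ℝ) - (rw + (rr * SL))) ∧
    0 < ((t ^ 2) + (1 : ℝ)) ∧
    sh = (((2 : ℝ) * tau) * (((t ^ 2) + (1 : ℝ))⁻¹)) ∧
    a1 = ((rr * S1) + ((3 / 8 : ℝ) * rw)) ∧
    sa = (sh * a1) ∧
    f1a = ((3 / 8 : ℝ) * sa) ∧
    0 ≤ ((d * f1a) + (1 : ℝ)) ∧
    sb = (sh * S2) ∧
    g2a = ((3 / 8 : ℝ) * sb) ∧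
    eh = (tau * sh) ∧
    ep = (eh * SRp) ∧
    dp = (d * ep) ∧
    f2a = (g2a - dp) ∧
    0 ≤ ((d * f2a) + (1 : ℝ)) ∧
    an = ((rr * SRn) + rw) ∧
    en = (eh * an) ∧
    dn = (d * en) ∧
    f3a = (f1a + dn) ∧
    0 ≤ ((1 : ℝ) - (d * f3a)) ∧
    0 ≤ ((1 : ℝ) - (d * g2a)) ∧
    c0 = ((r * S0) + ((9 / 16 : ℝ) * w)) ∧
    mm = (m ^ 2) ∧
    dd = (d ^ 2) ∧
    m4 = (mm ^ 2) ∧
    md = (mm * dd) ∧
    d4 = (dd ^ 2) ∧
    E2 = ((((((9 / 5 : ℝ) * mm) + (3 / 2 : ℝ)) + ((3 / 10 : ℝ) * dd)) + ((3 : ℝ) * (m4 + md))) + ((1 / 5 : ℝ) * d4)) ∧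
    base = ((sh * c0) - E2) ∧
    La = (f1a + g2a) ∧
    E1 = (m * ((((3 / 5 : ℝ) * (((mm + dd) + m4) + d4)) + (3 / 2 : ℝ)) + ((2 : ℝ) * md))) ∧
    Y0u = ((m + d) ^ 2) ∧
    Y0 = ((1 : ℝ) - (Y0u * ((Y0u * (((1 / 10 : ℝ) * Y0u) + (3 / 20 : ℝ))) + (3 / 4 : ℝ)))) ∧
    G0a = ((f1a * f2a) - ep) ∧
    X0a = (La + (d * G0a)) ∧
    0 < ((√((d * X0a) + (1 : ℝ))) + (1 : ℝ)) ∧
    i0a = (((√((d * X0a) + (1 : ℝ))) + (1 : ℝ))⁻¹) ∧
    j0a = (X0a * i0a) ∧
    Y1u = ((m - d) ^ 2) ∧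
    Y1 = ((1 : ℝ) - (Y1u * ((Y1u * (((1 / 10 : ℝ) * Y1u) + (3 / 20 : ℝ))) + (3 / 4 : ℝ)))) ∧
    G1a = ((f3a * g2a) - en) ∧
    X1a = ((d * G1a) - La) ∧
    0 < ((√((d * X1a) + (1 : ℝ))) + (1 : ℝ)) ∧
    i1a = (((√((d * X1a) + (1 : ℝ))) + (1 : ℝ))⁻¹) ∧
    j1a = (X1a * i1a) ∧
    0 ≤ ((base - (La * E1)) + ((1 / 2 : ℝ) * ((Y0 * (G0a - (j0a ^ 2))) + (Y1 * (G1a - (j1a ^ 2)))))) ∧
    f1b = ((1229 / 2048 : ℝ) * sa) ∧
    0 ≤ ((d * f1b) + (1 : ℝ)) ∧
    g2b = ((1229 / 2048 : ℝ) * sb) ∧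
    f2b = (g2b - dp) ∧
    0 ≤ ((d * f2b) + (1 : ℝ)) ∧
    f3b = (f1b + dn) ∧
    0 ≤ ((1 : ℝ) - (d * f3b)) ∧
    0 ≤ ((1 : ℝ) - (d * g2b)) ∧
    Lb = (f1b + g2b) ∧
    G0b = ((f1b * f2b) - ep) ∧
    X0b = (Lb + (d * G0b)) ∧
    0 < ((√((d * X0b) + (1 : ℝ))) + (1 : ℝ)) ∧
    i0b = (((√((d * X0b) + (1 : ℝ))) + (1 : ℝ))⁻¹) ∧
    j0b = (X0b * i0b) ∧
    G1b = ((f3b * g2b) - en) ∧
    X1b = ((d * G1b) - Lb) ∧
    0 < ((√((d * X1b) + (1 : ℝ))) + (1 : ℝ)) ∧
    i1b = (((√((d * X1b) + (1 : ℝ))) + (1 : ℝ))⁻¹) ∧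
    j1b = (X1b * i1b) ∧
    0 ≤ ((base - (Lb * E1)) + ((1 / 2 : ℝ) * ((Y0 * (G0b - (j0b ^ 2))) + (Y1 * (G1b - (j1b ^ 2))))))

theorem z3_E {gs ps : ℕ} {m y r u3 : ℝ} (h : z3_R gs ps m y r u3) : z3_Spec (parV gs 0) (parV gs 1) m y r := by
  delta z3_R at h
  exact letR_ex h fun ta _ h =>
  letR_ex h fun tb _ h =>
  letR_ex h fun pw _ h =>
  letR_ex h fun qw _ h =>
  letR_ex h fun pa0 _ h =>
  letR_ex h fun pb0 _ h =>
  letR_ex h fun pa1 _ h =>
  letR_ex h fun pb1 _ h =>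
  letR_ex h fun pa2 _ h =>
  letR_ex h fun pb2 _ h =>
  letR_ex h fun pa3 _ h =>
  letR_ex h fun pb3 _ h =>
  letR_ex h fun pa4 _ h =>
  letR_ex h fun pb4 _ h =>
  letR_in h fun h =>
  letR_in h fun h =>
  letR_in h fun h =>
  letR_in h fun h =>
  letR_in h fun h =>
  letR_ex h fun d q1 h =>
  letR_in h fun h =>
  letR_ex h fun v0 q2 h =>
  posR_ex h fun q3 h =>
  letR_in h fun h =>
  letR_ex h fun v1 q4 h =>
  posR_ex h fun q5 h =>
  letR_in h fun h =>
  letR_ex h fun v2 q6 h =>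
  posR_ex h fun q7 h =>
  letR_in h fun h =>
  letR_ex h fun v3 q8 h =>
  posR_ex h fun q9 h =>
  letR_in h fun h =>
  letR_ex h fun v4 q10 h =>
  posR_ex h fun q11 h =>
  letR_in h fun h =>
  letR_ex h fun w q12 h =>
  posR_ex h fun q13 h =>
  letR_in h fun h =>
  letR_ex h fun w37 q14 h =>
  letR_in h fun h =>
  letR_in h fun h =>
  letR_in h fun h =>
  letR_ex h fun SL q15 h =>
  letR_in h fun h =>
  letR_in h fun h =>
  letR_in h fun h =>
  letR_ex h fun Sv q16 h =>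
  letR_in h fun h =>
  letR_in h fun h =>
  letR_in h fun h =>
  letR_in h fun h =>
  letR_ex h fun SRn q17 h =>
  letR_in h fun h =>
  letR_in h fun h =>
  letR_in h fun h =>
  letR_in h fun h =>
  letR_in h fun h =>
  letR_in h fun h =>
  letR_ex h fun SRp q18 h =>
  letR_in h fun h =>
  letR_in h fun h =>
  letR_in h fun h =>
  letR_in h fun h =>
  letR_in h fun h =>
  letR_in h fun h =>
  letR_in h fun h =>
  letR_in h fun h =>
  letR_ex h fun S0 q19 h =>
  letR_in h fun h =>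
  letR_in h fun h =>
  letR_in h fun h =>
  letR_in h fun h =>
  letR_in h fun h =>
  letR_in h fun h =>
  letR_in h fun h =>
  letR_in h fun h =>
  letR_ex h fun S1 q20 h =>
  letR_in h fun h =>
  letR_in h fun h =>
  letR_in h fun h =>
  letR_in h fun h =>
  letR_in h fun h =>
  letR_in h fun h =>
  letR_in h fun h =>
  letR_in h fun h =>
  letR_ex h fun S2 q21 h =>
  letR_in h fun h =>
  letR_ex h fun tau q22 h =>
  letR_in h fun h =>
  letR_ex h fun t q23 h =>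
  letR_in h fun h =>
  posR_ex h fun q24 h =>
  letR_in h fun h =>
  posR_ex h fun q25 h =>
  letR_in h fun h =>
  posR_ex h fun q26 h =>
  letR_in h fun h =>
  letR_ex h fun rw q27 h =>
  letR_ex h fun rr q28 h =>
  letR_in h fun h =>
  letR_in h fun h =>
  letR_in h fun h =>
  letR_in h fun h =>
  posR_ex h fun q29 h =>
  letR_in h fun h =>
  letR_in h fun h =>
  letR_in h fun h =>
  invR_ex h fun q30 h =>
  letR_in h fun h =>
  letR_ex h fun sh q31 h =>
  letR_in h fun h =>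
  letR_in h fun h =>
  letR_in h fun h =>
  letR_ex h fun a1 q32 h =>
  letR_in h fun h =>
  letR_ex h fun sa q33 h =>
  letR_ex h fun f1a q34 h =>
  letR_in h fun h =>
  letR_in h fun h =>
  posR_ex h fun q35 h =>
  letR_in h fun h =>
  letR_ex h fun sb q36 h =>
  letR_ex h fun g2a q37 h =>
  letR_ex h fun eh q38 h =>
  letR_in h fun h =>
  letR_ex h fun ep q39 h =>
  letR_ex h fun dp q40 h =>
  letR_ex h fun f2a q41 h =>
  letR_in h fun h =>
  letR_in h fun h =>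
  letR_in h fun h =>
  posR_ex h fun q42 h =>
  letR_in h fun h =>
  letR_in h fun h =>
  letR_ex h fun an q43 h =>
  letR_in h fun h =>
  letR_ex h fun en q44 h =>
  letR_ex h fun dn q45 h =>
  letR_ex h fun f3a q46 h =>
  letR_in h fun h =>
  letR_in h fun h =>
  letR_in h fun h =>
  posR_ex h fun q47 h =>
  letR_in h fun h =>
  letR_in h fun h =>
  posR_ex h fun q48 h =>
  letR_in h fun h =>
  letR_in h fun h =>
  letR_in h fun h =>
  letR_ex h fun c0 q49 h =>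
  letR_in h fun h =>
  letR_in h fun h =>
  letR_ex h fun mm q50 h =>
  letR_in h fun h =>
  letR_in h fun h =>
  letR_ex h fun dd q51 h =>
  letR_in h fun h =>
  letR_in h fun h =>
  letR_ex h fun m4 q52 h =>
  letR_ex h fun md q53 h =>
  letR_in h fun h =>
  letR_in h fun h =>
  letR_in h fun h =>
  letR_ex h fun d4 q54 h =>
  letR_in h fun h =>
  letR_ex h fun E2 q55 h =>
  letR_ex h fun base q56 h =>
  letR_ex h fun La q57 h =>
  letR_in h fun h =>
  letR_in h fun h =>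
  letR_in h fun h =>
  letR_in h fun h =>
  letR_in h fun h =>
  letR_in h fun h =>
  letR_in h fun h =>
  letR_in h fun h =>
  letR_in h fun h =>
  letR_in h fun h =>
  letR_ex h fun E1 q58 h =>
  letR_in h fun h =>
  letR_in h fun h =>
  letR_in h fun h =>
  letR_in h fun h =>
  letR_ex h fun Y0u q59 h =>
  letR_in h fun h =>
  letR_in h fun h =>
  letR_in h fun h =>
  letR_in h fun h =>
  letR_in h fun h =>
  letR_ex h fun Y0 q60 h =>
  letR_in h fun h =>
  letR_ex h fun G0a q61 h =>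
  letR_in h fun h =>
  letR_in h fun h =>
  letR_ex h fun X0a q62 h =>
  letR_in h fun h =>
  letR_in h fun h =>
  letR_in h fun h =>
  letR_in h fun h =>
  letR_in h fun h =>
  invR_ex h fun q63 h =>
  letR_ex h fun i0a q64 h =>
  letR_ex h fun j0a q65 h =>
  letR_in h fun h =>
  letR_in h fun h =>
  letR_in h fun h =>
  letR_in h fun h =>
  letR_in h fun h =>
  letR_in h fun h =>
  letR_ex h fun Y1u q66 h =>
  letR_in h fun h =>
  letR_in h fun h =>
  letR_in h fun h =>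
  letR_in h fun h =>
  letR_in h fun h =>
  letR_ex h fun Y1 q67 h =>
  letR_in h fun h =>
  letR_ex h fun G1a q68 h =>
  letR_in h fun h =>
  letR_in h fun h =>
  letR_ex h fun X1a q69 h =>
  letR_in h fun h =>
  letR_in h fun h =>
  letR_in h fun h =>
  letR_in h fun h =>
  letR_in h fun h =>
  invR_ex h fun q70 h =>
  letR_ex h fun i1a q71 h =>
  letR_ex h fun j1a q72 h =>
  letR_in h fun h =>
  letR_in h fun h =>
  letR_in h fun h =>
  letR_in h fun h =>
  letR_in h fun h =>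
  letR_in h fun h =>
  letR_in h fun h =>
  posR_ex h fun q73 h =>
  letR_ex h fun f1b q74 h =>
  letR_in h fun h =>
  letR_in h fun h =>
  posR_ex h fun q75 h =>
  letR_ex h fun g2b q76 h =>
  letR_ex h fun f2b q77 h =>
  letR_in h fun h =>
  letR_in h fun h =>
  letR_in h fun h =>
  posR_ex h fun q78 h =>
  letR_ex h fun f3b q79 h =>
  letR_in h fun h =>
  letR_in h fun h =>
  letR_in h fun h =>
  posR_ex h fun q80 h =>
  letR_in h fun h =>
  letR_in h fun h =>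
  posR_ex h fun q81 h =>
  letR_ex h fun Lb q82 h =>
  letR_in h fun h =>
  letR_in h fun h =>
  letR_in h fun h =>
  letR_in h fun h =>
  letR_ex h fun G0b q83 h =>
  letR_in h fun h =>
  letR_in h fun h =>
  letR_ex h fun X0b q84 h =>
  letR_in h fun h =>
  letR_in h fun h =>
  letR_in h fun h =>
  letR_in h fun h =>
  letR_in h fun h =>
  invR_ex h fun q85 h =>
  letR_ex h fun i0b q86 h =>
  letR_ex h fun j0b q87 h =>
  letR_in h fun h =>
  letR_in h fun h =>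
  letR_in h fun h =>
  letR_in h fun h =>
  letR_in h fun h =>
  letR_ex h fun G1b q88 h =>
  letR_in h fun h =>
  letR_in h fun h =>
  letR_ex h fun X1b q89 h =>
  letR_in h fun h =>
  letR_in h fun h =>
  letR_in h fun h =>
  letR_in h fun h =>
  letR_in h fun h =>
  invR_ex h fun q90 h =>
  letR_ex h fun i1b q91 h =>
  letR_ex h fun j1b q92 h =>
  letR_in h fun h =>
  letR_in h fun h =>
  letR_in h fun h =>
  letR_in h fun h =>
  letR_in h fun h =>
  letR_in h fun h =>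
  letR_in h fun h =>
  posR_ex h fun q93 h =>
  ⟨ta, tb, pw, qw, pa0, pb0, pa1, pb1, pa2, pb2, pa3, pb3, pa4, pb4, d, v0, v1, v2, v3, v4, w, w37, SL, Sv, SRn, SRp, S0, S1, S2, tau, t, rw, rr, sh, a1, sa, f1a, sb, g2a, eh, ep, dp, f2a, an, en, dn, f3a, c0, mm, dd, m4, md, d4, E2, base, La, E1, Y0u, Y0, G0a, X0a, i0a, j0a, Y1u, Y1, G1a, X1a, i1a, j1a, f1b, g2b, f2b, f3b, Lb, G0b, X0b, i0b, j0b, G1b, X1b, i1b, j1b, q1, q2, q3, q4, q5, q6, q7, q8, q9, q10, q11, q12, q13, q14, q15, q16, q17, q18, q19, q20, q21, q22, q23, q24, q25, q26, q27, q28, q29, q30, q31, q32, q33, q34, q35, q36, q37, q38, q39, q40, q41, q42, q43, q44, q45, q46, q47, q48, q49, q50, q51, q52, q53, q54, q55, q56, q57, q58, q59, q60, q61, q62, q63, q64, q65, q66, q67, q68, q69, q70, q71, q72, q73, q74, q75, q76, q77, q78, q79, q80, q81, q82, q83, q84, q85, q86, q87, q88, q89, q90, q91, q92, q93⟩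

theorem k64 : (781 / 512 : ℝ) = val 4722366912228935860224 := by norm_num [val]
theorem k65 : (203 / 64 : ℝ) = val 4722367375673086967808 := by norm_num [val]
theorem k66 : (3 / 32 : ℝ) = val 4722366509257924280320 := by norm_num [val]
theorem k67 : (-7 / 32 : ℝ) = val 4722366421296994058240 := by norm_num [val]
theorem k68 : (-27 / 64 : ℝ) = val 4722366364122389413888 := by norm_num [val]
theorem k69 : |2 ^ 48 * (-9 / 16 : ℝ) - (((4722366324539970813952 : ℕ) : ℝ) - 2 ^ 72)| ≤ ((0 : ℕ) : ℝ) := by norm_num [abs_le]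
theorem k70 : |2 ^ 48 * (11 / 16 : ℝ) - (((4722366676383691702272 : ℕ) : ℝ) - 2 ^ 72)| ≤ ((0 : ℕ) : ℝ) := by norm_num [abs_le]
def z4_B (gs ps : ℕ) (x0 x1 x2 x3 : AF) : Bool :=
  parK ps 0 fun z3 =>
  parK ps 1 fun z4 =>
  parK ps 2 fun z5 =>
  parK ps 3 fun z6 =>
  parK ps 4 fun z7 =>
  parK ps 5 fun z8 =>
  parK ps 6 fun z9 =>
  parK ps 7 fun z10 =>
  parK gs 0 fun z11 =>
  parK gs 1 fun z12 =>
  mulK z12 x0 fun z13 =>
  addK z11 z13 fun z14 =>
  normK z14 fun z15 =>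
  mulK x1 z15 fun z16 =>
  mulK z8 x2 fun z17 =>
  addK z7 z17 fun z18 =>
  posK z18 <|
  mulK z10 x2 fun z19 =>
  addK z9 z19 fun z20 =>
  posK z20 <|
  mulK z6 x2 fun z21 =>
  addK z5 z21 fun z22 =>
  posK z22 <|
  smulK z20 4722367327294575345664 fun z23 =>
  addK z18 z23 fun z24 =>
  addK z18 z20 fun z25 =>
  smulK z18 4722366553238389391360 fun z26 =>
  smulK z20 4722366905082110279680 fun z27 =>
  addK z26 z27 fun z28 =>
  normK z25 fun z29 =>
  smulK z18 4722366912228935860224 fun z30 =>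
  smulK z20 4722367375673086967808 fun z31 =>
  addK z30 z31 fun z32 =>
  smulK z18 4722366509257924280320 fun z33 =>
  smulK z20 4722366641199319613440 fun z34 =>
  addK z33 z34 fun z35 =>
  smulK z18 4722366421296994058240 fun z36 =>
  smulK z20 4722366364122389413888 fun z37 =>
  addK z36 z37 fun z38 =>
  mulK z4 z16 fun z39 =>
  addK z3 z39 fun z40 =>
  normK z40 fun z41 =>
  mulK z16 z41 fun z42 =>
  addcK z42 4722366324539970813952 0 fun z43 =>
  posK z43 <|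
  rsubK z42 4722366676383691702272 0 fun z44 =>
  posK z44 <|
  rsubK z25 4722366764344621924352 0 fun z48 =>
  posK z48 <|
  normK z22 fun z46 =>
  mulK x2 z46 fun z47 =>
  sqrK x2 fun z45 =>
  normK z24 fun z49 =>
  mulK z45 z49 fun z50 =>
  addK z47 z50 fun z51 =>
  rsubK z51 4722366764344621924352 0 fun z52 =>
  posK z52 <|
  smulK z41 4722367045819598635008 fun z57 =>
  sqrK z42 fun z54 =>
  addcK z54 4722366764344621924352 0 fun z55 =>
  invK z55 fun z56 =>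
  mulK z57 z56 fun z58 =>
  normK z35 fun z60 =>
  mulK z45 z60 fun z61 =>
  smulK z47 4722366588422761480192 fun z62 =>
  addK z61 z62 fun z63 =>
  normK z63 fun z126 =>
  mulK z58 z126 fun z127 =>
  smulK z127 4722366588422761480192 fun z130 =>
  mulK z16 z130 fun z135 =>
  addcK z135 4722366764344621924352 0 fun z136 =>
  posK z136 <|
  normK z38 fun z128 =>
  mulK z58 z128 fun z129 =>
  smulK z129 4722366588422761480192 fun z131 =>
  mulK z41 z58 fun z59 =>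
  mulK z59 z29 fun z121 =>
  mulK z16 z121 fun z124 =>
  subK z131 z124 fun z132 =>
  normK z132 fun z137 =>
  mulK z16 z137 fun z138 =>
  addcK z138 4722366764344621924352 0 fun z139 =>
  posK z139 <|
  normK z28 fun z64 =>
  mulK z45 z64 fun z65 =>
  addK z65 z47 fun z66 =>
  normK z66 fun z122 =>
  mulK z59 z122 fun z123 =>
  mulK z16 z123 fun z125 =>
  addK z130 z125 fun z133 =>
  normK z133 fun z140 =>
  mulK z16 z140 fun z141 =>
  rsubK z141 4722366764344621924352 0 fun z142 =>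
  posK z142 <|
  mulK z16 z131 fun z143 =>
  rsubK z143 4722366764344621924352 0 fun z144 =>
  posK z144 <|
  normK z32 fun z67 =>
  mulK x2 z67 fun z68 =>
  smulK z22 4722366641199319613440 fun z69 =>
  addK z68 z69 fun z70 =>
  normK z70 fun z118 =>
  mulK z58 z118 fun z119 =>
  sqrK x0 fun z71 =>
  mulK (cst 4722366989524603292876 1) z71 fun z107 =>
  addcK z107 4722366905082110279680 0 fun z108 =>
  sqrK z16 fun z72 =>
  mulK (cst 4722366567312138226892 1) z72 fun z110 =>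
  addK z108 z110 fun z111 =>
  sqrK z71 fun z93 =>
  mulK z71 z72 fun z92 =>
  addK z93 z92 fun z112 =>
  smulK z112 4722367327294575345664 fun z113 =>
  addK z111 z113 fun z114 =>
  sqrK z72 fun z94 =>
  mulK (cst 4722366539164640555827 1) z94 fun z116 =>
  addK z114 z116 fun z117 =>
  subK z119 z117 fun z120 =>
  addK z130 z131 fun z134 =>
  normK z134 fun z169 =>
  addK z71 z72 fun z95 =>
  addK z95 z93 fun z96 =>
  addK z96 z94 fun z97 =>
  normK z97 fun z99 =>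
  mulK (cst 4722366651754631240089 1) z99 fun z100 =>
  addcK z100 4722366905082110279680 0 fun z101 =>
  smulK z92 4722367045819598635008 fun z102 =>
  addK z101 z102 fun z103 =>
  normK z103 fun z104 =>
  mulK x0 z104 fun z105 =>
  mulK z169 z105 fun z170 =>
  subK z120 z170 fun z171 =>
  addK x0 z16 fun z73 =>
  normK z73 fun z74 =>
  sqrK z74 fun z75 =>
  mulK (cst 4722366511017142884761 1) z75 fun z77 =>
  addcK z77 4722366525090891720294 1 fun z78 =>
  mulK z75 z78 fun z79 =>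
  addcK z79 4722366693975877746688 0 fun z80 =>
  mulK z75 z80 fun z81 =>
  rsubK z81 4722366764344621924352 0 fun z82 =>
  mulK z130 z137 fun z145 =>
  subK z145 z121 fun z146 =>
  normK z146 fun z149 =>
  mulK z16 z149 fun z150 =>
  addK z134 z150 fun z151 =>
  normK z151 fun z155 =>
  mulK z16 z155 fun z156 =>
  addcK z156 4722366764344621924352 0 fun z157 =>
  sqrtK z157 fun z158 =>
  addcK z158 4722366764344621924352 0 fun z159 =>
  invK z159 fun z160 =>
  mulK z155 z160 fun z167 =>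
  sqrK z167 fun z172 =>
  subK z146 z172 fun z173 =>
  normK z173 fun z174 =>
  mulK z82 z174 fun z175 =>
  subK x0 z16 fun z83 =>
  normK z83 fun z84 =>
  sqrK z84 fun z85 =>
  mulK (cst 4722366511017142884761 1) z85 fun z86 =>
  addcK z86 4722366525090891720294 1 fun z87 =>
  mulK z85 z87 fun z88 =>
  addcK z88 4722366693975877746688 0 fun z89 =>
  mulK z85 z89 fun z90 =>
  rsubK z90 4722366764344621924352 0 fun z91 =>
  mulK z140 z131 fun z147 =>
  subK z147 z123 fun z148 =>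
  normK z148 fun z152 =>
  mulK z16 z152 fun z153 =>
  subK z153 z134 fun z154 =>
  normK z154 fun z161 =>
  mulK z16 z161 fun z162 =>
  addcK z162 4722366764344621924352 0 fun z163 =>
  sqrtK z163 fun z164 =>
  addcK z164 4722366764344621924352 0 fun z165 =>
  invK z165 fun z166 =>
  mulK z161 z166 fun z168 =>
  sqrK z168 fun z176 =>
  subK z148 z176 fun z177 =>
  normK z177 fun z178 =>
  mulK z91 z178 fun z179 =>
  addK z175 z179 fun z180 =>
  smulK z180 4722366623607133569024 fun z181 =>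
  addK z171 z181 fun z182 =>
  posK z182 <|
  smulK z127 4722366651782119030784 fun z183 =>
  mulK z16 z183 fun z188 =>
  addcK z188 4722366764344621924352 0 fun z189 =>
  posK z189 <|
  smulK z129 4722366651782119030784 fun z184 =>
  subK z184 z124 fun z185 =>
  normK z185 fun z190 =>
  mulK z16 z190 fun z191 =>
  addcK z191 4722366764344621924352 0 fun z192 =>
  posK z192 <|
  addK z183 z125 fun z186 =>
  normK z186 fun z193 =>
  mulK z16 z193 fun z194 =>
  rsubK z194 4722366764344621924352 0 fun z195 =>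
  posK z195 <|
  mulK z16 z184 fun z196 =>
  rsubK z196 4722366764344621924352 0 fun z197 =>
  posK z197 <|
  addK z183 z184 fun z187 =>
  normK z187 fun z222 =>
  mulK z222 z105 fun z223 =>
  subK z120 z223 fun z224 =>
  mulK z183 z190 fun z198 =>
  subK z198 z121 fun z199 =>
  normK z199 fun z202 =>
  mulK z16 z202 fun z203 =>
  addK z187 z203 fun z204 =>
  normK z204 fun z208 =>
  mulK z16 z208 fun z209 =>
  addcK z209 4722366764344621924352 0 fun z210 =>
  sqrtK z210 fun z211 =>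
  addcK z211 4722366764344621924352 0 fun z212 =>
  invK z212 fun z213 =>
  mulK z208 z213 fun z220 =>
  sqrK z220 fun z225 =>
  subK z199 z225 fun z226 =>
  normK z226 fun z227 =>
  mulK z82 z227 fun z228 =>
  mulK z193 z184 fun z200 =>
  subK z200 z123 fun z201 =>
  normK z201 fun z205 =>
  mulK z16 z205 fun z206 =>
  subK z206 z187 fun z207 =>
  normK z207 fun z214 =>
  mulK z16 z214 fun z215 =>
  addcK z215 4722366764344621924352 0 fun z216 =>
  sqrtK z216 fun z217 =>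
  addcK z217 4722366764344621924352 0 fun z218 =>
  invK z218 fun z219 =>
  mulK z214 z219 fun z221 =>
  sqrK z221 fun z229 =>
  subK z201 z229 fun z230 =>
  normK z230 fun z231 =>
  mulK z91 z231 fun z232 =>
  addK z228 z232 fun z233 =>
  smulK z233 4722366623607133569024 fun z234 =>
  addK z224 z234 fun z235 =>
  posK z235 <|
  true

def z4_R (gs ps : ℕ) (m y r u3 : ℝ) : Prop :=
  letR (parV ps 0) fun z3 =>
  letR (parV ps 1) fun z4 =>
  letR (parV ps 2) fun z5 =>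
  letR (parV ps 3) fun z6 =>
  letR (parV ps 4) fun z7 =>
  letR (parV ps 5) fun z8 =>
  letR (parV ps 6) fun z9 =>
  letR (parV ps 7) fun z10 =>
  letR (parV gs 0) fun z11 =>
  letR (parV gs 1) fun z12 =>
  letR (z12 * m) fun z13 =>
  letR (z11 + z13) fun z14 =>
  letR z14 fun z15 =>
  letR (y * z15) fun z16 =>
  letR (z8 * r) fun z17 =>
  letR (z7 + z17) fun z18 =>
  posR z18 <|
  letR (z10 * r) fun z19 =>
  letR (z9 + z19) fun z20 =>
  posR z20 <|
  letR (z6 * r) fun z21 =>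
  letR (z5 + z21) fun z22 =>
  posR z22 <|
  letR ((3 : ℝ) * z20) fun z23 =>
  letR (z18 + z23) fun z24 =>
  letR (z18 + z20) fun z25 =>
  letR ((1 / 4 : ℝ) * z18) fun z26 =>
  letR ((3 / 2 : ℝ) * z20) fun z27 =>
  letR (z26 + z27) fun z28 =>
  letR z25 fun z29 =>
  letR ((781 / 512 : ℝ) * z18) fun z30 =>
  letR ((203 / 64 : ℝ) * z20) fun z31 =>
  letR (z30 + z31) fun z32 =>
  letR ((3 / 32 : ℝ) * z18) fun z33 =>
  letR ((9 / 16 : ℝ) * z20) fun z34 =>
  letR (z33 + z34) fun z35 =>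
  letR ((-7 / 32 : ℝ) * z18) fun z36 =>
  letR ((-27 / 64 : ℝ) * z20) fun z37 =>
  letR (z36 + z37) fun z38 =>
  letR (z4 * z16) fun z39 =>
  letR (z3 + z39) fun z40 =>
  letR z40 fun z41 =>
  letR (z16 * z41) fun z42 =>
  letR (z42 + (-9 / 16 : ℝ)) fun z43 =>
  posR z43 <|
  letR ((11 / 16 : ℝ) - z42) fun z44 =>
  posR z44 <|
  letR ((1 : ℝ) - z25) fun z48 =>
  posR z48 <|
  letR z22 fun z46 =>
  letR (r * z46) fun z47 =>
  letR (r ^ 2) fun z45 =>
  letR z24 fun z49 =>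
  letR (z45 * z49) fun z50 =>
  letR (z47 + z50) fun z51 =>
  letR ((1 : ℝ) - z51) fun z52 =>
  posR z52 <|
  letR ((2 : ℝ) * z41) fun z57 =>
  letR (z42 ^ 2) fun z54 =>
  letR (z54 + (1 : ℝ)) fun z55 =>
  invR z55 fun z56 =>
  letR (z57 * z56) fun z58 =>
  letR z35 fun z60 =>
  letR (z45 * z60) fun z61 =>
  letR ((3 / 8 : ℝ) * z47) fun z62 =>
  letR (z61 + z62) fun z63 =>
  letR z63 fun z126 =>
  letR (z58 * z126) fun z127 =>
  letR ((3 / 8 : ℝ) * z127) fun z130 =>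
  letR (z16 * z130) fun z135 =>
  letR (z135 + (1 : ℝ)) fun z136 =>
  posR z136 <|
  letR z38 fun z128 =>
  letR (z58 * z128) fun z129 =>
  letR ((3 / 8 : ℝ) * z129) fun z131 =>
  letR (z41 * z58) fun z59 =>
  letR (z59 * z29) fun z121 =>
  letR (z16 * z121) fun z124 =>
  letR (z131 - z124) fun z132 =>
  letR z132 fun z137 =>
  letR (z16 * z137) fun z138 =>
  letR (z138 + (1 : ℝ)) fun z139 =>
  posR z139 <|
  letR z28 fun z64 =>
  letR (z45 * z64) fun z65 =>
  letR (z65 + z47) fun z66 =>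
  letR z66 fun z122 =>
  letR (z59 * z122) fun z123 =>
  letR (z16 * z123) fun z125 =>
  letR (z130 + z125) fun z133 =>
  letR z133 fun z140 =>
  letR (z16 * z140) fun z141 =>
  letR ((1 : ℝ) - z141) fun z142 =>
  posR z142 <|
  letR (z16 * z131) fun z143 =>
  letR ((1 : ℝ) - z143) fun z144 =>
  posR z144 <|
  letR z32 fun z67 =>
  letR (r * z67) fun z68 =>
  letR ((9 / 16 : ℝ) * z22) fun z69 =>
  letR (z68 + z69) fun z70 =>
  letR z70 fun z118 =>
  letR (z58 * z118) fun z119 =>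
  letR (m ^ 2) fun z71 =>
  letR ((9 / 5 : ℝ) * z71) fun z107 =>
  letR (z107 + (3 / 2 : ℝ)) fun z108 =>
  letR (z16 ^ 2) fun z72 =>
  letR ((3 / 10 : ℝ) * z72) fun z110 =>
  letR (z108 + z110) fun z111 =>
  letR (z71 ^ 2) fun z93 =>
  letR (z71 * z72) fun z92 =>
  letR (z93 + z92) fun z112 =>
  letR ((3 : ℝ) * z112) fun z113 =>
  letR (z111 + z113) fun z114 =>
  letR (z72 ^ 2) fun z94 =>
  letR ((1 / 5 : ℝ) * z94) fun z116 =>
  letR (z114 + z116) fun z117 =>
  letR (z119 - z117) fun z120 =>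
  letR (z130 + z131) fun z134 =>
  letR z134 fun z169 =>
  letR (z71 + z72) fun z95 =>
  letR (z95 + z93) fun z96 =>
  letR (z96 + z94) fun z97 =>
  letR z97 fun z99 =>
  letR ((3 / 5 : ℝ) * z99) fun z100 =>
  letR (z100 + (3 / 2 : ℝ)) fun z101 =>
  letR ((2 : ℝ) * z92) fun z102 =>
  letR (z101 + z102) fun z103 =>
  letR z103 fun z104 =>
  letR (m * z104) fun z105 =>
  letR (z169 * z105) fun z170 =>
  letR (z120 - z170) fun z171 =>
  letR (m + z16) fun z73 =>
  letR z73 fun z74 =>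
  letR (z74 ^ 2) fun z75 =>
  letR ((1 / 10 : ℝ) * z75) fun z77 =>
  letR (z77 + (3 / 20 : ℝ)) fun z78 =>
  letR (z75 * z78) fun z79 =>
  letR (z79 + (3 / 4 : ℝ)) fun z80 =>
  letR (z75 * z80) fun z81 =>
  letR ((1 : ℝ) - z81) fun z82 =>
  letR (z130 * z137) fun z145 =>
  letR (z145 - z121) fun z146 =>
  letR z146 fun z149 =>
  letR (z16 * z149) fun z150 =>
  letR (z134 + z150) fun z151 =>
  letR z151 fun z155 =>
  letR (z16 * z155) fun z156 =>
  letR (z156 + (1 : ℝ)) fun z157 =>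
  letR (√z157) fun z158 =>
  letR (z158 + (1 : ℝ)) fun z159 =>
  invR z159 fun z160 =>
  letR (z155 * z160) fun z167 =>
  letR (z167 ^ 2) fun z172 =>
  letR (z146 - z172) fun z173 =>
  letR z173 fun z174 =>
  letR (z82 * z174) fun z175 =>
  letR (m - z16) fun z83 =>
  letR z83 fun z84 =>
  letR (z84 ^ 2) fun z85 =>
  letR ((1 / 10 : ℝ) * z85) fun z86 =>
  letR (z86 + (3 / 20 : ℝ)) fun z87 =>
  letR (z85 * z87) fun z88 =>
  letR (z88 + (3 / 4 : ℝ)) fun z89 =>
  letR (z85 * z89) fun z90 =>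
  letR ((1 : ℝ) - z90) fun z91 =>
  letR (z140 * z131) fun z147 =>
  letR (z147 - z123) fun z148 =>
  letR z148 fun z152 =>
  letR (z16 * z152) fun z153 =>
  letR (z153 - z134) fun z154 =>
  letR z154 fun z161 =>
  letR (z16 * z161) fun z162 =>
  letR (z162 + (1 : ℝ)) fun z163 =>
  letR (√z163) fun z164 =>
  letR (z164 + (1 : ℝ)) fun z165 =>
  invR z165 fun z166 =>
  letR (z161 * z166) fun z168 =>
  letR (z168 ^ 2) fun z176 =>
  letR (z148 - z176) fun z177 =>
  letR z177 fun z178 =>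
  letR (z91 * z178) fun z179 =>
  letR (z175 + z179) fun z180 =>
  letR ((1 / 2 : ℝ) * z180) fun z181 =>
  letR (z171 + z181) fun z182 =>
  posR z182 <|
  letR ((1229 / 2048 : ℝ) * z127) fun z183 =>
  letR (z16 * z183) fun z188 =>
  letR (z188 + (1 : ℝ)) fun z189 =>
  posR z189 <|
  letR ((1229 / 2048 : ℝ) * z129) fun z184 =>
  letR (z184 - z124) fun z185 =>
  letR z185 fun z190 =>
  letR (z16 * z190) fun z191 =>
  letR (z191 + (1 : ℝ)) fun z192 =>
  posR z192 <|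
  letR (z183 + z125) fun z186 =>
  letR z186 fun z193 =>
  letR (z16 * z193) fun z194 =>
  letR ((1 : ℝ) - z194) fun z195 =>
  posR z195 <|
  letR (z16 * z184) fun z196 =>
  letR ((1 : ℝ) - z196) fun z197 =>
  posR z197 <|
  letR (z183 + z184) fun z187 =>
  letR z187 fun z222 =>
  letR (z222 * z105) fun z223 =>
  letR (z120 - z223) fun z224 =>
  letR (z183 * z190) fun z198 =>
  letR (z198 - z121) fun z199 =>
  letR z199 fun z202 =>
  letR (z16 * z202) fun z203 =>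
  letR (z187 + z203) fun z204 =>
  letR z204 fun z208 =>
  letR (z16 * z208) fun z209 =>
  letR (z209 + (1 : ℝ)) fun z210 =>
  letR (√z210) fun z211 =>
  letR (z211 + (1 : ℝ)) fun z212 =>
  invR z212 fun z213 =>
  letR (z208 * z213) fun z220 =>
  letR (z220 ^ 2) fun z225 =>
  letR (z199 - z225) fun z226 =>
  letR z226 fun z227 =>
  letR (z82 * z227) fun z228 =>
  letR (z193 * z184) fun z200 =>
  letR (z200 - z123) fun z201 =>
  letR z201 fun z205 =>
  letR (z16 * z205) fun z206 =>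
  letR (z206 - z187) fun z207 =>
  letR z207 fun z214 =>
  letR (z16 * z214) fun z215 =>
  letR (z215 + (1 : ℝ)) fun z216 =>
  letR (√z216) fun z217 =>
  letR (z217 + (1 : ℝ)) fun z218 =>
  invR z218 fun z219 =>
  letR (z214 * z219) fun z221 =>
  letR (z221 ^ 2) fun z229 =>
  letR (z201 - z229) fun z230 =>
  letR z230 fun z231 =>
  letR (z91 * z231) fun z232 =>
  letR (z228 + z232) fun z233 =>
  letR ((1 / 2 : ℝ) * z233) fun z234 =>
  letR (z224 + z234) fun z235 =>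
  posR z235 <|
  True

theorem z4_S {ε : Fin 4 → ℝ} (gs : ℕ) (hε : ∀ i, |ε i| ≤ 1) (ps : ℕ) (x0 x1 x2 x3 : AF) (m y r u3 : ℝ)
    (h0 : Rel ε x0 m) (h1 : Rel ε x1 y) (h2 : Rel ε x2 r) (h3 : Rel ε x3 u3) :
    z4_B gs ps x0 x1 x2 x3 = true → z4_R gs ps m y r u3 := by
  delta z4_B z4_R
  exact parS fun z3 t3 g3 =>
  parS fun z4 t4 g4 =>
  parS fun z5 t5 g5 =>
  parS fun z6 t6 g6 =>
  parS fun z7 t7 g7 =>
  parS fun z8 t8 g8 =>
  parS fun z9 t9 g9 =>
  parS fun z10 t10 g10 =>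
  parS fun z11 t11 g11 =>
  parS fun z12 t12 g12 =>
  mulS hε g12 h0 fun z13 t13 g13 =>
  addS g11 g13 fun z14 t14 g14 =>
  normS g14 fun z15 t15 g15 =>
  mulS hε h1 g15 fun z16 t16 g16 =>
  mulS hε g8 h2 fun z17 t17 g17 =>
  addS g7 g17 fun z18 t18 g18 =>
  posS hε g18 <|
  mulS hε g10 h2 fun z19 t19 g19 =>
  addS g9 g19 fun z20 t20 g20 =>
  posS hε g20 <|
  mulS hε g6 h2 fun z21 t21 g21 =>
  addS g5 g21 fun z22 t22 g22 =>
  posS hε g22 <|
  smulS hε g20 k0 fun z23 t23 g23 =>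
  addS g18 g23 fun z24 t24 g24 =>
  addS g18 g20 fun z25 t25 g25 =>
  smulS hε g18 k31 fun z26 t26 g26 =>
  smulS hε g20 k1 fun z27 t27 g27 =>
  addS g26 g27 fun z28 t28 g28 =>
  normS g25 fun z29 t29 g29 =>
  smulS hε g18 k64 fun z30 t30 g30 =>
  smulS hε g20 k65 fun z31 t31 g31 =>
  addS g30 g31 fun z32 t32 g32 =>
  smulS hε g18 k66 fun z33 t33 g33 =>
  smulS hε g20 k4 fun z34 t34 g34 =>
  addS g33 g34 fun z35 t35 g35 =>
  smulS hε g18 k67 fun z36 t36 g36 =>
  smulS hε g20 k68 fun z37 t37 g37 =>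
  addS g36 g37 fun z38 t38 g38 =>
  mulS hε g4 g16 fun z39 t39 g39 =>
  addS g3 g39 fun z40 t40 g40 =>
  normS g40 fun z41 t41 g41 =>
  mulS hε g16 g41 fun z42 t42 g42 =>
  addcS g42 k69 fun z43 t43 g43 =>
  posS hε g43 <|
  rsubS g42 k70 fun z44 t44 g44 =>
  posS hε g44 <|
  rsubS g25 k19 fun z48 t48 g48 =>
  posS hε g48 <|
  normS g22 fun z46 t46 g46 =>
  mulS hε h2 g46 fun z47 t47 g47 =>
  sqrS hε h2 fun z45 t45 g45 =>
  normS g24 fun z49 t49 g49 =>
  mulS hε g45 g49 fun z50 t50 g50 =>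
  addS g47 g50 fun z51 t51 g51 =>
  rsubS g51 k19 fun z52 t52 g52 =>
  posS hε g52 <|
  smulS hε g41 k20 fun z57 t57 g57 =>
  sqrS hε g42 fun z54 t54 g54 =>
  addcS g54 k19 fun z55 t55 g55 =>
  invS hε g55 fun z56 t56 g56 =>
  mulS hε g57 g56 fun z58 t58 g58 =>
  normS g35 fun z60 t60 g60 =>
  mulS hε g45 g60 fun z61 t61 g61 =>
  smulS hε g47 k5 fun z62 t62 g62 =>
  addS g61 g62 fun z63 t63 g63 =>
  normS g63 fun z126 t126 g126 =>
  mulS hε g58 g126 fun z127 t127 g127 =>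
  smulS hε g127 k5 fun z130 t130 g130 =>
  mulS hε g16 g130 fun z135 t135 g135 =>
  addcS g135 k19 fun z136 t136 g136 =>
  posS hε g136 <|
  normS g38 fun z128 t128 g128 =>
  mulS hε g58 g128 fun z129 t129 g129 =>
  smulS hε g129 k5 fun z131 t131 g131 =>
  mulS hε g41 g58 fun z59 t59 g59 =>
  mulS hε g59 g29 fun z121 t121 g121 =>
  mulS hε g16 g121 fun z124 t124 g124 =>
  subS g131 g124 fun z132 t132 g132 =>
  normS g132 fun z137 t137 g137 =>
  mulS hε g16 g137 fun z138 t138 g138 =>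
  addcS g138 k19 fun z139 t139 g139 =>
  posS hε g139 <|
  normS g28 fun z64 t64 g64 =>
  mulS hε g45 g64 fun z65 t65 g65 =>
  addS g65 g47 fun z66 t66 g66 =>
  normS g66 fun z122 t122 g122 =>
  mulS hε g59 g122 fun z123 t123 g123 =>
  mulS hε g16 g123 fun z125 t125 g125 =>
  addS g130 g125 fun z133 t133 g133 =>
  normS g133 fun z140 t140 g140 =>
  mulS hε g16 g140 fun z141 t141 g141 =>
  rsubS g141 k19 fun z142 t142 g142 =>
  posS hε g142 <|
  mulS hε g16 g131 fun z143 t143 g143 =>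
  rsubS g143 k19 fun z144 t144 g144 =>
  posS hε g144 <|
  normS g32 fun z67 t67 g67 =>
  mulS hε h2 g67 fun z68 t68 g68 =>
  smulS hε g22 k4 fun z69 t69 g69 =>
  addS g68 g69 fun z70 t70 g70 =>
  normS g70 fun z118 t118 g118 =>
  mulS hε g58 g118 fun z119 t119 g119 =>
  sqrS hε h0 fun z71 t71 g71 =>
  mulS hε (cst_rel k21) g71 fun z107 t107 g107 =>
  addcS g107 k22 fun z108 t108 g108 =>
  sqrS hε g16 fun z72 t72 g72 =>
  mulS hε (cst_rel k23) g72 fun z110 t110 g110 =>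
  addS g108 g110 fun z111 t111 g111 =>
  sqrS hε g71 fun z93 t93 g93 =>
  mulS hε g71 g72 fun z92 t92 g92 =>
  addS g93 g92 fun z112 t112 g112 =>
  smulS hε g112 k0 fun z113 t113 g113 =>
  addS g111 g113 fun z114 t114 g114 =>
  sqrS hε g72 fun z94 t94 g94 =>
  mulS hε (cst_rel k24) g94 fun z116 t116 g116 =>
  addS g114 g116 fun z117 t117 g117 =>
  subS g119 g117 fun z120 t120 g120 =>
  addS g130 g131 fun z134 t134 g134 =>
  normS g134 fun z169 t169 g169 =>
  addS g71 g72 fun z95 t95 g95 =>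
  addS g95 g93 fun z96 t96 g96 =>
  addS g96 g94 fun z97 t97 g97 =>
  normS g97 fun z99 t99 g99 =>
  mulS hε (cst_rel k25) g99 fun z100 t100 g100 =>
  addcS g100 k22 fun z101 t101 g101 =>
  smulS hε g92 k20 fun z102 t102 g102 =>
  addS g101 g102 fun z103 t103 g103 =>
  normS g103 fun z104 t104 g104 =>
  mulS hε h0 g104 fun z105 t105 g105 =>
  mulS hε g169 g105 fun z170 t170 g170 =>
  subS g120 g170 fun z171 t171 g171 =>
  addS h0 g16 fun z73 t73 g73 =>
  normS g73 fun z74 t74 g74 =>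
  sqrS hε g74 fun z75 t75 g75 =>
  mulS hε (cst_rel k26) g75 fun z77 t77 g77 =>
  addcS g77 k27 fun z78 t78 g78 =>
  mulS hε g75 g78 fun z79 t79 g79 =>
  addcS g79 k28 fun z80 t80 g80 =>
  mulS hε g75 g80 fun z81 t81 g81 =>
  rsubS g81 k19 fun z82 t82 g82 =>
  mulS hε g130 g137 fun z145 t145 g145 =>
  subS g145 g121 fun z146 t146 g146 =>
  normS g146 fun z149 t149 g149 =>
  mulS hε g16 g149 fun z150 t150 g150 =>
  addS g134 g150 fun z151 t151 g151 =>
  normS g151 fun z155 t155 g155 =>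
  mulS hε g16 g155 fun z156 t156 g156 =>
  addcS g156 k19 fun z157 t157 g157 =>
  sqrtS hε g157 fun z158 t158 g158 =>
  addcS g158 k19 fun z159 t159 g159 =>
  invS hε g159 fun z160 t160 g160 =>
  mulS hε g155 g160 fun z167 t167 g167 =>
  sqrS hε g167 fun z172 t172 g172 =>
  subS g146 g172 fun z173 t173 g173 =>
  normS g173 fun z174 t174 g174 =>
  mulS hε g82 g174 fun z175 t175 g175 =>
  subS h0 g16 fun z83 t83 g83 =>
  normS g83 fun z84 t84 g84 =>
  sqrS hε g84 fun z85 t85 g85 =>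
  mulS hε (cst_rel k26) g85 fun z86 t86 g86 =>
  addcS g86 k27 fun z87 t87 g87 =>
  mulS hε g85 g87 fun z88 t88 g88 =>
  addcS g88 k28 fun z89 t89 g89 =>
  mulS hε g85 g89 fun z90 t90 g90 =>
  rsubS g90 k19 fun z91 t91 g91 =>
  mulS hε g140 g131 fun z147 t147 g147 =>
  subS g147 g123 fun z148 t148 g148 =>
  normS g148 fun z152 t152 g152 =>
  mulS hε g16 g152 fun z153 t153 g153 =>
  subS g153 g134 fun z154 t154 g154 =>
  normS g154 fun z161 t161 g161 =>
  mulS hε g16 g161 fun z162 t162 g162 =>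
  addcS g162 k19 fun z163 t163 g163 =>
  sqrtS hε g163 fun z164 t164 g164 =>
  addcS g164 k19 fun z165 t165 g165 =>
  invS hε g165 fun z166 t166 g166 =>
  mulS hε g161 g166 fun z168 t168 g168 =>
  sqrS hε g168 fun z176 t176 g176 =>
  subS g148 g176 fun z177 t177 g177 =>
  normS g177 fun z178 t178 g178 =>
  mulS hε g91 g178 fun z179 t179 g179 =>
  addS g175 g179 fun z180 t180 g180 =>
  smulS hε g180 k2 fun z181 t181 g181 =>
  addS g171 g181 fun z182 t182 g182 =>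
  posS hε g182 <|
  smulS hε g127 k29 fun z183 t183 g183 =>
  mulS hε g16 g183 fun z188 t188 g188 =>
  addcS g188 k19 fun z189 t189 g189 =>
  posS hε g189 <|
  smulS hε g129 k29 fun z184 t184 g184 =>
  subS g184 g124 fun z185 t185 g185 =>
  normS g185 fun z190 t190 g190 =>
  mulS hε g16 g190 fun z191 t191 g191 =>
  addcS g191 k19 fun z192 t192 g192 =>
  posS hε g192 <|
  addS g183 g125 fun z186 t186 g186 =>
  normS g186 fun z193 t193 g193 =>
  mulS hε g16 g193 fun z194 t194 g194 =>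
  rsubS g194 k19 fun z195 t195 g195 =>
  posS hε g195 <|
  mulS hε g16 g184 fun z196 t196 g196 =>
  rsubS g196 k19 fun z197 t197 g197 =>
  posS hε g197 <|
  addS g183 g184 fun z187 t187 g187 =>
  normS g187 fun z222 t222 g222 =>
  mulS hε g222 g105 fun z223 t223 g223 =>
  subS g120 g223 fun z224 t224 g224 =>
  mulS hε g183 g190 fun z198 t198 g198 =>
  subS g198 g121 fun z199 t199 g199 =>
  normS g199 fun z202 t202 g202 =>
  mulS hε g16 g202 fun z203 t203 g203 =>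
  addS g187 g203 fun z204 t204 g204 =>
  normS g204 fun z208 t208 g208 =>
  mulS hε g16 g208 fun z209 t209 g209 =>
  addcS g209 k19 fun z210 t210 g210 =>
  sqrtS hε g210 fun z211 t211 g211 =>
  addcS g211 k19 fun z212 t212 g212 =>
  invS hε g212 fun z213 t213 g213 =>
  mulS hε g208 g213 fun z220 t220 g220 =>
  sqrS hε g220 fun z225 t225 g225 =>
  subS g199 g225 fun z226 t226 g226 =>
  normS g226 fun z227 t227 g227 =>
  mulS hε g82 g227 fun z228 t228 g228 =>
  mulS hε g193 g184 fun z200 t200 g200 =>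
  subS g200 g123 fun z201 t201 g201 =>
  normS g201 fun z205 t205 g205 =>
  mulS hε g16 g205 fun z206 t206 g206 =>
  subS g206 g187 fun z207 t207 g207 =>
  normS g207 fun z214 t214 g214 =>
  mulS hε g16 g214 fun z215 t215 g215 =>
  addcS g215 k19 fun z216 t216 g216 =>
  sqrtS hε g216 fun z217 t217 g217 =>
  addcS g217 k19 fun z218 t218 g218 =>
  invS hε g218 fun z219 t219 g219 =>
  mulS hε g214 g219 fun z221 t221 g221 =>
  sqrS hε g221 fun z229 t229 g229 =>
  subS g201 g229 fun z230 t230 g230 =>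
  normS g230 fun z231 t231 g231 =>
  mulS hε g91 g231 fun z232 t232 g232 =>
  addS g228 g232 fun z233 t233 g233 =>
  smulS hε g233 k2 fun z234 t234 g234 =>
  addS g224 g234 fun z235 t235 g235 =>
  posS hε g235 <|
  fun _ => trivial

def z4_Spec (ca cb m y r : ℝ) : Prop :=
  ∃ ta tb pw qw pa0 pb0 pa1 pb1 d v0 v1 w SL Sv SRn SRp S0 S1 S2 tau t rw rr sh a1 sa f1a sb g2a eh ep dp f2a an en dn f3a c0 mm dd m4 md d4 E2 base La E1 Y0u Y0 G0a X0a i0a j0a Y1u Y1 G1a X1a i1a j1a f1b g2b f2b f3b Lb G0b X0b i0b j0b G1b X1b i1b j1b : ℝ,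
    d = (y * (ca + (cb * m))) ∧
    v0 = (pa0 + (pb0 * r)) ∧
    0 ≤ v0 ∧
    v1 = (pa1 + (pb1 * r)) ∧
    0 ≤ v1 ∧
    w = (pw + (qw * r)) ∧
    0 ≤ w ∧
    SL = (v0 + ((3 : ℝ) * v1)) ∧
    Sv = (v0 + v1) ∧
    SRn = (((1 / 4 : ℝ) * v0) + ((3 / 2 : ℝ) * v1)) ∧
    SRp = Sv ∧
    S0 = (((781 / 512 : ℝ) * v0) + ((203 / 64 : ℝ) * v1)) ∧
    S1 = (((3 / 32 : ℝ) * v0) + ((9 / 16 : ℝ) * v1)) ∧
    S2 = (((-7 / 32 : ℝ) * v0) + ((-27 / 64 : ℝ) * v1)) ∧
    tau = (ta + (tb * d)) ∧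
    t = (d * tau) ∧
    0 ≤ (t + (-9 / 16 : ℝ)) ∧
    0 ≤ ((11 / 16 : ℝ) - t) ∧
    0 ≤ ((1 : ℝ) - Sv) ∧
    rw = (r * w) ∧
    rr = (r ^ 2) ∧
    0 ≤ ((1 : ℝ) - (rw + (rr * SL))) ∧
    0 < ((t ^ 2) + (1 : ℝ)) ∧
    sh = (((2 : ℝ) * tau) * (((t ^ 2) + (1 : ℝ))⁻¹)) ∧
    a1 = ((rr * S1) + ((3 / 8 : ℝ) * rw)) ∧
    sa = (sh * a1) ∧
    f1a = ((3 / 8 : ℝ) * sa) ∧
    0 ≤ ((d * f1a) + (1 : ℝ)) ∧
    sb = (sh * S2) ∧
    g2a = ((3 / 8 : ℝ) * sb) ∧
    eh = (tau * sh) ∧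
    ep = (eh * SRp) ∧
    dp = (d * ep) ∧
    f2a = (g2a - dp) ∧
    0 ≤ ((d * f2a) + (1 : ℝ)) ∧
    an = ((rr * SRn) + rw) ∧
    en = (eh * an) ∧
    dn = (d * en) ∧
    f3a = (f1a + dn) ∧
    0 ≤ ((1 : ℝ) - (d * f3a)) ∧
    0 ≤ ((1 : ℝ) - (d * g2a)) ∧
    c0 = ((r * S0) + ((9 / 16 : ℝ) * w)) ∧
    mm = (m ^ 2) ∧
    dd = (d ^ 2) ∧
    m4 = (mm ^ 2) ∧
    md = (mm * dd) ∧
    d4 = (dd ^ 2) ∧
    E2 = ((((((9 / 5 : ℝ) * mm) + (3 / 2 : ℝ)) + ((3 / 10 : ℝ) * dd)) + ((3 : ℝ) * (m4 + md))) + ((1 / 5 : ℝ) * d4)) ∧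
    base = ((sh * c0) - E2) ∧
    La = (f1a + g2a) ∧
    E1 = (m * ((((3 / 5 : ℝ) * (((mm + dd) + m4) + d4)) + (3 / 2 : ℝ)) + ((2 : ℝ) * md))) ∧
    Y0u = ((m + d) ^ 2) ∧
    Y0 = ((1 : ℝ) - (Y0u * ((Y0u * (((1 / 10 : ℝ) * Y0u) + (3 / 20 : ℝ))) + (3 / 4 : ℝ)))) ∧
    G0a = ((f1a * f2a) - ep) ∧
    X0a = (La + (d * G0a)) ∧
    0 < ((√((d * X0a) + (1 : ℝ))) + (1 : ℝ)) ∧
    i0a = (((√((d * X0a) + (1 : ℝ))) + (1 : ℝ))⁻¹) ∧
    j0a = (X0a * i0a) ∧
    Y1u = ((m - d) ^ 2) ∧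
    Y1 = ((1 : ℝ) - (Y1u * ((Y1u * (((1 / 10 : ℝ) * Y1u) + (3 / 20 : ℝ))) + (3 / 4 : ℝ)))) ∧
    G1a = ((f3a * g2a) - en) ∧
    X1a = ((d * G1a) - La) ∧
    0 < ((√((d * X1a) + (1 : ℝ))) + (1 : ℝ)) ∧
    i1a = (((√((d * X1a) + (1 : ℝ))) + (1 : ℝ))⁻¹) ∧
    j1a = (X1a * i1a) ∧
    0 ≤ ((base - (La * E1)) + ((1 / 2 : ℝ) * ((Y0 * (G0a - (j0a ^ 2))) + (Y1 * (G1a - (j1a ^ 2)))))) ∧
    f1b = ((1229 / 2048 : ℝ) * sa) ∧
    0 ≤ ((d * f1b) + (1 : ℝ)) ∧
    g2b = ((1229 / 2048 : ℝ) * sb) ∧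
    f2b = (g2b - dp) ∧
    0 ≤ ((d * f2b) + (1 : ℝ)) ∧
    f3b = (f1b + dn) ∧
    0 ≤ ((1 : ℝ) - (d * f3b)) ∧
    0 ≤ ((1 : ℝ) - (d * g2b)) ∧
    Lb = (f1b + g2b) ∧
    G0b = ((f1b * f2b) - ep) ∧
    X0b = (Lb + (d * G0b)) ∧
    0 < ((√((d * X0b) + (1 : ℝ))) + (1 : ℝ)) ∧
    i0b = (((√((d * X0b) + (1 : ℝ))) + (1 : ℝ))⁻¹) ∧
    j0b = (X0b * i0b) ∧
    G1b = ((f3b * g2b) - en) ∧
    X1b = ((d * G1b) - Lb) ∧
    0 < ((√((d * X1b) + (1 : ℝ))) + (1 : ℝ)) ∧
    i1b = (((√((d * X1b) + (1 : ℝ))) + (1 : ℝ))⁻¹) ∧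
    j1b = (X1b * i1b) ∧
    0 ≤ ((base - (Lb * E1)) + ((1 / 2 : ℝ) * ((Y0 * (G0b - (j0b ^ 2))) + (Y1 * (G1b - (j1b ^ 2))))))

theorem z4_E {gs ps : ℕ} {m y r u3 : ℝ} (h : z4_R gs ps m y r u3) : z4_Spec (parV gs 0) (parV gs 1) m y r := by
  delta z4_R at h
  exact letR_ex h fun ta _ h =>
  letR_ex h fun tb _ h =>
  letR_ex h fun pw _ h =>
  letR_ex h fun qw _ h =>
  letR_ex h fun pa0 _ h =>
  letR_ex h fun pb0 _ h =>
  letR_ex h fun pa1 _ h =>
  letR_ex h fun pb1 _ h =>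
  letR_in h fun h =>
  letR_in h fun h =>
  letR_in h fun h =>
  letR_in h fun h =>
  letR_in h fun h =>
  letR_ex h fun d q1 h =>
  letR_in h fun h =>
  letR_ex h fun v0 q2 h =>
  posR_ex h fun q3 h =>
  letR_in h fun h =>
  letR_ex h fun v1 q4 h =>
  posR_ex h fun q5 h =>
  letR_in h fun h =>
  letR_ex h fun w q6 h =>
  posR_ex h fun q7 h =>
  letR_in h fun h =>
  letR_ex h fun SL q8 h =>
  letR_ex h fun Sv q9 h =>
  letR_in h fun h =>
  letR_in h fun h =>
  letR_ex h fun SRn q10 h =>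
  letR_ex h fun SRp q11 h =>
  letR_in h fun h =>
  letR_in h fun h =>
  letR_ex h fun S0 q12 h =>
  letR_in h fun h =>
  letR_in h fun h =>
  letR_ex h fun S1 q13 h =>
  letR_in h fun h =>
  letR_in h fun h =>
  letR_ex h fun S2 q14 h =>
  letR_in h fun h =>
  letR_ex h fun tau q15 h =>
  letR_in h fun h =>
  letR_ex h fun t q16 h =>
  letR_in h fun h =>
  posR_ex h fun q17 h =>
  letR_in h fun h =>
  posR_ex h fun q18 h =>
  letR_in h fun h =>
  posR_ex h fun q19 h =>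
  letR_in h fun h =>
  letR_ex h fun rw q20 h =>
  letR_ex h fun rr q21 h =>
  letR_in h fun h =>
  letR_in h fun h =>
  letR_in h fun h =>
  letR_in h fun h =>
  posR_ex h fun q22 h =>
  letR_in h fun h =>
  letR_in h fun h =>
  letR_in h fun h =>
  invR_ex h fun q23 h =>
  letR_in h fun h =>
  letR_ex h fun sh q24 h =>
  letR_in h fun h =>
  letR_in h fun h =>
  letR_in h fun h =>
  letR_ex h fun a1 q25 h =>
  letR_in h fun h =>
  letR_ex h fun sa q26 h =>
  letR_ex h fun f1a q27 h =>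
  letR_in h fun h =>
  letR_in h fun h =>
  posR_ex h fun q28 h =>
  letR_in h fun h =>
  letR_ex h fun sb q29 h =>
  letR_ex h fun g2a q30 h =>
  letR_ex h fun eh q31 h =>
  letR_ex h fun ep q32 h =>
  letR_ex h fun dp q33 h =>
  letR_ex h fun f2a q34 h =>
  letR_in h fun h =>
  letR_in h fun h =>
  letR_in h fun h =>
  posR_ex h fun q35 h =>
  letR_in h fun h =>
  letR_in h fun h =>
  letR_ex h fun an q36 h =>
  letR_in h fun h =>
  letR_ex h fun en q37 h =>
  letR_ex h fun dn q38 h =>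
  letR_ex h fun f3a q39 h =>
  letR_in h fun h =>
  letR_in h fun h =>
  letR_in h fun h =>
  posR_ex h fun q40 h =>
  letR_in h fun h =>
  letR_in h fun h =>
  posR_ex h fun q41 h =>
  letR_in h fun h =>
  letR_in h fun h =>
  letR_in h fun h =>
  letR_ex h fun c0 q42 h =>
  letR_in h fun h =>
  letR_in h fun h =>
  letR_ex h fun mm q43 h =>
  letR_in h fun h =>
  letR_in h fun h =>
  letR_ex h fun dd q44 h =>
  letR_in h fun h =>
  letR_in h fun h =>
  letR_ex h fun m4 q45 h =>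
  letR_ex h fun md q46 h =>
  letR_in h fun h =>
  letR_in h fun h =>
  letR_in h fun h =>
  letR_ex h fun d4 q47 h =>
  letR_in h fun h =>
  letR_ex h fun E2 q48 h =>
  letR_ex h fun base q49 h =>
  letR_ex h fun La q50 h =>
  letR_in h fun h =>
  letR_in h fun h =>
  letR_in h fun h =>
  letR_in h fun h =>
  letR_in h fun h =>
  letR_in h fun h =>
  letR_in h fun h =>
  letR_in h fun h =>
  letR_in h fun h =>
  letR_in h fun h =>
  letR_ex h fun E1 q51 h =>
  letR_in h fun h =>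
  letR_in h fun h =>
  letR_in h fun h =>
  letR_in h fun h =>
  letR_ex h fun Y0u q52 h =>
  letR_in h fun h =>
  letR_in h fun h =>
  letR_in h fun h =>
  letR_in h fun h =>
  letR_in h fun h =>
  letR_ex h fun Y0 q53 h =>
  letR_in h fun h =>
  letR_ex h fun G0a q54 h =>
  letR_in h fun h =>
  letR_in h fun h =>
  letR_ex h fun X0a q55 h =>
  letR_in h fun h =>
  letR_in h fun h =>
  letR_in h fun h =>
  letR_in h fun h =>
  letR_in h fun h =>
  invR_ex h fun q56 h =>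
  letR_ex h fun i0a q57 h =>
  letR_ex h fun j0a q58 h =>
  letR_in h fun h =>
  letR_in h fun h =>
  letR_in h fun h =>
  letR_in h fun h =>
  letR_in h fun h =>
  letR_in h fun h =>
  letR_ex h fun Y1u q59 h =>
  letR_in h fun h =>
  letR_in h fun h =>
  letR_in h fun h =>
  letR_in h fun h =>
  letR_in h fun h =>
  letR_ex h fun Y1 q60 h =>
  letR_in h fun h =>
  letR_ex h fun G1a q61 h =>
  letR_in h fun h =>
  letR_in h fun h =>
  letR_ex h fun X1a q62 h =>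
  letR_in h fun h =>
  letR_in h fun h =>
  letR_in h fun h =>
  letR_in h fun h =>
  letR_in h fun h =>
  invR_ex h fun q63 h =>
  letR_ex h fun i1a q64 h =>
  letR_ex h fun j1a q65 h =>
  letR_in h fun h =>
  letR_in h fun h =>
  letR_in h fun h =>
  letR_in h fun h =>
  letR_in h fun h =>
  letR_in h fun h =>
  letR_in h fun h =>
  posR_ex h fun q66 h =>
  letR_ex h fun f1b q67 h =>
  letR_in h fun h =>
  letR_in h fun h =>
  posR_ex h fun q68 h =>
  letR_ex h fun g2b q69 h =>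
  letR_ex h fun f2b q70 h =>
  letR_in h fun h =>
  letR_in h fun h =>
  letR_in h fun h =>
  posR_ex h fun q71 h =>
  letR_ex h fun f3b q72 h =>
  letR_in h fun h =>
  letR_in h fun h =>
  letR_in h fun h =>
  posR_ex h fun q73 h =>
  letR_in h fun h =>
  letR_in h fun h =>
  posR_ex h fun q74 h =>
  letR_ex h fun Lb q75 h =>
  letR_in h fun h =>
  letR_in h fun h =>
  letR_in h fun h =>
  letR_in h fun h =>
  letR_ex h fun G0b q76 h =>
  letR_in h fun h =>
  letR_in h fun h =>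
  letR_ex h fun X0b q77 h =>
  letR_in h fun h =>
  letR_in h fun h =>
  letR_in h fun h =>
  letR_in h fun h =>
  letR_in h fun h =>
  invR_ex h fun q78 h =>
  letR_ex h fun i0b q79 h =>
  letR_ex h fun j0b q80 h =>
  letR_in h fun h =>
  letR_in h fun h =>
  letR_in h fun h =>
  letR_in h fun h =>
  letR_in h fun h =>
  letR_ex h fun G1b q81 h =>
  letR_in h fun h =>
  letR_in h fun h =>
  letR_ex h fun X1b q82 h =>
  letR_in h fun h =>
  letR_in h fun h =>
  letR_in h fun h =>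
  letR_in h fun h =>
  letR_in h fun h =>
  invR_ex h fun q83 h =>
  letR_ex h fun i1b q84 h =>
  letR_ex h fun j1b q85 h =>
  letR_in h fun h =>
  letR_in h fun h =>
  letR_in h fun h =>
  letR_in h fun h =>
  letR_in h fun h =>
  letR_in h fun h =>
  letR_in h fun h =>
  posR_ex h fun q86 h =>
  ⟨ta, tb, pw, qw, pa0, pb0, pa1, pb1, d, v0, v1, w, SL, Sv, SRn, SRp, S0, S1, S2, tau, t, rw, rr, sh, a1, sa, f1a, sb, g2a, eh, ep, dp, f2a, an, en, dn, f3a, c0, mm, dd, m4, md, d4, E2, base, La, E1, Y0u, Y0, G0a, X0a, i0a, j0a, Y1u, Y1, G1a, X1a, i1a, j1a, f1b, g2b, f2b, f3b, Lb, G0b, X0b, i0b, j0b, G1b, X1b, i1b, j1b, q1, q2, q3, q4, q5, q6, q7, q8, q9, q10, q11, q12, q13, q14, q15, q16, q17, q18, q19, q20, q21, q22, q23, q24, q25, q26, q27, q28, q29, q30, q31, q32, q33, q34, q35, q36, q37, q38, q39, q40, q41, q42, q43, q44, q45, q46, q47, q48, q49, q50, q51, q52, q53, q54, q55, q56, q57, q58, q59, q60, q61, q62, q63, q64,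 q65, q66, q67, q68, q69, q70, q71, q72, q73, q74, q75, q76, q77, q78, q79, q80, q81, q82, q83, q84, q85, q86⟩

def PB (gs : ℕ) : Prog := fun j ps x0 x1 x2 x3 =>
  Nat.rec (motive := fun _ => Bool) (z0_B gs ps x0 x1 x2 x3) (fun j _ => Nat.rec (motive := fun _ => Bool) (z1_B gs ps x0 x1 x2 x3) (fun j _ => Nat.rec (motive := fun _ => Bool) (z2_B gs ps x0 x1 x2 x3) (fun j _ => Nat.rec (motive := fun _ => Bool) (z3_B gs ps x0 x1 x2 x3) (fun j _ => z4_B gs ps x0 x1 x2 x3) j) j) j) j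

def PR (gs : ℕ) : ℕ → ℕ → ℝ → ℝ → ℝ → ℝ → Prop := fun j ps m y r u3 =>
  Nat.rec (motive := fun _ => Prop) (z0_R gs ps m y r u3) (fun j _ => Nat.rec (motive := fun _ => Prop) (z1_R gs ps m y r u3) (fun j _ => Nat.rec (motive := fun _ => Prop) (z2_R gs ps m y r u3) (fun j _ => Nat.rec (motive := fun _ => Prop) (z3_R gs ps m y r u3) (fun j _ => z4_R gs ps m y r u3) j) j) j) j

theorem PS (gs : ℕ) : Sound (PB gs) (PR gs) := fun _ hε j => match j with
  | 0 => z0_S gs hε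
  | 1 => z1_S gs hε
  | 2 => z2_S gs hε
  | 3 => z3_S gs hε
  | _ + 4 => z4_S gs hε

theorem PE {j gs ps : ℕ} {m y r u3 : ℝ} : PR gs j ps m y r u3 → z0_Spec (parV gs 0) (parV gs 1) m y r ∨ z1_Spec (parV gs 0) (parV gs 1) m y r ∨ z2_Spec (parV gs 0) (parV gs 1) m y r ∨ z3_Spec (parV gs 0) (parV gs 1) m y r ∨ z4_Spec (parV gs 0) (parV gs 1) m y r := match j with
  | 0 => fun h => Or.inl (@z0_E gs ps m y r u3 h)
  | 1 => fun h => Or.inr (Or.inl (@z1_E gs ps m y r u3 h))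
  | 2 => fun h => Or.inr (Or.inr (Or.inl (@z2_E gs ps m y r u3 h)))
  | 3 => fun h => Or.inr (Or.inr (Or.inr (Or.inl (@z3_E gs ps m y r u3 h))))
  | _ + 4 => fun h => Or.inr (Or.inr (Or.inr (Or.inr (@z4_E gs ps m y r u3 h))))

theorem of_good {gs l0 h0 l1 h1 l2 h2 l3 h3 : ℕ} (h : Good (PR gs) l0 h0 l1 h1 l2 h2 l3 h3) {m y r u3 : ℝ}
    (hb : InBox l0 h0 l1 h1 l2 h2 l3 h3 m y r u3) : z0_Spec (parV gs 0) (parV gs 1) m y r ∨ z1_Spec (parV gs 0) (parV gs 1) m y r ∨ z2_Spec (parV gs 0) (parV gs 1) m y r ∨ z3_Spec (parV gs 0) (parV gs 1) m y r ∨ z4_Spec (parV gs 0) (parV gs 1) m y r := by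
  obtain ⟨j, ps, h⟩ := h m y r u3 hb
  exact PE h

def l0 : Tree := Tree.leaf 0
def l1 : Tree := Tree.leaf 1
def l2 : Tree := Tree.leaf 2
def l3 : Tree := Tree.leaf 3
def l4 : Tree := Tree.leaf 4

end

end Crest.Agent.R307.LSb
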