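import Crest.Agent.R307.LAsm

/-! Row 307: certificate for the induction step of the low-noise bound (numerical core). -/

set_option autoImplicit false

namespace Crest.Agent.R307

theorem ls_chart {c δ : ℝ} (h0 : 0 ≤ δ) (h1 : δ ≤ c) : ∃ y : ℝ, 0 ≤ y ∧ y ≤ 1 ∧ δ = y * c := by
  rcases eq_or_lt_of_le (h0.trans h1) with hc | hc
  · exact ⟨0, le_rfl, zero_le_one, by linarith⟩
  · exact ⟨δ / c, div_nonneg h0 hc.le, (div_le_one hc).2 h1, by field_simp⟩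

theorem lstep {ρ β μ m δ : ℝ} (h0 : 0 ≤ ρ) (hβ0 : 0 ≤ β) (hβ : β ≤ 3 / 5) (h : ρ ^ 2 + β ^ 2 = 1)
    (hμ : 1 ≤ μ) (hδ0 : 0 ≤ δ) (hδ : δ ≤ 1 / 2) (h1 : m + δ ≤ 1) (h2 : -1 ≤ m - δ) :
    ∃ A1 A2 A3 A4 B0 B1 C : ℝ, 0 ≤ A1 ∧ 0 ≤ A2 ∧ 0 ≤ A3 ∧ 0 ≤ A4 ∧ B0 ^ 2 ≤ A1 * A2 ∧ B1 ^ 2 ≤ A3 * A4 ∧
      2 * β * Yf m ≤ β * (Yf (m + δ) * B0 + Yf (m - δ) * B1) + C * δ ∧
      ∀ a0 a1 : ℝ, 0 ≤ a0 → a0 ≤ 1 → 0 ≤ a1 → a1 ≤ 1 →
        A1 * nf a0 + A2 * nf (1 - a0) + A3 * nf a1 + A4 * nf (1 - a1) + C * (a0 - a1) ≤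
          μ * (nf ((1 + ρ) / 2 * a0 + (1 - ρ) / 2 * a1) + nf ((1 - ρ) / 2 * a0 + (1 + ρ) / 2 * a1)) +
          (nf (1 - ((1 + ρ) / 2 * a0 + (1 - ρ) / 2 * a1)) +
            nf (1 - ((1 - ρ) / 2 * a0 + (1 + ρ) / 2 * a1))) / μ := by
  have hμ0 : 0 < μ := by linarith
  have r0 : (0 : ℝ) ≤ μ⁻¹ := by positivity
  have r1 : μ⁻¹ ≤ 1 := inv_le_one_of_one_le₀ hμ
  show LConcl ρ β μ m δ
  rcases le_total m (-1 / 2) with hm | hm
  · obtain ⟨y, y0, y1, hy⟩ := ls_chart (c := 1 + 1 * m) hδ0 (by linarith)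
    rcases le_total β (3 / 8) with hb | hb
    · exact LSa_all h0 hβ0 hβ h hμ rfl hβ0 hb hδ0 hy (LSa.main0 m y _ (by linarith) (by linarith) (by linarith) (by linarith) (by linarith) (by linarith))
    · exact LSb_all h0 hβ0 hβ h hμ rfl hb (by linarith) hδ0 hy (LSb.main0 m y _ (by linarith) (by linarith) (by linarith) (by linarith) (by linarith) (by linarith))
  rcases le_total m (1 / 2) with hm' | hm'
  · obtain ⟨y, y0, y1, hy⟩ := ls_chart (c := 32769 / 65536 + 1 / 65536 * m) hδ0 (by linarith)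
    rcases le_total β (3 / 8) with hb | hb
    · exact LSa_all h0 hβ0 hβ h hμ rfl hβ0 hb hδ0 hy (LSa.main1 m y _ (by linarith) (by linarith) (by linarith) (by linarith) (by linarith) (by linarith))
    · exact LSb_all h0 hβ0 hβ h hμ rfl hb (by linarith) hδ0 hy (LSb.main1 m y _ (by linarith) (by linarith) (by linarith) (by linarith) (by linarith) (by linarith))
  · obtain ⟨y, y0, y1, hy⟩ := ls_chart (c := 1 + (-1) * m) hδ0 (by linarith)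
    rcases le_total β (3 / 8) with hb | hb
    · exact LSa_all h0 hβ0 hβ h hμ rfl hβ0 hb hδ0 hy (LSa.main2 m y _ (by linarith) (by linarith) (by linarith) (by linarith) (by linarith) (by linarith))
    · exact LSb_all h0 hβ0 hβ h hμ rfl hb (by linarith) hδ0 hy (LSb.main2 m y _ (by linarith) (by linarith) (by linarith) (by linarith) (by linarith) (by linarith))

end Crest.Agent.R307
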